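import Crest.Agent.R307.Defs
import Crest.Agent.R311.Cube

/-! Row 307: cube averages, faces, Dirichlet forms, Poincare inequalities. -/

set_option autoImplicit false
open Crest.CubeNoise
namespace Crest.Agent.R307

theorem avg_zero (g : Cube 0 → ℝ) : cubeAverage g = g default := by
  rw [cubeAverage, Fintype.sum_unique, pow_zero, div_one]
  exact congrArg g (Subsingleton.elim _ _)

theorem avg_const {n : ℕ} (c : ℝ) : cubeAverage (fun _ : Cube n => c) = c := by
  simp [cubeAverage]

theorem avg_add {n : ℕ} (g h : Cube n → ℝ) :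
    cubeAverage (fun x => g x + h x) = cubeAverage g + cubeAverage h := by
  simp [cubeAverage, Finset.sum_add_distrib, add_div]

theorem avg_sub {n : ℕ} (g h : Cube n → ℝ) :
    cubeAverage (fun x => g x - h x) = cubeAverage g - cubeAverage h := by
  simp [cubeAverage, Finset.sum_sub_distrib, sub_div]

theorem avg_mul_left {n : ℕ} (c : ℝ) (g : Cube n → ℝ) :
    cubeAverage (fun x => c * g x) = c * cubeAverage g := by
  simp [cubeAverage, ← Finset.mul_sum, mul_div_assoc]

theorem avg_mono {n : ℕ} {g h : Cube n → ℝ} (H : ∀ x, g x ≤ h x) :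
    cubeAverage g ≤ cubeAverage h :=
  div_le_div_of_nonneg_right (Finset.sum_le_sum fun x _ => H x) (by positivity)

theorem avg_sum {n : ℕ} {ι : Type*} (s : Finset ι) (g : ι → Cube n → ℝ) :
    cubeAverage (fun x => ∑ i ∈ s, g i x) = ∑ i ∈ s, cubeAverage (g i) := by
  simp only [cubeAverage]
  rw [Finset.sum_comm, Finset.sum_div]

theorem flipBit_flipBit {n : ℕ} (i : Fin n) (x : Cube n) : flipBit i (flipBit i x) = x := by
  simp [flipBit]

theorem anti_anti {n : ℕ} (x : Cube n) : anti (anti x) = x := by
  funext i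
  simp [anti]

theorem avg_flip {n : ℕ} (i : Fin n) (g : Cube n → ℝ) :
    cubeAverage (fun x => g (flipBit i x)) = cubeAverage g := by
  simp only [cubeAverage]
  rw [(Function.Involutive.bijective (flipBit_flipBit i)).sum_comp g]

theorem avg_anti {n : ℕ} (g : Cube n → ℝ) : cubeAverage (fun x => g (anti x)) = cubeAverage g := by
  simp only [cubeAverage]
  rw [(Function.Involutive.bijective (anti_anti (n := n))).sum_comp g]

theorem avg_split {n : ℕ} (i : Fin (n + 1)) (g : Cube (n + 1) → ℝ) :
    cubeAverage g = (cubeAverage (face i false g) + cubeAverage (face i true g)) / 2 := by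
  simp only [cubeAverage, face]
  rw [← (Fin.insertNthEquiv (fun _ => Bool) i).sum_comp g, Fintype.sum_prod_type,
    Fintype.sum_bool, pow_succ]
  simp only [Fin.insertNthEquiv, Equiv.coe_fn_mk]
  field_simp
  ring

theorem dir_zero (e : ℝ → ℝ → ℝ) (g : Cube 0 → ℝ) : dir e g = 0 := by
  simp [dir, cubeAverage]

theorem flipBit_insertNth_same {n : ℕ} (i : Fin (n + 1)) (b : Bool) (x : Cube n) :
    flipBit i (i.insertNth b x : Cube (n + 1)) = i.insertNth (!b) x := by
  simp [flipBit]

theorem flipBit_insertNth_succAbove {n : ℕ} (i : Fin (n + 1)) (j : Fin n) (b : Bool) (x : Cube n) :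
    flipBit (i.succAbove j) (i.insertNth b x : Cube (n + 1)) = i.insertNth b (flipBit j x) := by
  funext k
  refine Fin.succAboveCases i ?_ (fun l => ?_) k
  · simp [flipBit]
  · by_cases h : l = j
    · subst h
      simp [flipBit]
    · have : i.succAbove l ≠ i.succAbove j := fun h' => h (Fin.succAbove_right_injective h')
      simp [flipBit, Function.update_of_ne this, Function.update_of_ne h]

theorem dir_split {n : ℕ} (e : ℝ → ℝ → ℝ) (he : ∀ u v, e u v = e v u) (i : Fin (n + 1))
    (g : Cube (n + 1) → ℝ) :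
    dir e g = (dir e (face i false g) + dir e (face i true g)) / 2
      + cubeAverage (fun x => e (face i false g x) (face i true g x)) := by
  have key : ∀ b : Bool, cubeAverage (face i b fun x => ∑ j, e (g x) (g (flipBit j x))) =
      cubeAverage (fun x => e (face i b g x) (face i (!b) g x)) + dir e (face i b g) := by
    intro b
    rw [dir, ← avg_add]
    congr 1
    funext x
    simp only [face]
    rw [Fin.sum_univ_succAbove _ i, flipBit_insertNth_same]
    simp only [flipBit_insertNth_succAbove]
  rw [dir, avg_split i, key, key]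
  simp only [Bool.not_false, Bool.not_true, he (face i true g _)]
  ring

theorem avg_mul_spin {n : ℕ} (i : Fin (n + 1)) (φ : Cube (n + 1) → ℝ) :
    cubeAverage (fun x => spin (x i) * φ x) =
      (cubeAverage (face i true φ) - cubeAverage (face i false φ)) / 2 := by
  have key : ∀ b : Bool, face i b (fun x => spin (x i) * φ x) = fun x => spin b * face i b φ x := by
    intro b
    funext x
    simp [face]
  rw [avg_split i, key, key, avg_mul_left, avg_mul_left]
  simp only [spin, if_true, Bool.false_eq_true, if_false]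
  ring

theorem exists_small_coord {n : ℕ} (φ : Cube (n + 2) → ℝ) (h : ∀ x, |φ x| ≤ 1) :
    ∃ i : Fin (n + 2), |cubeAverage (face i true φ) - cubeAverage (face i false φ)| ≤ 1 := by
  have h01 : cubeAverage (fun x : Cube (n + 2) => spin (x 0) * spin (x 1)) = 0 := by
    have h1 := avg_flip (0 : Fin (n + 2)) (fun x => spin (x 0) * spin (x 1))
    have h2 : (fun x : Cube (n + 2) => spin (flipBit 0 x 0) * spin (flipBit 0 x 1)) =
        fun x => (-1) * (spin (x 0) * spin (x 1)) := by
      funext x
      cases hx : x 0 <;> simp [flipBit, spin, hx]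
    rw [h2, avg_mul_left] at h1
    linarith
  have key : ∀ s t : Bool, spin s * cubeAverage (fun x => spin (x 0) * φ x)
      + spin t * cubeAverage (fun x => spin (x 1) * φ x) ≤ 1 := by
    intro s t
    rw [← avg_mul_left, ← avg_mul_left, ← avg_add]
    refine (avg_mono (h := fun x => 1 + spin s * spin t * (spin (x 0) * spin (x 1))) ?_).trans ?_
    · intro x
      have := abs_le.1 (h x)
      cases s <;> cases t <;> cases x 0 <;> cases x 1 <;> simp [spin] <;> linarith
    · rw [avg_add, avg_const, avg_mul_left, h01]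
      simp
  simp only [avg_mul_spin] at key
  have k1 := key true true
  have k2 := key true false
  have k3 := key false true
  have k4 := key false false
  simp only [spin, if_true, Bool.false_eq_true, if_false] at k1 k2 k3 k4
  by_contra hc
  push Not at hc
  have a0 := hc 0
  have a1 := hc 1
  rcases lt_abs.1 a0 with a0 | a0 <;> rcases lt_abs.1 a1 with a1 | a1 <;> linarith

theorem cube_induct (adm : ℝ → Prop) (χ : ℝ → ℝ) (hχ : ∀ u, adm u → |χ u| ≤ 1)
    (P : ∀ n : ℕ, (Cube n → ℝ) → Prop)
    (h0 : ∀ g : Cube 0 → ℝ, (∀ x, adm (g x)) → P 0 g)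
    (h1 : ∀ g : Cube 1 → ℝ, (∀ x, adm (g x)) → P 1 g)
    (hs : ∀ (n : ℕ) (g : Cube (n + 1) → ℝ) (i : Fin (n + 1)), (∀ x, adm (g x)) →
      |cubeAverage (fun x => χ (face i true g x)) - cubeAverage (fun x => χ (face i false g x))| ≤ 1 →
      P n (face i false g) → P n (face i true g) → P (n + 1) g) :
    ∀ (n : ℕ) (g : Cube n → ℝ), (∀ x, adm (g x)) → P n g := by
  intro n
  induction n with
  | zero => exact h0
  | succ n ih =>
    cases n with
    | zero => exact h1
    | succ n =>
      intro g hg
      obtain ⟨i, hi⟩ := exists_small_coord (fun x => χ (g x)) fun x => hχ _ (hg x)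
      exact hs _ g i hg hi (ih _ fun x => hg _) (ih _ fun x => hg _)

theorem production_eq_dir {n : ℕ} (g : Cube n → ℝ) : production g = dir (edge Real.artanh) g := by
  have h1 : production g =
      ∑ i, cubeAverage (fun x => Real.artanh (g x) * (g x - g (flipBit i x)) / 2) := by
    rw [production, ← avg_sum]
    congr 1
    funext x
    rw [Finset.sum_div, Finset.mul_sum]
    simp only [mul_div_assoc]
  rw [h1, dir, avg_sum]
  refine Finset.sum_congr rfl fun i _ => ?_
  have h2 := avg_flip i (fun x => Real.artanh (g x) * (g x - g (flipBit i x)) / 2)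
  simp only [flipBit_flipBit] at h2
  have h3 : (fun x => edge Real.artanh (g x) (g (flipBit i x))) = fun x =>
      (1 / 2) * (Real.artanh (g x) * (g x - g (flipBit i x)) / 2) +
      (1 / 2) * (Real.artanh (g (flipBit i x)) * (g (flipBit i x) - g x) / 2) := by
    funext x
    simp only [edge]
    ring
  rw [h3, avg_add, avg_mul_left, avg_mul_left, h2]
  ring

open Crest.Agent.R311 in
/-- Parseval. -/
theorem cube_parseval {n : ℕ} (a : Finset (Fin n) → ℝ) :
    cubeAverage (fun x => (∑ S, a S * chi S x) ^ 2) = ∑ S, a S ^ 2 := by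
  have h1 : (fun x : Cube n => (∑ S, a S * chi S x) ^ 2) =
      fun x => ∑ S, ∑ T, a S * a T * (chi S x * chi T x) := by
    funext x
    rw [sq, Finset.sum_mul_sum]
    exact Finset.sum_congr rfl fun S _ => Finset.sum_congr rfl fun T _ => by ring
  rw [h1, avg_sum]
  refine Finset.sum_congr rfl fun S _ => ?_
  rw [avg_sum, Finset.sum_eq_single S]
  · rw [avg_mul_left, cubeAverage, chi_orth, if_pos rfl, div_self (by positivity), mul_one, sq]
  · intro T _ hT
    rw [avg_mul_left, cubeAverage, chi_orth, if_neg (Ne.symm hT), zero_div, mul_zero]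
  · simp

open Crest.Agent.R311 in
theorem chi_anti {n : ℕ} (S : Finset (Fin n)) (x : Cube n) :
    chi S (anti x) = (-1) ^ S.card * chi S x := by
  simp only [chi, anti, sgn_not]
  rw [Finset.prod_neg]

open Crest.Agent.R311 in
theorem chi_flipBit {n : ℕ} (S : Finset (Fin n)) (i : Fin n) (x : Cube n) :
    chi S (flipBit i x) = if i ∈ S then -chi S x else chi S x := by
  have h : ∀ T : Finset (Fin n), i ∉ T → chi T (flipBit i x) = chi T x := fun T hT =>
    Finset.prod_congr rfl fun j hj => by
      rw [flipBit, Function.update_of_ne (fun h : j = i => hT (h ▸ hj))]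
  split_ifs with hi
  · have h2 := h (S.erase i) (Finset.notMem_erase i S)
    simp only [chi] at h2 ⊢
    rw [← Finset.mul_prod_erase _ _ hi, ← Finset.mul_prod_erase _ (fun j => sgn (x j)) hi, h2]
    simp [flipBit, sgn_not]
  · exact h S hi

open Crest.Agent.R311 in
/-- Walsh coefficients with all the identities that are needed below. -/
theorem exists_walsh {n : ℕ} (u : Cube n → ℝ) : ∃ c : Finset (Fin n) → ℝ,
    cubeAverage u = c ∅ ∧ cubeAverage (fun x => u x ^ 2) = ∑ S, c S ^ 2 ∧
    dir (fun a b => ((a - b) / 2) ^ 2) u = ∑ S, (S.card : ℝ) * c S ^ 2 ∧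
    cubeAverage (fun x => ((u x - u (anti x)) / 2) ^ 2) =
      ∑ S, (if Even S.card then 0 else c S) ^ 2 ∧
    cubeAverage (fun x => ((u x + u (anti x)) / 2) ^ 2) =
      ∑ S, (if Even S.card then c S else 0) ^ 2 := by
  obtain ⟨c, hc0, hc⟩ : ∃ c : Finset (Fin n) → ℝ, cubeAverage u = c ∅ ∧
      ∀ x, u x = ∑ S, c S * chi S x :=
    ⟨fun S => (∑ y, u y * chi S y) / 2 ^ n, by simp [cubeAverage, chi], fourier_expand u⟩
  refine ⟨c, hc0, ?_, ?_, ?_, ?_⟩
  · rw [← cube_parseval]
    simp only [← hc]
  · rw [dir, avg_sum]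
    have : ∀ i : Fin n, cubeAverage (fun x => ((u x - u (flipBit i x)) / 2) ^ 2) =
        ∑ S, (if i ∈ S then c S else 0) ^ 2 := by
      intro i
      rw [← cube_parseval]
      congr 1
      funext x
      congr 1
      rw [hc x, hc (flipBit i x), ← Finset.sum_sub_distrib, Finset.sum_div]
      refine Finset.sum_congr rfl fun S _ => ?_
      rw [chi_flipBit]
      split_ifs <;> ring
    simp only [this]
    rw [Finset.sum_comm]
    refine Finset.sum_congr rfl fun S _ => ?_
    simp [Finset.sum_ite_mem]
  · rw [← cube_parseval]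
    congr 1
    funext x
    congr 1
    rw [hc x, hc (anti x), ← Finset.sum_sub_distrib, Finset.sum_div]
    refine Finset.sum_congr rfl fun S _ => ?_
    rw [chi_anti]
    split_ifs with h
    · rw [h.neg_one_pow]; ring
    · rw [(Nat.not_even_iff_odd.1 h).neg_one_pow]; ring
  · rw [← cube_parseval]
    congr 1
    funext x
    congr 1
    rw [hc x, hc (anti x), ← Finset.sum_add_distrib, Finset.sum_div]
    refine Finset.sum_congr rfl fun S _ => ?_
    rw [chi_anti]
    split_ifs with h
    · rw [h.neg_one_pow]; ring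
    · rw [(Nat.not_even_iff_odd.1 h).neg_one_pow]; ring

/-- Poincare inequality. -/
theorem poincare {n : ℕ} (u : Cube n → ℝ) :
    cubeAverage (fun x => u x ^ 2) - cubeAverage u ^ 2 ≤ dir (fun a b => ((a - b) / 2) ^ 2) u := by
  obtain ⟨c, h0, h1, h2, -, -⟩ := exists_walsh u
  have h3 : c ∅ ^ 2 = ∑ S : Finset (Fin n), if S = ∅ then c S ^ 2 else 0 := by simp
  rw [h0, h1, h2, h3, ← Finset.sum_sub_distrib]
  refine Finset.sum_le_sum fun S _ => ?_
  split_ifs with h
  · simp [h]
  · have : (1 : ℝ) ≤ S.card := by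
      exact_mod_cast Finset.card_pos.2 (Finset.nonempty_iff_ne_empty.2 h)
    nlinarith [sq_nonneg (c S)]

/-- Parity-refined Poincare inequality: even part has spectral gap 2. -/
theorem poincare_parity {n : ℕ} (u : Cube n → ℝ) :
    cubeAverage (fun x => ((u x - u (anti x)) / 2) ^ 2)
      + 2 * (cubeAverage (fun x => ((u x + u (anti x)) / 2) ^ 2) - cubeAverage u ^ 2)
      ≤ dir (fun a b => ((a - b) / 2) ^ 2) u := by
  obtain ⟨c, h0, -, h2, h4, h5⟩ := exists_walsh u
  have h3 : c ∅ ^ 2 = ∑ S : Finset (Fin n), if S = ∅ then c S ^ 2 else 0 := by simp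
  rw [h0, h2, h4, h5, h3, ← Finset.sum_sub_distrib, Finset.mul_sum, ← Finset.sum_add_distrib]
  refine Finset.sum_le_sum fun S _ => ?_
  by_cases h : S = ∅
  · simp [h]
  · have h1 : 1 ≤ S.card := Finset.card_pos.2 (Finset.nonempty_iff_ne_empty.2 h)
    rw [if_neg h]
    split_ifs with he
    · have : (2 : ℝ) ≤ S.card := by
        obtain ⟨k, hk⟩ := he
        exact_mod_cast (by omega : 2 ≤ S.card)
      nlinarith [sq_nonneg (c S)]
    · have : (1 : ℝ) ≤ S.card := by exact_mod_cast h1
      nlinarith [sq_nonneg (c S)]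

end Crest.Agent.R307
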