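import Crest.Prelude.Def_CubeNoise

/-! Row 307: shared definitions (faces, Dirichlet forms, edge functions, intermediate claims). -/

set_option autoImplicit false

open Crest.CubeNoise

namespace Crest.Agent.R307

/-- The discrete cube. -/
abbrev Cube (n : ℕ) := Fin n → Bool

/-- Restriction of a function to the face `x i = b`. -/
def face {n : ℕ} (i : Fin (n + 1)) (b : Bool) (g : Cube (n + 1) → ℝ) : Cube n → ℝ :=
  fun x => g (i.insertNth b x)

/-- Dirichlet form attached to an edge function `e`. -/
noncomputable def dir {n : ℕ} (e : ℝ → ℝ → ℝ) (g : Cube n → ℝ) : ℝ :=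
  cubeAverage (fun x => ∑ i, e (g x) (g (flipBit i x)))

/-- Edge function of a functional with derivative `φ`. -/
noncomputable def edge (φ : ℝ → ℝ) (u v : ℝ) : ℝ := (u - v) * (φ u - φ v) / 4

/-- The antipodal point. -/
def anti {n : ℕ} (x : Cube n) : Cube n := fun i => !x i

/-- `ψ r = log 2 - h r`. -/
noncomputable def psi (r : ℝ) : ℝ := Real.log 2 - signEntropy r

/-- `κ r = F'(ψ r)`, the slope of the rate function (value `2` at `0`). -/
noncomputable def kap (r : ℝ) : ℝ :=
  if r = 0 then 2 else 1 + r / ((1 - r ^ 2) * Real.artanh r)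

/-- `√(1 - u²)`. -/
noncomputable def hel (u : ℝ) : ℝ := Real.sqrt (1 - u ^ 2)

/-- Hellinger edge function. -/
noncomputable def eH (u v : ℝ) : ℝ := edge (fun w => w / hel w) u v

/-- Part 1 of S0472. -/
def Rate : Prop :=
  ∀ (n : ℕ) (g : Cube n → ℝ), (∀ x, |g x| < 1) → ∀ r : ℝ, 0 ≤ r → r < 1 →
    psi r = information g → r * Real.artanh r ≤ production g

/-- The differential form of the Hellinger inequality. -/
def Star : Prop :=
  ∀ (n : ℕ) (f : Cube n → Bool) (ρ : ℝ), 0 < ρ → ρ < 1 →
    (∀ x, |noise ρ (fun y => spin (f y)) x| < 1) →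
    0 ≤ cubeAverage (fun y => spin (f y)) →
    cubeAverage (fun x => hel (noise ρ (fun y => spin (f y)) x))
      < hel ρ - (1 - hel (cubeAverage (fun y => spin (f y)))) →
    ρ ^ 2 / hel ρ ≤ dir eH (noise ρ (fun y => spin (f y)))

end Crest.Agent.R307
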