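import Crest.Agent.R307.Defs

/-! Row 307: definitions for the entropy part. -/

set_option autoImplicit false

open Crest.CubeNoise Real

namespace Crest.Agent.R307

/-- One-bit information. -/
noncomputable def info1 (u v : ℝ) : ℝ :=
  signEntropy ((u + v) / 2) - (signEntropy u + signEntropy v) / 2

/-- Parts 2 and 3 of S0472 in dual form (all tangent lines). -/
def Profile : Prop :=
  ∀ (n : ℕ) (g : Cube n → ℝ), (∀ x, |g x| < 1) → ∀ t : ℝ, 0 ≤ t → t < 1 →
    2 * signEntropy (cubeAverage g)
      + (1 - cubeAverage g ^ 2) * (t * artanh t + kap t * signEntropy t - 2 * log 2)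
      - kap t * cubeAverage (fun x => signEntropy (g x)) ≤ production g

end Crest.Agent.R307
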