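import Crest.Agent.R307.Defs

/-! Row 307: regimes of the differential Hellinger inequality. -/

set_option autoImplicit false

open Crest.CubeNoise

namespace Crest.Agent.R307

/-- The sign function of a Boolean function. -/
def sgn {n : ℕ} (f : Cube n → Bool) : Cube n → ℝ := fun y => spin (f y)

/-- Level one coefficient. -/
noncomputable def coef1 {n : ℕ} (u : Cube n → ℝ) (i : Fin n) : ℝ :=
  cubeAverage (fun x => u x * spin (x i))

/-- Level one weight. -/
noncomputable def W1 {n : ℕ} (u : Cube n → ℝ) : ℝ := ∑ i, coef1 u i ^ 2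

/-- The body of `Star`. -/
def StarAt (n : ℕ) (f : Cube n → Bool) (ρ : ℝ) : Prop :=
  0 < ρ → ρ < 1 → (∀ x, |noise ρ (sgn f) x| < 1) → 0 ≤ cubeAverage (sgn f) →
    cubeAverage (fun x => hel (noise ρ (sgn f) x)) < hel ρ - (1 - hel (cubeAverage (sgn f))) →
    ρ ^ 2 / hel ρ ≤ dir eH (noise ρ (sgn f))

/-- Low noise, moderate bias. -/
def StarL : Prop :=
  ∀ (n : ℕ) (f : Cube n → Bool) (ρ : ℝ), hel ρ ≤ 13 / 25 → cubeAverage (sgn f) ≤ 11 / 20 →
    StarAt n f ρ

/-- High noise, far from dictators, moderate bias. -/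
def StarH2 : Prop :=
  ∀ (n : ℕ) (f : Cube n → Bool) (ρ : ℝ), 13 / 25 ≤ hel ρ → W1 (sgn f) ≤ 4 / 5 →
    cubeAverage (sgn f) ≤ 11 / 20 → StarAt n f ρ

/-- Large bias, any noise. -/
def StarH3 : Prop :=
  ∀ (n : ℕ) (f : Cube n → Bool) (ρ : ℝ), 11 / 20 ≤ cubeAverage (sgn f) → StarAt n f ρ

/-- High noise, near a dictator. -/
def StarH1 : Prop :=
  ∀ (n : ℕ) (f : Cube n → Bool) (ρ : ℝ) (i : Fin n), 13 / 25 ≤ hel ρ →
    18 / 25 ≤ |coef1 (sgn f) i| → StarAt n f ρ

/-- Weak form of the Friedgut--Kalai--Naor alternative. -/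
def FKN : Prop :=
  ∀ (n : ℕ) (f : Cube n → Bool), W1 (sgn f) ≤ 4 / 5 ∨ ∃ i, 18 / 25 ≤ |coef1 (sgn f) i|

theorem star_of_regimes (hL : StarL) (h1 : StarH1) (h2 : StarH2) (h3 : StarH3) (hF : FKN) :
    Star := by
  intro n f ρ
  change StarAt n f ρ
  rcases le_total (cubeAverage (sgn f)) (11 / 20) with hm | hm
  · rcases le_total (hel ρ) (13 / 25) with hs | hs
    · exact hL n f ρ hs hm
    · rcases hF n f with h | ⟨i, h⟩
      · exact h2 n f ρ hs h hm
      · exact h1 n f ρ i hs h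
  · exact h3 n f ρ hm

end Crest.Agent.R307
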