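import Crest.Agent.R307.Defs3

/-! Row 307: final choice of the regimes. -/

set_option autoImplicit false

open Crest.CubeNoise

namespace Crest.Agent.R307

/-- Low noise, moderate bias. -/
def RegL : Prop :=
  ∀ (n : ℕ) (f : Cube n → Bool) (ρ : ℝ), hel ρ + 13 / 100 * cubeAverage (sgn f) ≤ 1 / 2 →
    cubeAverage (sgn f) ≤ 11 / 20 → StarAt n f ρ

/-- High noise, far from dictators, moderate bias. -/
def RegH2 : Prop :=
  ∀ (n : ℕ) (f : Cube n → Bool) (ρ : ℝ), 1 / 2 ≤ hel ρ + 13 / 100 * cubeAverage (sgn f) →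
    W1 (sgn f) ≤ 4 / 5 - cubeAverage (sgn f) ^ 2 → cubeAverage (sgn f) ≤ 11 / 20 → StarAt n f ρ

/-- High noise, near a dictator. -/
def RegH1 : Prop :=
  ∀ (n : ℕ) (f : Cube n → Bool) (ρ : ℝ) (i : Fin n), 23 / 50 ≤ hel ρ →
    18 / 25 ≤ |coef1 (sgn f) i| → StarAt n f ρ

/-- Biased form of the alternative. -/
def FKN2 : Prop :=
  ∀ (n : ℕ) (f : Cube n → Bool), 0 ≤ cubeAverage (sgn f) → cubeAverage (sgn f) ≤ 3 / 10 →
    W1 (sgn f) ≤ 4 / 5 - cubeAverage (sgn f) ^ 2 ∨ ∃ i, 18 / 25 ≤ |coef1 (sgn f) i|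

theorem star_of_reg (hL : RegL) (h1 : RegH1) (h2 : RegH2) (h3 : StarH3) (hF : FKN2)
    (hW : ∀ (n : ℕ) (f : Cube n → Bool), W1 (sgn f) ≤ 1 - |cubeAverage (sgn f)|) : Star := by
  intro n f ρ
  change StarAt n f ρ
  rcases lt_or_ge (cubeAverage (sgn f)) 0 with h0 | h0
  · intro _ _ _ h; exact absurd h (not_le.2 h0)
  rcases le_total (cubeAverage (sgn f)) (11 / 20) with hm | hm
  · rcases le_total (hel ρ + 13 / 100 * cubeAverage (sgn f)) (1 / 2) with hs | hs
    · exact hL n f ρ hs hm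
    · rcases le_total (cubeAverage (sgn f)) (3 / 10) with h3' | h3'
      · rcases hF n f h0 h3' with h | ⟨i, h⟩
        · exact h2 n f ρ hs h hm
        · exact h1 n f ρ i (by linarith) h
      · refine h2 n f ρ hs ?_ hm
        have := hW n f
        rw [abs_of_nonneg h0] at this
        nlinarith
  · exact h3 n f ρ hm

end Crest.Agent.R307
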