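import Crest.Agent.R307.Defs

/-! Row 307: basic facts on `artanh`, `signEntropy`, `psi`, `kap` and `information`. -/

set_option autoImplicit false

open Crest.CubeNoise Set

namespace Crest.Agent.R307

/-! ## `artanh` -/

theorem artanh_eq_sub {x : ℝ} (hx : |x| < 1) :
    Real.artanh x = (Real.log (1 + x) - Real.log (1 - x)) / 2 := by
  obtain ⟨h1, h2⟩ := abs_lt.mp hx
  rw [Real.artanh_eq_half_log ⟨h1.le, h2.le⟩, Real.log_div (by linarith) (by linarith)]
  ring

theorem artanh_neg_eq (x : ℝ) : Real.artanh (-x) = -Real.artanh x := by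
  unfold Real.artanh
  rw [← Real.log_inv, ← Real.sqrt_inv, inv_div]
  congr 3
  ring

theorem one_sub_sq_pos {x : ℝ} (hx : |x| < 1) : 0 < 1 - x ^ 2 := by
  obtain ⟨h1, h2⟩ := abs_lt.mp hx
  nlinarith

theorem abs_lt_one_of {x : ℝ} (h0 : 0 ≤ x) (h1 : x < 1) : |x| < 1 := by
  rwa [abs_of_nonneg h0]

theorem eventually_abs_lt_one {x : ℝ} (hx : |x| < 1) : ∀ᶠ y in nhds x, |y| < 1 :=
  continuous_abs.continuousAt.eventually_lt continuousAt_const hx

theorem hasDerivAt_artanh {x : ℝ} (hx : |x| < 1) :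
    HasDerivAt Real.artanh (1 / (1 - x ^ 2)) x := by
  obtain ⟨h1, h2⟩ := abs_lt.mp hx
  have ha : HasDerivAt (fun y : ℝ => Real.log (1 + y)) (1 / (1 + x)) x := by
    simpa using ((hasDerivAt_id x).const_add 1).log (by simp; linarith)
  have hb : HasDerivAt (fun y : ℝ => Real.log (1 - y)) (-1 / (1 - x)) x := by
    simpa using ((hasDerivAt_id x).const_sub 1).log (by simp; linarith)
  have hc := (ha.sub hb).div_const 2
  have hd : HasDerivAt (fun y : ℝ => (Real.log (1 + y) - Real.log (1 - y)) / 2)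
      (1 / (1 - x ^ 2)) x := by
    refine hc.congr_deriv ?_
    have : (1 : ℝ) + x ≠ 0 := by linarith
    have : (1 : ℝ) - x ≠ 0 := by linarith
    have : (1 : ℝ) - x ^ 2 ≠ 0 := (one_sub_sq_pos hx).ne'
    field_simp
    ring
  refine hd.congr_of_eventuallyEq ?_
  filter_upwards [eventually_abs_lt_one hx] with y hy using artanh_eq_sub hy

theorem continuousAt_artanh {x : ℝ} (hx : |x| < 1) : ContinuousAt Real.artanh x :=
  (hasDerivAt_artanh hx).continuousAt

theorem continuousOn_artanh : ContinuousOn Real.artanh (Ioo (-1) 1) :=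
  fun _ hx => (continuousAt_artanh (abs_lt.mpr hx)).continuousWithinAt

/-- A function on `[0,1)` with nonnegative derivative is monotone. -/
theorem monotoneOn_Ico_of_hasDerivAt {f f' : ℝ → ℝ} {a b : ℝ}
    (hf : ∀ x, a ≤ x → x < b → HasDerivAt f (f' x) x) (h : ∀ x, a < x → x < b → 0 ≤ f' x) :
    MonotoneOn f (Ico a b) := by
  refine monotoneOn_of_deriv_nonneg (convex_Ico a b)
    (fun x hx => (hf x hx.1 hx.2).continuousAt.continuousWithinAt) ?_ ?_
  · rw [interior_Ico]
    exact fun x hx => (hf x hx.1.le hx.2).differentiableAt.differentiableWithinAt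
  · rw [interior_Ico]
    intro x hx
    rw [(hf x hx.1.le hx.2).deriv]
    exact h x hx.1 hx.2

/-- Comparison on a closed interval from the sign of the derivative in the interior. -/
theorem le_of_hasDerivAt_nonneg {f f' : ℝ → ℝ} {a b : ℝ} (hab : a ≤ b)
    (hc : ContinuousOn f (Icc a b))
    (hf : ∀ x, a < x → x < b → HasDerivAt f (f' x) x) (h : ∀ x, a < x → x < b → 0 ≤ f' x) :
    f a ≤ f b := by
  have : MonotoneOn f (Icc a b) := by
    refine monotoneOn_of_deriv_nonneg (convex_Icc a b) hc ?_ ?_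
    · rw [interior_Icc]
      exact fun x hx => (hf x hx.1 hx.2).differentiableAt.differentiableWithinAt
    · rw [interior_Icc]
      intro x hx
      rw [(hf x hx.1 hx.2).deriv]
      exact h x hx.1 hx.2
  exact this ⟨le_rfl, hab⟩ ⟨hab, le_rfl⟩ hab

theorem add_cube_le_artanh {x : ℝ} (h0 : 0 ≤ x) (h1 : x < 1) :
    x + x ^ 3 / 3 ≤ Real.artanh x := by
  have := monotoneOn_Ico_of_hasDerivAt (a := 0) (b := 1)
    (f := fun y => Real.artanh y - (y + y ^ 3 / 3))
    (f' := fun y => 1 / (1 - y ^ 2) - (1 + y ^ 2)) (fun y hy0 hy1 => by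
      have := (hasDerivAt_artanh (abs_lt_one_of hy0 hy1)).sub
        ((hasDerivAt_id y).add ((hasDerivAt_pow 3 y).div_const 3))
      refine this.congr_deriv ?_
      simp) (fun y hy0 hy1 => by
      have hp := one_sub_sq_pos (abs_lt_one_of hy0.le hy1)
      rw [sub_nonneg, le_div_iff₀ hp]
      nlinarith [sq_nonneg (y ^ 2)]) ⟨le_rfl, one_pos⟩ ⟨h0, h1⟩ h0
  simpa using this

theorem le_artanh {x : ℝ} (h0 : 0 ≤ x) (h1 : x < 1) : x ≤ Real.artanh x := by
  have := add_cube_le_artanh h0 h1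
  have : 0 ≤ x ^ 3 := by positivity
  linarith

theorem artanh_le_div {x : ℝ} (h0 : 0 ≤ x) (h1 : x < 1) : Real.artanh x ≤ x / (1 - x ^ 2) := by
  have := monotoneOn_Ico_of_hasDerivAt (a := 0) (b := 1)
    (f := fun y => y / (1 - y ^ 2) - Real.artanh y)
    (f' := fun y => 2 * y ^ 2 / (1 - y ^ 2) ^ 2) (fun y hy0 hy1 => by
      have hp := one_sub_sq_pos (abs_lt_one_of hy0 hy1)
      have := ((hasDerivAt_id y).div ((hasDerivAt_pow 2 y).const_sub 1) hp.ne').sub
        (hasDerivAt_artanh (abs_lt_one_of hy0 hy1))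
      refine this.congr_deriv ?_
      have := hp.ne'
      simp only [id]
      field_simp
      ring) (fun y _ _ => by positivity) ⟨le_rfl, one_pos⟩ ⟨h0, h1⟩ h0
  simpa using this

theorem mul_artanh_nonneg (x : ℝ) : 0 ≤ x * Real.artanh x := by
  rcases le_total 0 x with h | h
  · exact mul_nonneg h (Real.artanh_nonneg h)
  · exact mul_nonneg_of_nonpos_of_nonpos h (Real.artanh_nonpos h)

theorem abs_mul_artanh_abs (x : ℝ) : |x| * Real.artanh |x| = x * Real.artanh x := by
  rcases le_total 0 x with h | h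
  · rw [abs_of_nonneg h]
  · rw [abs_of_nonpos h, artanh_neg_eq]; ring

theorem mul_artanh_mono {a b : ℝ} (ha : 0 ≤ a) (hab : a ≤ b) (hb : b < 1) :
    a * Real.artanh a ≤ b * Real.artanh b :=
  mul_le_mul hab (Real.artanh_le_artanh (by linarith) hb hab) (Real.artanh_nonneg ha)
    (ha.trans hab)

theorem hasDerivAt_mul_artanh {x : ℝ} (hx : |x| < 1) :
    HasDerivAt (fun y => y * Real.artanh y) (Real.artanh x + x / (1 - x ^ 2)) x := by
  refine ((hasDerivAt_id x).mul (hasDerivAt_artanh hx)).congr_deriv ?_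
  simp [div_eq_mul_inv]

/-! ## `signEntropy` -/

theorem signEntropy_neg (r : ℝ) : signEntropy (-r) = signEntropy r := by
  unfold signEntropy
  rw [← Real.binEntropy_one_sub]
  congr 1; ring

theorem signEntropy_abs (r : ℝ) : signEntropy |r| = signEntropy r := by
  rcases le_total 0 r with h | h
  · rw [abs_of_nonneg h]
  · rw [abs_of_nonpos h, signEntropy_neg]

theorem signEntropy_zero : signEntropy 0 = Real.log 2 := by
  unfold signEntropy
  rw [← Real.binEntropy_two_inv]
  congr 1; norm_num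

theorem signEntropy_one : signEntropy 1 = 0 := by
  simp [signEntropy]

theorem signEntropy_neg_one : signEntropy (-1) = 0 := by
  simp [signEntropy]

@[fun_prop] theorem continuous_signEntropy : Continuous signEntropy := by
  unfold signEntropy
  fun_prop

theorem signEntropy_nonneg {r : ℝ} (hr : |r| ≤ 1) : 0 ≤ signEntropy r := by
  obtain ⟨h1, h2⟩ := abs_le.mp hr
  exact Real.binEntropy_nonneg (by linarith) (by linarith)

theorem signEntropy_pos {r : ℝ} (hr : |r| < 1) : 0 < signEntropy r := by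
  obtain ⟨h1, h2⟩ := abs_lt.mp hr
  exact Real.binEntropy_pos (by linarith) (by linarith)

theorem signEntropy_le_log_two (r : ℝ) : signEntropy r ≤ Real.log 2 :=
  Real.binEntropy_le_log_two

theorem hasDerivAt_signEntropy {r : ℝ} (hr : |r| < 1) :
    HasDerivAt signEntropy (-Real.artanh r) r := by
  obtain ⟨h1, h2⟩ := abs_lt.mp hr
  have ha : HasDerivAt (fun y : ℝ => (1 + y) / 2) (1 / 2) r := by
    simpa using ((hasDerivAt_id r).const_add 1).div_const 2
  have hb := (Real.hasDerivAt_binEntropy (p := (1 + r) / 2) (by linarith) (by linarith)).comp r ha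
  refine hb.congr_deriv ?_
  rw [artanh_eq_sub hr, show 1 - (1 + r) / 2 = (1 - r) / 2 by ring,
    Real.log_div (by linarith) (by norm_num), Real.log_div (by linarith) (by norm_num)]
  ring

theorem hasDerivAt_neg_signEntropy {r : ℝ} (hr : |r| < 1) :
    HasDerivAt (fun y => -signEntropy y) (Real.artanh r) r := by
  exact (hasDerivAt_signEntropy hr).neg.congr_deriv (neg_neg _)

theorem strictConcaveOn_signEntropy : StrictConcaveOn ℝ (Icc (-1) 1) signEntropy := by
  refine ⟨convex_Icc _ _, fun x hx y hy hxy a b ha hb hab => ?_⟩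
  have := Real.strictConcave_binEntropy.2 (x := (1 + x) / 2) (y := (1 + y) / 2)
    ⟨by linarith [hx.1], by linarith [hx.2]⟩ ⟨by linarith [hy.1], by linarith [hy.2]⟩
    (fun h => hxy (by linarith)) ha hb hab
  unfold signEntropy
  convert this using 2
  simp only [smul_eq_mul]
  linear_combination (-1 / 2 : ℝ) * hab

theorem concaveOn_signEntropy : ConcaveOn ℝ (Icc (-1) 1) signEntropy :=
  strictConcaveOn_signEntropy.concaveOn

/-! ## `psi` -/

theorem signEntropy_eq (r : ℝ) : signEntropy r = Real.log 2 - psi r := by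
  simp [psi]

theorem psi_neg (r : ℝ) : psi (-r) = psi r := by simp [psi, signEntropy_neg]

theorem psi_abs (r : ℝ) : psi |r| = psi r := by simp [psi, signEntropy_abs]

theorem psi_zero : psi 0 = 0 := by simp [psi, signEntropy_zero]

theorem psi_one : psi 1 = Real.log 2 := by simp [psi, signEntropy_one]

theorem psi_neg_one : psi (-1) = Real.log 2 := by simp [psi, signEntropy_neg_one]

@[fun_prop] theorem continuous_psi : Continuous psi := by
  unfold psi
  fun_prop

theorem psi_nonneg (r : ℝ) : 0 ≤ psi r := sub_nonneg.mpr (signEntropy_le_log_two r)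

theorem psi_le_log_two {r : ℝ} (hr : |r| ≤ 1) : psi r ≤ Real.log 2 := by
  have := signEntropy_nonneg hr
  unfold psi; linarith

theorem psi_lt_log_two {r : ℝ} (hr : |r| < 1) : psi r < Real.log 2 := by
  have := signEntropy_pos hr
  unfold psi; linarith

theorem hasDerivAt_psi {r : ℝ} (hr : |r| < 1) : HasDerivAt psi (Real.artanh r) r := by
  exact ((hasDerivAt_signEntropy hr).const_sub (Real.log 2)).congr_deriv (neg_neg _)

theorem strictConvexOn_psi : StrictConvexOn ℝ (Icc (-1) 1) psi := by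
  refine ⟨convex_Icc _ _, fun x hx y hy hxy a b ha hb hab => ?_⟩
  have := strictConcaveOn_signEntropy.2 hx hy hxy ha hb hab
  simp only [smul_eq_mul, psi] at this ⊢
  have h2 : a * Real.log 2 + b * Real.log 2 = Real.log 2 := by rw [← add_mul, hab, one_mul]
  linarith

theorem convexOn_psi : ConvexOn ℝ (Icc (-1) 1) psi := strictConvexOn_psi.convexOn

theorem strictMonoOn_psi : StrictMonoOn psi (Icc 0 1) := by
  refine strictMonoOn_of_deriv_pos (convex_Icc 0 1) continuous_psi.continuousOn ?_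
  rw [interior_Icc]
  intro x hx
  rw [(hasDerivAt_psi (abs_lt_one_of hx.1.le hx.2)).deriv]
  exact Real.artanh_pos hx

theorem psi_lt_psi {a b : ℝ} (ha : 0 ≤ a) (hab : a < b) (hb : b ≤ 1) : psi a < psi b :=
  strictMonoOn_psi ⟨ha, by linarith⟩ ⟨by linarith, hb⟩ hab

theorem psi_le_psi {a b : ℝ} (ha : 0 ≤ a) (hab : a ≤ b) (hb : b ≤ 1) : psi a ≤ psi b :=
  strictMonoOn_psi.monotoneOn ⟨ha, by linarith⟩ ⟨by linarith, hb⟩ hab

theorem le_of_psi_le {a b : ℝ} (ha : a ≤ 1) (hb : 0 ≤ b) (h : psi a ≤ psi b) : a ≤ b := by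
  by_contra hab
  exact absurd h (not_le.mpr (psi_lt_psi hb (not_le.mp hab) ha))

theorem lt_of_psi_lt {a b : ℝ} (ha : a ≤ 1) (hb : 0 ≤ b) (h : psi a < psi b) : a < b := by
  by_contra hab
  exact absurd h (not_lt.mpr (psi_le_psi hb (not_lt.mp hab) ha))

theorem psi_injOn : InjOn psi (Icc 0 1) := strictMonoOn_psi.injOn

theorem psi_pos {r : ℝ} (h0 : r ≠ 0) (h1 : |r| ≤ 1) : 0 < psi r := by
  rw [← psi_abs, ← psi_zero]
  exact psi_lt_psi le_rfl (abs_pos.mpr h0) h1

theorem exists_psi_eq {y : ℝ} (h0 : 0 ≤ y) (h1 : y ≤ Real.log 2) :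
    ∃ r, 0 ≤ r ∧ r ≤ 1 ∧ psi r = y := by
  obtain ⟨r, hr, h⟩ := intermediate_value_Icc (zero_le_one' ℝ) continuous_psi.continuousOn
    (show y ∈ Icc (psi 0) (psi 1) by rw [psi_zero, psi_one]; exact ⟨h0, h1⟩)
  exact ⟨r, hr.1, hr.2, h⟩

theorem exists_psi_eq_of_lt {y : ℝ} (h0 : 0 ≤ y) (h1 : y < Real.log 2) :
    ∃ r, 0 ≤ r ∧ r < 1 ∧ psi r = y := by
  obtain ⟨r, hr0, hr1, h⟩ := exists_psi_eq h0 h1.le
  refine ⟨r, hr0, lt_of_le_of_ne hr1 ?_, h⟩
  rintro rfl
  rw [psi_one] at h
  exact h1.ne' h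

/-- Closed formula for `psi` on `[-1,1]`. -/
theorem psi_eq_log {r : ℝ} (hr : |r| ≤ 1) :
    psi r = ((1 + r) * Real.log (1 + r) + (1 - r) * Real.log (1 - r)) / 2 := by
  obtain ⟨h1, h2⟩ := abs_le.mp hr
  have key : ∀ t : ℝ, Real.negMulLog (t / 2) = -(t * Real.log t) / 2 + t / 2 * Real.log 2 := by
    intro t
    rcases eq_or_ne t 0 with rfl | ht
    · simp
    · rw [Real.negMulLog, Real.log_div ht two_ne_zero]; ring
  unfold psi signEntropy
  rw [Real.binEntropy_eq_negMulLog_add_negMulLog_one_sub,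
    show 1 - (1 + r) / 2 = (1 - r) / 2 by ring, key, key]
  ring

theorem psi_eq_artanh {r : ℝ} (hr : |r| < 1) :
    psi r = r * Real.artanh r + Real.log (1 - r ^ 2) / 2 := by
  obtain ⟨h1, h2⟩ := abs_lt.mp hr
  rw [psi_eq_log hr.le, artanh_eq_sub hr, show 1 - r ^ 2 = (1 + r) * (1 - r) by ring,
    Real.log_mul (by linarith) (by linarith)]
  ring

/-- Tangent line inequality for `psi`. -/
theorem psi_tangent {r s : ℝ} (hr : |r| < 1) (hs : |s| ≤ 1) :
    psi r + Real.artanh r * (s - r) ≤ psi s := by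
  rcases lt_trichotomy r s with h | rfl | h
  · have := convexOn_psi.le_slope_of_hasDerivAt (abs_le.mp hr.le) (abs_le.mp hs) h
      (hasDerivAt_psi hr)
    rw [slope_def_field, le_div_iff₀ (sub_pos.mpr h)] at this
    linarith
  · simp
  · have := convexOn_psi.slope_le_of_hasDerivAt (abs_le.mp hs) (abs_le.mp hr.le) h
      (hasDerivAt_psi hr)
    rw [slope_def_field, div_le_iff₀ (sub_pos.mpr h)] at this
    linarith

theorem sq_add_le_psi {r : ℝ} (hr : |r| ≤ 1) : r ^ 2 / 2 + r ^ 4 / 12 ≤ psi r := by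
  have key : ∀ t : ℝ, 0 ≤ t → t ≤ 1 → t ^ 2 / 2 + t ^ 4 / 12 ≤ psi t := by
    intro t h0 h1
    have := le_of_hasDerivAt_nonneg (a := 0) (b := t) h0
      (f := fun y => psi y - (y ^ 2 / 2 + y ^ 4 / 12))
      (f' := fun y => Real.artanh y - (y + y ^ 3 / 3)) (by fun_prop) (fun y hy0 hy1 => by
        have := (hasDerivAt_psi (abs_lt_one_of hy0.le (by linarith))).sub
          (((hasDerivAt_pow 2 y).div_const 2).add ((hasDerivAt_pow 4 y).div_const 12))
        refine this.congr_deriv ?_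
        simp; ring)
      (fun y hy0 hy1 => sub_nonneg.mpr (add_cube_le_artanh hy0.le (by linarith)))
    simpa [psi_zero] using this
  have := key |r| (abs_nonneg r) hr
  rwa [psi_abs, sq_abs, show |r| ^ 4 = r ^ 4 from Even.pow_abs (by decide) r] at this

theorem sq_le_psi {r : ℝ} (hr : |r| ≤ 1) : r ^ 2 / 2 ≤ psi r := by
  have := sq_add_le_psi hr
  have : 0 ≤ r ^ 4 := by positivity
  linarith

/-! ## `kap` -/

theorem kap_zero : kap 0 = 2 := by simp [kap]

theorem kap_of_ne {r : ℝ} (h : r ≠ 0) : kap r = 1 + r / ((1 - r ^ 2) * Real.artanh r) := by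
  simp [kap, h]

theorem kap_neg (r : ℝ) : kap (-r) = kap r := by
  rcases eq_or_ne r 0 with rfl | h
  · simp
  · rw [kap_of_ne h, kap_of_ne (neg_ne_zero.mpr h), artanh_neg_eq, neg_sq, mul_neg, neg_div_neg_eq]

theorem kap_mul_artanh {r : ℝ} (hr : |r| < 1) :
    kap r * Real.artanh r = Real.artanh r + r / (1 - r ^ 2) := by
  rcases eq_or_ne r 0 with rfl | h
  · simp
  · have h1 : Real.artanh r ≠ 0 := by
      obtain ⟨h1, h2⟩ := abs_lt.mp hr
      rw [Ne, Real.artanh_eq_zero_iff]
      rintro (h3 | h3 | h3)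
      · linarith
      · exact h h3
      · linarith
    have h2 := (one_sub_sq_pos hr).ne'
    rw [kap_of_ne h]
    field_simp

theorem hasDerivAt_mul_artanh' {x : ℝ} (hx : |x| < 1) :
    HasDerivAt (fun y => y * Real.artanh y) (kap x * Real.artanh x) x := by
  rw [kap_mul_artanh hx]; exact hasDerivAt_mul_artanh hx

theorem two_le_kap {r : ℝ} (h0 : 0 ≤ r) (h1 : r < 1) : 2 ≤ kap r := by
  rcases h0.eq_or_lt with rfl | h
  · rw [kap_zero]
  · have hp := one_sub_sq_pos (abs_lt_one_of h0 h1)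
    have ha := Real.artanh_pos ⟨h, h1⟩
    have hb := artanh_le_div h0 h1
    rw [le_div_iff₀ hp] at hb
    have : 1 ≤ r / ((1 - r ^ 2) * Real.artanh r) := by
      rw [le_div_iff₀ (mul_pos hp ha)]; linarith
    rw [kap_of_ne h.ne']
    linarith

/-- `(1 - r²) artanh r / r` is decreasing on `(0,1)`. -/
theorem one_sub_sq_mul_artanh_div_anti {a b : ℝ} (ha : 0 < a) (hab : a ≤ b) (hb : b < 1) :
    (1 - b ^ 2) * Real.artanh b / b ≤ (1 - a ^ 2) * Real.artanh a / a := by
  have := monotoneOn_Ico_of_hasDerivAt (a := a) (b := 1)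
    (f := fun y => -((1 - y ^ 2) * Real.artanh y / y))
    (f' := fun y => ((1 + y ^ 2) * Real.artanh y - y) / y ^ 2) (fun y hy0 hy1 => by
      have hy : 0 < y := by linarith
      have hp := one_sub_sq_pos (abs_lt_one_of hy.le hy1)
      have := ((((hasDerivAt_pow 2 y).const_sub 1).mul
        (hasDerivAt_artanh (abs_lt_one_of hy.le hy1))).div (hasDerivAt_id y) hy.ne').neg
      refine this.congr_deriv ?_
      have := hp.ne'
      simp only [id, Pi.mul_apply]
      field_simp
      ring) (fun y hy0 hy1 => by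
      have hy : 0 < y := by linarith
      have h1 := le_artanh hy.le hy1
      refine div_nonneg ?_ (sq_nonneg y)
      nlinarith [mul_nonneg (sq_nonneg y) (hy.le.trans h1)])
    ⟨le_rfl, by linarith⟩ ⟨hab, hb⟩ hab
  simpa using this

theorem kap_le_kap {a b : ℝ} (ha : 0 ≤ a) (hab : a ≤ b) (hb : b < 1) : kap a ≤ kap b := by
  rcases ha.eq_or_lt with rfl | h
  · rw [kap_zero]; exact two_le_kap hab hb
  · have hb0 : 0 < b := by linarith
    have h1 := one_sub_sq_mul_artanh_div_anti h hab hb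
    have hpb : 0 < (1 - b ^ 2) * Real.artanh b / b :=
      div_pos (mul_pos (one_sub_sq_pos (abs_lt_one_of hb0.le hb)) (Real.artanh_pos ⟨hb0, hb⟩)) hb0
    have h2 := inv_anti₀ hpb h1
    rw [inv_div, inv_div] at h2
    rw [kap_of_ne h.ne', kap_of_ne hb0.ne']
    linarith

theorem monotoneOn_kap : MonotoneOn kap (Ico 0 1) :=
  fun _ ha _ hb hab => kap_le_kap ha.1 hab hb.2

/-- Tangent line inequality for the (convex) rate function `F (psi r) = r * artanh r`. -/
theorem rate_tangent {r s : ℝ} (hr0 : 0 ≤ r) (hr1 : r < 1) (hs0 : 0 ≤ s) (hs1 : s < 1) :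
    r * Real.artanh r + kap r * (psi s - psi r) ≤ s * Real.artanh s := by
  have hd : ∀ y, 0 ≤ y → y < 1 → HasDerivAt (fun y => y * Real.artanh y - kap r * psi y)
      ((kap y - kap r) * Real.artanh y) y := by
    intro y hy0 hy1
    have hy := abs_lt_one_of hy0 hy1
    refine ((hasDerivAt_mul_artanh' hy).sub ((hasDerivAt_psi hy).const_mul (kap r))).congr_deriv ?_
    ring
  rcases le_total r s with h | h
  · have := le_of_hasDerivAt_nonneg h (f := fun y => y * Real.artanh y - kap r * psi y)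
      (fun y hy => (hd y (hr0.trans hy.1) (hy.2.trans_lt hs1)).continuousAt.continuousWithinAt)
      (fun y hy0 hy1 => hd y (by linarith) (by linarith))
      (fun y hy0 hy1 => mul_nonneg (sub_nonneg.mpr (kap_le_kap hr0 hy0.le (by linarith)))
        (Real.artanh_nonneg (by linarith)))
    linarith
  · have := le_of_hasDerivAt_nonneg h (f := fun y => -(y * Real.artanh y - kap r * psi y))
      (fun y hy =>
        (hd y (hs0.trans hy.1) (hy.2.trans_lt hr1)).neg.continuousAt.continuousWithinAt)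
      (fun y hy0 hy1 => (hd y (by linarith) (by linarith)).neg)
      (fun y hy0 hy1 => by
        have h1 := kap_le_kap (a := y) (by linarith) hy1.le hr1
        have h2 := Real.artanh_nonneg (x := y) (by linarith)
        nlinarith)
    linarith

theorem two_psi_le {s : ℝ} (hs : |s| < 1) : 2 * psi s ≤ s * Real.artanh s := by
  have := rate_tangent le_rfl one_pos (abs_nonneg s) hs
  rw [kap_zero, psi_zero, psi_abs, abs_mul_artanh_abs] at this
  linarith

/-! ## `information` -/

theorem ent_avg_eq_sum {n : ℕ} (g : Cube n → ℝ) :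
    cubeAverage g = ∑ x, ((2 : ℝ) ^ n)⁻¹ • g x := by
  simp [cubeAverage, div_eq_inv_mul, Finset.mul_sum]

theorem ent_sum_weights (n : ℕ) : ∑ _x : Cube n, ((2 : ℝ) ^ n)⁻¹ = 1 := by
  simp

/-- Jensen's inequality on the cube, convex version. -/
theorem jensen_convex {n : ℕ} {s : Set ℝ} {f : ℝ → ℝ} (hf : ConvexOn ℝ s f) {g : Cube n → ℝ}
    (hg : ∀ x, g x ∈ s) : f (cubeAverage g) ≤ cubeAverage (fun x => f (g x)) := by
  rw [ent_avg_eq_sum, ent_avg_eq_sum]
  exact hf.map_sum_le (fun _ _ => by positivity) (ent_sum_weights n) (fun x _ => hg x)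

/-- Jensen's inequality on the cube, concave version. -/
theorem jensen_concave {n : ℕ} {s : Set ℝ} {f : ℝ → ℝ} (hf : ConcaveOn ℝ s f) {g : Cube n → ℝ}
    (hg : ∀ x, g x ∈ s) : cubeAverage (fun x => f (g x)) ≤ f (cubeAverage g) := by
  rw [ent_avg_eq_sum, ent_avg_eq_sum]
  exact hf.le_map_sum (fun _ _ => by positivity) (ent_sum_weights n) (fun x _ => hg x)

theorem avg_mem_of_convex {n : ℕ} {s : Set ℝ} (hs : Convex ℝ s) {g : Cube n → ℝ}
    (hg : ∀ x, g x ∈ s) : cubeAverage g ∈ s := by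
  rw [ent_avg_eq_sum]
  exact hs.sum_mem (fun _ _ => by positivity) (ent_sum_weights n) (fun x _ => hg x)

theorem abs_avg_le_one {n : ℕ} {g : Cube n → ℝ} (hg : ∀ x, |g x| ≤ 1) : |cubeAverage g| ≤ 1 :=
  abs_le.mpr (avg_mem_of_convex (convex_Icc (-1) 1) fun x => abs_le.mp (hg x))

theorem abs_avg_lt_one {n : ℕ} {g : Cube n → ℝ} (hg : ∀ x, |g x| < 1) : |cubeAverage g| < 1 :=
  abs_lt.mpr (avg_mem_of_convex (convex_Ioo (-1) 1) fun x => abs_lt.mp (hg x))

theorem avg_pos {n : ℕ} {g : Cube n → ℝ} (hg : ∀ x, 0 < g x) : 0 < cubeAverage g :=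
  avg_mem_of_convex (convex_Ioi 0) hg

theorem avg_nonneg {n : ℕ} {g : Cube n → ℝ} (hg : ∀ x, 0 ≤ g x) : 0 ≤ cubeAverage g :=
  avg_mem_of_convex (convex_Ici 0) hg

theorem information_nonneg {n : ℕ} {g : Cube n → ℝ} (hg : ∀ x, |g x| ≤ 1) :
    0 ≤ information g :=
  sub_nonneg.mpr (jensen_concave concaveOn_signEntropy fun x => abs_le.mp (hg x))

theorem information_le_signEntropy {n : ℕ} {g : Cube n → ℝ} (hg : ∀ x, |g x| ≤ 1) :
    information g ≤ signEntropy (cubeAverage g) :=
  sub_le_self _ (avg_nonneg fun x => signEntropy_nonneg (hg x))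

theorem information_le_log_two {n : ℕ} {g : Cube n → ℝ} (hg : ∀ x, |g x| ≤ 1) :
    information g ≤ Real.log 2 :=
  (information_le_signEntropy hg).trans (signEntropy_le_log_two _)

theorem information_lt_log_two {n : ℕ} {g : Cube n → ℝ} (hg : ∀ x, |g x| < 1) :
    information g < Real.log 2 :=
  (sub_lt_self _ (avg_pos fun x => signEntropy_pos (hg x))).trans_le (signEntropy_le_log_two _)

theorem exists_psi_eq_information {n : ℕ} {g : Cube n → ℝ} (hg : ∀ x, |g x| < 1) :
    ∃ r, 0 ≤ r ∧ r < 1 ∧ psi r = information g :=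
  exists_psi_eq_of_lt (information_nonneg fun x => (hg x).le) (information_lt_log_two hg)

theorem information_eq_psi {n : ℕ} (g : Cube n → ℝ) :
    information g = cubeAverage (fun x => psi (g x)) - psi (cubeAverage g) := by
  have h2 : (2 : ℝ) ^ n ≠ 0 := by positivity
  simp only [information, psi, cubeAverage, Finset.sum_sub_distrib, Finset.sum_const,
    Finset.card_univ, Fintype.card_pi, Fintype.card_bool, Finset.prod_const, Fintype.card_fin,
    nsmul_eq_mul, Nat.cast_pow, Nat.cast_ofNat]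
  field_simp
  ring

theorem information_const {n : ℕ} (c : ℝ) : information (fun _ : Cube n => c) = 0 := by
  have h2 : (2 : ℝ) ^ n ≠ 0 := by positivity
  simp [information, cubeAverage]

end Crest.Agent.R307
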