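import Crest.Agent.R307.Cube

/-! Row 307: the noise operator (faces, derivative in `ρ`, Walsh expansion). -/

set_option autoImplicit false

open Crest.CubeNoise

namespace Crest.Agent.R307

/-! ### Signs, characters, weights -/

theorem nz_spin_not (b : Bool) : spin (!b) = -spin b := by cases b <;> simp [spin]

theorem nz_spin_mul_self (b : Bool) : spin b * spin b = 1 := by cases b <;> simp [spin]

theorem nz_abs_spin (b : Bool) : |spin b| = 1 := by cases b <;> simp [spin]

/-- The Walsh character attached to a set of coordinates. -/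
noncomputable def walsh {n : ℕ} (S : Finset (Fin n)) (x : Cube n) : ℝ := ∏ i ∈ S, spin (x i)

/-- The Walsh coefficient. -/
noncomputable def coef {n : ℕ} (u : Cube n → ℝ) (S : Finset (Fin n)) : ℝ :=
  cubeAverage (fun x => u x * ∏ i ∈ S, spin (x i))

/-- The transition weight of the noise operator. -/
noncomputable def nzW {n : ℕ} (ρ : ℝ) (x y : Cube n) : ℝ :=
  ∏ i, (1 + ρ * spin (x i) * spin (y i)) / 2

theorem noise_eq {n : ℕ} (ρ : ℝ) (u : Cube n → ℝ) (x : Cube n) :
    noise ρ u x = ∑ y, nzW ρ x y * u y := rfl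

theorem nzW_symm {n : ℕ} (ρ : ℝ) (x y : Cube n) : nzW ρ x y = nzW ρ y x :=
  Finset.prod_congr rfl fun i _ => by ring

theorem nz_sum_prod {n : ℕ} (f : Fin n → Bool → ℝ) :
    ∑ y : Cube n, ∏ i, f i (y i) = ∏ i, (f i true + f i false) := by
  have := Finset.prod_univ_sum (fun _ : Fin n => (Finset.univ : Finset Bool)) f
  rw [Fintype.piFinset_univ] at this
  rw [← this]
  exact Finset.prod_congr rfl fun i _ => Fintype.sum_bool _

theorem sum_nzW {n : ℕ} (ρ : ℝ) (x : Cube n) : ∑ y, nzW ρ x y = 1 := by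
  unfold nzW
  rw [nz_sum_prod fun i b => (1 + ρ * spin (x i) * spin b) / 2]
  refine Finset.prod_eq_one fun i _ => ?_
  simp only [spin, if_true, Bool.false_eq_true, if_false]
  ring

theorem nz_factor_le {ρ : ℝ} (a b : Bool) : -|ρ| ≤ ρ * spin a * spin b := by
  have : |ρ * spin a * spin b| = |ρ| := by rw [abs_mul, abs_mul, nz_abs_spin, nz_abs_spin]; ring
  rw [← this]
  exact neg_abs_le _

theorem nzW_nonneg {n : ℕ} {ρ : ℝ} (hρ : |ρ| ≤ 1) (x y : Cube n) : 0 ≤ nzW ρ x y :=
  Finset.prod_nonneg fun i _ => by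
    have := nz_factor_le (ρ := ρ) (x i) (y i)
    linarith

theorem nzW_pos {n : ℕ} {ρ : ℝ} (hρ : |ρ| < 1) (x y : Cube n) : 0 < nzW ρ x y :=
  Finset.prod_pos fun i _ => by
    have := nz_factor_le (ρ := ρ) (x i) (y i)
    linarith

theorem nzW_eq_sum {n : ℕ} (ρ : ℝ) (x y : Cube n) :
    nzW ρ x y = (∑ S : Finset (Fin n), ρ ^ S.card * walsh S x * walsh S y) / 2 ^ n := by
  unfold nzW
  rw [Finset.prod_div_distrib, Finset.prod_one_add, Finset.powerset_univ, Finset.prod_const,
    Finset.card_univ, Fintype.card_fin]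
  congr 1
  refine Finset.sum_congr rfl fun S _ => ?_
  rw [Finset.prod_mul_distrib, Finset.prod_mul_distrib, Finset.prod_const]
  rfl

theorem walsh_anti {n : ℕ} (S : Finset (Fin n)) (x : Cube n) :
    walsh S (anti x) = (-1) ^ S.card * walsh S x := by
  unfold walsh anti
  simp only [nz_spin_not]
  rw [Finset.prod_neg]

theorem walsh_flip {n : ℕ} (S : Finset (Fin n)) (i : Fin n) (x : Cube n) :
    walsh S (flipBit i x) = if i ∈ S then -walsh S x else walsh S x := by
  unfold walsh flipBit
  split_ifs with h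
  · rw [← Finset.mul_prod_erase S _ h, ← Finset.mul_prod_erase S _ h, Function.update_self,
      nz_spin_not, neg_mul]
    congr 2
    exact Finset.prod_congr rfl fun j hj => by
      rw [Function.update_of_ne (Finset.ne_of_mem_erase hj)]
  · exact Finset.prod_congr rfl fun j hj => by
      rw [Function.update_of_ne (ne_of_mem_of_not_mem hj h)]

theorem nz_flip_flip {n : ℕ} (i : Fin n) (x : Cube n) : flipBit i (flipBit i x) = x := by
  unfold flipBit
  simp

theorem nz_anti_anti {n : ℕ} (x : Cube n) : anti (anti x) = x := by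
  funext i
  simp [anti]

theorem nz_sum_flip {n : ℕ} (i : Fin n) (g : Cube n → ℝ) :
    ∑ x, g (flipBit i x) = ∑ x, g x :=
  Equiv.sum_comp (Function.Involutive.toPerm (flipBit i) (nz_flip_flip i)) g

theorem nz_sum_anti {n : ℕ} (g : Cube n → ℝ) : ∑ x, g (anti x) = ∑ x, g x :=
  Equiv.sum_comp (Function.Involutive.toPerm anti nz_anti_anti) g

theorem nz_sum_split {n : ℕ} (i : Fin (n + 1)) (g : Cube (n + 1) → ℝ) :
    ∑ y, g y = ∑ y : Cube n, g (i.insertNth true y) + ∑ y : Cube n, g (i.insertNth false y) := by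
  rw [← Equiv.sum_comp (Fin.insertNthEquiv (fun _ => Bool) i) g, Fintype.sum_prod_type,
    Fintype.sum_bool]
  rfl

/-! ### The noise operator -/

theorem noise_one {n : ℕ} (u : Cube n → ℝ) : noise 1 u = u := by
  funext x
  rw [noise_eq, Finset.sum_eq_single x]
  · have : nzW 1 x x = 1 := Finset.prod_eq_one fun i _ => by
      rw [one_mul, nz_spin_mul_self]; norm_num
    rw [this, one_mul]
  · intro y _ hy
    obtain ⟨i, hi⟩ := Function.ne_iff.1 hy
    have : nzW 1 x y = 0 := Finset.prod_eq_zero (Finset.mem_univ i) (by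
      have : y i = !x i := by
        revert hi
        cases x i <;> cases y i <;> simp
      rw [this, nz_spin_not, one_mul, mul_neg, nz_spin_mul_self]; norm_num)
    rw [this, zero_mul]
  · simp

theorem noise_zero {n : ℕ} (u : Cube n → ℝ) (x : Cube n) : noise 0 u x = cubeAverage u := by
  rw [noise_eq, cubeAverage, Finset.sum_div]
  refine Finset.sum_congr rfl fun y _ => ?_
  simp [nzW, div_eq_inv_mul]

theorem noise_neg {n : ℕ} (ρ : ℝ) (u : Cube n → ℝ) (x : Cube n) :
    noise (-ρ) u x = noise ρ u (anti x) := by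
  simp only [noise, anti, nz_spin_not, neg_mul, mul_neg]

theorem avg_noise {n : ℕ} (ρ : ℝ) (u : Cube n → ℝ) :
    cubeAverage (noise ρ u) = cubeAverage u := by
  unfold cubeAverage
  congr 1
  simp only [noise_eq]
  rw [Finset.sum_comm]
  refine Finset.sum_congr rfl fun y _ => ?_
  rw [← Finset.sum_mul]
  simp only [nzW_symm ρ _ y]
  rw [sum_nzW, one_mul]

theorem abs_noise_le {n : ℕ} {ρ : ℝ} (hρ : |ρ| ≤ 1) {u : Cube n → ℝ} (hu : ∀ x, |u x| ≤ 1)
    (x : Cube n) : |noise ρ u x| ≤ 1 := by
  rw [noise_eq, ← sum_nzW ρ x]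
  refine (Finset.abs_sum_le_sum_abs _ _).trans (Finset.sum_le_sum fun y _ => ?_)
  rw [abs_mul, abs_of_nonneg (nzW_nonneg hρ x y)]
  exact mul_le_of_le_one_right (nzW_nonneg hρ x y) (hu y)

theorem nz_noise_lt {n : ℕ} {ρ : ℝ} (hρ : |ρ| < 1) {u : Cube n → ℝ} (hu : ∀ x, u x ≤ 1)
    (hm : cubeAverage u < 1) (x : Cube n) : noise ρ u x < 1 := by
  have h : ∃ y, u y < 1 := by
    by_contra h
    push Not at h
    have : u = fun _ => 1 := funext fun y => le_antisymm (hu y) (h y)
    rw [this, cubeAverage] at hm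
    simp at hm
  obtain ⟨y, hy⟩ := h
  rw [noise_eq, ← sum_nzW ρ x]
  exact Finset.sum_lt_sum (fun z _ => mul_le_of_le_one_right (nzW_pos hρ x z).le (hu z))
    ⟨y, Finset.mem_univ y, mul_lt_of_lt_one_right (nzW_pos hρ x y) hy⟩

theorem abs_noise_lt {n : ℕ} {ρ : ℝ} (hρ : |ρ| < 1) {u : Cube n → ℝ} (hu : ∀ x, |u x| ≤ 1)
    (hm : |cubeAverage u| < 1) (x : Cube n) : |noise ρ u x| < 1 := by
  refine abs_lt.2 ⟨?_, nz_noise_lt hρ (fun y => (abs_le.1 (hu y)).2) (abs_lt.1 hm).2 x⟩
  have h1 : cubeAverage (fun y => -u y) = -cubeAverage u := by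
    simp [cubeAverage, neg_div]
  have h2 : noise ρ (fun y => -u y) x = -noise ρ u x := by simp [noise_eq]
  have := nz_noise_lt hρ (u := fun y => -u y) (fun y => by linarith [(abs_le.1 (hu y)).1])
    (by rw [h1]; linarith [(abs_lt.1 hm).1]) x
  rw [h2] at this
  linarith

theorem continuous_noise {n : ℕ} (u : Cube n → ℝ) (x : Cube n) :
    Continuous (fun r => noise r u x) := by
  unfold noise
  fun_prop

theorem noise_face {n : ℕ} (ρ : ℝ) (u : Cube (n + 1) → ℝ) (i : Fin (n + 1)) (b : Bool)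
    (x : Cube n) :
    face i b (noise ρ u) x =
      (1 + ρ) / 2 * noise ρ (face i b u) x + (1 - ρ) / 2 * noise ρ (face i (!b) u) x := by
  have h : ∀ (c : Bool) (y : Cube n), nzW ρ (i.insertNth b x : Cube (n + 1)) (i.insertNth c y) =
      (1 + ρ * spin b * spin c) / 2 * nzW ρ x y := fun c y => by
    unfold nzW
    rw [Fin.prod_univ_succAbove _ i]
    simp only [Fin.insertNth_apply_same, Fin.insertNth_apply_succAbove]
  unfold face
  rw [noise_eq, nz_sum_split i]
  simp only [h, noise_eq, mul_assoc, ← Finset.mul_sum]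
  cases b
  · simp only [spin, Bool.not_false, if_true, Bool.false_eq_true, if_false]
    ring
  · simp only [spin, Bool.not_true, if_true, Bool.false_eq_true, if_false]
    ring

/-! ### Walsh expansion -/

theorem noise_expansion {n : ℕ} (ρ : ℝ) (u : Cube n → ℝ) (x : Cube n) :
    noise ρ u x = ∑ S : Finset (Fin n), ρ ^ S.card * coef u S * ∏ i ∈ S, spin (x i) := by
  simp only [noise_eq, nzW_eq_sum, coef, cubeAverage, Finset.sum_div, Finset.sum_mul,
    Finset.mul_sum]
  rw [Finset.sum_comm]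
  refine Finset.sum_congr rfl fun S _ => Finset.sum_congr rfl fun y _ => ?_
  unfold walsh
  ring

theorem expansion {n : ℕ} (u : Cube n → ℝ) (x : Cube n) :
    u x = ∑ S : Finset (Fin n), coef u S * ∏ i ∈ S, spin (x i) := by
  have := noise_expansion 1 u x
  rw [noise_one] at this
  simpa using this

theorem parseval {n : ℕ} (u v : Cube n → ℝ) :
    cubeAverage (fun x => u x * v x) = ∑ S : Finset (Fin n), coef u S * coef v S := by
  have : ∀ x, u x * v x = ∑ S : Finset (Fin n), coef u S * (v x * ∏ i ∈ S, spin (x i)) :=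
    fun x => by
      rw [expansion u x, Finset.sum_mul]
      exact Finset.sum_congr rfl fun S _ => by ring
  simp only [this]
  rw [cubeAverage, Finset.sum_comm, Finset.sum_div]
  refine Finset.sum_congr rfl fun S _ => ?_
  rw [← Finset.mul_sum, mul_div_assoc]
  rfl

theorem coef_empty {n : ℕ} (u : Cube n → ℝ) : coef u ∅ = cubeAverage u := by
  simp [coef]

theorem noise_walsh {n : ℕ} (ρ : ℝ) (S : Finset (Fin n)) (x : Cube n) :
    noise ρ (walsh S) x = ρ ^ S.card * walsh S x := by
  have h1 : ∀ y : Cube n, nzW ρ x y * walsh S y =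
      ∏ i, ((1 + ρ * spin (x i) * spin (y i)) / 2 * if i ∈ S then spin (y i) else 1) := fun y => by
    rw [Finset.prod_mul_distrib, Finset.prod_ite_mem, Finset.univ_inter]
    rfl
  rw [noise_eq]
  simp only [h1]
  rw [nz_sum_prod fun i b => (1 + ρ * spin (x i) * spin b) / 2 * if i ∈ S then spin b else 1]
  have h2 : ρ ^ S.card * walsh S x = ∏ i, if i ∈ S then ρ * spin (x i) else 1 := by
    rw [Finset.prod_ite_mem, Finset.univ_inter, Finset.prod_mul_distrib, Finset.prod_const]
    rfl
  rw [h2]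
  refine Finset.prod_congr rfl fun i _ => ?_
  have e1 : spin true = 1 := rfl
  have e2 : spin false = -1 := rfl
  rw [e1, e2]
  split_ifs <;> ring

theorem avg_noise_mul {n : ℕ} (ρ : ℝ) (u v : Cube n → ℝ) :
    cubeAverage (fun x => noise ρ u x * v x) = cubeAverage (fun x => u x * noise ρ v x) := by
  unfold cubeAverage
  congr 1
  simp only [noise_eq, Finset.sum_mul, Finset.mul_sum]
  rw [Finset.sum_comm]
  refine Finset.sum_congr rfl fun y _ => Finset.sum_congr rfl fun x _ => ?_
  rw [nzW_symm ρ x y]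
  ring

theorem coef_noise {n : ℕ} (ρ : ℝ) (u : Cube n → ℝ) (S : Finset (Fin n)) :
    coef (noise ρ u) S = ρ ^ S.card * coef u S := by
  have := avg_noise_mul ρ u (walsh S)
  simp only [noise_walsh] at this
  refine Eq.trans this ?_
  simp only [coef, cubeAverage, Finset.mul_sum, Finset.sum_div]
  refine Finset.sum_congr rfl fun x _ => ?_
  unfold walsh
  ring

theorem coef_anti {n : ℕ} (u : Cube n → ℝ) (S : Finset (Fin n)) :
    coef (fun x => u (anti x)) S = (-1) ^ S.card * coef u S := by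
  have h := nz_sum_anti (fun x => u (anti x) * walsh S x)
  simp only [nz_anti_anti, walsh_anti] at h
  unfold coef cubeAverage
  rw [← mul_div_assoc, Finset.mul_sum]
  congr 1
  refine h.symm.trans (Finset.sum_congr rfl fun x _ => ?_)
  unfold walsh
  ring

theorem coef_flip {n : ℕ} (u : Cube n → ℝ) (i : Fin n) (S : Finset (Fin n)) :
    coef (fun x => u (flipBit i x)) S = if i ∈ S then -coef u S else coef u S := by
  have h := nz_sum_flip i (fun x => u (flipBit i x) * walsh S x)
  simp only [nz_flip_flip, walsh_flip] at h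
  unfold coef cubeAverage
  refine (congrArg (· / (2 : ℝ) ^ n) h.symm).trans ?_
  split_ifs
  · simp only [mul_neg, Finset.sum_neg_distrib, neg_div]
    rfl
  · rfl

/-! ### Derivative in `ρ` -/

theorem hasDerivAt_noise {n : ℕ} (u : Cube n → ℝ) (x : Cube n) {ρ : ℝ} (hρ : ρ ≠ 0) :
    HasDerivAt (fun r => noise r u x)
      ((∑ i, (noise ρ u x - noise ρ u (flipBit i x))) / (2 * ρ)) ρ := by
  have h1 : HasDerivAt (fun r : ℝ => ∑ S : Finset (Fin n), r ^ S.card * coef u S * walsh S x)
      (∑ S : Finset (Fin n), (S.card * ρ ^ (S.card - 1)) * coef u S * walsh S x) ρ :=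
    HasDerivAt.fun_sum fun S _ => ((hasDerivAt_pow S.card ρ).mul_const _).mul_const _
  have h2 : ∀ r y, noise r u y = ∑ S : Finset (Fin n), r ^ S.card * coef u S * walsh S y :=
    fun r y => noise_expansion r u y
  simp only [h2]
  convert h1 using 1
  simp only [← Finset.sum_sub_distrib]
  rw [Finset.sum_comm, Finset.sum_div]
  refine Finset.sum_congr rfl fun S _ => ?_
  have h3 : ∀ i, ρ ^ S.card * coef u S * walsh S x - ρ ^ S.card * coef u S * walsh S (flipBit i x)
      = if i ∈ S then 2 * (ρ ^ S.card * coef u S * walsh S x) else 0 := fun i => by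
    rw [walsh_flip]
    split_ifs <;> ring
  simp only [h3]
  rw [Finset.sum_ite_mem, Finset.univ_inter, Finset.sum_const, nsmul_eq_mul]
  rcases Nat.eq_zero_or_pos S.card with h | h
  · simp [h]
  · obtain ⟨k, hk⟩ := Nat.exists_eq_add_of_lt h
    rw [hk, zero_add, Nat.add_sub_cancel]
    field_simp
    ring

theorem hasDerivAt_avg_noise {n : ℕ} (u : Cube n → ℝ) {ρ : ℝ} (hρ : ρ ≠ 0) (Φ φ : ℝ → ℝ)
    (hΦ : ∀ x, HasDerivAt Φ (φ (noise ρ u x)) (noise ρ u x)) :
    HasDerivAt (fun r => cubeAverage (fun x => Φ (noise r u x)))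
      (dir (edge φ) (noise ρ u) / ρ) ρ := by
  have h1 := (HasDerivAt.fun_sum (u := Finset.univ) fun x _ =>
    (hΦ x).comp ρ (hasDerivAt_noise u x hρ)).div_const ((2 : ℝ) ^ n)
  refine HasDerivAt.congr_deriv h1 (Eq.symm ?_)
  generalize noise ρ u = g
  unfold dir cubeAverage edge
  rw [div_right_comm]
  congr 1
  simp only [Finset.sum_div, Finset.mul_sum]
  rw [Finset.sum_comm, Finset.sum_comm (f := fun x i => φ (g x) * _)]
  refine Finset.sum_congr rfl fun i _ => ?_
  have h2 := nz_sum_flip i fun x => φ (g x) * (g x - g (flipBit i x))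
  simp only [nz_flip_flip] at h2
  have h3 : ∑ x, (g x - g (flipBit i x)) * (φ (g x) - φ (g (flipBit i x))) / 4 / ρ =
      (∑ x, φ (g x) * (g x - g (flipBit i x)) +
        ∑ x, φ (g (flipBit i x)) * (g (flipBit i x) - g x)) / 4 / ρ := by
    rw [← Finset.sum_add_distrib, Finset.sum_div, Finset.sum_div]
    exact Finset.sum_congr rfl fun x _ => by ring
  rw [h3, h2]
  simp only [← mul_div_assoc, ← Finset.sum_div]
  field_simp
  ring

end Crest.Agent.R307
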