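import Crest.Agent.R307.Defs3
import Crest.Agent.R307.Cube
import Crest.Agent.R307.Noise

/-! Row 307: the weak Friedgut--Kalai--Naor alternative. -/

set_option autoImplicit false

open Crest.CubeNoise

namespace Crest.Agent.R307

namespace Fk

theorem spin_flip_self {n : ℕ} (i : Fin n) (x : Cube n) :
    spin (flipBit i x i) = -spin (x i) := by
  simp [flipBit, nz_spin_not]

theorem flip_ne {n : ℕ} {i j : Fin n} (h : j ≠ i) (x : Cube n) : flipBit i x j = x j := by
  simp [flipBit, Function.update_of_ne h]

theorem avg_spin_mul {n : ℕ} (i j : Fin n) :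
    cubeAverage (fun x : Cube n => spin (x i) * spin (x j)) = if i = j then 1 else 0 := by
  split_ifs with h
  · subst h
    simp only [nz_spin_mul_self]
    exact avg_const 1
  · have h1 := avg_flip i (fun x : Cube n => spin (x i) * spin (x j))
    have h2 : (fun x : Cube n => spin (flipBit i x i) * spin (flipBit i x j)) =
        fun x => (-1) * (spin (x i) * spin (x j)) := by
      funext x
      rw [spin_flip_self, flip_ne (Ne.symm h)]
      ring
    rw [h2, avg_mul_left] at h1
    linarith

/-- A linear form in the spins. -/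
noncomputable def lin {n : ℕ} (T : Finset (Fin n)) (c : Fin n → ℝ) (x : Cube n) : ℝ :=
  ∑ j ∈ T, c j * spin (x j)

theorem avg_mul_lin {n : ℕ} (u : Cube n → ℝ) (T : Finset (Fin n)) (c : Fin n → ℝ) :
    cubeAverage (fun x => u x * lin T c x) = ∑ j ∈ T, c j * coef1 u j := by
  have h : (fun x => u x * lin T c x) = fun x => ∑ j ∈ T, c j * (u x * spin (x j)) := by
    funext x
    rw [lin, Finset.mul_sum]
    exact Finset.sum_congr rfl fun j _ => by ring
  rw [h, avg_sum]
  exact Finset.sum_congr rfl fun j _ => avg_mul_left _ _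

theorem coef1_lin {n : ℕ} (T : Finset (Fin n)) (c : Fin n → ℝ) {j : Fin n} (hj : j ∈ T) :
    coef1 (lin T c) j = c j := by
  have h : (fun x : Cube n => lin T c x * spin (x j)) =
      fun x => ∑ k ∈ T, c k * (spin (x k) * spin (x j)) := by
    funext x
    rw [lin, Finset.sum_mul]
    exact Finset.sum_congr rfl fun k _ => by ring
  rw [coef1, h, avg_sum]
  simp only [avg_mul_left, avg_spin_mul]
  simp [hj]

theorem avg_lin_sq {n : ℕ} (T : Finset (Fin n)) (c : Fin n → ℝ) :
    cubeAverage (fun x => lin T c x * lin T c x) = ∑ j ∈ T, c j ^ 2 := by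
  rw [avg_mul_lin]
  exact Finset.sum_congr rfl fun j hj => by rw [coef1_lin T c hj, sq]

/-- Bessel inequality at level one. -/
theorem bessel {n : ℕ} (u : Cube n → ℝ) (T : Finset (Fin n)) :
    ∑ j ∈ T, coef1 u j ^ 2 ≤ cubeAverage (fun x => u x * u x) := by
  have h1 := avg_mul_lin u T (coef1 u)
  have h2 := avg_lin_sq T (coef1 u)
  have h3 : cubeAverage (fun x => 2 * (u x * lin T (coef1 u) x)) ≤
      cubeAverage (fun x => u x * u x + lin T (coef1 u) x * lin T (coef1 u) x) :=
    avg_mono fun x => by nlinarith [sq_nonneg (u x - lin T (coef1 u) x)]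
  rw [avg_mul_left, avg_add, h1, h2] at h3
  simp only [← sq] at h3 ⊢
  linarith

/-- Characteristic function of a linear form. -/
theorem avg_cos : ∀ (n : ℕ) (c : Fin n → ℝ) (a : ℝ),
    cubeAverage (fun x : Cube n => Real.cos (a + ∑ j, c j * spin (x j))) =
      Real.cos a * ∏ j, Real.cos (c j) := by
  intro n
  induction n with
  | zero => intro c a; simp [avg_zero]
  | succ n ih =>
    intro c a
    have key : ∀ b : Bool, face (0 : Fin (n + 1)) b
        (fun x : Cube (n + 1) => Real.cos (a + ∑ j, c j * spin (x j))) =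
        fun x : Cube n => Real.cos ((a + c 0 * spin b) + ∑ j, c (Fin.succ j) * spin (x j)) := by
      intro b
      funext x
      simp only [face]
      rw [Fin.sum_univ_succ]
      simp [add_assoc]
    rw [avg_split 0, key, key, ih, ih, Fin.prod_univ_succ]
    have e1 : spin true = 1 := rfl
    have e2 : spin false = -1 := rfl
    rw [e1, e2, mul_one, mul_neg_one, ← sub_eq_add_neg, Real.cos_add, Real.cos_sub]
    ring

theorem sgn_mul_self {n : ℕ} (f : Cube n → Bool) (x : Cube n) : sgn f x * sgn f x = 1 :=
  nz_spin_mul_self _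

/-- All coefficients small. -/
theorem small {n : ℕ} (f : Cube n → Bool) (h : ∀ i, |coef1 (sgn f) i| ≤ 1 / 2) :
    W1 (sgn f) ≤ 4 / 5 := by
  set c := coef1 (sgn f) with hc
  have hpi := Real.pi_pos
  have h0 : 0 ≤ cubeAverage (fun x : Cube n => Real.cos (Real.pi * lin Finset.univ c x)) := by
    have h1 := avg_cos n (fun j => Real.pi * c j) 0
    have h2 : (fun x : Cube n => Real.cos (Real.pi * lin Finset.univ c x)) =
        fun x => Real.cos (0 + ∑ j, Real.pi * c j * spin (x j)) := by
      funext x
      rw [lin, Finset.mul_sum, zero_add]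
      simp only [mul_assoc]
    rw [h2, h1, Real.cos_zero, one_mul]
    refine Finset.prod_nonneg fun j _ => ?_
    have := abs_le.1 (h j)
    exact Real.cos_nonneg_of_neg_pi_div_two_le_of_le (by nlinarith) (by nlinarith)
  have h3 : ∀ x : Cube n, Real.cos (Real.pi * lin Finset.univ c x) ≤
      (Real.pi ^ 2 / 2 - 1) + (Real.pi ^ 2 / 2 * (lin Finset.univ c x * lin Finset.univ c x)
        - Real.pi ^ 2 * (sgn f x * lin Finset.univ c x)) := by
    intro x
    set y := lin Finset.univ c x
    have e1 : Real.cos (Real.pi * y) = -Real.cos (Real.pi * |y| - Real.pi) := by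
      rw [Real.cos_sub_pi, neg_neg, ← Real.cos_abs (Real.pi * y), abs_mul, abs_of_pos hpi]
    have e2 := Real.one_sub_sq_div_two_le_cos (x := Real.pi * |y| - Real.pi)
    have e3 : sgn f x * y ≤ |y| := by
      have : |sgn f x * y| = |y| := by rw [abs_mul, sgn, nz_abs_spin, one_mul]
      rw [← this]
      exact le_abs_self _
    have e4 : |y| * |y| = y * y := abs_mul_abs_self y
    have e5 : Real.pi ^ 2 * (sgn f x * y) ≤ Real.pi ^ 2 * |y| :=
      mul_le_mul_of_nonneg_left e3 (by positivity)
    have e6 : (Real.pi * |y| - Real.pi) ^ 2 =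
        Real.pi ^ 2 * (y * y) - 2 * (Real.pi ^ 2 * |y|) + Real.pi ^ 2 := by
      rw [← e4]; ring
    rw [e1]
    linarith
  have h4 := h0.trans (avg_mono h3)
  rw [avg_add, avg_const, avg_sub, avg_mul_left, avg_mul_left, avg_lin_sq, avg_mul_lin, ← hc] at h4
  simp only [← sq] at h4
  have h5 : Real.pi ^ 2 < 10 := by nlinarith [Real.pi_lt_d2]
  have h6 : W1 (sgn f) = ∑ j, c j ^ 2 := rfl
  rw [h6]
  by_contra h7
  push Not at h7
  have h8 : 0 < Real.pi ^ 2 := by positivity
  nlinarith

/-- One coefficient controls the level one weight. -/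
theorem medium {n : ℕ} (f : Cube n → Bool) (i : Fin n) :
    W1 (sgn f) ≤ 1 - |coef1 (sgn f) i| + coef1 (sgn f) i ^ 2 := by
  set F := sgn f with hF
  set G : Cube n → ℝ := fun x => (F x + F (flipBit i x)) / 2 with hG
  have h1 : ∀ j, j ≠ i → coef1 G j = coef1 F j := by
    intro j hj
    have e1 := avg_flip i (fun x => F x * spin (x j))
    simp only [flip_ne hj] at e1
    have e2 : (fun x => G x * spin (x j)) =
        fun x => (1 / 2) * (F x * spin (x j)) + (1 / 2) * (F (flipBit i x) * spin (x j)) := by
      funext x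
      simp only [hG]
      ring
    rw [coef1, e2, avg_add, avg_mul_left, avg_mul_left, e1, coef1]
    ring
  have h2 := bessel G (Finset.univ.erase i)
  rw [Finset.sum_congr rfl fun j hj => by rw [h1 j (Finset.ne_of_mem_erase hj)]] at h2
  have h3 : W1 F = coef1 F i ^ 2 + ∑ j ∈ Finset.univ.erase i, coef1 F j ^ 2 := by
    rw [W1, Finset.add_sum_erase _ (fun j => coef1 F j ^ 2) (Finset.mem_univ i)]
  have h4 : cubeAverage (fun x => F (flipBit i x) * spin (x i)) = -coef1 F i := by
    have e1 := avg_flip i (fun x => F x * spin (x i))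
    simp only [spin_flip_self] at e1
    have e2 : (fun x => F (flipBit i x) * -spin (x i)) =
        fun x => (-1) * (F (flipBit i x) * spin (x i)) := by
      funext x; ring
    rw [e2, avg_mul_left] at e1
    rw [coef1]
    linarith
  have h5 : ∀ s : Bool, cubeAverage (fun x => G x * G x) + spin s * coef1 F i ≤ 1 := by
    intro s
    have e1 : cubeAverage (fun x => G x * G x + ((spin s / 2) * (F x * spin (x i)) -
        (spin s / 2) * (F (flipBit i x) * spin (x i)))) ≤ cubeAverage (fun _ : Cube n => 1) := by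
      refine avg_mono fun x => ?_
      simp only [hG, hF, sgn]
      cases s <;> cases f x <;> cases f (flipBit i x) <;> cases x i <;> simp [spin] <;> norm_num
    rw [avg_const, avg_add, avg_sub, avg_mul_left, avg_mul_left, h4] at e1
    have e2 : cubeAverage (fun x => F x * spin (x i)) = coef1 F i := rfl
    rw [e2] at e1
    linarith
  have k1 := h5 true
  have k2 := h5 false
  have e1 : spin true = 1 := rfl
  have e2 : spin false = -1 := rfl
  rw [e1] at k1
  rw [e2] at k2
  have : |coef1 F i| ≤ 1 - cubeAverage (fun x => G x * G x) :=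
    abs_le.2 ⟨by linarith, by linarith⟩
  linarith

end Fk

theorem fkn : FKN := by
  intro n f
  by_cases h : ∀ i, |coef1 (sgn f) i| ≤ 1 / 2
  · exact Or.inl (Fk.small f h)
  · push Not at h
    obtain ⟨i, hi⟩ := h
    rcases le_total (18 / 25) |coef1 (sgn f) i| with h1 | h1
    · exact Or.inr ⟨i, h1⟩
    · left
      have h2 := Fk.medium f i
      rw [← sq_abs] at h2
      nlinarith

end Crest.Agent.R307
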