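import Crest.Agent.R307.Defs3
import Crest.Agent.R307.Noise

/-! Row 307: static constraints (Fourier weights, level one inequalities, edge comparison). -/

set_option autoImplicit false

open Crest.CubeNoise

namespace Crest.Agent.R307

/-! ### Small facts -/

theorem st_sgn_cases {n : ℕ} (f : Cube n → Bool) (x : Cube n) : sgn f x = 1 ∨ sgn f x = -1 := by
  unfold sgn
  cases f x <;> simp [spin]

theorem st_sgn_sq {n : ℕ} (f : Cube n → Bool) (x : Cube n) : sgn f x * sgn f x = 1 :=
  nz_spin_mul_self _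

theorem st_avg_nonneg {n : ℕ} {g : Cube n → ℝ} (h : ∀ x, 0 ≤ g x) : 0 ≤ cubeAverage g := by
  have := avg_mono (g := fun _ : Cube n => (0 : ℝ)) (h := g) h
  rwa [avg_const] at this

theorem st_avg_congr {n : ℕ} {g h : Cube n → ℝ} (H : ∀ x, g x = h x) :
    cubeAverage g = cubeAverage h := congrArg _ (funext H)

theorem st_avg_lin {n : ℕ} (a b : ℝ) (g h : Cube n → ℝ) :
    cubeAverage (fun x => a * g x + b * h x) = a * cubeAverage g + b * cubeAverage h := by
  rw [avg_add, avg_mul_left, avg_mul_left]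

theorem st_coef_lin {n : ℕ} (a b : ℝ) (g h : Cube n → ℝ) (S : Finset (Fin n)) :
    coef (fun x => a * g x + b * h x) S = a * coef g S + b * coef h S := by
  unfold coef
  rw [← st_avg_lin]
  exact st_avg_congr fun x => by ring

theorem st_noise_lin {n : ℕ} (ρ a b : ℝ) (g h : Cube n → ℝ) (x : Cube n) :
    noise ρ (fun x => a * g x + b * h x) x = a * noise ρ g x + b * noise ρ h x := by
  simp only [noise_eq, Finset.mul_sum, ← Finset.sum_add_distrib]
  exact Finset.sum_congr rfl fun y _ => by ring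

theorem st_parseval_sq {n : ℕ} (u : Cube n → ℝ) :
    cubeAverage (fun x => u x ^ 2) = ∑ S : Finset (Fin n), coef u S ^ 2 := by
  simp only [sq]
  exact parseval u u

theorem st_avg_var {n : ℕ} (u : Cube n → ℝ) (m : ℝ) (hm : cubeAverage u = m) :
    cubeAverage (fun x => (u x - m) ^ 2) = cubeAverage (fun x => u x ^ 2) - m ^ 2 := by
  have h : ∀ x, (u x - m) ^ 2 = (1 * u x ^ 2 + (-2 * m) * u x) + m ^ 2 := fun x => by ring
  rw [st_avg_congr h, avg_add, st_avg_lin, avg_const, hm]
  ring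

theorem st_empty_sq {n : ℕ} (u : Cube n → ℝ) :
    cubeAverage u ^ 2 = ∑ S : Finset (Fin n), if S.card = 0 then coef u S ^ 2 else 0 := by
  simp [Finset.card_eq_zero, coef_empty]

theorem st_W1_eq {n : ℕ} (u : Cube n → ℝ) :
    W1 u = ∑ S : Finset (Fin n), if S.card = 1 then coef u S ^ 2 else 0 := by
  rw [← Finset.sum_filter]
  unfold W1
  refine Finset.sum_bij (fun i _ => ({i} : Finset (Fin n))) (fun i _ => by simp)
    (fun i _ j _ h => Finset.singleton_injective h) (fun S hS => ?_) (fun i _ => ?_)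
  · obtain ⟨i, rfl⟩ := Finset.card_eq_one.1 (Finset.mem_filter.1 hS).2
    exact ⟨i, Finset.mem_univ _, rfl⟩
  · simp [coef, coef1]

/-- The noise operator contracts the variance by `ρ²`. -/
theorem st_var_noise {n : ℕ} (u : Cube n → ℝ) {ρ : ℝ} (h0 : 0 ≤ ρ) (h1 : ρ ≤ 1) :
    cubeAverage (fun x => (noise ρ u x - cubeAverage u) ^ 2)
      ≤ ρ ^ 2 * (cubeAverage (fun x => u x ^ 2) - cubeAverage u ^ 2) := by
  rw [st_avg_var _ _ (avg_noise ρ u), st_parseval_sq, st_parseval_sq, st_empty_sq,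
    ← Finset.sum_sub_distrib, ← Finset.sum_sub_distrib, Finset.mul_sum]
  refine Finset.sum_le_sum fun S _ => ?_
  rw [coef_noise]
  split_ifs with h
  · simp [h]
  · have h2 : ρ ^ S.card ≤ ρ := by
      simpa using pow_le_pow_of_le_one h0 h1 (Nat.one_le_iff_ne_zero.2 h)
    rw [sub_zero, sub_zero, mul_pow]
    exact mul_le_mul_of_nonneg_right (pow_le_pow_left₀ (by positivity) h2 2) (sq_nonneg _)

/-! ### Parity decomposition -/

section
variable {n : ℕ} (f : Cube n → Bool) {ρ : ℝ} (h0 : 0 ≤ ρ) (h1 : ρ ≤ 1)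
include h0 h1
/-- Odd and even parts in terms of level weights. -/
theorem static_parity : ∃ b c : ℝ, 0 ≤ b ∧ 0 ≤ c ∧
    W1 (sgn f) + b + c = 1 - cubeAverage (sgn f) ^ 2 ∧
    W1 (sgn f) + b ≤ 1 - |cubeAverage (sgn f)| ∧
    cubeAverage (fun x => ((noise ρ (sgn f) x - noise ρ (sgn f) (anti x)) / 2) ^ 2)
      ≤ ρ ^ 2 * W1 (sgn f) + ρ ^ 6 * b ∧
    cubeAverage (fun x => ((noise ρ (sgn f) x + noise ρ (sgn f) (anti x)) / 2
      - cubeAverage (sgn f)) ^ 2) ≤ ρ ^ 4 * c := by
  set F := sgn f with hF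
  have hone : ∑ S : Finset (Fin n), coef F S ^ 2 = 1 := by
    rw [← st_parseval_sq, st_avg_congr (h := fun _ => (1 : ℝ)) fun x => by
      rw [sq]; exact st_sgn_sq f x, avg_const]
  have hodd : cubeAverage (fun x => F x * F (anti x)) = 1 - 2 * (W1 F +
      ∑ S : Finset (Fin n), if Odd S.card ∧ S.card ≠ 1 then coef F S ^ 2 else 0) := by
    rw [parseval F (fun x => F (anti x)), st_W1_eq, ← Finset.sum_add_distrib, Finset.mul_sum,
      ← hone, ← Finset.sum_sub_distrib]
    refine Finset.sum_congr rfl fun S _ => ?_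
    rw [coef_anti]
    rcases Nat.even_or_odd S.card with h | h
    · have h2 : S.card ≠ 1 := fun h3 => by rw [h3] at h; exact Nat.not_even_one h
      rw [h.neg_one_pow, if_neg h2, if_neg fun h3 => (Nat.not_odd_iff_even.2 h) h3.1]
      ring
    · rw [h.neg_one_pow]
      by_cases h2 : S.card = 1
      · rw [if_pos h2, if_neg fun h3 => h3.2 h2]; ring
      · rw [if_neg h2, if_pos ⟨h, h2⟩]; ring
  refine ⟨∑ S : Finset (Fin n), if Odd S.card ∧ S.card ≠ 1 then coef F S ^ 2 else 0,
    ∑ S : Finset (Fin n), if Even S.card ∧ S.card ≠ 0 then coef F S ^ 2 else 0,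
    Finset.sum_nonneg fun S _ => by split_ifs <;> positivity,
    Finset.sum_nonneg fun S _ => by split_ifs <;> positivity, ?_, ?_, ?_, ?_⟩
  · rw [st_W1_eq, st_empty_sq, ← hone, ← Finset.sum_add_distrib, ← Finset.sum_add_distrib,
      ← Finset.sum_sub_distrib]
    refine Finset.sum_congr rfl fun S _ => ?_
    rcases Nat.even_or_odd S.card with h | h
    · have h2 : S.card ≠ 1 := fun h3 => by rw [h3] at h; exact Nat.not_even_one h
      rw [if_neg h2, if_neg fun h3 => (Nat.not_odd_iff_even.2 h) h3.1]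
      by_cases h3 : S.card = 0
      · rw [if_neg fun h4 => h4.2 h3, if_pos h3]; ring
      · rw [if_pos ⟨h, h3⟩, if_neg h3]; ring
    · have h3 : S.card ≠ 0 := fun h3 => by rw [h3] at h; exact Nat.not_odd_zero h
      rw [if_neg h3, if_neg (fun h4 : Even S.card ∧ S.card ≠ 0 =>
        (Nat.not_even_iff_odd.2 h) h4.1)]
      by_cases h2 : S.card = 1
      · rw [if_pos h2, if_neg fun h4 => h4.2 h2]; ring
      · rw [if_neg h2, if_pos ⟨h, h2⟩]; ring
  · have key : ∀ s : ℝ, s = 1 ∨ s = -1 → 0 ≤ 1 + 2 * s * cubeAverage F +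
        cubeAverage (fun x => F x * F (anti x)) := by
      intro s hs
      have h2 : 0 ≤ cubeAverage (fun x => (1 + s * F x) * (1 + s * F (anti x))) :=
        st_avg_nonneg fun x => by
          rcases hs with rfl | rfl <;> rcases st_sgn_cases f x with h | h <;>
            rcases st_sgn_cases f (anti x) with h' | h' <;> rw [← hF] at h h' <;>
            rw [h, h'] <;> norm_num
      have h3 : ∀ x, (1 + s * F x) * (1 + s * F (anti x)) =
          (1 + (s * F x + s * F (anti x))) + F x * F (anti x) := fun x => by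
        rcases hs with rfl | rfl <;> ring
      rw [st_avg_congr h3, avg_add, avg_add, avg_const, st_avg_lin, avg_anti] at h2
      linarith
    have k1 := key 1 (Or.inl rfl)
    have k2 := key (-1) (Or.inr rfl)
    rw [hodd] at k1 k2
    rcases abs_cases (cubeAverage F) with h | h <;> rw [h.1] <;> linarith
  · have h2 : ∀ x, (noise ρ F x - noise ρ F (anti x)) / 2 =
        1 / 2 * noise ρ F x + (-1 / 2) * noise ρ F (anti x) := fun x => by ring
    simp only [h2]
    rw [st_parseval_sq, st_W1_eq, Finset.mul_sum, Finset.mul_sum, ← Finset.sum_add_distrib]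
    refine Finset.sum_le_sum fun S _ => ?_
    rw [st_coef_lin, coef_anti, coef_noise]
    rcases Nat.even_or_odd S.card with h | h
    · rw [h.neg_one_pow]
      have : (1 / 2 * (ρ ^ S.card * coef F S) + -1 / 2 * (1 * (ρ ^ S.card * coef F S))) ^ 2 = 0 := by
        ring
      rw [this]
      split_ifs <;> positivity
    · rw [h.neg_one_pow]
      have : (1 / 2 * (ρ ^ S.card * coef F S) + -1 / 2 * (-1 * (ρ ^ S.card * coef F S))) ^ 2 =
          (ρ ^ S.card) ^ 2 * coef F S ^ 2 := by ring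
      rw [this]
      by_cases h3 : S.card = 1
      · rw [if_pos h3, if_neg fun h4 => h4.2 h3, h3]
        exact le_of_eq (by ring)
      · rw [if_neg h3, if_pos ⟨h, h3⟩, mul_zero, zero_add, ← pow_mul]
        refine mul_le_mul_of_nonneg_right (pow_le_pow_of_le_one h0 h1 ?_) (sq_nonneg _)
        obtain ⟨k, hk⟩ := h
        omega
  · have h2 : ∀ x, (noise ρ F x + noise ρ F (anti x)) / 2 =
        1 / 2 * noise ρ F x + 1 / 2 * noise ρ F (anti x) := fun x => by ring
    simp only [h2]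
    rw [st_avg_var (fun x => 1 / 2 * noise ρ F x + 1 / 2 * noise ρ F (anti x)) _ (by
        rw [st_avg_lin, avg_anti, avg_noise]; ring),
      st_parseval_sq, st_empty_sq, Finset.mul_sum, ← Finset.sum_sub_distrib]
    refine Finset.sum_le_sum fun S _ => ?_
    rw [st_coef_lin, coef_anti, coef_noise]
    rcases Nat.even_or_odd S.card with h | h
    · rw [h.neg_one_pow]
      have : (1 / 2 * (ρ ^ S.card * coef F S) + 1 / 2 * (1 * (ρ ^ S.card * coef F S))) ^ 2 =
          (ρ ^ S.card) ^ 2 * coef F S ^ 2 := by ring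
      rw [this]
      by_cases h3 : S.card = 0
      · rw [if_pos h3, if_neg fun h4 => h4.2 h3, h3]
        exact le_of_eq (by ring)
      · rw [if_neg h3, if_pos ⟨h, h3⟩, sub_zero, ← pow_mul]
        refine mul_le_mul_of_nonneg_right (pow_le_pow_of_le_one h0 h1 ?_) (sq_nonneg _)
        obtain ⟨k, hk⟩ := h
        omega
    · have h3 : S.card ≠ 0 := fun h3 => by rw [h3] at h; exact Nat.not_odd_zero h
      rw [h.neg_one_pow, if_neg h3, if_neg (fun h4 : Even S.card ∧ S.card ≠ 0 =>
        (Nat.not_even_iff_odd.2 h) h4.1)]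
      exact le_of_eq (by ring)
end

/-! ### Level one inequalities -/

/-- Moment comparison for Rademacher sums. -/
theorem st_rademacher (φ : ℝ → ℝ) (G : ℝ → ℝ → ℝ) (hz : ∀ b, φ b ≤ G b 0)
    (hs : ∀ b a v, 0 ≤ v → (G (b - a) v + G (b + a) v) / 2 ≤ G b (a ^ 2 + v)) :
    ∀ (n : ℕ) (a : Fin n → ℝ) (b : ℝ),
      cubeAverage (fun x : Cube n => φ (b + ∑ i, a i * spin (x i))) ≤ G b (∑ i, a i ^ 2) := by
  intro n
  induction n with
  | zero =>
    intro a b
    rw [avg_zero]
    simpa using hz b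
  | succ n ih =>
    intro a b
    rw [avg_split 0, Fin.sum_univ_succ]
    refine le_trans ?_ (hs b (a 0) _ (Finset.sum_nonneg fun i _ => sq_nonneg _))
    have key : ∀ c : Bool, face (0 : Fin (n + 1)) c
        (fun x : Cube (n + 1) => φ (b + ∑ i, a i * spin (x i))) =
        fun x : Cube n => φ ((b + a 0 * spin c) + ∑ i : Fin n, a i.succ * spin (x i)) := by
      intro c
      funext x
      simp only [face, Fin.sum_univ_succ, Fin.insertNth_zero', Fin.cons_zero, Fin.cons_succ,
        add_assoc]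
    rw [key, key]
    have e1 : b + a 0 * spin true = b + a 0 := by simp [spin]
    have e2 : b + a 0 * spin false = b - a 0 := by simp [spin, sub_eq_add_neg]
    rw [e1, e2]
    have := ih (fun i => a i.succ) (b - a 0)
    have := ih (fun i => a i.succ) (b + a 0)
    linarith

theorem st_avg_spin {n : ℕ} (i : Fin n) : cubeAverage (fun x : Cube n => spin (x i)) = 0 := by
  have h := avg_anti (fun x : Cube n => spin (x i))
  have h2 : ∀ x : Cube n, spin (anti x i) = -1 * spin (x i) := fun x => by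
    rw [anti, nz_spin_not]; ring
  rw [st_avg_congr h2, avg_mul_left] at h
  linarith

/-- The abstract level one inequality. -/
theorem st_level_one {n : ℕ} (f : Cube n → Bool) (φ : ℝ → ℝ) (hφ : ∀ y, 0 ≤ φ y) {b z M A B : ℝ}
    (hB : 0 < B) (htan : ∀ y, A + B * (y - z) ≤ φ (b + y))
    (hM : ∀ a : Fin n → ℝ, ∑ i, a i ^ 2 = 1 →
      cubeAverage (fun x : Cube n => φ (b + ∑ i, a i * spin (x i))) ≤ M)
    (h : M ≤ (1 - cubeAverage (sgn f)) / 2 * A) :
    W1 (sgn f) ≤ (1 - cubeAverage (sgn f)) ^ 2 * z ^ 2 := by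
  set F := sgn f with hF
  have hW : 0 ≤ W1 F := Finset.sum_nonneg fun i _ => sq_nonneg _
  rcases hW.eq_or_lt with h0 | h0
  · rw [← h0]; positivity
  obtain ⟨w, hw, hww⟩ : ∃ w : ℝ, 0 < w ∧ w ^ 2 = W1 F :=
    ⟨Real.sqrt (W1 F), Real.sqrt_pos.2 h0, Real.sq_sqrt hW⟩
  set a : Fin n → ℝ := fun i => -coef1 F i / w with ha
  have ha1 : ∑ i, a i ^ 2 = 1 := by
    simp only [ha, div_pow, neg_sq, ← Finset.sum_div]
    rw [hww]
    exact div_self h0.ne'
  set X : Cube n → ℝ := fun x => ∑ i, a i * spin (x i) with hX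
  have hX0 : cubeAverage X = 0 := by
    rw [hX, avg_sum]
    exact Finset.sum_eq_zero fun i _ => by rw [avg_mul_left, st_avg_spin, mul_zero]
  have hFX : cubeAverage (fun x => F x * X x) = -w := by
    have h2 : ∀ x, F x * X x = ∑ i, a i * (F x * spin (x i)) := fun x => by
      rw [hX, Finset.mul_sum]
      exact Finset.sum_congr rfl fun i _ => by ring
    rw [st_avg_congr h2, avg_sum]
    have h3 : ∀ i, cubeAverage (fun x => a i * (F x * spin (x i))) = -coef1 F i ^ 2 / w :=
      fun i => by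
        rw [avg_mul_left]
        change a i * coef1 F i = _
        rw [ha]
        ring
    simp only [h3, ← Finset.sum_div, Finset.sum_neg_distrib]
    change -W1 F / w = -w
    rw [← hww]
    field_simp
  have h4 : cubeAverage (fun x => (1 - F x) / 2 * (A + B * (X x - z))) ≤ M := by
    refine le_trans (avg_mono fun x => ?_) (hM a ha1)
    rcases st_sgn_cases f x with h5 | h5 <;> rw [← hF] at h5 <;> rw [h5]
    · simpa using hφ _
    · have := htan (X x)
      norm_num
      exact this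
  have h5 : ∀ x, (1 - F x) / 2 * (A + B * (X x - z)) =
      ((A - B * z) / 2 + ((-(A - B * z) / 2) * F x + (B / 2) * X x))
        + (-B / 2) * (F x * X x) := fun x => by ring
  rw [st_avg_congr h5, avg_add, avg_add, avg_const, st_avg_lin, avg_mul_left, hX0, hFX] at h4
  have h6 : w ≤ (1 - cubeAverage F) * z := by
    have : B * w ≤ B * ((1 - cubeAverage F) * z) := by linarith
    exact le_of_mul_le_mul_left this hB
  rw [← hww, ← mul_pow]
  exact pow_le_pow_left₀ hw.le h6 2

/-- Sixth moment level-one inequality. -/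
theorem level_one_six {n : ℕ} (f : Cube n → Bool) {b z : ℝ} (hb : 0 ≤ b) (hz : 0 ≤ z)
    (h : b ^ 6 + 15 * b ^ 4 + 45 * b ^ 2 + 15 ≤ (1 - cubeAverage (sgn f)) / 2 * (z + b) ^ 6) :
    W1 (sgn f) ≤ (1 - cubeAverage (sgn f)) ^ 2 * z ^ 2 := by
  have ht : 0 < z + b := by
    refine lt_of_le_of_ne (by positivity) fun h0 => ?_
    rw [← h0] at h
    have : (0 : ℝ) < b ^ 6 + 15 * b ^ 4 + 45 * b ^ 2 + 15 := by positivity
    simp at h
    linarith
  refine st_level_one f (fun y => y ^ 6) (fun y => by positivity) (b := b)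
    (B := 6 * (z + b) ^ 5)
    (by positivity) (fun y => ?_) (fun a ha => ?_) h
  · have key : ∀ s t : ℝ, t ^ 6 + 6 * t ^ 5 * (s - t) ≤ s ^ 6 := fun s t => by
      have : s ^ 6 - (t ^ 6 + 6 * t ^ 5 * (s - t)) =
          (s - t) ^ 2 * ((s ^ 2 + s * t) ^ 2 + 2 * t ^ 2 * (s + t) ^ 2 + 3 * t ^ 4) := by ring
      have h2 : 0 ≤ (s - t) ^ 2 * ((s ^ 2 + s * t) ^ 2 + 2 * t ^ 2 * (s + t) ^ 2 + 3 * t ^ 4) := by
        positivity
      linarith
    have := key (b + y) (z + b)
    rwa [show b + y - (z + b) = y - z by ring] at this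
  · have := st_rademacher (fun y => y ^ 6)
      (fun b v => b ^ 6 + 15 * b ^ 4 * v + 45 * b ^ 2 * v ^ 2 + 15 * v ^ 3)
      (fun b => by simp) (fun b a v hv => by
        have : 0 ≤ 30 * b ^ 2 * a ^ 4 + 30 * v * a ^ 4 + 14 * a ^ 6 := by positivity
        nlinarith) n a b
    rw [ha] at this
    simpa using this

/-- Fourth moment level-one inequality. -/
theorem level_one_four {n : ℕ} (f : Cube n → Bool) {b z : ℝ} (hb : 0 ≤ b) (hz : 0 ≤ z)
    (h : b ^ 4 + 6 * b ^ 2 + 3 ≤ (1 - cubeAverage (sgn f)) / 2 * (z + b) ^ 4) :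
    W1 (sgn f) ≤ (1 - cubeAverage (sgn f)) ^ 2 * z ^ 2 := by
  have ht : 0 < z + b := by
    refine lt_of_le_of_ne (by positivity) fun h0 => ?_
    rw [← h0] at h
    have : (0 : ℝ) < b ^ 4 + 6 * b ^ 2 + 3 := by positivity
    simp at h
    linarith
  refine st_level_one f (fun y => y ^ 4) (fun y => by positivity) (b := b)
    (B := 4 * (z + b) ^ 3)
    (by positivity) (fun y => ?_) (fun a ha => ?_) h
  · have key : ∀ s t : ℝ, t ^ 4 + 4 * t ^ 3 * (s - t) ≤ s ^ 4 := fun s t => by
      have : s ^ 4 - (t ^ 4 + 4 * t ^ 3 * (s - t)) =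
          (s - t) ^ 2 * ((s + t) ^ 2 + 2 * t ^ 2) := by ring
      have h2 : 0 ≤ (s - t) ^ 2 * ((s + t) ^ 2 + 2 * t ^ 2) := by positivity
      linarith
    have := key (b + y) (z + b)
    rwa [show b + y - (z + b) = y - z by ring] at this
  · have := st_rademacher (fun y => y ^ 4) (fun b v => b ^ 4 + 6 * b ^ 2 * v + 3 * v ^ 2)
      (fun b => by simp) (fun b a v hv => by
        have : 0 ≤ 2 * a ^ 4 := by positivity
        nlinarith) n a b
    rw [ha] at this
    simpa using this

/-! ### Splitting one coordinate -/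

/-- Static constraints after splitting coordinate `i`. -/
theorem static_face {n : ℕ} (f : Cube (n + 1) → Bool) (i : Fin (n + 1)) {ρ : ℝ} (h0 : 0 ≤ ρ)
    (h1 : ρ ≤ 1) :
    ∃ π : ℝ, |coef1 (sgn f) i| ≤ π ∧ |cubeAverage (sgn f)| ≤ 1 - π ∧
    cubeAverage (face i true (noise ρ (sgn f))) = cubeAverage (sgn f) + ρ * coef1 (sgn f) i ∧
    cubeAverage (face i false (noise ρ (sgn f))) = cubeAverage (sgn f) - ρ * coef1 (sgn f) i ∧
    cubeAverage (fun x => ((face i true (noise ρ (sgn f)) x + face i false (noise ρ (sgn f)) x) / 2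
        - cubeAverage (sgn f)) ^ 2) ≤ ρ ^ 2 * (1 - π - cubeAverage (sgn f) ^ 2) ∧
    cubeAverage (fun x => ((face i true (noise ρ (sgn f)) x - face i false (noise ρ (sgn f)) x) / 2
        - ρ * coef1 (sgn f) i) ^ 2) ≤ ρ ^ 4 * (π - coef1 (sgn f) i ^ 2) := by
  set F := sgn f with hF
  set p : Cube n → ℝ := fun x => 1 / 2 * face i true F x + 1 / 2 * face i false F x with hp
  set d : Cube n → ℝ := fun x => 1 / 2 * face i true F x + (-1 / 2) * face i false F x with hd
  have hc : ∀ (c : Bool) (x : Cube n), face i c F x = 1 ∨ face i c F x = -1 :=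
    fun c x => st_sgn_cases f _
  have hm : cubeAverage F = cubeAverage p := by
    rw [avg_split i F, hp, st_avg_lin]; ring
  have hβ : coef1 F i = cubeAverage d := by
    have h2 : coef1 F i = cubeAverage (fun x => spin (x i) * F x) :=
      st_avg_congr fun x => mul_comm _ _
    rw [h2, avg_mul_spin, hd, st_avg_lin]; ring
  have hpd : cubeAverage (fun x => p x ^ 2) = 1 - cubeAverage (fun x => d x ^ 2) := by
    have h2 : ∀ x, p x ^ 2 = 1 - d x ^ 2 := fun x => by
      simp only [hp, hd]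
      rcases hc true x with h | h <;> rcases hc false x with h' | h' <;> rw [h, h'] <;> norm_num
    rw [st_avg_congr h2, avg_sub, avg_const]
  have habs : ∀ u : Cube n → ℝ, (∀ x, u x ≤ u x ^ 2 ∧ -1 * u x ≤ u x ^ 2) →
      |cubeAverage u| ≤ cubeAverage (fun x => u x ^ 2) := fun u hu => by
    have k1 := avg_mono fun x => (hu x).1
    have k2 := avg_mono fun x => (hu x).2
    rw [avg_mul_left] at k2
    exact abs_le.2 ⟨by linarith, k1⟩
  have ht : ∀ x, face i true (noise ρ F) x = 1 * noise ρ p x + ρ * noise ρ d x := fun x => by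
    rw [noise_face, hp, hd, st_noise_lin, st_noise_lin, Bool.not_true]; ring
  have hf : ∀ x, face i false (noise ρ F) x = 1 * noise ρ p x + (-ρ) * noise ρ d x := fun x => by
    rw [noise_face, hp, hd, st_noise_lin, st_noise_lin, Bool.not_false]; ring
  refine ⟨cubeAverage (fun x => d x ^ 2), ?_, ?_, ?_, ?_, ?_, ?_⟩
  · rw [hβ]
    refine habs d fun x => ?_
    simp only [hd]
    rcases hc true x with h | h <;> rcases hc false x with h' | h' <;> rw [h, h'] <;> norm_num
  · rw [hm, ← hpd]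
    refine habs p fun x => ?_
    simp only [hp]
    rcases hc true x with h | h <;> rcases hc false x with h' | h' <;> rw [h, h'] <;> norm_num
  · rw [st_avg_congr ht, st_avg_lin, avg_noise, avg_noise, hm, hβ]; ring
  · rw [st_avg_congr hf, st_avg_lin, avg_noise, avg_noise, hm, hβ]; ring
  · rw [hm, ← hpd]
    refine le_trans (le_of_eq (st_avg_congr fun x => ?_)) (st_var_noise p h0 h1)
    rw [ht, hf]; ring
  · have h2 : ∀ x, ((face i true (noise ρ F) x - face i false (noise ρ F) x) / 2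
        - ρ * coef1 F i) ^ 2 = ρ ^ 2 * (noise ρ d x - cubeAverage d) ^ 2 := fun x => by
      rw [ht, hf, hβ]; ring
    rw [st_avg_congr h2, avg_mul_left, hβ]
    refine le_trans (mul_le_mul_of_nonneg_left (st_var_noise d h0 h1) (sq_nonneg ρ))
      (le_of_eq (by ring))

/-! ### Half-angle parametrisation -/

theorem hel_half_angle {τ : ℝ} (hτ : |τ| < 1) :
    hel (2 * τ / (1 + τ ^ 2)) = (1 - τ ^ 2) / (1 + τ ^ 2) := by
  have h1 : τ ^ 2 < 1 := (sq_lt_one_iff_abs_lt_one τ).2 hτ
  have h2 : 0 < 1 + τ ^ 2 := by positivity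
  unfold hel
  rw [Real.sqrt_eq_iff_mul_self_eq_of_pos (div_pos (by linarith) h2)]
  field_simp
  ring

/-- Edge comparison in the half-angle parameter. -/
theorem edge_ge_sq (U U' : ℝ → ℝ) (hU : ∀ τ, |τ| < 1 → HasDerivAt U (U' τ) τ)
    (hb : ∀ τ, |τ| < 1 → U' τ ^ 2 * (1 - τ ^ 4) ≤ 4) {τ σ : ℝ} (hτ : |τ| < 1) (hσ : |σ| < 1) :
    ((U τ - U σ) / 2) ^ 2 ≤ eH (2 * τ / (1 + τ ^ 2)) (2 * σ / (1 + σ ^ 2)) := by
  have hp : ∀ t : ℝ, |t| < 1 → 2 * t / (1 + t ^ 2) / hel (2 * t / (1 + t ^ 2))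
      = 2 * t / (1 - t ^ 2) := fun t ht => by
    have h1 : t ^ 2 < 1 := (sq_lt_one_iff_abs_lt_one t).2 ht
    have h2 : 0 < 1 + t ^ 2 := by positivity
    have h3 : 0 < 1 - t ^ 2 := by linarith
    rw [hel_half_angle ht]
    field_simp
  have hmono : ∀ l : ℝ, MonotoneOn (fun t : ℝ => l ^ 2 * (2 * t / (1 - t ^ 2)) - 2 * l * U t
      + 2 * t / (1 + t ^ 2)) (Set.Ioo (-1) 1) := by
    intro l
    have hd : ∀ t ∈ Set.Ioo (-1 : ℝ) 1, HasDerivAt (fun t : ℝ => l ^ 2 * (2 * t / (1 - t ^ 2))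
        - 2 * l * U t + 2 * t / (1 + t ^ 2))
        (l ^ 2 * (2 * (1 + t ^ 2) / (1 - t ^ 2) ^ 2) - 2 * l * U' t
          + 2 * (1 - t ^ 2) / (1 + t ^ 2) ^ 2) t := by
      intro t ht
      have ht' : |t| < 1 := abs_lt.2 ht
      have h1 : t ^ 2 < 1 := (sq_lt_one_iff_abs_lt_one t).2 ht'
      have h2 : 0 < 1 + t ^ 2 := by positivity
      have h3 : 0 < 1 - t ^ 2 := by linarith
      have d0 : HasDerivAt (fun t : ℝ => 2 * t) 2 t := by
        simpa using (hasDerivAt_id t).const_mul (2 : ℝ)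
      have d1 : HasDerivAt (fun t : ℝ => t ^ 2) (2 * t) t := by
        simpa using hasDerivAt_pow 2 t
      have d2 := d0.div (d1.const_sub 1) h3.ne'
      have d3 := d0.div (d1.const_add 1) h2.ne'
      refine HasDerivAt.congr_deriv (((d2.const_mul (l ^ 2)).sub
        ((hU t ht').const_mul (2 * l))).add d3) ?_
      ring
    refine monotoneOn_of_deriv_nonneg (convex_Ioo _ _)
      (fun t ht => (hd t ht).continuousAt.continuousWithinAt)
      (fun t ht => (hd t (interior_subset ht)).differentiableAt.differentiableWithinAt)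
      fun t ht => ?_
    have ht := interior_subset ht
    rw [(hd t ht).deriv]
    have ht' : |t| < 1 := abs_lt.2 ht
    have h1 : t ^ 2 < 1 := (sq_lt_one_iff_abs_lt_one t).2 ht'
    have h2 : 0 < 1 + t ^ 2 := by positivity
    have h3 : 0 < 1 - t ^ 2 := by linarith
    set P := 2 * (1 + t ^ 2) / (1 - t ^ 2) ^ 2 with hP
    set Q := 2 * (1 - t ^ 2) / (1 + t ^ 2) ^ 2 with hQ
    have hP0 : 0 < P := by positivity
    have hPQ : U' t ^ 2 ≤ P * Q := by
      have h4 : P * Q = 4 / (1 - t ^ 4) := by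
        rw [hP, hQ, show 1 - t ^ 4 = (1 - t ^ 2) * (1 + t ^ 2) by ring]
        field_simp
        ring
      rw [h4, le_div_iff₀ (by nlinarith)]
      exact hb t ht'
    have h5 : 0 ≤ P * (l ^ 2 * P - 2 * l * U' t + Q) := by nlinarith [sq_nonneg (l * P - U' t)]
    exact nonneg_of_mul_nonneg_right h5 hP0
  have main : ∀ s t : ℝ, |s| < 1 → |t| < 1 → s ≤ t → (U t - U s) ^ 2 ≤
      (2 * t / (1 + t ^ 2) - 2 * s / (1 + s ^ 2)) * (2 * t / (1 - t ^ 2) - 2 * s / (1 - s ^ 2)) := by
    intro s t hs ht hst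
    have := discrim_le_zero (a := 2 * t / (1 - t ^ 2) - 2 * s / (1 - s ^ 2))
      (b := -2 * (U t - U s)) (c := 2 * t / (1 + t ^ 2) - 2 * s / (1 + s ^ 2)) fun l => by
        have := hmono l (abs_lt.1 hs) (abs_lt.1 ht) hst
        simp only at this
        linarith
    unfold discrim at this
    linarith
  unfold eH edge
  simp only
  rw [hp τ hτ, hp σ hσ]
  rcases le_total σ τ with h | h
  · have := main σ τ hσ hτ h
    linarith
  · have := main τ σ hτ hσ h
    linarith

/-- The half-angle parameter. -/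
theorem exists_half_angle {g : ℝ} (hg : |g| < 1) :
    ∃ τ : ℝ, |τ| < 1 ∧ g = 2 * τ / (1 + τ ^ 2) ∧ hel g = (1 - τ ^ 2) / (1 + τ ^ 2) := by
  have h1 : g ^ 2 < 1 := (sq_lt_one_iff_abs_lt_one g).2 hg
  have hs : 0 < hel g := Real.sqrt_pos.2 (by linarith)
  have hss : hel g ^ 2 = 1 - g ^ 2 := Real.sq_sqrt (by linarith)
  have h2 : |g / (1 + hel g)| < 1 := by
    rw [abs_div, abs_of_pos (by linarith : 0 < 1 + hel g), div_lt_one (by linarith)]
    linarith
  have h3 : g = 2 * (g / (1 + hel g)) / (1 + (g / (1 + hel g)) ^ 2) := by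
    rw [eq_div_iff (by positivity)]
    field_simp
    linear_combination (g) * hss
  refine ⟨g / (1 + hel g), h2, h3, ?_⟩
  rw [← hel_half_angle h2, ← h3]

end Crest.Agent.R307
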