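import Crest.Agent.R307.Defs4
import Crest.Agent.R307.FKN
import Crest.Agent.R307.Static

/-! Row 307: the biased alternative, deduced from the unbiased one by adding a coordinate. -/

set_option autoImplicit false

open Crest.CubeNoise

namespace Crest.Agent.R307

namespace Fk2

/-- The odd extension `x₀ f (x₀ x)`. -/
def odd {n : ℕ} (f : Cube n → Bool) (x : Cube (n + 1)) : Bool :=
  if x 0 then f (Fin.tail x) else !f (anti (Fin.tail x))

theorem coef_zero {n : ℕ} (f : Cube n → Bool) :
    coef1 (sgn (odd f)) 0 = cubeAverage (sgn f) := by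
  have h1 : face (0 : Fin (n + 1)) true (fun x => sgn (odd f) x * spin (x 0)) = sgn f := by
    funext x
    simp [face, sgn, odd, Fin.insertNth_zero', spin]
  have h2 : face (0 : Fin (n + 1)) false (fun x => sgn (odd f) x * spin (x 0))
      = fun x => sgn f (anti x) := by
    funext x
    simp only [face, sgn, odd, Fin.insertNth_zero', Fin.cons_zero, Fin.tail_cons,
      Bool.false_eq_true, if_false, nz_spin_not]
    simp [spin]
  rw [coef1, avg_split 0, h1, h2, avg_anti]
  ring

theorem coef_succ {n : ℕ} (f : Cube n → Bool) (j : Fin n) :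
    coef1 (sgn (odd f)) j.succ = coef1 (sgn f) j := by
  have h1 : face (0 : Fin (n + 1)) true (fun x => sgn (odd f) x * spin (x j.succ))
      = fun x => sgn f x * spin (x j) := by
    funext x
    simp [face, sgn, odd, Fin.insertNth_zero']
  have h2 : face (0 : Fin (n + 1)) false (fun x => sgn (odd f) x * spin (x j.succ))
      = fun x => (fun y => sgn f y * spin (y j)) (anti x) := by
    funext x
    simp only [face, sgn, odd, Fin.insertNth_zero', Fin.cons_zero, Fin.tail_cons, Fin.cons_succ,
      Bool.false_eq_true, if_false, nz_spin_not, anti]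
    ring
  rw [coef1, avg_split 0, h1, h2, avg_anti (fun y => sgn f y * spin (y j)), coef1]
  ring

theorem W1_odd {n : ℕ} (f : Cube n → Bool) :
    W1 (sgn (odd f)) = cubeAverage (sgn f) ^ 2 + W1 (sgn f) := by
  simp only [W1, Fin.sum_univ_succ, coef_zero, coef_succ]

end Fk2

theorem fkn2 : FKN2 := by
  intro n f h0 h1
  rcases fkn (n + 1) (Fk2.odd f) with h | ⟨i, h⟩
  · left
    rw [Fk2.W1_odd] at h
    linarith
  · right
    refine Fin.cases (motive := fun i => 18 / 25 ≤ |coef1 (sgn (Fk2.odd f)) i| →
      ∃ i, 18 / 25 ≤ |coef1 (sgn f) i|) (fun h => ?_) (fun j h => ?_) i h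
    · rw [Fk2.coef_zero, abs_of_nonneg h0] at h
      exact absurd h (by linarith)
    · rw [Fk2.coef_succ] at h
      exact ⟨j, h⟩

theorem w1_le (n : ℕ) (f : Cube n → Bool) : W1 (sgn f) ≤ 1 - |cubeAverage (sgn f)| := by
  obtain ⟨b, c, hb, -, -, h, -⟩ := static_parity f (ρ := 0) le_rfl zero_le_one
  linarith

theorem star_of (hL : RegL) (h1 : RegH1) (h2 : RegH2) (h3 : StarH3) : Star :=
  star_of_reg hL h1 h2 h3 fkn2 w1_le

end Crest.Agent.R307
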