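import Crest.Agent.R307.H1Def

/-! Row 307, regime H1: the certificates (generated by notes307/h1). -/

set_option autoImplicit false

namespace Crest.Agent.R307.H1

open Crest.Agent.Lib.PolyBB

def c0 : CT :=
  .z [125000, 15626, 15626, 4417476, 140, 155, -507982, -666651, -254058, 2740866, -335816,
    3132754, 4401092, -1713, 4394166, -528, -181, 196, 99, 476, 28, 5750356, 188680, -186296]
    (.split 0 1 0 (.split 0 2 (-1) .leaf (.split 0 4 (-1) .leaf .leaf)) (.split 0 2 1 (.split 0 4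
    1 .leaf .leaf) .leaf)) (.split 0 1 0 .leaf (.split 0 2 1 (.split 0 4 1 (.split 0 7 1 (.split 0
    12 1 .leaf .leaf) .leaf) .leaf) .leaf)) .leaf (.split 1 1 0 .leaf (.split 1 2 1 .leaf .leaf))
    (.split 1 1 0 .leaf (.split 1 2 1 (.split 1 4 1 .leaf .leaf) .leaf))

def c1 : CT :=
  .z [244000, 58948, 60133, 4532392, 132, 153, -296249, -523198, -512544, 2617778, -672517,
    3251220, 4471318, -6092, 4445659, 34722, -86, 286, 194, 566, 28, 5723935, 493327, -118708]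
    (.split 0 1 0 (.split 0 2 (-1) (.split 0 4 (-3) .leaf (.split 0 5 (-3) .leaf .leaf)) .leaf)
    (.split 0 2 1 (.split 0 4 1 (.split 0 7 1 .leaf .leaf) .leaf) .leaf)) (.split 0 1 0 .leaf
    (.split 0 2 1 (.split 0 4 1 (.split 0 7 1 .leaf .leaf) .leaf) (.split 0 4 3 (.split 0 5 3
    .leaf .leaf) .leaf))) .leaf (.split 1 1 0 .leaf (.split 1 2 1 .leaf (.split 1 4 3 .leaf
    .leaf))) (.split 1 1 0 .leaf (.split 1 2 1 (.split 1 4 1 .leaf .leaf) .leaf))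

def c2 : CT :=
  .z [365000, 131258, 135225, 4533667, 129, 148, -285495, -442251, -792931, 2715406, -1063549,
    3407581, 4391346, 22957, 4328750, 103804, 3, 368, 283, 648, 28, 5590514, 481111, 68071]
    (.split 0 1 0 (.split 0 2 (-1) (.split 0 4 (-3) .leaf (.split 0 5 (-3) .leaf .leaf)) .leaf)
    (.split 0 2 1 (.split 0 4 1 (.split 0 7 1 .leaf .leaf) .leaf) .leaf)) (.split 0 1 0 .leaf
    (.split 0 2 1 (.split 0 4 1 (.split 0 7 1 .leaf .leaf) .leaf) (.split 0 4 3 (.split 0 5 3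
    .leaf .leaf) .leaf))) .leaf (.split 1 1 0 .leaf (.split 1 2 1 .leaf (.split 1 4 3 .leaf
    .leaf))) .leaf

def c3 : CT :=
  .z [493000, 235971, 250342, 4612532, 126, 141, -231965, -304267, -1124473, 2845290, -1460677,
    3465406, 4337215, 85173, 4241268, 167359, 86, 440, 366, 720, 28, 5267120, 238174, -139520]
    (.split 0 1 0 (.split 0 2 (-1) (.split 0 4 (-3) .leaf (.split 0 5 (-3) (.split 0 3 (-2) .leaf
    .leaf) .leaf)) (.split 0 4 (-1) .leaf .leaf)) (.split 0 2 1 (.split 0 4 1 (.split 0 7 1 .leaf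
    .leaf) .leaf) .leaf)) (.split 0 1 0 .leaf (.split 0 2 1 (.split 0 4 1 (.split 0 7 1 .leaf
    .leaf) .leaf) (.split 0 4 3 (.split 0 5 3 .leaf .leaf) .leaf))) .leaf (.split 1 1 0 .leaf
    (.split 1 2 1 (.split 1 4 1 .leaf .leaf) .leaf)) (.split 1 1 0 .leaf (.split 1 2 1 .leaf
    .leaf))

def c4 : CT :=
  .z [650000, 410196, 435177, 4927109, 124, 135, -89692, -65926, -1594512, 3055616, -1837608,
    3391551, 4401548, 187975, 4346324, 185054, 158, 505, 438, 785, 28, 5328433, 281488, 7377]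
    (.split 0 1 0 (.split 0 2 (-1) (.split 0 4 (-3) .leaf (.split 0 5 (-3) (.split 0 3 (-2)
    (.split 0 7 (-5) .leaf .leaf) .leaf) .leaf)) (.split 0 4 (-1) (.split 0 5 (-2) .leaf .leaf)
    .leaf)) (.split 0 2 1 (.split 0 4 1 .leaf (.split 0 5 2 (.split 0 3 1 .leaf .leaf) .leaf))
    .leaf)) (.split 0 1 0 (.split 0 2 (-1) .leaf (.split 0 4 (-1) .leaf .leaf)) (.split 0 2 1
    (.split 0 4 1 .leaf .leaf) (.split 0 4 3 (.split 0 5 3 .leaf (.split 0 3 2 .leaf .leaf))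
    .leaf))) .leaf (.split 1 1 0 .leaf (.split 1 2 1 (.split 1 4 1 .leaf .leaf) .leaf)) (.split 1
    1 0 .leaf (.split 1 2 1 .leaf .leaf))

def c5 : CT :=
  .z [755000, 548102, 592828, 5413275, 124, 130, 143562, 246520, -1942209, 3227551, -2274607,
    3596947, 4678941, 264420, 4587659, 281424, 223, 534, 503, 814, 28, 5620037, 395075, 246510]
    (.split 0 1 0 (.split 0 2 (-1) (.split 0 4 (-3) .leaf (.split 0 5 (-3) (.split 0 3 (-2)
    (.split 0 7 (-5) .leaf .leaf) .leaf) .leaf)) .leaf) (.split 0 2 1 (.split 0 4 1 .leaf (.split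
    0 5 2 (.split 0 3 1 .leaf .leaf) .leaf)) .leaf)) (.split 0 1 0 (.split 0 2 (-1) .leaf (.split
    0 4 (-1) .leaf (.split 0 7 (-1) .leaf (.split 0 12 (-1) .leaf .leaf)))) (.split 0 2 1 (.split
    0 4 1 .leaf (.split 0 5 2 (.split 0 3 1 .leaf .leaf) .leaf)) (.split 0 4 3 (.split 0 5 3 .leaf
    (.split 0 3 2 .leaf .leaf)) .leaf))) .leaf (.split 1 1 0 .leaf (.split 1 2 1 (.split 1 4 1
    .leaf .leaf) .leaf)) (.split 1 1 0 .leaf .leaf)

def c6 : CT :=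
  .z [843000, 686619, 735523, 5687892, 125, 126, 203385, 417095, -2228221, 3352286, -2435715,
    3490556, 4742581, 293919, 4729216, 254650, 251, 560, 531, 840, 28, 5890124, 501331, 475971]
    (.split 0 1 0 (.split 0 2 (-1) (.split 0 4 (-3) .leaf (.split 0 5 (-3) (.split 0 3 (-2) .leaf
    .leaf) (.split 0 9 (-5) .leaf .leaf))) .leaf) (.split 0 2 1 (.split 0 4 1 .leaf (.split 0 5 2
    (.split 0 3 1 .leaf .leaf) .leaf)) .leaf)) (.split 0 1 0 (.split 0 2 (-1) .leaf (.split 0 4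
    (-1) .leaf (.split 0 7 (-1) .leaf .leaf))) (.split 0 2 1 (.split 0 4 1 .leaf (.split 0 5 2
    (.split 0 3 1 .leaf .leaf) .leaf)) (.split 0 4 3 (.split 0 5 3 .leaf (.split 0 3 2 .leaf
    .leaf)) .leaf))) .leaf (.split 1 1 0 .leaf (.split 1 2 1 (.split 1 4 1 .leaf .leaf) .leaf))
    (.split 1 1 0 .leaf (.split 1 2 1 .leaf .leaf))

def c7 : CT :=
  .z [888000, 754589, 824030, 6094889, 127, 127, 392940, 610796, -2388835, 3469162, -2656045,
    3679879, 5052423, 320631, 5021613, 272721, 278, 573, 558, 853, 28, 6245126, 627588, 627588]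
    (.split 0 1 0 (.split 0 2 (-1) (.split 0 4 (-3) (.split 0 7 (-6) .leaf .leaf) (.split 0 5 (-3)
    .leaf .leaf)) .leaf) (.split 0 2 1 (.split 0 4 1 .leaf (.split 0 5 2 (.split 0 3 1 .leaf
    .leaf) .leaf)) .leaf)) (.split 0 1 0 (.split 0 2 (-1) .leaf (.split 0 4 (-1) .leaf (.split 0 7
    (-1) .leaf .leaf))) (.split 0 2 1 (.split 0 4 1 .leaf (.split 0 5 2 .leaf .leaf)) (.split 0 4
    3 (.split 0 5 3 .leaf (.split 0 3 2 .leaf .leaf)) .leaf))) .leaf (.split 1 1 0 (.split 1 2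
    (-1) .leaf .leaf) .leaf) (.split 1 1 0 (.split 1 2 (-1) .leaf .leaf) .leaf)

def c8 : CT :=
  .z [934000, 834792, 911614, 6367437, 129, 126, 477032, 766757, -2541260, 3566985, -2748968,
    3654665, 5209517, 333851, 5226888, 240871, 291, 584, 571, 864, 28, 6489413, 708690, 785243]
    (.split 0 1 0 (.split 0 2 (-1) (.split 0 4 (-3) (.split 0 7 (-6) .leaf (.split 0 5 (-4) .leaf
    .leaf)) (.split 0 5 (-3) (.split 0 3 (-2) .leaf .leaf) .leaf)) .leaf) (.split 0 2 1 (.split 0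
    4 1 .leaf (.split 0 5 2 .leaf .leaf)) (.split 0 4 3 (.split 0 5 3 .leaf .leaf) .leaf)))
    (.split 0 1 0 (.split 0 2 (-1) .leaf (.split 0 4 (-1) .leaf .leaf)) (.split 0 2 1 (.split 0 4
    1 .leaf (.split 0 5 2 .leaf .leaf)) (.split 0 4 3 (.split 0 5 3 .leaf (.split 0 3 2 .leaf
    .leaf)) .leaf))) .leaf (.split 1 1 0 (.split 1 2 (-1) .leaf .leaf) .leaf) (.split 1 1 0
    (.split 1 2 (-1) .leaf .leaf) (.split 1 2 1 .leaf .leaf))

def c9 : CT :=
  .z [1069000, 1120355, 1165618, 6879359, 129, 130, 807181, 955521, -3290455, 4098784, -3291162,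
    3977164, 5183378, 667839, 5285191, 503056, 555, 710, 695, 850, 14, 6749272, 857926, 833017]
    (.split 0 1 0 (.split 0 2 (-1) (.split 0 4 (-3) .leaf (.split 0 5 (-3) .leaf .leaf)) .leaf)
    (.split 0 2 1 (.split 0 4 1 .leaf (.split 0 5 2 .leaf .leaf)) (.split 0 4 3 (.split 0 5 3
    .leaf .leaf) .leaf))) (.split 0 1 0 (.split 0 2 (-1) .leaf (.split 0 4 (-1) .leaf (.split 0 7
    (-1) .leaf .leaf))) (.split 0 2 1 (.split 0 4 1 .leaf (.split 0 5 2 .leaf .leaf)) (.split 0 4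
    3 (.split 0 5 3 .leaf .leaf) .leaf))) .leaf (.split 1 1 0 (.split 1 2 (-1) .leaf .leaf) .leaf)
    (.split 1 1 0 (.split 1 2 (-1) .leaf .leaf) .leaf)

def c10 : CT :=
  .z [1120000, 1235864, 1273218, 7161862, 130, 130, 896934, 1090484, -3466285, 4165375, -3369581,
    3940958, 5301805, 664086, 5494735, 454736, 568, 722, 708, 862, 14, 7041930, 1004550, 1004550]
    (.split 0 1 0 (.split 0 2 (-1) (.split 0 4 (-3) .leaf (.split 0 5 (-3) (.split 0 3 (-2) .leaf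
    (.split 0 11 (-7) .leaf .leaf)) .leaf)) .leaf) (.split 0 2 1 (.split 0 4 1 .leaf .leaf)
    (.split 0 4 3 (.split 0 5 3 (.split 0 9 5 .leaf .leaf) .leaf) .leaf))) (.split 0 1 0 (.split 0
    2 (-1) .leaf (.split 0 4 (-1) (.split 0 5 (-2) .leaf .leaf) (.split 0 7 (-1) .leaf .leaf)))
    (.split 0 2 1 (.split 0 4 1 .leaf (.split 0 5 2 .leaf .leaf)) (.split 0 4 3 (.split 0 5 3
    .leaf (.split 0 3 2 .leaf .leaf)) .leaf))) .leaf (.split 1 1 0 (.split 1 2 (-1) .leaf .leaf)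
    (.split 1 2 1 .leaf .leaf)) (.split 1 1 0 (.split 1 2 (-1) .leaf .leaf) (.split 1 2 1 .leaf
    .leaf))

def c11 : CT :=
  .r [1003000, 962690, 1051281, 7026805, 132, 129, 923038, 1030855, -2729271, 3639215, -2846321,
    3695340, 5791658, 313446, 5875492, 44843, 302, 722, 582, 884, 0, 0, 0, 0] (.split 0 1 0
    (.split 0 2 (-1) (.split 0 4 (-3) (.split 0 7 (-6) .leaf (.split 0 5 (-4) .leaf (.split 0 9
    (-7) .leaf .leaf))) (.split 0 5 (-3) .leaf (.split 0 9 (-5) .leaf .leaf))) .leaf) (.split 0 2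
    1 (.split 0 4 1 .leaf (.split 0 5 2 (.split 0 3 1 .leaf .leaf) .leaf)) (.split 0 4 3 (.split 0
    5 3 .leaf (.split 0 3 2 .leaf .leaf)) .leaf))) (.split 0 1 0 (.split 0 2 (-1) .leaf (.split 0
    4 (-1) (.split 0 5 (-2) .leaf .leaf) .leaf)) (.split 0 2 1 (.split 0 4 1 .leaf (.split 0 5 2
    .leaf .leaf)) (.split 0 4 3 .leaf (.split 0 7 6 (.split 0 5 4 .leaf .leaf) .leaf)))) .leaf

def c12 : CT :=
  .z [1100000, 1186276, 1234202, 7974826, 134, 136, 1340363, 1440390, -3152356, 3914626, -3022646,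
    3795966, 6412420, 334299, 6637714, 102932, 462, 614, 602, 754, 28, 7377388, 1104141, 1053025]
    (.split 0 1 0 (.split 0 2 (-1) (.split 0 4 (-3) (.split 0 7 (-6) .leaf (.split 0 5 (-4) .leaf
    .leaf)) (.split 0 5 (-3) (.split 0 3 (-2) (.split 0 7 (-5) .leaf .leaf) .leaf) .leaf)) .leaf)
    (.split 0 2 1 (.split 0 4 1 .leaf .leaf) (.split 0 4 3 (.split 0 5 3 .leaf .leaf) .leaf)))
    (.split 0 1 0 (.split 0 2 (-1) (.split 0 4 (-3) .leaf (.split 0 5 (-3) (.split 0 3 (-2)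
    (.split 0 7 (-5) .leaf .leaf) .leaf) .leaf)) .leaf) (.split 0 2 1 (.split 0 4 1 .leaf .leaf)
    (.split 0 4 3 (.split 0 5 3 .leaf (.split 0 3 2 .leaf .leaf)) .leaf))) .leaf (.split 1 1 0
    (.split 1 2 (-1) .leaf .leaf) (.split 1 2 1 .leaf .leaf)) (.split 1 1 0 (.split 1 2 (-1) .leaf
    .leaf) .leaf)

def c13 : CT :=
  .z [1190000, 1395174, 1437343, 7800832, 133, 142, 1181862, 1316544, -4212221, 5117510, -3758026,
    4338129, 5300680, 1378684, 5945435, 472860, 579, 663, 789, 873, 14, 7374205, 1126947, 899226]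
    (.split 0 1 0 (.split 0 2 (-1) (.split 0 4 (-3) .leaf (.split 0 5 (-3) (.split 0 3 (-2)
    (.split 0 7 (-5) .leaf .leaf) .leaf) .leaf)) .leaf) (.split 0 2 1 .leaf (.split 0 4 3 (.split
    0 5 3 (.split 0 9 5 .leaf .leaf) .leaf) .leaf))) (.split 0 1 0 .leaf (.split 0 2 1 (.split 0 4
    1 (.split 0 7 1 (.split 0 12 1 .leaf .leaf) .leaf) .leaf) (.split 0 4 3 (.split 0 5 3 .leaf
    .leaf) .leaf))) .leaf (.split 1 1 0 (.split 1 2 (-1) .leaf .leaf) (.split 1 2 1 .leaf .leaf))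
    (.split 1 1 0 (.split 1 2 (-1) .leaf .leaf) .leaf)

def c14 : CT :=
  .r [1035000, 1005847, 1140856, 7476390, 138, 142, 1026881, 1081912, -2848553, 3854989, -3076559,
    4141380, 6167160, 357337, 6464764, -177695, 322, 663, 742, 894, 0, 0, 0, 0] (.split 0 1 0
    (.split 0 2 (-1) (.split 0 4 (-3) (.split 0 7 (-6) .leaf (.split 0 5 (-4) .leaf (.split 0 9
    (-7) .leaf .leaf))) (.split 0 5 (-3) (.split 0 3 (-2) .leaf .leaf) .leaf)) .leaf) (.split 0 2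
    1 (.split 0 4 1 .leaf (.split 0 5 2 (.split 0 3 1 .leaf .leaf) .leaf)) (.split 0 4 3 (.split 0
    5 3 .leaf .leaf) .leaf))) (.split 0 1 0 (.split 0 2 (-1) .leaf (.split 0 4 (-1) .leaf (.split
    0 7 (-1) .leaf .leaf))) (.split 0 2 1 (.split 0 4 1 (.split 0 7 1 .leaf .leaf) .leaf) (.split
    0 4 3 (.split 0 5 3 .leaf .leaf) (.split 0 7 6 (.split 0 5 4 .leaf .leaf) .leaf)))) .leaf

def c15 : CT :=
  .z [1199000, 1409414, 1466355, 7868805, 134, 134, 1212869, 1422060, -3817101, 4438102, -3498461,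
    3958377, 5740923, 744191, 6135109, 302425, 591, 740, 731, 880, 14, 7737667, 1319124, 1319124]
    (.split 0 1 0 (.split 0 2 (-1) (.split 0 4 (-3) .leaf (.split 0 5 (-3) (.split 0 3 (-2) .leaf
    .leaf) .leaf)) .leaf) (.split 0 2 1 .leaf (.split 0 4 3 (.split 0 5 3 (.split 0 9 5 .leaf
    .leaf) .leaf) .leaf))) (.split 0 1 0 (.split 0 2 (-1) (.split 0 4 (-3) .leaf (.split 0 5 (-3)
    .leaf .leaf)) (.split 0 4 (-1) .leaf (.split 0 7 (-1) .leaf .leaf))) (.split 0 2 1 (.split 0 4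
    1 .leaf .leaf) (.split 0 4 3 (.split 0 5 3 .leaf (.split 0 3 2 .leaf .leaf)) .leaf))) .leaf
    (.split 1 1 0 (.split 1 2 (-1) .leaf .leaf) (.split 1 2 1 (.split 1 4 1 .leaf .leaf) .leaf))
    (.split 1 1 0 (.split 1 2 (-1) .leaf .leaf) (.split 1 2 1 (.split 1 4 1 .leaf .leaf) .leaf))

def c16 : CT :=
  .z [1227000, 1476010, 1535641, 8155251, 135, 135, 1377732, 1576127, -3886004, 4447380, -3503651,
    3909684, 5983128, 714874, 6443036, 198540, 598, 745, 738, 885, 14, 7987662, 1444781, 1444781]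
    (.split 0 1 0 (.split 0 2 (-1) (.split 0 4 (-3) .leaf (.split 0 5 (-3) (.split 0 3 (-2) .leaf
    .leaf) .leaf)) .leaf) (.split 0 2 1 .leaf (.split 0 4 3 (.split 0 5 3 (.split 0 9 5 .leaf
    .leaf) .leaf) .leaf))) (.split 0 1 0 (.split 0 2 (-1) (.split 0 4 (-3) .leaf (.split 0 5 (-3)
    .leaf (.split 0 9 (-5) .leaf .leaf))) (.split 0 4 (-1) .leaf (.split 0 7 (-1) .leaf .leaf)))
    (.split 0 2 1 (.split 0 4 1 .leaf .leaf) (.split 0 4 3 (.split 0 5 3 .leaf (.split 0 3 2 .leaf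
    .leaf)) .leaf))) .leaf (.split 1 1 0 (.split 1 2 (-1) .leaf .leaf) (.split 1 2 1 (.split 1 4 1
    .leaf .leaf) .leaf)) (.split 1 1 0 (.split 1 2 (-1) .leaf .leaf) (.split 1 2 1 (.split 1 4 1
    .leaf .leaf) .leaf))

def c17 : CT :=
  .r [1081000, 1145650, 1191934, 7925978, 140, 139, 1255278, 1338224, -2983085, 3928754, -2970447,
    3884789, 6578230, 172834, 6748861, -67550, 472, 745, 612, 815, 0, 0, 0, 0] (.split 0 1 0
    (.split 0 2 (-1) (.split 0 4 (-3) .leaf (.split 0 5 (-3) (.split 0 3 (-2) (.split 0 7 (-5)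
    .leaf .leaf) .leaf) .leaf)) .leaf) (.split 0 2 1 (.split 0 4 1 .leaf (.split 0 5 2 .leaf
    .leaf)) (.split 0 4 3 (.split 0 5 3 .leaf (.split 0 3 2 .leaf .leaf)) .leaf))) (.split 0 1 0
    (.split 0 2 (-1) (.split 0 4 (-3) .leaf (.split 0 5 (-3) (.split 0 3 (-2) .leaf .leaf) .leaf))
    .leaf) (.split 0 2 1 (.split 0 4 1 .leaf .leaf) (.split 0 4 3 (.split 0 5 3 .leaf (.split 0 3
    2 .leaf .leaf)) .leaf))) .leaf

def c18 : CT :=
  .r [1089000, 1118795, 1257078, 7864263, 140, 141, 1198258, 1272132, -3034291, 3965026, -3063957,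
    4000260, 6410860, 373482, 6863473, -341213, 332, 675, 752, 904, 0, 0, 0, 0] (.split 0 1 0
    (.split 0 2 (-1) (.split 0 4 (-3) (.split 0 7 (-6) .leaf (.split 0 5 (-4) .leaf .leaf))
    (.split 0 5 (-3) (.split 0 3 (-2) .leaf (.split 0 11 (-7) .leaf .leaf)) .leaf)) .leaf) (.split
    0 2 1 (.split 0 4 1 .leaf (.split 0 5 2 .leaf .leaf)) (.split 0 4 3 (.split 0 5 3 .leaf
    (.split 0 3 2 .leaf .leaf)) .leaf))) (.split 0 1 0 (.split 0 2 (-1) .leaf (.split 0 4 (-1)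
    (.split 0 5 (-2) .leaf .leaf) .leaf)) (.split 0 2 1 .leaf (.split 0 4 3 (.split 0 5 3 .leaf
    (.split 0 3 2 .leaf .leaf)) (.split 0 7 6 (.split 0 5 4 .leaf .leaf) .leaf)))) .leaf

def c19 : CT :=
  .z [1137000, 1255117, 1331554, 8546480, 140, 142, 1592657, 1659445, -3277310, 4116013, -3214104,
    4088397, 6953270, 315943, 7160508, 41800, 482, 627, 622, 767, 28, 8212733, 1453736, 1400957]
    (.split 0 1 0 (.split 0 2 (-1) (.split 0 4 (-3) (.split 0 7 (-6) .leaf (.split 0 5 (-4) .leaf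
    .leaf)) (.split 0 5 (-3) (.split 0 3 (-2) (.split 0 7 (-5) .leaf .leaf) .leaf) .leaf)) .leaf)
    (.split 0 2 1 .leaf (.split 0 4 3 (.split 0 5 3 .leaf (.split 0 3 2 .leaf .leaf)) .leaf)))
    (.split 0 1 0 (.split 0 2 (-1) (.split 0 4 (-3) .leaf (.split 0 5 (-3) .leaf .leaf)) .leaf)
    (.split 0 2 1 (.split 0 4 1 (.split 0 7 1 .leaf .leaf) .leaf) (.split 0 4 3 (.split 0 5 3
    .leaf (.split 0 3 2 .leaf (.split 0 7 5 .leaf .leaf))) .leaf))) .leaf (.split 1 1 0 (.split 1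
    2 (-1) .leaf .leaf) (.split 1 2 1 .leaf .leaf)) (.split 1 1 0 (.split 1 2 (-1) .leaf .leaf)
    .leaf)

def c20 : CT :=
  .z [1135000, 1244663, 1333314, 8614361, 140, 144, 1660359, 1657028, -3282671, 4131804, -3234495,
    4178785, 7046768, 313219, 7232445, 38393, 485, 629, 625, 769, 28, 8379129, 1554693, 1448452]
    (.split 0 1 0 (.split 0 2 (-1) (.split 0 4 (-3) (.split 0 7 (-6) .leaf (.split 0 5 (-4) .leaf
    (.split 0 9 (-7) .leaf .leaf))) (.split 0 5 (-3) (.split 0 3 (-2) (.split 0 7 (-5) .leaf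
    .leaf) .leaf) .leaf)) .leaf) (.split 0 2 1 .leaf (.split 0 4 3 (.split 0 5 3 .leaf (.split 0 3
    2 .leaf .leaf)) .leaf))) (.split 0 1 0 (.split 0 2 (-1) (.split 0 4 (-3) .leaf (.split 0 5
    (-3) .leaf .leaf)) .leaf) (.split 0 2 1 (.split 0 4 1 (.split 0 7 1 .leaf .leaf) .leaf)
    (.split 0 4 3 (.split 0 5 3 .leaf (.split 0 3 2 .leaf (.split 0 7 5 .leaf .leaf))) .leaf)))
    .leaf (.split 1 1 0 (.split 1 2 (-1) .leaf .leaf) (.split 1 2 1 .leaf .leaf)) (.split 1 1 0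
    (.split 1 2 (-1) .leaf .leaf) .leaf)

def c21 : CT :=
  .z [1280000, 1606276, 1671170, 8423992, 137, 140, 1359997, 1636582, -4417565, 5110870, -3696201,
    4057540, 5699606, 1234638, 6592190, 179630, 603, 681, 813, 891, 14, 8204325, 1525241, 1445352]
    (.split 0 1 0 (.split 0 2 (-1) (.split 0 4 (-3) .leaf (.split 0 5 (-3) (.split 0 3 (-2)
    (.split 0 7 (-5) .leaf .leaf) .leaf) .leaf)) .leaf) (.split 0 2 1 .leaf (.split 0 4 3 (.split
    0 5 3 (.split 0 9 5 .leaf .leaf) .leaf) .leaf))) (.split 0 1 0 .leaf (.split 0 2 1 (.split 0 4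
    1 (.split 0 7 1 .leaf .leaf) .leaf) (.split 0 4 3 (.split 0 5 3 .leaf (.split 0 3 2 .leaf
    .leaf)) .leaf))) .leaf (.split 1 1 0 (.split 1 2 (-1) .leaf .leaf) (.split 1 2 1 (.split 1 4 1
    .leaf .leaf) .leaf)) (.split 1 1 0 (.split 1 2 (-1) .leaf .leaf) .leaf)

def c22 : CT :=
  .r [1121000, 1191130, 1325758, 8147638, 141, 142, 1333807, 1410716, -3157964, 4042817, -3139012,
    4031491, 6599656, 378207, 7118129, -389400, 342, 681, 762, 909, 0, 0, 0, 0] (.split 0 1 0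
    (.split 0 2 (-1) (.split 0 4 (-3) (.split 0 7 (-6) .leaf (.split 0 5 (-4) .leaf .leaf))
    (.split 0 5 (-3) (.split 0 3 (-2) .leaf .leaf) .leaf)) .leaf) (.split 0 2 1 (.split 0 4 1
    .leaf (.split 0 5 2 .leaf .leaf)) (.split 0 4 3 (.split 0 5 3 .leaf (.split 0 3 2 .leaf
    .leaf)) .leaf))) (.split 0 1 0 (.split 0 2 (-1) (.split 0 4 (-3) .leaf (.split 0 5 (-3) .leaf
    (.split 0 9 (-5) .leaf .leaf))) (.split 0 4 (-1) (.split 0 5 (-2) .leaf .leaf) .leaf)) (.split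
    0 2 1 .leaf (.split 0 4 3 (.split 0 5 3 .leaf (.split 0 3 2 .leaf .leaf)) (.split 0 7 6
    (.split 0 5 4 .leaf .leaf) .leaf)))) .leaf

def c23 : CT :=
  .z [1155000, 1282718, 1387387, 8833063, 141, 145, 1795912, 1769635, -3355426, 4181869, -3312430,
    4239098, 7230196, 327323, 7396360, 38076, 487, 631, 627, 771, 28, 8496980, 1600830, 1494251]
    (.split 0 1 0 (.split 0 2 (-1) (.split 0 4 (-3) (.split 0 7 (-6) .leaf (.split 0 5 (-4) .leaf
    (.split 0 9 (-7) .leaf .leaf))) (.split 0 5 (-3) (.split 0 3 (-2) (.split 0 7 (-5) .leaf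
    .leaf) .leaf) .leaf)) .leaf) (.split 0 2 1 .leaf (.split 0 4 3 (.split 0 5 3 .leaf (.split 0 3
    2 .leaf .leaf)) .leaf))) (.split 0 1 0 (.split 0 2 (-1) (.split 0 4 (-3) .leaf (.split 0 5
    (-3) .leaf .leaf)) .leaf) (.split 0 2 1 (.split 0 4 1 (.split 0 7 1 .leaf .leaf) .leaf)
    (.split 0 4 3 (.split 0 5 3 .leaf (.split 0 3 2 .leaf (.split 0 7 5 .leaf .leaf))) .leaf)))
    .leaf (.split 1 1 0 (.split 1 2 (-1) .leaf .leaf) (.split 1 2 1 .leaf .leaf)) (.split 1 1 0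
    (.split 1 2 (-1) .leaf .leaf) .leaf)

def c24 : CT :=
  .z [1168000, 1318092, 1411973, 8913584, 142, 145, 1799732, 1814307, -3395474, 4215218, -3323629,
    4207646, 7263880, 321932, 7472921, 4843, 489, 633, 629, 773, 28, 8618265, 1649132, 1568807]
    (.split 0 1 0 (.split 0 2 (-1) (.split 0 4 (-3) (.split 0 7 (-6) .leaf (.split 0 5 (-4) .leaf
    (.split 0 9 (-7) .leaf .leaf))) (.split 0 5 (-3) (.split 0 3 (-2) (.split 0 7 (-5) .leaf
    .leaf) .leaf) .leaf)) .leaf) (.split 0 2 1 .leaf (.split 0 4 3 (.split 0 5 3 .leaf (.split 0 3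
    2 .leaf .leaf)) .leaf))) (.split 0 1 0 (.split 0 2 (-1) (.split 0 4 (-3) .leaf (.split 0 5
    (-3) .leaf .leaf)) .leaf) (.split 0 2 1 (.split 0 4 1 (.split 0 7 1 .leaf .leaf) .leaf)
    (.split 0 4 3 (.split 0 5 3 .leaf (.split 0 3 2 .leaf (.split 0 7 5 .leaf .leaf))) .leaf)))
    .leaf (.split 1 1 0 (.split 1 2 (-1) .leaf .leaf) (.split 1 2 1 .leaf .leaf)) (.split 1 1 0
    (.split 1 2 (-1) .leaf .leaf) .leaf)

def c25 : CT :=
  .z [1302000, 1661966, 1729110, 8631515, 139, 142, 1420744, 1703273, -4544153, 5251177, -3743233,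
    4108925, 5790753, 1294465, 6775880, 140869, 609, 686, 819, 896, 14, 8491570, 1649129, 1568510]
    (.split 0 1 0 (.split 0 2 (-1) (.split 0 4 (-3) .leaf (.split 0 5 (-3) (.split 0 3 (-2)
    (.split 0 7 (-5) .leaf .leaf) .leaf) .leaf)) .leaf) (.split 0 2 1 .leaf (.split 0 4 3 (.split
    0 5 3 (.split 0 9 5 .leaf .leaf) .leaf) .leaf))) (.split 0 1 0 (.split 0 2 (-1) .leaf .leaf)
    (.split 0 2 1 (.split 0 4 1 (.split 0 7 1 .leaf .leaf) .leaf) (.split 0 4 3 (.split 0 5 3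
    .leaf (.split 0 3 2 .leaf .leaf)) .leaf))) .leaf (.split 1 1 0 (.split 1 2 (-1) (.split 1 4
    (-3) .leaf .leaf) .leaf) (.split 1 2 1 (.split 1 4 1 .leaf .leaf) .leaf)) (.split 1 1 0
    (.split 1 2 (-1) .leaf .leaf) .leaf)

def c26 : CT :=
  .r [1140000, 1231850, 1371079, 8311435, 142, 142, 1397518, 1513610, -3229071, 4096639, -3215150,
    4065804, 6709911, 376018, 7227786, -375182, 347, 686, 767, 913, 0, 0, 0, 0] (.split 0 1 0
    (.split 0 2 (-1) (.split 0 4 (-3) (.split 0 7 (-6) .leaf (.split 0 5 (-4) .leaf .leaf))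
    (.split 0 5 (-3) (.split 0 3 (-2) .leaf .leaf) .leaf)) .leaf) (.split 0 2 1 (.split 0 4 1
    .leaf (.split 0 5 2 .leaf .leaf)) (.split 0 4 3 (.split 0 5 3 .leaf (.split 0 3 2 .leaf
    .leaf)) .leaf))) (.split 0 1 0 (.split 0 2 (-1) (.split 0 4 (-3) .leaf (.split 0 5 (-3) .leaf
    (.split 0 9 (-5) .leaf .leaf))) (.split 0 4 (-1) (.split 0 5 (-2) .leaf .leaf) .leaf)) (.split
    0 2 1 .leaf (.split 0 4 3 (.split 0 5 3 .leaf (.split 0 3 2 .leaf .leaf)) (.split 0 7 6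
    (.split 0 5 4 .leaf .leaf) .leaf)))) .leaf

def c27 : CT :=
  .z [1298000, 1651770, 1718502, 8902287, 140, 140, 1730612, 1918527, -4045546, 4522790, -3797037,
    4165331, 6623998, 615084, 7021462, 179492, 614, 759, 754, 899, 14, 8735325, 1772929, 1772929]
    (.split 0 1 0 (.split 0 2 (-1) (.split 0 4 (-3) .leaf (.split 0 5 (-3) (.split 0 3 (-2) .leaf
    .leaf) .leaf)) .leaf) (.split 0 2 1 .leaf (.split 0 4 3 (.split 0 5 3 (.split 0 9 5 .leaf
    .leaf) (.split 0 3 2 .leaf .leaf)) .leaf))) (.split 0 1 0 (.split 0 2 (-1) (.split 0 4 (-3)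
    .leaf (.split 0 5 (-3) .leaf (.split 0 9 (-5) .leaf .leaf))) (.split 0 4 (-1) .leaf (.split 0
    7 (-1) .leaf .leaf))) (.split 0 2 1 (.split 0 4 1 (.split 0 7 1 .leaf .leaf) .leaf) (.split 0
    4 3 (.split 0 5 3 .leaf (.split 0 3 2 .leaf (.split 0 7 5 .leaf .leaf))) .leaf))) .leaf
    (.split 1 1 0 (.split 1 2 (-1) (.split 1 4 (-3) .leaf .leaf) .leaf) (.split 1 2 1 (.split 1 4
    1 .leaf .leaf) .leaf)) (.split 1 1 0 (.split 1 2 (-1) (.split 1 4 (-3) .leaf .leaf) .leaf)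
    (.split 1 2 1 (.split 1 4 1 .leaf .leaf) .leaf))

def c28 : CT :=
  .z [1311000, 1685022, 1753097, 9009178, 140, 140, 1756000, 1985404, -3827678, 4184329, -3851283,
    4186610, 6905352, 291472, 7083388, 190935, 617, 761, 757, 901, 14, 8861489, 1850876, 1850876]
    (.split 0 1 0 (.split 0 2 (-1) (.split 0 4 (-3) .leaf (.split 0 5 (-3) (.split 0 3 (-2)
    (.split 0 7 (-5) .leaf .leaf) .leaf) .leaf)) .leaf) (.split 0 2 1 .leaf (.split 0 4 3 (.split
    0 5 3 (.split 0 9 5 .leaf .leaf) (.split 0 3 2 .leaf .leaf)) .leaf))) (.split 0 1 0 (.split 0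
    2 (-1) (.split 0 4 (-3) .leaf (.split 0 5 (-3) .leaf (.split 0 9 (-5) .leaf .leaf))) (.split 0
    4 (-1) .leaf (.split 0 7 (-1) .leaf .leaf))) (.split 0 2 1 (.split 0 4 1 (.split 0 7 1 .leaf
    .leaf) .leaf) (.split 0 4 3 (.split 0 5 3 .leaf (.split 0 3 2 .leaf (.split 0 7 5 .leaf
    .leaf))) .leaf))) .leaf (.split 1 1 0 (.split 1 2 (-1) (.split 1 4 (-3) .leaf .leaf) .leaf)
    (.split 1 2 1 (.split 1 4 1 .leaf .leaf) .leaf)) (.split 1 1 0 (.split 1 2 (-1) (.split 1 4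
    (-3) .leaf .leaf) .leaf) (.split 1 2 1 (.split 1 4 1 .leaf .leaf) .leaf))

def c29 : CT :=
  .r [1200000, 1404880, 1476001, 8865892, 142, 144, 1841516, 1802773, -3408298, 4112719, -3394827,
    4151333, 7309180, 145023, 7447482, -101673, 588, 761, 693, 831, 0, 0, 0, 0] (.split 0 1 0
    (.split 0 2 (-1) (.split 0 4 (-3) .leaf (.split 0 5 (-3) (.split 0 3 (-2) (.split 0 7 (-5)
    .leaf .leaf) (.split 0 11 (-7) .leaf .leaf)) .leaf)) .leaf) (.split 0 2 1 (.split 0 4 1 .leaf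
    .leaf) (.split 0 4 3 (.split 0 5 3 .leaf (.split 0 3 2 .leaf (.split 0 7 5 .leaf .leaf)))
    .leaf))) (.split 0 1 0 (.split 0 2 (-1) (.split 0 4 (-3) .leaf (.split 0 5 (-3) (.split 0 3
    (-2) .leaf .leaf) (.split 0 9 (-5) .leaf .leaf))) .leaf) (.split 0 2 1 (.split 0 4 1 (.split 0
    7 1 .leaf .leaf) .leaf) (.split 0 4 3 (.split 0 5 3 .leaf (.split 0 3 2 .leaf (.split 0 7 5
    .leaf .leaf))) .leaf))) .leaf

def c30 : CT :=
  .r [1102000, 1167698, 1262982, 8590615, 144, 145, 1613117, 1624148, -3146586, 4197715, -3137876,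
    4212236, 7235853, 175391, 7425791, -174825, 491, 699, 631, 804, 0, 0, 0, 0] (.split 0 1 0
    (.split 0 2 (-1) (.split 0 4 (-3) .leaf (.split 0 5 (-3) (.split 0 3 (-2) (.split 0 7 (-5)
    .leaf .leaf) .leaf) .leaf)) .leaf) (.split 0 2 1 (.split 0 4 1 .leaf (.split 0 5 2 .leaf
    .leaf)) (.split 0 4 3 (.split 0 5 3 .leaf (.split 0 3 2 .leaf (.split 0 7 5 .leaf .leaf)))
    .leaf))) (.split 0 1 0 (.split 0 2 (-1) (.split 0 4 (-3) .leaf (.split 0 5 (-3) (.split 0 3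
    (-2) .leaf .leaf) (.split 0 9 (-5) .leaf .leaf))) .leaf) (.split 0 2 1 (.split 0 4 1 (.split 0
    7 1 .leaf .leaf) .leaf) (.split 0 4 3 (.split 0 5 3 .leaf .leaf) (.split 0 7 6 (.split 0 5 4
    .leaf .leaf) .leaf)))) .leaf

def c31 : CT :=
  .r [1191000, 1350936, 1489407, 8649022, 143, 145, 1601314, 1643695, -3361921, 4107446, -3358261,
    4150347, 6984925, 312095, 7452212, -367717, 483, 691, 798, 909, 0, 0, 0, 0] (.split 0 1 0
    (.split 0 2 (-1) (.split 0 4 (-3) (.split 0 7 (-6) .leaf (.split 0 5 (-4) .leaf .leaf))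
    (.split 0 5 (-3) (.split 0 3 (-2) .leaf .leaf) .leaf)) .leaf) (.split 0 2 1 (.split 0 4 1
    .leaf (.split 0 5 2 .leaf .leaf)) (.split 0 4 3 (.split 0 5 3 .leaf (.split 0 3 2 .leaf
    .leaf)) .leaf))) (.split 0 1 0 (.split 0 2 (-1) (.split 0 4 (-3) .leaf (.split 0 5 (-3) .leaf
    (.split 0 9 (-5) .leaf .leaf))) (.split 0 4 (-1) (.split 0 5 (-2) .leaf .leaf) (.split 0 7
    (-1) .leaf .leaf))) (.split 0 2 1 .leaf (.split 0 4 3 (.split 0 5 3 .leaf (.split 0 3 2 .leaf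
    .leaf)) (.split 0 7 6 (.split 0 5 4 .leaf .leaf) .leaf)))) .leaf

def c32 : CT :=
  .r [1119000, 1154067, 1358596, 8552074, 146, 146, 1445357, 1607985, -3212612, 4275095, -3338803,
    4382545, 7005117, 429424, 7495451, -392998, 351, 594, 771, 917, 0, 0, 0, 0] (.split 0 1 0
    (.split 0 2 (-1) (.split 0 4 (-3) (.split 0 7 (-6) .leaf (.split 0 5 (-4) .leaf .leaf))
    (.split 0 5 (-3) (.split 0 3 (-2) (.split 0 7 (-5) .leaf .leaf) .leaf) .leaf)) .leaf) (.split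
    0 2 1 (.split 0 4 1 .leaf (.split 0 5 2 .leaf .leaf)) (.split 0 4 3 (.split 0 5 3 .leaf
    (.split 0 3 2 .leaf .leaf)) .leaf))) (.split 0 1 0 (.split 0 2 (-1) .leaf (.split 0 4 (-1)
    .leaf (.split 0 7 (-1) .leaf .leaf))) (.split 0 2 1 .leaf (.split 0 4 3 (.split 0 5 3 .leaf
    (.split 0 3 2 .leaf (.split 0 7 5 .leaf .leaf))) (.split 0 7 6 (.split 0 5 4 .leaf .leaf)
    .leaf)))) .leaf

def c33 : CT :=
  .z [1326000, 1723802, 1793443, 9132581, 140, 140, 1821995, 2062636, -3817366, 4112652, -3912906,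
    4209698, 7034238, 216297, 7152490, 206228, 619, 763, 759, 903, 14, 8991620, 1931604, 1931604]
    (.split 0 1 0 (.split 0 2 (-1) (.split 0 4 (-3) .leaf (.split 0 5 (-3) (.split 0 3 (-2)
    (.split 0 7 (-5) .leaf .leaf) .leaf) .leaf)) .leaf) (.split 0 2 1 .leaf (.split 0 4 3 (.split
    0 5 3 (.split 0 9 5 .leaf .leaf) (.split 0 3 2 .leaf .leaf)) .leaf))) (.split 0 1 0 (.split 0
    2 (-1) (.split 0 4 (-3) .leaf (.split 0 5 (-3) .leaf .leaf)) (.split 0 4 (-1) .leaf (.split 0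
    7 (-1) .leaf .leaf))) (.split 0 2 1 (.split 0 4 1 (.split 0 7 1 .leaf .leaf) .leaf) (.split 0
    4 3 (.split 0 5 3 .leaf (.split 0 3 2 .leaf (.split 0 7 5 .leaf .leaf))) .leaf))) .leaf
    (.split 1 1 0 (.split 1 2 (-1) (.split 1 4 (-3) .leaf .leaf) .leaf) (.split 1 2 1 (.split 1 4
    1 .leaf .leaf) .leaf)) (.split 1 1 0 (.split 1 2 (-1) (.split 1 4 (-3) .leaf .leaf) .leaf)
    (.split 1 2 1 (.split 1 4 1 .leaf .leaf) .leaf))

def c34 : CT :=
  .z [1340000, 1760394, 1831514, 9251605, 141, 141, 1852021, 2110133, -3867736, 4154511, -3957883,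
    4244285, 7103865, 212219, 7233106, 205901, 621, 766, 761, 906, 14, 9128398, 1990213, 1990213]
    (.split 0 1 0 (.split 0 2 (-1) (.split 0 4 (-3) .leaf (.split 0 5 (-3) (.split 0 3 (-2)
    (.split 0 7 (-5) .leaf .leaf) .leaf) .leaf)) .leaf) (.split 0 2 1 .leaf (.split 0 4 3 (.split
    0 5 3 (.split 0 9 5 .leaf .leaf) (.split 0 3 2 .leaf .leaf)) .leaf))) (.split 0 1 0 (.split 0
    2 (-1) (.split 0 4 (-3) .leaf (.split 0 5 (-3) .leaf .leaf)) (.split 0 4 (-1) .leaf (.split 0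
    7 (-1) .leaf .leaf))) (.split 0 2 1 (.split 0 4 1 (.split 0 7 1 .leaf .leaf) .leaf) (.split 0
    4 3 (.split 0 5 3 .leaf (.split 0 3 2 .leaf (.split 0 7 5 .leaf .leaf))) .leaf))) .leaf
    (.split 1 1 0 (.split 1 2 (-1) (.split 1 4 (-3) .leaf .leaf) .leaf) (.split 1 2 1 (.split 1 4
    1 .leaf .leaf) .leaf)) (.split 1 1 0 (.split 1 2 (-1) (.split 1 4 (-3) .leaf .leaf) .leaf)
    (.split 1 2 1 (.split 1 4 1 .leaf .leaf) .leaf))

def c35 : CT :=
  .r [1217000, 1452050, 1510712, 8996680, 144, 145, 1866171, 1858870, -3448005, 4159116, -3452273,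
    4192972, 7397392, 137547, 7544920, -103307, 592, 766, 697, 836, 0, 0, 0, 0] (.split 0 1 0
    (.split 0 2 (-1) (.split 0 4 (-3) .leaf (.split 0 5 (-3) (.split 0 3 (-2) (.split 0 7 (-5)
    .leaf .leaf) (.split 0 11 (-7) .leaf .leaf)) .leaf)) .leaf) (.split 0 2 1 (.split 0 4 1 .leaf
    .leaf) (.split 0 4 3 (.split 0 5 3 .leaf (.split 0 3 2 .leaf (.split 0 7 5 .leaf .leaf)))
    .leaf))) (.split 0 1 0 (.split 0 2 (-1) (.split 0 4 (-3) .leaf (.split 0 5 (-3) (.split 0 3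
    (-2) .leaf .leaf) (.split 0 9 (-5) .leaf .leaf))) .leaf) (.split 0 2 1 (.split 0 4 1 (.split 0
    7 1 .leaf .leaf) .leaf) (.split 0 4 3 (.split 0 5 3 .leaf (.split 0 3 2 .leaf (.split 0 7 5
    .leaf .leaf))) .leaf))) .leaf

def c36 : CT :=
  .r [1117000, 1223226, 1272644, 8796273, 145, 146, 1761576, 1738879, -3204555, 4248285, -3206084,
    4278259, 7489490, 78063, 7583190, -111905, 565, 704, 635, 756, 0, 0, 0, 0] (.split 0 1 0
    (.split 0 2 (-1) (.split 0 4 (-3) .leaf (.split 0 5 (-3) (.split 0 3 (-2) (.split 0 7 (-5)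
    .leaf .leaf) (.split 0 11 (-7) .leaf .leaf)) .leaf)) .leaf) (.split 0 2 1 (.split 0 4 1
    (.split 0 7 1 .leaf .leaf) .leaf) (.split 0 4 3 (.split 0 5 3 .leaf (.split 0 3 2 .leaf
    (.split 0 7 5 .leaf .leaf))) .leaf))) (.split 0 1 0 (.split 0 2 (-1) (.split 0 4 (-3) .leaf
    (.split 0 5 (-3) (.split 0 3 (-2) .leaf .leaf) .leaf)) .leaf) (.split 0 2 1 (.split 0 4 1
    (.split 0 7 1 (.split 0 12 1 .leaf .leaf) .leaf) .leaf) (.split 0 4 3 (.split 0 5 3 .leaf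
    (.split 0 3 2 .leaf .leaf)) .leaf))) .leaf

def c37 : CT :=
  .r [1126000, 1201780, 1337611, 8888346, 146, 148, 1766456, 1748373, -3239019, 4286226, -3246846,
    4350878, 7468239, 247275, 7766236, -306391, 495, 651, 705, 809, 0, 0, 0, 0] (.split 0 1 0
    (.split 0 2 (-1) (.split 0 4 (-3) .leaf (.split 0 5 (-3) (.split 0 3 (-2) (.split 0 7 (-5)
    .leaf .leaf) .leaf) .leaf)) .leaf) (.split 0 2 1 (.split 0 4 1 .leaf .leaf) (.split 0 4 3
    (.split 0 5 3 .leaf (.split 0 3 2 .leaf .leaf)) .leaf))) (.split 0 1 0 (.split 0 2 (-1)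
    (.split 0 4 (-3) .leaf (.split 0 5 (-3) (.split 0 3 (-2) .leaf .leaf) .leaf)) .leaf) (.split 0
    2 1 (.split 0 4 1 (.split 0 7 1 .leaf .leaf) .leaf) (.split 0 4 3 (.split 0 5 3 .leaf (.split
    0 3 2 .leaf .leaf)) (.split 0 7 6 (.split 0 5 4 .leaf .leaf) .leaf)))) .leaf

def c38 : CT :=
  .r [1226000, 1431502, 1578231, 9048319, 145, 146, 1810042, 1874319, -3500669, 4219188, -3515960,
    4261631, 7296246, 318729, 7752151, -352260, 487, 696, 802, 914, 0, 0, 0, 0] (.split 0 1 0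
    (.split 0 2 (-1) (.split 0 4 (-3) (.split 0 7 (-6) .leaf (.split 0 5 (-4) .leaf (.split 0 9
    (-7) .leaf .leaf))) (.split 0 5 (-3) (.split 0 3 (-2) (.split 0 7 (-5) .leaf .leaf) .leaf)
    .leaf)) .leaf) (.split 0 2 1 (.split 0 4 1 .leaf (.split 0 5 2 .leaf .leaf)) (.split 0 4 3
    (.split 0 5 3 .leaf (.split 0 3 2 .leaf .leaf)) .leaf))) (.split 0 1 0 (.split 0 2 (-1)
    (.split 0 4 (-3) .leaf (.split 0 5 (-3) .leaf .leaf)) (.split 0 4 (-1) .leaf (.split 0 7 (-1)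
    .leaf .leaf))) (.split 0 2 1 .leaf (.split 0 4 3 (.split 0 5 3 .leaf (.split 0 3 2 .leaf
    .leaf)) (.split 0 7 6 (.split 0 5 4 .leaf .leaf) .leaf)))) .leaf

def c39 : CT :=
  .r [1144000, 1211794, 1413436, 8789476, 148, 146, 1528573, 1747364, -3300307, 4357355, -3400971,
    4394442, 7170827, 426864, 7696651, -415129, 355, 599, 775, 921, 0, 0, 0, 0] (.split 0 1 0
    (.split 0 2 (-1) (.split 0 4 (-3) (.split 0 7 (-6) .leaf (.split 0 5 (-4) .leaf .leaf))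
    (.split 0 5 (-3) (.split 0 3 (-2) (.split 0 7 (-5) .leaf .leaf) .leaf) .leaf)) .leaf) (.split
    0 2 1 (.split 0 4 1 .leaf (.split 0 5 2 .leaf (.split 0 9 4 .leaf .leaf))) (.split 0 4 3
    (.split 0 5 3 .leaf (.split 0 3 2 .leaf .leaf)) .leaf))) (.split 0 1 0 (.split 0 2 (-1) .leaf
    (.split 0 4 (-1) (.split 0 5 (-2) .leaf .leaf) (.split 0 7 (-1) .leaf .leaf))) (.split 0 2 1
    .leaf (.split 0 4 3 (.split 0 5 3 .leaf (.split 0 3 2 .leaf (.split 0 7 5 .leaf .leaf)))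
    (.split 0 7 6 (.split 0 5 4 .leaf .leaf) .leaf)))) .leaf

def cAll : CT :=
  (.split 0 50 17 (.split 0 500 103 (.split 0 500 69 c0 c1) (.split 0 500 137 c2 c3)) (.split 0
    250 119 (.split 0 125 51 c4 (.split 0 500 221 c5 c6)) (.split 0 500 271 (.split 0 100 51
    (.split 0 500 247 c7 c8) (.split 1 50 7 (.split 0 500 263 c9 c10) c11)) (.split 0 125 72
    (.split 0 500 279 (.split 2 2 1 c12 (.split 1 50 7 c13 c14)) (.split 1 50 7 (.split 0 125 71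
    c15 c16) (.split 2 2 1 c17 c18))) (.split 0 500 297 (.split 0 500 293 (.split 2 2 1 (.split 0
    500 291 c19 c20) (.split 1 50 7 c21 c22)) (.split 2 2 1 (.split 0 100 59 c23 c24) (.split 1 50
    7 c25 c26))) (.split 0 500 301 (.split 1 50 7 (.split 0 500 299 c27 c28) (.split 2 2 1 (.split
    1 100 21 c29 c30) (.split 1 100 21 c31 c32))) (.split 1 50 7 (.split 0 500 303 c33 c34)
    (.split 2 2 1 (.split 1 100 21 c35 (.split 2 4 1 c36 c37)) (.split 1 100 21 c38 c39)))))))))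

theorem cAll_ok : runC cAll [⟨100, 7, 100, 61⟩, ⟨1, 0, 25, 7⟩, ⟨1, 0, 1, 1⟩] = true := by
  decide +kernel

def tTin : T1 :=
  (.split 0 1 0 (.split 0 2 (-1) .leaf .leaf) (.split 0 2 1 .leaf .leaf))

theorem tTin_ok : run1 eTin [] tTin [unitIv, ⟨5, -1, 5, 1⟩] = true := by
  decide +kernel

end Crest.Agent.R307.H1
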