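import Crest.Agent.R307.H1Cell
import Crest.Agent.R307.H1Data

/-! Row 307, regime H1: small correlation, and the final theorem `regH1`. -/

set_option autoImplicit false

open Crest.CubeNoise

namespace Crest.Agent.R307.H1

open Crest.Agent.Lib.PolyBB

theorem tin_sound {x y : ℝ} (t : ℝ) (hx : |x| < 1) (hy : |y| ≤ 1 / 5) :
    9 / 2 * aT y + 9 / 2 * gT y ^ 2 / aT y - 7 * y * gT y + gT y ^ 2
      ≤ 2 * t * gT x - t ^ 2 * aT x + fT (fun τ => 2 * τ) (7 / 4) (gT y) (9 / 2 + t ^ 2) (-1)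
        (-2 * t + 9 / 2 * gT y / aT y - 7 * y + 2 * gT y) x := by
  obtain ⟨y0, y1⟩ := abs_le.mp hy
  have h : 0 ≤ tin ci x y := run1_sound tTin_ok (x := pt [x, y]) (by
    simp only [Box.mem_cons_pt, Iv.mem_mk, Box.mem_nil, and_true]
    refine ⟨unit_mem hx, ?_, ?_⟩ <;> push_cast <;> linarith)
  have hX : (0 : ℝ) < 1 + x ^ 2 := by positivity
  have hA : (0 : ℝ) < 1 + y ^ 2 := by positivity
  have hB : (0 : ℝ) < 1 - y ^ 2 := by nlinarith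
  have e : 2 * t * gT x - t ^ 2 * aT x + fT (fun τ => 2 * τ) (7 / 4) (gT y) (9 / 2 + t ^ 2) (-1)
        (-2 * t + 9 / 2 * gT y / aT y - 7 * y + 2 * gT y) x
      - (9 / 2 * aT y + 9 / 2 * gT y ^ 2 / aT y - 7 * y * gT y + gT y ^ 2)
      = (x - y) ^ 2 * tin ci x y / ((1 + x ^ 2) ^ 2 * (1 + y ^ 2) ^ 2 * (1 - y ^ 2)) := by
    simp only [tin, ci, fT, gT, aT]
    push_cast
    field_simp
    ring
  have : 0 ≤ (x - y) ^ 2 * tin ci x y / ((1 + x ^ 2) ^ 2 * (1 + y ^ 2) ^ 2 * (1 - y ^ 2)) := by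
    positivity
  linarith

theorem small_angle {g : ℝ} (hg : |g| ≤ 0.3808) :
    ∃ y : ℝ, |y| ≤ 1 / 5 ∧ gT y = g ∧ aT y = hel g := by
  obtain ⟨y, hy, h1, h2⟩ := exists_half_angle (g := g) (by linarith)
  refine ⟨y, ?_, h1.symm, h2.symm⟩
  by_contra h
  push Not at h
  have hA : (0 : ℝ) < 1 + y ^ 2 := by positivity
  rw [h1, abs_div, abs_of_pos hA, div_le_iff₀ hA, abs_mul, abs_two, ← sq_abs y] at hg
  nlinarith

theorem gap_bound {r m s W a0 a1 : ℝ} (hr0 : 0 ≤ r) (hr : r ≤ 0.14) (hm0 : 0 ≤ m) (hm : m ≤ 0.28)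
    (hrm : r + m ≤ 0.3808) (hs : 0.99 ≤ s) (hsr : s ^ 2 ≤ 1 - r ^ 2) (hW0 : 0 ≤ W)
    (hW : W ^ 2 = 1 - m ^ 2) (h0 : 0 ≤ a0) (ha0 : a0 ^ 2 = 1 - (r - m) ^ 2) (h1 : 0 ≤ a1)
    (ha1 : a1 ^ 2 = 1 - (r + m) ^ 2) :
    (W - (a0 + a1) / 2) * (1 + s) ≤ r ^ 2 * (1 + 1.74 * m ^ 2) := by
  have hy : m ^ 2 ≤ 0.0784 := by nlinarith
  have hy0 := sq_nonneg m
  have hz : r ^ 2 ≤ 0.0196 := by nlinarith
  have hz0 := sq_nonneg r
  have hrm0 := mul_nonneg hr0 hm0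
  have c1 : 0.92 ≤ a1 := by
    refine (pow_le_pow_iff_left₀ (by norm_num) h1 two_ne_zero).1 ?_
    have : (r + m) ^ 2 ≤ 0.3808 ^ 2 := pow_le_pow_left₀ (by linarith) hrm 2
    rw [ha1]; norm_num at this ⊢; linarith
  have c0 : 0.92 ≤ a0 := by
    refine (pow_le_pow_iff_left₀ (by norm_num) h0 two_ne_zero).1 ?_
    have : (r - m) ^ 2 = r ^ 2 + m ^ 2 - 2 * (r * m) := by ring
    rw [ha0, this]; norm_num at hy hz ⊢; linarith
  obtain ⟨b, e, rfl, rfl⟩ : ∃ b e : ℝ, a0 = b + e ∧ a1 = b - e :=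
    ⟨(a0 + a1) / 2, (a0 - a1) / 2, by ring, by ring⟩
  rw [show (b + e + (b - e)) / 2 = b by ring]
  have hb : 0.92 ≤ b := by linarith
  have hbe : b ^ 2 * e ^ 2 = m ^ 2 * r ^ 2 := by
    have : b * e = m * r := by linear_combination (ha0 - ha1) / 4
    rw [← mul_pow, this, mul_pow]
  have hbb : b ^ 2 = 1 - r ^ 2 - m ^ 2 - e ^ 2 := by linear_combination (ha0 + ha1) / 2
  clear ha0 ha1 c0 c1 h0 h1 hrm hrm0
  have he0 := sq_nonneg e
  have y1 := mul_le_mul_of_nonneg_left hz hy0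
  have y2 := mul_le_mul_of_nonneg_left hs hy0
  have y3 := mul_le_mul_of_nonneg_left hy hy0
  have y4 := mul_nonneg hy0 hz0
  have e1 : e ^ 2 ≤ 0.03 * m ^ 2 := by
    have h : (0.92 : ℝ) ^ 2 ≤ b ^ 2 := pow_le_pow_left₀ (by norm_num) hb 2
    have := mul_le_mul_of_nonneg_right h he0
    linarith
  have b1 : s - 0.56 * m ^ 2 ≤ b := by
    refine (pow_le_pow_iff_left₀ (by linarith) (by linarith) two_ne_zero).1 ?_
    linarith
  have e2 : e ^ 2 ≤ 1.12 * m ^ 2 * r ^ 2 := by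
    have : 0.893 * e ^ 2 ≤ b ^ 2 * e ^ 2 := mul_le_mul_of_nonneg_right (by linarith) he0
    linarith
  have w1 : 1 - 0.52 * m ^ 2 ≤ W := by
    refine (pow_le_pow_iff_left₀ (by linarith) hW0 two_ne_zero).1 ?_
    linarith
  have hX : (W - b) * (W + b) = r ^ 2 + e ^ 2 := by linear_combination hW - hbb
  have hX0 : 0 ≤ W - b :=
    le_of_mul_le_mul_right (by rw [zero_mul, hX]; positivity) (by linarith : 0 < W + b)
  have hP : 0 < 1 + s - 1.08 * m ^ 2 := by linarith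
  have k1 : (W - b) * (1 + s - 1.08 * m ^ 2) ≤ r ^ 2 * (1 + 1.12 * m ^ 2) := by
    have := mul_le_mul_of_nonneg_left (show 1 + s - 1.08 * m ^ 2 ≤ W + b by linarith) hX0
    linarith
  have k2 : (1 + 1.12 * m ^ 2) * (1 + s) ≤ (1 + 1.74 * m ^ 2) * (1 + s - 1.08 * m ^ 2) := by
    linarith
  refine le_of_mul_le_mul_right ?_ hP
  have k3 := mul_le_mul_of_nonneg_right k1 (show 0 ≤ 1 + s by linarith)
  have k4 := mul_le_mul_of_nonneg_left k2 hz0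
  linarith

theorem poly_bound {η y z : ℝ} (h0 : 0 ≤ η) (h1 : η ≤ 0.28) (hy0 : 0 ≤ y) (hy : y ≤ η ^ 2)
    (hz : z ≤ 0.0196) :
    100 / 99 * (1 - (1 - η) ^ 2) + 33 / 16 * (1 - (1 - z) * (1 - η) - z * (1 - η) ^ 2 - y)
      ≤ 9 / 4 * (1 - (1 - η) ^ 2 - 1.74 * (1 - η) ^ 2 * y) := by
  have a1 : z * ((1 - η) * η) ≤ 0.0196 * ((1 - η) * η) :=
    mul_le_mul_of_nonneg_right hz (mul_nonneg (by linarith) h0)
  have a2 : (3.915 * (1 - η) ^ 2 - 33 / 16) * y ≤ (1.8525 - 6.6 * η) * y :=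
    mul_le_mul_of_nonneg_right (by nlinarith) hy0
  have a3 : (1.8525 - 6.6 * η) * y ≤ (1.8525 - 6.6 * η) * η ^ 2 :=
    mul_le_mul_of_nonneg_left hy (by linarith)
  nlinarith [mul_nonneg h0 (sq_nonneg (η - 0.23))]

theorem le_one_of_sq {s u : ℝ} (h : s ^ 2 = 1 - u ^ 2) : s ≤ 1 := by nlinarith [sq_nonneg u]

theorem le_two_mul_of {a X s : ℝ} (ha : 0 ≤ a) (h0 : 0 ≤ s) (h1 : s ≤ 1) (h : a ≤ X * (1 + s)) :
    a ≤ 2 * X := by
  have : 0 ≤ X := le_of_mul_le_mul_right (by linarith) (by linarith : 0 < 1 + s)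
  nlinarith

theorem cert_small {ρ β m : ℝ} (h0 : 0 < ρ) (h1 : ρ ≤ 0.14) (hβ : 18 / 25 ≤ β) (hm0 : 0 ≤ m)
    (hm : m ≤ 1 - β) : Cert ρ β m := by
  have hβ1 : β ≤ 1 := by linarith
  have hr0 : 0 ≤ ρ * β := by positivity
  have hr1 : ρ * β ≤ 0.14 * β := mul_le_mul_of_nonneg_right h1 (by linarith)
  obtain ⟨y0, hy0, g0, a0⟩ := small_angle (g := ρ * β - m) (abs_le.2 ⟨by linarith, by linarith⟩)
  obtain ⟨y1, hy1, g1, a1⟩ := small_angle (g := ρ * β + m) (abs_le.2 ⟨by linarith, by linarith⟩)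
  have hz : ρ ^ 2 ≤ 0.0196 := by nlinarith
  have hsq : ∀ u : ℝ, u ^ 2 ≤ 1 → 0 ≤ hel u ∧ hel u ^ 2 = 1 - u ^ 2 := fun u hu =>
    ⟨Real.sqrt_nonneg _, Real.sq_sqrt (by linarith)⟩
  obtain ⟨s0, s2⟩ := hsq ρ (by linarith)
  obtain ⟨W0, W2⟩ := hsq m (by nlinarith)
  obtain ⟨p0, p2⟩ := hsq (ρ * β - m) (by nlinarith)
  obtain ⟨q0, q2⟩ := hsq (ρ * β + m) (by nlinarith)
  have s3 : hel ρ ≤ 1 := le_one_of_sq s2
  have W1 : hel m ≤ 1 := le_one_of_sq W2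
  set s := hel ρ with hs
  set t := ρ * β / s with ht
  have V := VOK.of_lin t (fun x hx => tin_sound t hx hy0) (fun x hx => tin_sound t hx hy1)
  rw [g0, g1, a0, a1] at V
  refine ⟨_, admU_one, _, _, _, _, _, _, _, _, V, by positivity, by norm_num, by norm_num, ?_⟩
  clear V g0 g1 a0 a1 hy0 hy1 hsq
  have s1 : 0.99 ≤ s := by
    refine (pow_le_pow_iff_left₀ (by norm_num) s0 two_ne_zero).1 ?_
    linarith
  have hb2 : β ^ 2 ≤ 1 := pow_le_one₀ (by linarith) hβ1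
  have hm2 : m ^ 2 ≤ (1 - β) ^ 2 := pow_le_pow_left₀ hm0 hm 2
  have G := gap_bound hr0 (by linarith) hm0 (by linarith) (by linarith) s1
    (by linarith [mul_le_mul_of_nonneg_left hb2 (sq_nonneg ρ)]) W0 W2 p0 p2 q0 q2
  have Pb := poly_bound (η := 1 - β) (y := m ^ 2) (z := ρ ^ 2) (by linarith) (by linarith)
    (sq_nonneg m) hm2 hz
  rw [sub_sub_cancel] at Pb
  have hY0 : 0 ≤ 1 - β ^ 2 - 1.74 * β ^ 2 * m ^ 2 := by
    have := mul_le_mul hb2 hm2 (sq_nonneg m) zero_le_one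
    linarith [mul_nonneg (sub_nonneg.2 hβ1) (sub_nonneg.2 hβ)]
  have k2 : ρ ^ 2 * (1 - β ^ 2 - 1.74 * β ^ 2 * m ^ 2)
      ≤ 2 * ((hel (ρ * β - m) + hel (ρ * β + m)) / 2 + 1 - hel m - s) :=
    le_two_mul_of (s := s) (mul_nonneg (sq_nonneg ρ) hY0) s0 s3 (by linear_combination G + s2)
  have hs0 : s ≠ 0 := by linarith
  have k3 : t ^ 2 * (s - (1 - hel m)) ≤ t * (ρ * β) := by
    have : t * (ρ * β) = t ^ 2 * s := by rw [ht]; field_simp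
    rw [this]
    exact mul_le_mul_of_nonneg_left (by linarith) (sq_nonneg t)
  have k4 : ρ ^ 2 / s - t * (ρ * β) ≤ ρ ^ 2 * (100 / 99 * (1 - β ^ 2)) := by
    have : ρ ^ 2 / s - t * (ρ * β) = ρ ^ 2 * (1 - β ^ 2) / s := by rw [ht]; field_simp
    rw [this, div_le_iff₀ (by linarith)]
    linarith [mul_le_mul_of_nonneg_left s1 (mul_nonneg (sq_nonneg ρ) (sub_nonneg.2 hb2))]
  have k5 := mul_le_mul_of_nonneg_left Pb (sq_nonneg ρ)
  unfold cost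
  linear_combination k3 + k4 + k5 + 9 / 4 * k2

theorem cert_all (ρ β m : ℝ) (h0 : 0 < ρ) (h1 : ρ < 1) (hs : 23 / 50 ≤ hel ρ) (hβ : 18 / 25 ≤ β)
    (hm0 : 0 ≤ m) (hm : m ≤ 1 - β) : Cert ρ β m := by
  rcases le_total ρ 0.14 with h | h
  · exact cert_small h0 h hβ hm0 hm
  obtain ⟨y, hy, e1, e2⟩ := exists_half_angle (g := ρ) (by rw [abs_of_pos h0]; exact h1)
  obtain ⟨y0, y1⟩ := abs_lt.mp hy
  have hA : (0 : ℝ) < 1 + y ^ 2 := by positivity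
  have b1 : 0.07 ≤ y := by
    rw [e1, le_div_iff₀ hA] at h
    nlinarith
  have b2 : y ≤ 0.61 := by
    rw [e2, le_div_iff₀ hA] at hs
    nlinarith
  have hη : 0 ≤ 1 - β := by linarith
  have hμ : m / (1 - β) * (1 - β) = m := by
    rcases hη.eq_or_lt with h2 | h2
    · rw [← h2, mul_zero]; linarith
    · field_simp
  have := runC_sound cAll_ok (pt [y, 1 - β, m / (1 - β)]) (by
    simp only [Box.mem_cons_pt, Iv.mem_mk, Box.mem_nil, and_true]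
    push_cast
    refine ⟨⟨by linarith, by linarith⟩, ⟨by linarith, by linarith⟩, by positivity, ?_⟩
    rw [mul_one]
    exact div_le_one_of_le₀ hm hη) (by change 0 < y; linarith) y1 hη
    (by change (m / (1 - β) * (1 - β)) ^ 2 ≤ 1; rw [hμ]; nlinarith)
  change Cert (gT y) (1 - (1 - β)) (m / (1 - β) * (1 - β)) at this
  rwa [hμ, sub_sub_cancel, show gT y = ρ from e1.symm] at this

end Crest.Agent.R307.H1

namespace Crest.Agent.R307

theorem regH1 : RegH1 := H1.regH1_of_cert H1.cert_all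

end Crest.Agent.R307
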