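import Crest.Agent.Lib.PolyBB.Core

/-! Row 307, regime H1: the polynomial inequalities of a cell and their checker (no Mathlib). -/

set_option autoImplicit false

namespace Crest.Agent.R307.H1

open Crest.Agent.Lib.PolyBB

scoped instance : Add E := ⟨E.add⟩
scoped instance : Sub E := ⟨E.sub⟩
scoped instance : Mul E := ⟨E.mul⟩
scoped instance : Pow E Nat := ⟨E.pow⟩

section poly

variable {α : Type} [Add α] [Sub α] [Mul α] [Pow α Nat] (c : Int → α)

/-- `60 U`. -/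
def u60 (x : α) : α := c 120 * x + c 12 * x ^ 5 + c 5 * x ^ 9

/-- `60 (U x - U y) / (x - y)`. -/
def du60 (x y : α) : α :=
  c 120 + c 12 * (x ^ 4 + x ^ 3 * y + x ^ 2 * y ^ 2 + x * y ^ 3 + y ^ 4)
    + c 5 * ((x ^ 2 + x * y + y ^ 2) * (x ^ 6 + x ^ 3 * y ^ 3 + y ^ 6))

/-- The one-face inequality of a regular record (`A = 1 + x²`). -/
def inn (T W Lam kk C L0 L1 K0 K1 x n A : α) : α :=
  c 3 * (A ^ 2 * (c 4 * T * x - W * (c 1 - x ^ 4) - K0 - K1 * n) + Lam * (c 1 - x ^ 2) * A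
      + c 4 * C * x ^ 2 + c 2 * (L0 + L1 * n) * x * A)
    + c 1000 * kk * (c 2 * x - n * A) * A * u60 c x

/-- The one-face inequality at the dictator, divided by `(x - y)²`
(`X = 1 + x²`, `A = 1 + y²`, `B = 1 - y²`). -/
def zin (Lam kk C x y X A B : α) : α :=
  c 3 * (c 1000000 * (c 8 * y * (c 1 + y ^ 4) * (x + c 2 * y - x * y ^ 2) * X
        + c 4 * y ^ 2 * (x ^ 2 + c 2 * x * y + c 3 * y ^ 2) * X ^ 2 * B)
      - c 2 * Lam * X * (A * B) ^ 2 + c 4 * C * (c 1 - x * y) ^ 2 * B ^ 3)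
    + c 2000 * kk * (c 1 - x * y) * du60 c x y * X * A * B ^ 3

/-- `A² (1 - (1 - ρ²) β - n²)`. -/
def wv (r A e N : α) : α := A ^ 2 - (A ^ 2 - r ^ 2) * (c 1 - e) - N ^ 2

/-- One face of the outer inequality of a regular cell. -/
def outRf (kk C L0 L1 K0 K1 r A e N : α) : α :=
  K0 * A ^ 4 + (K1 - L0) * N * A ^ 3 - (L1 + C) * N ^ 2 * A ^ 2
    - (C + c 100 * kk ^ 2) * r ^ 2 * wv c r A e N

/-- The outer inequality of a regular cell. -/
def outR (P : Nat → α) (r A B e m N0 N1 : α) : α :=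
  c 4 * B * (outRf c (P 4) (P 6) (P 8) (P 9) (P 12) (P 13) r A e N0
      + outRf c (P 5) (P 7) (P 10) (P 11) (P 14) (P 15) r A e N1)
    - P 3 * B * A ^ 3 * (c 8 * B - (c 4 * m ^ 2 + m ^ 4) * A) - c 8000000 * r ^ 2 * A ^ 3

/-- One face of the outer inequality of a cell touching the dictators. -/
def outZf (E1 Lam0 C0 kk C L0 L1 K0 K1 r A B u e N M : α) : α :=
  (E1 - c 100 * e) * (c 3 * (c 1000000 * r ^ 2 * A ^ 3 * B ^ 2 + Lam0 * A ^ 3 * B ^ 4
        - C0 * (r ^ 2 - c 2 * r * N) * A ^ 2 * B ^ 3)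
      + (c 3 * r * (Lam0 * B ^ 2 - c 1000000 * (B ^ 2 + A ^ 2)) - c 1000 * kk * u * B ^ 3)
        * (r - N) * A ^ 3)
    + c 3 * B ^ 3 * (e * (c 100 * K0 * A ^ 4 + (K1 * M - c 100 * L0 * N) * A ^ 3
          - L1 * M * N * A ^ 2)
        - ((E1 - c 100 * e) * C0 + c 100 * e * C) * (N ^ 2 * A ^ 2 + r ^ 2 * wv c r A e N)
        - c 100 * E1 * kk ^ 2 * r ^ 2 * wv c r A e N)

/-- The outer inequality of a cell touching the dictators. -/
def outZ (P : Nat → α) (r A B u e m N0 N1 M0 M1 : α) : α :=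
  c 4 * (outZf c (P 20) (P 21) (P 22) (P 4) (P 6) (P 8) (P 9) (P 12) (P 13) r A B u e N0 M0
      + outZf c (P 20) (P 21) (P 23) (P 5) (P 7) (P 10) (P 11) (P 14) (P 15) r A B u e N1 M1)
    - c 3 * ((P 20 - c 100 * e) * P 21 + c 100 * e * P 3) * B ^ 3 * A ^ 3
        * (c 8 * B - (c 4 * m ^ 2 + m ^ 4) * A)
    - c 24000000 * P 20 * r ^ 2 * A ^ 3 * B ^ 2

/-- The one-face inequality for small noise parameter. -/
def tin (x y : α) : α :=
  c 14 * (c 1 - x * y) * (c 1 + x ^ 2) * (c 1 + y ^ 2) * (c 1 - y ^ 2)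
    - c 4 * (c 1 - x * y) ^ 2 * (c 1 - y ^ 2) - c 9 * (c 1 + x ^ 2) * (c 1 + y ^ 2) ^ 2

end poly

/-! ## Expressions -/

def eA : E := .cst 1 + .var 0 ^ 2
def eB : E := .cst 1 - .var 0 ^ 2
def eR : E := .cst 2 * .var 0
def eM : E := .var 2 * .var 1
def eN0 : E := eR * (.cst 1 - .var 1) - eM * eA
def eN1 : E := eR * (.cst 1 - .var 1) + eM * eA
def eM0 : E := eR * (.cst 100 - .par 20) - .var 2 * .par 20 * eA
def eM1 : E := eR * (.cst 100 - .par 20) + .var 2 * .par 20 * eA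
def eX : E := .cst 1 + .var 1 ^ 2

def eInn0 : E := inn .cst (.par 0) (.par 1) (.par 3) (.par 4) (.par 6) (.par 8) (.par 9) (.par 12)
  (.par 13) (.var 0) (.var 1) eA
def eInn1 : E := inn .cst (.par 0) (.par 2) (.par 3) (.par 5) (.par 7) (.par 10) (.par 11) (.par 14)
  (.par 15) (.var 0) (.var 1) eA
def eZin0 : E := zin .cst (.par 21) (.par 4) (.par 22) (.var 1) (.var 0) eX eA eB
def eZin1 : E := zin .cst (.par 21) (.par 5) (.par 23) (.var 1) (.var 0) eX eA eB
def eOutR : E := outR .cst .par eR eA eB (.var 1) eM eN0 eN1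
def eOutZ : E := outZ .cst .par eR eA eB (u60 .cst (.var 0)) (.var 1) eM eN0 eN1 eM0 eM1
def eTin : E := tin .cst (.var 0) (.var 1)

/-- Sign conditions of a regular record. -/
def eSign : List E :=
  [.par 1, .par 2, .par 1 * .par 2 * .cst 1000000000000 - .par 0 ^ 4, .par 3,
    .par 6 + .cst 100 * .par 4 ^ 2, .par 7 + .cst 100 * .par 5 ^ 2]

/-- Range conditions of a regular cell. -/
def eRngR : List E :=
  [.cst 1000 * eN0 - .par 16 * eA, .par 17 * eA - .cst 1000 * eN0,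
    .cst 1000 * eN1 - .par 18 * eA, .par 19 * eA - .cst 1000 * eN1]

/-- Sign and range conditions of a cell touching the dictators. -/
def eRngZ : List E :=
  [.cst 10 * eM0 - .par 16 * eA, .par 17 * eA - .cst 10 * eM0,
    .cst 10 * eM1 - .par 18 * eA, .par 19 * eA - .cst 10 * eM1,
    .par 20 - .cst 1, .par 20 - .cst 100 * .var 1, .par 21,
    .par 22 + .cst 100 * .par 4 ^ 2, .par 23 + .cst 100 * .par 5 ^ 2]

/-! ## Checker -/

/-- Bisection trees without data. -/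
inductive T1
  | leaf
  | split (i : Nat) (u : Nat) (v : Int) (l r : T1)

noncomputable def run1 (e : E) (q : List Int) (t : T1) : Box → Bool :=
  T1.rec (motive := fun _ => Box → Bool) (fun B => chk e B q)
    (fun i u v _ _ l r B => band (l (setHi u v B i)) (r (setLo u v B i))) t

def unitIv : Iv := ⟨1, -1, 1, 1⟩

noncomputable def recOK (q : List Int) (t0 t1 : T1) : Bool :=
  band (chkAll eSign [] q)
    (band (run1 eInn0 q t0 [unitIv, ⟨1000, nth 0 q 16, 1000, nth 0 q 17⟩])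
      (run1 eInn1 q t1 [unitIv, ⟨1000, nth 0 q 18, 1000, nth 0 q 19⟩]))

noncomputable def cellR (q : List Int) (t0 t1 tO : T1) (B : Box) : Bool :=
  band (recOK q t0 t1) (band (chkAll eRngR B q) (run1 eOutR q tO B))

noncomputable def cellZ (q : List Int) (t0 t1 tO z0 z1 : T1) (B : Box) : Bool :=
  band (recOK q t0 t1) (band (chkAll eRngZ B q) (band (run1 eOutZ q tO B)
    (band (run1 eZin0 q z0 [nth unitIv B 0, unitIv]) (run1 eZin1 q z1 [nth unitIv B 0, unitIv]))))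

/-- Partition trees of the parameter box. -/
inductive CT
  | r (q : List Int) (t0 t1 tO : T1)
  | z (q : List Int) (t0 t1 tO z0 z1 : T1)
  | split (i : Nat) (u : Nat) (v : Int) (l r : CT)

noncomputable def runC (t : CT) : Box → Bool :=
  CT.rec (motive := fun _ => Box → Bool) (fun q t0 t1 tO B => cellR q t0 t1 tO B)
    (fun q t0 t1 tO z0 z1 B => cellZ q t0 t1 tO z0 z1 B)
    (fun i u v _ _ l r B => band (l (setHi u v B i)) (r (setLo u v B i))) t

end Crest.Agent.R307.H1
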