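import Crest.Agent.R307.H1Red
import Crest.Agent.R307.H1Def
import Crest.Agent.Lib.PolyBB.Basic

/-! Row 307, regime H1: soundness of the cell checker. -/

set_option autoImplicit false

open Crest.CubeNoise

namespace Crest.Agent.R307.H1

open Crest.Agent.Lib.PolyBB

/-- Integer constants as real numbers. -/
def ci (z : ℤ) : ℝ := z

/-- The admissible function of degree nine. -/
noncomputable def U9 (τ : ℝ) : ℝ := 2 * τ + τ ^ 5 / 5 + τ ^ 9 / 12

theorem admU9 : AdmU U9 := admU_nine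

theorem hel_le {m : ℝ} : hel m ≤ 1 - (4 * m ^ 2 + m ^ 4) / 8 ∨ 1 < m ^ 2 := by
  rcases le_or_gt (m ^ 2) 1 with h | h
  · left
    have h0 := sq_nonneg m
    have e : m ^ 4 = (m ^ 2) ^ 2 := by ring
    rw [e]
    unfold hel
    generalize m ^ 2 = y at h h0
    refine Real.sqrt_le_iff.2 ⟨by nlinarith, ?_⟩
    nlinarith [pow_nonneg h0 3, pow_nonneg h0 4]
  · exact Or.inr h

theorem inn_sound {T W Lam kk C L0 L1 K0 K1 x n : ℝ}
    (h : 0 ≤ inn ci T W Lam kk C L0 L1 K0 K1 x n (1 + x ^ 2)) :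
    (K0 + K1 * n) / 1000000 ≤ 4 * (T / 1000000) * x - W / 1000000 * (1 - x ^ 4)
      + fT U9 (kk / 100) n (Lam / 1000000) (C / 1000000) ((L0 + L1 * n) / 1000000) x := by
  have hA : (0 : ℝ) < 1 + x ^ 2 := by positivity
  have e : 4 * (T / 1000000) * x - W / 1000000 * (1 - x ^ 4)
      + fT U9 (kk / 100) n (Lam / 1000000) (C / 1000000) ((L0 + L1 * n) / 1000000) x
      - (K0 + K1 * n) / 1000000
      = inn ci T W Lam kk C L0 L1 K0 K1 x n (1 + x ^ 2) / (3000000 * (1 + x ^ 2) ^ 2) := by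
    simp only [inn, u60, ci, fT, U9, gT, aT]
    push_cast
    field_simp
    ring
  have : 0 ≤ inn ci T W Lam kk C L0 L1 K0 K1 x n (1 + x ^ 2) / (3000000 * (1 + x ^ 2) ^ 2) := by
    positivity
  linarith

/-- Slope of the Lagrangian at the dictator. -/
noncomputable def l0 (ρ s u k lam c : ℝ) : ℝ :=
  ρ / s * (lam - 1 - 1 / s ^ 2) - 2 * k * u - 2 * c * ρ

/-- Value of the Lagrangian at the dictator. -/
noncomputable def K0 (ρ s u k lam c : ℝ) : ℝ :=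
  ρ ^ 2 / s + lam * s + ρ / s * (lam - 1 - 1 / s ^ 2) * ρ - 2 * k * u * ρ - c * ρ ^ 2

theorem zin_sound {Lam kk C x y : ℝ} (hy : |y| < 1)
    (h : 0 ≤ zin ci Lam kk C x y (1 + x ^ 2) (1 + y ^ 2) (1 - y ^ 2)) :
    K0 (gT y) (aT y) (U9 y) (kk / 100) (Lam / 1000000) (C / 1000000)
      ≤ 4 * (2 * y / (1 - y ^ 4)) * x - (2 * y / (1 - y ^ 4)) ^ 2 * (1 - x ^ 4)
        + fT U9 (kk / 100) (gT y) (Lam / 1000000) (C / 1000000)
          (l0 (gT y) (aT y) (U9 y) (kk / 100) (Lam / 1000000) (C / 1000000)) x := by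
  have hX : (0 : ℝ) < 1 + x ^ 2 := by positivity
  have hA : (0 : ℝ) < 1 + y ^ 2 := by positivity
  have hB : (0 : ℝ) < 1 - y ^ 2 := by linarith [sq_lt_one hy]
  have e : 4 * (2 * y / (1 - y ^ 4)) * x - (2 * y / (1 - y ^ 4)) ^ 2 * (1 - x ^ 4)
        + fT U9 (kk / 100) (gT y) (Lam / 1000000) (C / 1000000)
          (l0 (gT y) (aT y) (U9 y) (kk / 100) (Lam / 1000000) (C / 1000000)) x
      - K0 (gT y) (aT y) (U9 y) (kk / 100) (Lam / 1000000) (C / 1000000)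
      = (x - y) ^ 2 * zin ci Lam kk C x y (1 + x ^ 2) (1 + y ^ 2) (1 - y ^ 2)
        / (3000000 * (1 + x ^ 2) ^ 2 * (1 + y ^ 2) ^ 2 * (1 - y ^ 2) ^ 3) := by
    simp only [zin, du60, ci, fT, U9, gT, aT, l0, K0]
    rw [show 1 - y ^ 4 = (1 + y ^ 2) * (1 - y ^ 2) by ring]
    push_cast
    field_simp
    ring
  have : 0 ≤ (x - y) ^ 2 * zin ci Lam kk C x y (1 + x ^ 2) (1 + y ^ 2) (1 - y ^ 2)
      / (3000000 * (1 + x ^ 2) ^ 2 * (1 + y ^ 2) ^ 2 * (1 - y ^ 2) ^ 3) := by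
    positivity
  linarith

theorem outR_eq (P : ℕ → ℝ) {r A B e m : ℝ} (hA : A ≠ 0) (hB : B ≠ 0) :
    ((P 12 + P 13 * (r / A * (1 - e) - m)) / 1000000
        + (P 14 + P 15 * (r / A * (1 - e) + m)) / 1000000) / 2
      - (cost (r / A) (1 - e) (P 4 / 100) (r / A * (1 - e) - m) (P 6 / 1000000)
            ((P 8 + P 9 * (r / A * (1 - e) - m)) / 1000000)
          + cost (r / A) (1 - e) (P 5 / 100) (r / A * (1 - e) + m) (P 7 / 1000000)
            ((P 10 + P 11 * (r / A * (1 - e) + m)) / 1000000)) / 2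
      - P 3 / 1000000 * (B / A - (4 * m ^ 2 + m ^ 4) / 8) - (r / A) ^ 2 / (B / A)
      = outR ci P r A B e m (r * (1 - e) - m * A) (r * (1 - e) + m * A)
        / (8000000 * A ^ 4 * B) := by
  simp only [outR, outRf, wv, ci, cost]
  push_cast
  field_simp
  ring

theorem outZf_eq {E1 Lam0 C0 kk C L0 L1 K0' K1 r A B u e N M : ℝ} (hA : A ≠ 0) (hB : B ≠ 0)
    (hE : E1 ≠ 0) :
    ((1 - 100 * e / E1) * K0 (r / A) (B / A) (u / 60) (kk / 100) (Lam0 / 1000000) (C0 / 1000000)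
        + 100 * e / E1 * ((K0' + K1 * (M / (100 * A))) / 1000000))
      - cost (r / A) (1 - e) (kk / 100) (N / A)
          ((1 - 100 * e / E1) * (C0 / 1000000) + 100 * e / E1 * (C / 1000000))
          ((1 - 100 * e / E1)
              * l0 (r / A) (B / A) (u / 60) (kk / 100) (Lam0 / 1000000) (C0 / 1000000)
            + 100 * e / E1 * ((L0 + L1 * (M / (100 * A))) / 1000000))
      = outZf ci E1 Lam0 C0 kk C L0 L1 K0' K1 r A B u e N M / (3000000 * E1 * A ^ 4 * B ^ 3) := by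
  simp only [outZf, wv, ci, cost, K0, l0]
  push_cast
  field_simp
  ring

theorem ci_one : ci 1 = 1 := by simp [ci]

theorem run1_sound {e : E} {q : List ℤ} {t : T1} {B : Box} (h : run1 e q t B = true) {x : ℕ → ℝ}
    (hx : B.mem x) : 0 ≤ e.eval x (fun j => q.getD j 0) := by
  induction t generalizing B with
  | leaf => exact chk_sound h hx
  | split i u v l r ihl ihr =>
    obtain ⟨h1, h2⟩ := band_eq_true.mp h
    exact (mem_setHi_or_setLo u v i hx).elim (ihl h1) (ihr h2)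

theorem unit_mem {x : ℝ} (hx : |x| < 1) : unitIv.mem x := by
  obtain ⟨h1, h2⟩ := abs_lt.mp hx
  simp only [unitIv, Iv.mem_mk]
  push_cast
  constructor <;> linarith

theorem recOK_sound {q : List ℤ} {t0 t1 : T1} (h : recOK q t0 t1 = true) (P : ℕ → ℝ)
    (hP : ∀ j, P j = (q.getD j 0 : ℤ)) :
    0 ≤ P 3 ∧ 0 ≤ P 6 + 100 * P 4 ^ 2 ∧ 0 ≤ P 7 + 100 * P 5 ^ 2 ∧
    ∀ n0 n1 : ℝ, P 16 ≤ n0 * 1000 → n0 * 1000 ≤ P 17 → P 18 ≤ n1 * 1000 → n1 * 1000 ≤ P 19 →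
      VOK U9 (P 4 / 100) (P 5 / 100) n0 n1 (P 3 / 1000000) (P 6 / 1000000) (P 7 / 1000000)
        ((P 8 + P 9 * n0) / 1000000) ((P 10 + P 11 * n1) / 1000000)
        (((P 12 + P 13 * n0) / 1000000 + (P 14 + P 15 * n1) / 1000000) / 2) := by
  obtain ⟨h1, h2⟩ := band_eq_true.mp h
  obtain ⟨h2, h3⟩ := band_eq_true.mp h2
  have hs := chkAll_sound h1 (Box.mem_nil (fun _ => 0))
  simp only [eSign, List.forall_mem_cons] at hs
  obtain ⟨s1, s2, s3, s4, s5, s6, -⟩ := hs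
  obtain rfl : P = fun j => ((q.getD j 0 : ℤ) : ℝ) := funext hP
  set P : ℕ → ℝ := fun j => ((q.getD j 0 : ℤ) : ℝ) with hPd
  change 0 ≤ P 1 at s1
  change 0 ≤ P 2 at s2
  change 0 ≤ P 1 * P 2 * ci 1000000000000 - P 0 ^ 4 at s3
  change 0 ≤ P 6 + ci 100 * P 4 ^ 2 at s5
  change 0 ≤ P 7 + ci 100 * P 5 ^ 2 at s6
  simp only [ci, Int.cast_ofNat] at s3 s5 s6
  refine ⟨s4, s5, s6, fun n0 n1 a1 a2 a3 a4 => ?_⟩
  refine VOK.of_sep (t := P 0 / 1000000) (w0 := P 1 / 1000000) (w1 := P 2 / 1000000)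
    (by positivity) (by positivity) (by linarith) (fun x hx => ?_) (fun x hx => ?_)
  · have := run1_sound h2 (x := pt [x, n0]) (by
      simp only [Box.mem_cons_pt, Iv.mem_mk, nth_eq, Box.mem_nil, and_true]
      exact ⟨unit_mem hx, by exact_mod_cast a1, by exact_mod_cast a2⟩)
    change 0 ≤ inn ci (P 0) (P 1) (P 3) (P 4) (P 6) (P 8) (P 9) (P 12) (P 13) x n0
      (ci 1 + x ^ 2) at this
    rw [ci_one] at this
    exact inn_sound this
  · have := run1_sound h3 (x := pt [x, n1]) (by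
      simp only [Box.mem_cons_pt, Iv.mem_mk, nth_eq, Box.mem_nil, and_true]
      exact ⟨unit_mem hx, by exact_mod_cast a3, by exact_mod_cast a4⟩)
    change 0 ≤ inn ci (P 0) (P 2) (P 3) (P 5) (P 7) (P 10) (P 11) (P 14) (P 15) x n1
      (ci 1 + x ^ 2) at this
    rw [ci_one] at this
    exact inn_sound this

/-- Every admissible point of the box has a certificate. -/
def Good (B : Box) : Prop :=
  ∀ x : ℕ → ℝ, B.mem x → 0 < x 0 → x 0 < 1 → 0 ≤ x 1 → (x 2 * x 1) ^ 2 ≤ 1 →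
    Cert (gT (x 0)) (1 - x 1) (x 2 * x 1)

theorem cellR_sound {q : List ℤ} {t0 t1 tO : T1} {B : Box} (h : cellR q t0 t1 tO B = true) :
    Good B := by
  intro x hx y0 y1 _ hm
  obtain ⟨h1, h2⟩ := band_eq_true.mp h
  obtain ⟨h2, h3⟩ := band_eq_true.mp h2
  set P : ℕ → ℝ := fun j => ((q.getD j 0 : ℤ) : ℝ) with hPd
  obtain ⟨s1, s2, s3, hV⟩ := recOK_sound h1 P (fun _ => rfl)
  have hr := chkAll_sound h2 hx
  simp only [eRngR, List.forall_mem_cons] at hr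
  obtain ⟨r1, r2, r3, r4, -⟩ := hr
  have ho := run1_sound h3 hx
  set y := x 0 with hy
  set e := x 1 with he
  set m := x 2 * x 1 with hmd
  change 0 ≤ ci 1000 * (ci 2 * y * (ci 1 - e) - m * (ci 1 + y ^ 2)) - P 16 * (ci 1 + y ^ 2) at r1
  change 0 ≤ P 17 * (ci 1 + y ^ 2) - ci 1000 * (ci 2 * y * (ci 1 - e) - m * (ci 1 + y ^ 2)) at r2
  change 0 ≤ ci 1000 * (ci 2 * y * (ci 1 - e) + m * (ci 1 + y ^ 2)) - P 18 * (ci 1 + y ^ 2) at r3
  change 0 ≤ P 19 * (ci 1 + y ^ 2) - ci 1000 * (ci 2 * y * (ci 1 - e) + m * (ci 1 + y ^ 2)) at r4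
  change 0 ≤ outR ci P (ci 2 * y) (ci 1 + y ^ 2) (ci 1 - y ^ 2) e m
    (ci 2 * y * (ci 1 - e) - m * (ci 1 + y ^ 2)) (ci 2 * y * (ci 1 - e) + m * (ci 1 + y ^ 2)) at ho
  rw [ci_one, show ci 2 = 2 by simp [ci]] at ho
  simp only [ci, Int.cast_ofNat, Int.cast_one] at r1 r2 r3 r4
  have hy1 : |y| < 1 := by rw [abs_of_pos y0]; exact y1
  have hA : (0 : ℝ) < 1 + y ^ 2 := by positivity
  have hB : (0 : ℝ) < 1 - y ^ 2 := by linarith [sq_lt_one hy1]
  have n0 : (gT y * (1 - e) - m) * (1 + y ^ 2) = 2 * y * (1 - e) - m * (1 + y ^ 2) := by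
    unfold gT; field_simp
  have n1 : (gT y * (1 - e) + m) * (1 + y ^ 2) = 2 * y * (1 - e) + m * (1 + y ^ 2) := by
    unfold gT; field_simp
  refine ⟨U9, admU9, _, _, _, _, _, _, _, _,
    hV _ _ (le_of_mul_le_mul_right (by nlinarith) hA) (le_of_mul_le_mul_right (by nlinarith) hA)
      (le_of_mul_le_mul_right (by nlinarith) hA) (le_of_mul_le_mul_right (by nlinarith) hA),
    by positivity, by linarith, by linarith, ?_⟩
  have e1 := outR_eq P (r := 2 * y) (e := e) (m := m) hA.ne' hB.ne'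
  have e2 : 0 ≤ outR ci P (2 * y) (1 + y ^ 2) (1 - y ^ 2) e m (2 * y * (1 - e) - m * (1 + y ^ 2))
      (2 * y * (1 - e) + m * (1 + y ^ 2)) / (8000000 * (1 + y ^ 2) ^ 4 * (1 - y ^ 2)) := by
    positivity
  have e3 := mul_le_mul_of_nonneg_left (hel_le.resolve_right (not_lt.2 hm))
    (show 0 ≤ P 3 / 1000000 by positivity)
  rw [hel_gT hy1]
  unfold gT aT
  linarith

theorem mix_nonneg {w a b k : ℝ} (h0 : 0 ≤ w) (h1 : w ≤ 1) (ha : 0 ≤ a + 100 * k ^ 2)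
    (hb : 0 ≤ b + 100 * k ^ 2) :
    0 ≤ (1 - w) * (a / 1000000) + w * (b / 1000000) + (k / 100) ^ 2 := by
  nlinarith [mul_nonneg (sub_nonneg.2 h1) ha, mul_nonneg h0 hb]

theorem cellZ_sound {q : List ℤ} {t0 t1 tO z0 z1 : T1} {B : Box}
    (h : cellZ q t0 t1 tO z0 z1 B = true) : Good B := by
  intro x hx y0 y1 he0 hm
  obtain ⟨h1, h2⟩ := band_eq_true.mp h
  obtain ⟨h2, h3⟩ := band_eq_true.mp h2
  obtain ⟨h3, h4⟩ := band_eq_true.mp h3
  obtain ⟨h4, h5⟩ := band_eq_true.mp h4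
  set P : ℕ → ℝ := fun j => ((q.getD j 0 : ℤ) : ℝ) with hPd
  obtain ⟨s1, s2, s3, hV⟩ := recOK_sound h1 P (fun _ => rfl)
  have hr := chkAll_sound h2 hx
  simp only [eRngZ, List.forall_mem_cons] at hr
  obtain ⟨r1, r2, r3, r4, r5, r6, r7, r8, r9, -⟩ := hr
  have ho := run1_sound h3 hx
  have hy1 : |x 0| < 1 := by rw [abs_of_pos y0]; exact y1
  have hI : (nth unitIv B 0).mem (x 0) := by
    cases B with
    | nil => exact unit_mem hy1
    | cons I B => exact ((Box.mem_cons I B x).mp hx).1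
  set y := x 0 with hy
  set e := x 1 with he
  set μ := x 2 with hμ
  change 0 ≤ ci 10 * (ci 2 * y * (ci 100 - P 20) - μ * P 20 * (ci 1 + y ^ 2))
    - P 16 * (ci 1 + y ^ 2) at r1
  change 0 ≤ P 17 * (ci 1 + y ^ 2)
    - ci 10 * (ci 2 * y * (ci 100 - P 20) - μ * P 20 * (ci 1 + y ^ 2)) at r2
  change 0 ≤ ci 10 * (ci 2 * y * (ci 100 - P 20) + μ * P 20 * (ci 1 + y ^ 2))
    - P 18 * (ci 1 + y ^ 2) at r3
  change 0 ≤ P 19 * (ci 1 + y ^ 2)
    - ci 10 * (ci 2 * y * (ci 100 - P 20) + μ * P 20 * (ci 1 + y ^ 2)) at r4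
  change 0 ≤ P 20 - ci 1 at r5
  change 0 ≤ P 20 - ci 100 * e at r6
  change 0 ≤ P 21 at r7
  change 0 ≤ P 22 + ci 100 * P 4 ^ 2 at r8
  change 0 ≤ P 23 + ci 100 * P 5 ^ 2 at r9
  change 0 ≤ outZ ci P (ci 2 * y) (ci 1 + y ^ 2) (ci 1 - y ^ 2) (u60 ci y) e (μ * e)
    (ci 2 * y * (ci 1 - e) - μ * e * (ci 1 + y ^ 2))
    (ci 2 * y * (ci 1 - e) + μ * e * (ci 1 + y ^ 2))
    (ci 2 * y * (ci 100 - P 20) - μ * P 20 * (ci 1 + y ^ 2))
    (ci 2 * y * (ci 100 - P 20) + μ * P 20 * (ci 1 + y ^ 2)) at ho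
  rw [ci_one, show ci 2 = 2 by simp [ci], show ci 100 = 100 by simp [ci]] at ho
  simp only [ci, Int.cast_ofNat, Int.cast_one] at r1 r2 r3 r4 r5 r6 r8 r9
  have hA : (0 : ℝ) < 1 + y ^ 2 := by positivity
  have hB : (0 : ℝ) < 1 - y ^ 2 := by linarith [sq_lt_one hy1]
  have hE : 0 < P 20 := by linarith
  set M0 := 2 * y * (100 - P 20) - μ * P 20 * (1 + y ^ 2) with hM0
  set M1 := 2 * y * (100 - P 20) + μ * P 20 * (1 + y ^ 2) with hM1
  have m0 : M0 / (100 * (1 + y ^ 2)) * 1000 * (1 + y ^ 2) = 10 * M0 := by field_simp; ring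
  have m1 : M1 / (100 * (1 + y ^ 2)) * 1000 * (1 + y ^ 2) = 10 * M1 := by field_simp; ring
  have V1 := hV (M0 / (100 * (1 + y ^ 2))) (M1 / (100 * (1 + y ^ 2)))
    (le_of_mul_le_mul_right (by linarith) hA) (le_of_mul_le_mul_right (by linarith) hA)
    (le_of_mul_le_mul_right (by linarith) hA) (le_of_mul_le_mul_right (by linarith) hA)
  have V0 : VOK U9 (P 4 / 100) (P 5 / 100) (gT y) (gT y) (P 21 / 1000000) (P 22 / 1000000)
      (P 23 / 1000000) _ _ _ :=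
    VOK.of_sep (t := 2 * y / (1 - y ^ 4)) (sq_nonneg _) (sq_nonneg _) (le_of_eq (by ring))
      (fun z hz => zin_sound hy1 (by
        have := run1_sound h4 (x := pt [y, z]) (by
          simp only [Box.mem_cons_pt, Box.mem_nil, and_true]
          exact ⟨hI, unit_mem hz⟩)
        rw [← ci_one]
        exact this))
      (fun z hz => zin_sound hy1 (by
        have := run1_sound h5 (x := pt [y, z]) (by
          simp only [Box.mem_cons_pt, Box.mem_nil, and_true]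
          exact ⟨hI, unit_mem hz⟩)
        rw [← ci_one]
        exact this))
  have hw0 : 0 ≤ 100 * e / P 20 := by positivity
  have hw1 : 100 * e / P 20 ≤ 1 := by rw [div_le_one hE]; linarith
  have V := V0.mix V1 hw0 hw1
  have q0 : (1 - 100 * e / P 20) * gT y + 100 * e / P 20 * (M0 / (100 * (1 + y ^ 2)))
      = gT y * (1 - e) - μ * e := by
    rw [hM0]; unfold gT; field_simp; ring
  have q1 : (1 - 100 * e / P 20) * gT y + 100 * e / P 20 * (M1 / (100 * (1 + y ^ 2)))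
      = gT y * (1 - e) + μ * e := by
    rw [hM1]; unfold gT; field_simp; ring
  rw [q0, q1] at V
  have hw2 := sub_nonneg.2 hw1
  have hl : 0 ≤ (1 - 100 * e / P 20) * (P 21 / 1000000) + 100 * e / P 20 * (P 3 / 1000000) := by
    positivity
  refine ⟨U9, admU9, _, _, _, _, _, _, _, _, V, hl, ?_, ?_, ?_⟩
  · exact mix_nonneg hw0 hw1 r8 s2
  · exact mix_nonneg hw0 hw1 r9 s3
  have hu : U9 y = u60 ci y / 60 := by
    simp only [U9, u60, ci]; push_cast; ring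
  have f0 := outZf_eq (E1 := P 20) (Lam0 := P 21) (C0 := P 22) (kk := P 4) (C := P 6) (L0 := P 8)
    (L1 := P 9) (K0' := P 12) (K1 := P 13) (r := 2 * y) (u := u60 ci y) (e := e)
    (N := 2 * y * (1 - e) - μ * e * (1 + y ^ 2)) (M := M0) hA.ne' hB.ne' hE.ne'
  have f1 := outZf_eq (E1 := P 20) (Lam0 := P 21) (C0 := P 23) (kk := P 5) (C := P 7) (L0 := P 10)
    (L1 := P 11) (K0' := P 14) (K1 := P 15) (r := 2 * y) (u := u60 ci y) (e := e)
    (N := 2 * y * (1 - e) + μ * e * (1 + y ^ 2)) (M := M1) hA.ne' hB.ne' hE.ne'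
  have n0 : (2 * y * (1 - e) - μ * e * (1 + y ^ 2)) / (1 + y ^ 2)
      = 2 * y / (1 + y ^ 2) * (1 - e) - μ * e := by field_simp
  have n1 : (2 * y * (1 - e) + μ * e * (1 + y ^ 2)) / (1 + y ^ 2)
      = 2 * y / (1 + y ^ 2) * (1 - e) + μ * e := by field_simp
  rw [n0] at f0
  rw [n1] at f1
  have e3 := mul_le_mul_of_nonneg_left (hel_le.resolve_right (not_lt.2 hm)) hl
  have e2 : 0 ≤ outZ ci P (2 * y) (1 + y ^ 2) (1 - y ^ 2) (u60 ci y) e (μ * e)
      (2 * y * (1 - e) - μ * e * (1 + y ^ 2)) (2 * y * (1 - e) + μ * e * (1 + y ^ 2)) M0 M1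
      / (24000000 * P 20 * (1 + y ^ 2) ^ 4 * (1 - y ^ 2) ^ 3) := by
    positivity
  have e4 : ∀ F0 F1 A B r m : ℝ, A ≠ 0 → B ≠ 0 →
      (ci 4 * (F0 + F1) - ci 3 * ((P 20 - ci 100 * e) * P 21 + ci 100 * e * P 3) * B ^ 3 * A ^ 3
        * (ci 8 * B - (ci 4 * m ^ 2 + m ^ 4) * A) - ci 24000000 * P 20 * r ^ 2 * A ^ 3 * B ^ 2)
        / (24000000 * P 20 * A ^ 4 * B ^ 3)
      = (F0 / (3000000 * P 20 * A ^ 4 * B ^ 3) + F1 / (3000000 * P 20 * A ^ 4 * B ^ 3)) / 2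
        - ((1 - 100 * e / P 20) * (P 21 / 1000000) + 100 * e / P 20 * (P 3 / 1000000))
          * (B / A - (4 * m ^ 2 + m ^ 4) / 8) - (r / A) ^ 2 / (B / A) := by
    intro F0 F1 A B r m hA hB
    have := hE.ne'
    simp only [ci]
    push_cast
    field_simp
    ring
  unfold outZ at e2
  rw [e4 _ _ _ _ _ _ hA.ne' hB.ne', ← f0, ← f1] at e2
  rw [hel_gT hy1, hu]
  unfold gT aT
  linear_combination e2 + e3

theorem runC_sound {t : CT} {B : Box} (h : runC t B = true) : Good B := by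
  induction t generalizing B with
  | r q t0 t1 tO => exact cellR_sound h
  | z q t0 t1 tO z0 z1 => exact cellZ_sound h
  | split i u v l r ihl ihr =>
    obtain ⟨h1, h2⟩ := band_eq_true.mp h
    exact fun x hx => (mem_setHi_or_setLo u v i hx).elim (ihl h1 x) (ihr h2 x)

end Crest.Agent.R307.H1
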