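import Crest.Agent.R307.H2Red
import Crest.Agent.R307.Defs4

/-! Row 307, regime H1: reduction of `RegH1` to a pointwise dual certificate. -/

set_option autoImplicit false

open Crest.CubeNoise

namespace Crest.Agent.R307.H1

/-- The big edge in half-angle variables (the lower face is negated). -/
noncomputable def eT (x y : ℝ) : ℝ := eH (-gT x) (gT y)

theorem hel_gT {x : ℝ} (hx : |x| < 1) : hel (gT x) = aT x := hel_half_angle hx

theorem hel_neg (u : ℝ) : hel (-u) = hel u := by simp [hel]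

theorem eH_neg (u v : ℝ) : eH (-u) (-v) = eH u v := by
  simp only [eH, edge, hel_neg]; ring

theorem eH_comm (u v : ℝ) : eH u v = eH v u := by
  simp only [eH, edge]; ring

theorem sq_lt_one {x : ℝ} (hx : |x| < 1) : x ^ 2 < 1 := (sq_lt_one_iff_abs_lt_one x).2 hx

theorem eT_eq {x y : ℝ} (hx : |x| < 1) (hy : |y| < 1) :
    eT x y = (x + y) ^ 2 * (1 - x ^ 2 * y ^ 2) / ((1 - x ^ 4) * (1 - y ^ 4)) := by
  have h1 := sq_lt_one hx
  have h2 := sq_lt_one hy
  have h3 : (1 : ℝ) - x ^ 2 ≠ 0 := by linarith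
  have h4 : (1 : ℝ) - y ^ 2 ≠ 0 := by linarith
  have h5 : (1 : ℝ) + x ^ 2 ≠ 0 := by positivity
  have h6 : (1 : ℝ) + y ^ 2 ≠ 0 := by positivity
  simp only [eT, eH, edge, hel_neg, hel_gT hx, hel_gT hy]
  rw [show 1 - x ^ 4 = (1 - x ^ 2) * (1 + x ^ 2) by ring,
    show 1 - y ^ 4 = (1 - y ^ 2) * (1 + y ^ 2) by ring]
  unfold gT aT
  field_simp
  ring

/-- Separable lower bound for the big edge, tight at dictators. -/
theorem eT_ge_sep {x y : ℝ} (hx : |x| < 1) (hy : |y| < 1) {t w0 w1 : ℝ} (h0 : 0 ≤ w0)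
    (h1 : 0 ≤ w1) (hw : t ^ 4 ≤ w0 * w1) :
    ((4 * t * x - w0 * (1 - x ^ 4)) + (4 * t * y - w1 * (1 - y ^ 4))) / 2 ≤ eT x y := by
  have hx2 := sq_lt_one hx
  have hy2 := sq_lt_one hy
  have hP : 0 < 1 - x ^ 4 := by nlinarith [sq_nonneg x]
  have hQ : 0 < 1 - y ^ 4 := by nlinarith [sq_nonneg y]
  obtain ⟨G, hG0, hG⟩ : ∃ G : ℝ, 0 < G ∧ G ^ 2 = (1 - x ^ 4) * (1 - y ^ 4) :=
    ⟨√((1 - x ^ 4) * (1 - y ^ 4)), Real.sqrt_pos.2 (mul_pos hP hQ),
      Real.sq_sqrt (mul_pos hP hQ).le⟩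
  have hXY : 0 ≤ 1 - x ^ 2 * y ^ 2 := by nlinarith [sq_nonneg x, sq_nonneg y]
  have hG1 : G ≤ 1 - x ^ 2 * y ^ 2 := by
    refine (pow_le_pow_iff_left₀ hG0.le hXY two_ne_zero).1 ?_
    rw [hG]
    nlinarith [sq_nonneg (x ^ 2 - y ^ 2)]
  have hG2 : t ^ 2 * G ≤ (w0 * (1 - x ^ 4) + w1 * (1 - y ^ 4)) / 2 := by
    refine (pow_le_pow_iff_left₀ (by positivity) (by positivity) two_ne_zero).1 ?_
    have h3 := mul_le_mul_of_nonneg_right hw (mul_pos hP hQ).le
    rw [mul_pow, hG]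
    nlinarith [sq_nonneg (w0 * (1 - x ^ 4) - w1 * (1 - y ^ 4))]
  rw [eT_eq hx hy, ← hG, le_div_iff₀ (by positivity)]
  have h4 := mul_le_mul_of_nonneg_left hG1 (sq_nonneg (x + y))
  have h5 := mul_le_mul_of_nonneg_right hG2 (sq_nonneg G)
  nlinarith [mul_nonneg hG0.le (sq_nonneg (x + y - t * G))]

/-- A cruder separable lower bound for the big edge. -/
theorem eT_ge_lin {x y : ℝ} (hx : |x| < 1) (hy : |y| < 1) (t : ℝ) :
    ((2 * t * gT x - t ^ 2 * aT x) + (2 * t * gT y - t ^ 2 * aT y)) / 2 ≤ eT x y := by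
  have hx2 := sq_lt_one hx
  have hy2 := sq_lt_one hy
  have h5 : (0 : ℝ) < 1 + x ^ 2 := by positivity
  have h6 : (0 : ℝ) < 1 + y ^ 2 := by positivity
  have hP : 0 < 1 - x ^ 4 := by nlinarith [sq_nonneg x]
  have hQ : 0 < 1 - y ^ 4 := by nlinarith [sq_nonneg y]
  have hXY : 0 < 1 - x ^ 2 * y ^ 2 := by nlinarith [sq_nonneg x, sq_nonneg y]
  set N := (1 + x ^ 2) * (1 + y ^ 2) with hN
  have hN0 : 0 < N := by positivity
  have e1 : ((2 * t * gT x - t ^ 2 * aT x) + (2 * t * gT y - t ^ 2 * aT y)) / 2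
      = (2 * t * ((x + y) * (1 + x * y)) - t ^ 2 * (1 - x ^ 2 * y ^ 2)) / N := by
    unfold gT aT
    rw [hN]
    field_simp
    ring
  have e2 : 2 * t * ((x + y) * (1 + x * y)) - t ^ 2 * (1 - x ^ 2 * y ^ 2)
      ≤ ((x + y) * (1 + x * y)) ^ 2 / (1 - x ^ 2 * y ^ 2) := by
    rw [le_div_iff₀ hXY]
    nlinarith [sq_nonneg ((x + y) * (1 + x * y) - t * (1 - x ^ 2 * y ^ 2))]
  rw [e1, eT_eq hx hy]
  refine (div_le_div_of_nonneg_right e2 hN0.le).trans ?_
  rw [div_div, div_le_div_iff₀ (by positivity) (by positivity)]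
  have e3 : (x + y) ^ 2 * (1 - x ^ 2 * y ^ 2) * ((1 - x ^ 2 * y ^ 2) * N)
      - ((x + y) * (1 + x * y)) ^ 2 * ((1 - x ^ 4) * (1 - y ^ 4))
      = ((x + y) * (1 + x * y) * (x - y)) ^ 2 * N := by
    rw [hN]; ring
  have e4 : 0 ≤ ((x + y) * (1 + x * y) * (x - y)) ^ 2 * N := by positivity
  linarith

/-- The one-face part of the Lagrangian. -/
noncomputable def fT (U : ℝ → ℝ) (k ν lam c l x : ℝ) : ℝ :=
  lam * aT x + 2 * k * (gT x - ν) * U x + c * gT x ^ 2 + l * gT x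

/-- Pointwise validity of a Lagrangian. -/
def VOK (U : ℝ → ℝ) (k0 k1 n0 n1 lam c0 c1 l0 l1 K : ℝ) : Prop :=
  ∀ x y : ℝ, |x| < 1 → |y| < 1 →
    K ≤ eT x y + (fT U k0 n0 lam c0 l0 x + fT U k1 n1 lam c1 l1 y) / 2

theorem VOK.mix {U : ℝ → ℝ} {k0 k1 n0 n1 lam c0 c1 l0 l1 K n0' n1' lam' c0' c1' l0' l1' K' w : ℝ}
    (h : VOK U k0 k1 n0 n1 lam c0 c1 l0 l1 K) (h' : VOK U k0 k1 n0' n1' lam' c0' c1' l0' l1' K')
    (hw0 : 0 ≤ w) (hw1 : w ≤ 1) :
    VOK U k0 k1 ((1 - w) * n0 + w * n0') ((1 - w) * n1 + w * n1') ((1 - w) * lam + w * lam')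
      ((1 - w) * c0 + w * c0') ((1 - w) * c1 + w * c1') ((1 - w) * l0 + w * l0')
      ((1 - w) * l1 + w * l1') ((1 - w) * K + w * K') := by
  intro x y hx hy
  have a := mul_le_mul_of_nonneg_left (h x y hx hy) (sub_nonneg.2 hw1)
  have b := mul_le_mul_of_nonneg_left (h' x y hx hy) hw0
  unfold fT at a b ⊢
  linarith

theorem VOK.of_sep {U : ℝ → ℝ} {k0 k1 n0 n1 lam c0 c1 l0 l1 K0 K1 t w0 w1 : ℝ} (hw0 : 0 ≤ w0)
    (hw1 : 0 ≤ w1) (hw : t ^ 4 ≤ w0 * w1)
    (h0 : ∀ x, |x| < 1 → K0 ≤ 4 * t * x - w0 * (1 - x ^ 4) + fT U k0 n0 lam c0 l0 x)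
    (h1 : ∀ x, |x| < 1 → K1 ≤ 4 * t * x - w1 * (1 - x ^ 4) + fT U k1 n1 lam c1 l1 x) :
    VOK U k0 k1 n0 n1 lam c0 c1 l0 l1 ((K0 + K1) / 2) := by
  intro x y hx hy
  have := eT_ge_sep hx hy hw0 hw1 hw
  have := h0 x hx
  have := h1 y hy
  linarith

theorem VOK.of_lin {U : ℝ → ℝ} {k0 k1 n0 n1 lam c0 c1 l0 l1 K0 K1 : ℝ} (t : ℝ)
    (h0 : ∀ x, |x| < 1 → K0 ≤ 2 * t * gT x - t ^ 2 * aT x + fT U k0 n0 lam c0 l0 x)
    (h1 : ∀ x, |x| < 1 → K1 ≤ 2 * t * gT x - t ^ 2 * aT x + fT U k1 n1 lam c1 l1 x) :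
    VOK U k0 k1 n0 n1 lam c0 c1 l0 l1 ((K0 + K1) / 2) := by
  intro x y hx hy
  have := eT_ge_lin hx hy t
  have := h0 x hx
  have := h1 y hy
  linarith

/-- The cost of one face. -/
def cost (ρ β k ν c l : ℝ) : ℝ :=
  l * ν + c * ν ^ 2 + (c + k ^ 2) * (ρ ^ 2 * (1 - (1 - ρ ^ 2) * β - ν ^ 2))

/-- A dual certificate at noise `ρ`, coefficient `β` and mean `m`. -/
def Cert (ρ β m : ℝ) : Prop :=
  ∃ U : ℝ → ℝ, AdmU U ∧ ∃ k0 k1 lam c0 c1 l0 l1 K : ℝ,
    VOK U k0 k1 (ρ * β - m) (ρ * β + m) lam c0 c1 l0 l1 K ∧ 0 ≤ lam ∧ 0 ≤ c0 + k0 ^ 2 ∧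
    0 ≤ c1 + k1 ^ 2 ∧
    ρ ^ 2 / hel ρ ≤ K - (cost ρ β k0 (ρ * β - m) c0 l0 + cost ρ β k1 (ρ * β + m) c1 l1) / 2
      - lam * (hel ρ - (1 - hel m))

theorem face_bound {n : ℕ} (τ : Cube n → ℝ) (hτ : ∀ x, |τ x| < 1) {U : ℝ → ℝ} (hU : AdmU U)
    (k ν V lam c l : ℝ) (hν : cubeAverage (fun x => gT (τ x)) = ν)
    (hV : cubeAverage (fun x => (gT (τ x) - ν) ^ 2) ≤ V) (hp : 0 ≤ c + k ^ 2) :
    cubeAverage (fun x => fT U k ν lam c l (τ x))
      ≤ lam * cubeAverage (fun x => aT (τ x)) + dir eH (fun x => gT (τ x))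
        + (l * ν + c * ν ^ 2 + (c + k ^ 2) * V) := by
  obtain ⟨U', hU1, hU2⟩ := hU
  have hP : cubeAverage (fun x => U (τ x) ^ 2) - cubeAverage (fun x => U (τ x)) ^ 2
      ≤ dir eH (fun x => gT (τ x)) := by
    refine (poincare (fun x => U (τ x))).trans (avg_mono fun x => ?_)
    exact Finset.sum_le_sum fun i _ => edge_ge_sq U U' hU1 hU2 (hτ _) (hτ _)
  set cb := cubeAverage (fun x => U (τ x)) with hcb
  have hpt : ∀ x, fT U k ν lam c l (τ x) ≤ lam * aT (τ x) + (U (τ x) - cb) ^ 2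
      + (c + k ^ 2) * (gT (τ x) - ν) ^ 2 + (2 * k * cb + 2 * c * ν + l) * gT (τ x)
      + (-(2 * k * cb * ν) - c * ν ^ 2) := fun x => by
    unfold fT
    nlinarith [sq_nonneg (U (τ x) - cb - k * (gT (τ x) - ν))]
  have h1 := avg_mono hpt
  simp only [avg_add, avg_mul_left, avg_const] at h1
  rw [hν, st_avg_var (fun x => U (τ x)) cb hcb.symm] at h1
  have h2 := mul_le_mul_of_nonneg_left hV hp
  nlinarith

theorem face_static {n : ℕ} (f : Cube (n + 1) → Bool) (i : Fin (n + 1)) (b : Bool) {ρ : ℝ}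
    (h0 : 0 ≤ ρ) (h1 : ρ ≤ 1) :
    cubeAverage (face i b (noise ρ (sgn f))) = cubeAverage (sgn f) + ρ * (spin b * coef1 (sgn f) i) ∧
    cubeAverage (fun x => (face i b (noise ρ (sgn f)) x
        - cubeAverage (face i b (noise ρ (sgn f)))) ^ 2)
      ≤ ρ ^ 2 * (1 - (1 - ρ ^ 2) * |coef1 (sgn f) i|
        - cubeAverage (face i b (noise ρ (sgn f))) ^ 2) := by
  set F := sgn f with hF
  obtain ⟨π, -, -, e1, e2, -, -⟩ := static_face f i h0 h1
  rw [← hF] at e1 e2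
  refine ⟨by cases b <;> simp [spin, e1, e2, sub_eq_add_neg], ?_⟩
  set h : Cube n → ℝ := fun x => (1 + ρ) / 2 * face i b F x + (1 - ρ) / 2 * face i (!b) F x with hh
  have hc : ∀ (c : Bool) (x : Cube n), face i c F x = 1 ∨ face i c F x = -1 :=
    fun c x => st_sgn_cases f _
  have hn : face i b (noise ρ F) = noise ρ h := by
    funext x
    rw [noise_face, hh, st_noise_lin]
  have hβ : coef1 F i = (cubeAverage (face i true F) - cubeAverage (face i false F)) / 2 := by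
    rw [← avg_mul_spin]
    exact st_avg_congr fun x => mul_comm _ _
  have hr : 0 ≤ 1 - ρ ^ 2 := by nlinarith
  have key : ∀ σ : ℝ, σ = 1 ∨ σ = -1 →
      cubeAverage (fun x => h x ^ 2) ≤ 1 - (1 - ρ ^ 2) * (σ * coef1 F i) := by
    intro σ hσ
    have hpt : ∀ x, h x ^ 2 ≤ (-((1 - ρ ^ 2) * σ / 2) * face i true F x
        + (1 - ρ ^ 2) * σ / 2 * face i false F x) + 1 := fun x => by
      simp only [hh]
      cases b <;> rcases hσ with rfl | rfl <;> rcases hc true x with a | a <;>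
        rcases hc false x with a' | a' <;> simp only [Bool.not_true, Bool.not_false, a, a'] <;>
        nlinarith
    have := avg_mono hpt
    rw [avg_add, st_avg_lin, avg_const] at this
    rw [hβ]
    linarith
  have h2 : cubeAverage (fun x => h x ^ 2) ≤ 1 - (1 - ρ ^ 2) * |coef1 F i| := by
    rcases le_total 0 (coef1 F i) with hs | hs
    · rw [abs_of_nonneg hs]; simpa using key 1 (Or.inl rfl)
    · rw [abs_of_nonpos hs]; simpa using key (-1) (Or.inr rfl)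
  rw [hn, avg_noise]
  refine (st_var_noise h h0 h1).trans (mul_le_mul_of_nonneg_left ?_ (sq_nonneg ρ))
  linarith

theorem regH1_of_cert (H : ∀ ρ β m : ℝ, 0 < ρ → ρ < 1 → 23 / 50 ≤ hel ρ → 18 / 25 ≤ β → 0 ≤ m →
    m ≤ 1 - β → Cert ρ β m) : RegH1 := by
  intro n f ρ i hs hβ h0 h1 hg hm hA
  obtain ⟨n, rfl⟩ : ∃ k, n = k + 1 := ⟨n - 1, by have := i.pos; omega⟩
  set F := sgn f with hF
  set g := noise ρ F with hgd
  set m := cubeAverage F with hmd
  set β := |coef1 F i| with hβd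
  obtain ⟨b, hb⟩ : ∃ b : Bool, spin b * coef1 F i = β := by
    rcases le_total 0 (coef1 F i) with h | h
    · exact ⟨true, by simp [spin, hβd, abs_of_nonneg h]⟩
    · exact ⟨false, by simp [spin, hβd, abs_of_nonpos h]⟩
  have hmβ : m ≤ 1 - β := by
    obtain ⟨π, a1, a2, -⟩ := static_face f i h0.le h1.le
    have := le_abs_self m
    linarith
  obtain ⟨U, hU, k0, k1, lam, c0, c1, l0, l1, K, hV, hl, hp0, hp1, hout⟩ :=
    H ρ β m h0 h1 hs hβ hm hmβ
  obtain ⟨m1, v1⟩ := face_static f i b h0.le h1.le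
  obtain ⟨m0, v0⟩ := face_static f i (!b) h0.le h1.le
  rw [nz_spin_not, neg_mul, hb] at m0
  rw [hb] at m1
  rw [m1] at v1
  rw [m0] at v0
  choose y hy hyg hya using fun x : Cube n => exists_half_angle (g := face i b g x) (hg _)
  choose x hx hxg hxa using fun z : Cube n =>
    exists_half_angle (g := -face i (!b) g z) (by rw [abs_neg]; exact hg _)
  have hG1 : (fun z => gT (y z)) = face i b g := funext fun z => (hyg z).symm
  have hG0 : (fun z => gT (x z)) = fun z => -1 * face i (!b) g z :=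
    funext fun z => by rw [neg_one_mul]; exact (hxg z).symm
  have b1 := face_bound y hy hU k1 (ρ * β + m) _ lam c1 l1 (by rw [hG1, m1]; ring)
    (le_trans (le_of_eq (st_avg_congr fun z => by
      rw [show gT (y z) = face i b g z from (hyg z).symm, add_comm (ρ * β)])) v1) hp1
  have b0 := face_bound x hx hU k0 (ρ * β - m) _ lam c0 l0 (by rw [hG0, avg_mul_left, m0]; ring)
    (le_trans (le_of_eq (st_avg_congr fun z => by
      rw [show gT (x z) = -face i (!b) g z from (hxg z).symm]; ring)) v0) hp0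
  have d0 : dir eH (fun z => gT (x z)) = dir eH (face i (!b) g) := by
    rw [hG0]
    simp only [dir, neg_one_mul, eH_neg]
  rw [hG1] at b1
  rw [d0] at b0
  have hD : dir eH g = (dir eH (face i (!b) g) + dir eH (face i b g)) / 2
      + cubeAverage (fun z => eT (x z) (y z)) := by
    have e : (fun z => eT (x z) (y z)) = fun z => eH (face i (!b) g z) (face i b g z) := by
      funext z
      unfold eT
      rw [show gT (x z) = -face i (!b) g z from (hxg z).symm,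
        show gT (y z) = face i b g z from (hyg z).symm, neg_neg]
    rw [e, dir_split eH eH_comm i g]
    cases b
    · simp only [Bool.not_false, eH_comm (face i true g _)]
      ring
    · simp only [Bool.not_true]
  have hAs : cubeAverage (fun z => hel (g z))
      = (cubeAverage (fun z => aT (x z)) + cubeAverage (fun z => aT (y z))) / 2 := by
    have e0 : (fun z => aT (x z)) = face i (!b) (fun z => hel (g z)) := funext fun z => by
      have := hxa z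
      rw [hel_neg] at this
      exact this.symm
    have e1 : (fun z => aT (y z)) = face i b (fun z => hel (g z)) := funext fun z => (hya z).symm
    rw [e0, e1, avg_split i]
    cases b
    · simp only [Bool.not_false]; ring
    · simp only [Bool.not_true]
  have hK := avg_mono (g := fun _ : Cube n => K) (h := fun z => eT (x z) (y z)
    + (1 / 2 * fT U k0 (ρ * β - m) lam c0 l0 (x z) + 1 / 2 * fT U k1 (ρ * β + m) lam c1 l1 (y z)))
    fun z => by have := hV (x z) (y z) (hx z) (hy z); linarith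
  rw [avg_const, avg_add, st_avg_lin] at hK
  have hA' := mul_le_mul_of_nonneg_left hA.le hl
  rw [hAs] at hA'
  unfold cost at hout
  rw [hD]
  have q0 : (m + ρ * -β) ^ 2 = (ρ * β - m) ^ 2 := by ring
  have q1 : (m + ρ * β) ^ 2 = (ρ * β + m) ^ 2 := by ring
  rw [q0] at b0
  rw [q1] at b1
  linarith

end Crest.Agent.R307.H1
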