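import Crest.Agent.R307.H2Expr

/-! Row 307, regime H2: certificates, part A. -/

set_option autoImplicit false

namespace Crest.Agent.R307.H2

open Crest.Agent.Lib.PolyBB

theorem cOM1 : run (fun _ => four (outME 0 20 80 0 1030 7068 2900 (-723) 0 7022 5682 1894 (-1786) 963 5503))
    L
    [⟨100, 52, 100, 70⟩, ⟨1, 0, 1, 1⟩] [] = true := by decide +kernel

theorem cOM2 : run (fun _ => four (outME 20 55 100 (-1) 1081 6489 2580 (-1417) 992 6375 4998 2192 (-2209) 2803 4793))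
    L
    [⟨100, 52, 100, 70⟩, ⟨1, 0, 1, 1⟩] [] = true := by decide +kernel

theorem cOM3 : run (fun _ => four (outME 0 20 80 0 1030 4580 1225 (-2121) 0 4504 4756 1523 (-1730) 827 4720))
    L
    [⟨100, 70, 100, 85⟩, ⟨1, 0, 1, 1⟩] [] = true := by decide +kernel

theorem cOM4 : run (fun _ => four (outME 20 55 100 (-1) 970 5243 1849 (-1251) 783 5209 3962 1756 (-1705) 2131 3928))
    L
    [⟨100, 70, 100, 85⟩, ⟨1, 0, 1, 1⟩] [] = true := by decide +kernel

theorem cOW1 : run (fun _ => four (outWE 0 15 8000 0 (-1) 997 7254 3063 (-403) 10450 7238 6693 2667 (-885) 11145 8169))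
    L
    [⟨10000, 5000, 10000, 5395⟩, ⟨1, 0, 10000, 1⟩] [] = true := by decide +kernel

theorem cOW2 : run (fun _ => four (outWE 15 28 8000 0 (-1) 1110 8293 3904 (-412) 12423 9966 6300 2224 (-2094) 13182 9196))
    L
    [⟨10000, 4805, 10000, 5369⟩, ⟨1, 0, 10000, 1⟩] [] = true := by decide +kernel

theorem cOW3 : run (fun _ => four (outWE 28 40 10000 (-100) 0 1110 6356 2292 (-2028) 13177 9269 5849 1968 (-2464) 13887 10028))
    L
    [⟨10000, 4636, 10000, 5356⟩, ⟨1, 0, 10000, 1⟩] [] = true := by decide +kernel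

theorem cOW4 : run (fun _ => four (outWE 40 55 10000 (-100) 0 1270 7827 3724 (-1873) 15931 12707 7131 3313 (-2473) 17045 13760))
    L
    [⟨10000, 4480, 10000, 5395⟩, ⟨1, 0, 10000, 1⟩] [] = true := by decide +kernel

theorem cOS1 : run (fun _ => four (outSE 4 0 1110 4582 (-7680) 1407 (-3390) 219 (-25750)))
    L
    [⟨100, 85, 1, 1⟩, ⟨10, 0, 10, 1⟩] [] = true := by decide +kernel

theorem cOS2 : run (fun _ => four (outSE 0 5 772 3954 (-2985) 917 390 (-1191) 0))
    L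
    [⟨100, 85, 1, 1⟩, ⟨10, 1, 10, 3⟩] [] = true := by decide +kernel

theorem cAdm : run (fun _ => [admE (.var 0)])
    (.split 0 1 1 L (.split 0 2 3 L L))
    [⟨1, 0, 1, 2⟩] [] = true := by decide +kernel

theorem cIS1 : run (fun _ => [innSE 1110 4582 (-7680) 1407 (-3390) 219 (-25750)])
    (.split 1 1 0 (.split 2 1 0 L L) (.split 2 1 0 L L))
    [⟨10, 0, 10, 1⟩, ⟨1, -1, 1, 1⟩, ⟨1, -1, 1, 1⟩] [] = true := by decide +kernel

theorem cIS2 : run (fun _ => [innSE 772 3954 (-2985) 917 390 (-1191) 0])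
    (.split 1 1 0 (.split 2 1 0 L L) (.split 2 1 0 L L))
    [⟨10, 1, 10, 3⟩, ⟨1, -1, 1, 1⟩, ⟨1, -1, 1, 1⟩] [] = true := by decide +kernel


end Crest.Agent.R307.H2
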