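import Crest.Agent.R307.H2Expr

/-! Row 307, regime H2: certificates, part B. -/

set_option autoImplicit false

namespace Crest.Agent.R307.H2

open Crest.Agent.Lib.PolyBB

theorem cN1 : run (fun _ => [node9E 1030 0 7068 2900 (-723) 0 7022])
    (.split 0 1 0 (.split 1 1 0 L (.split 0 2 (-1) (.split 1 2 1 L L) L)) (.split 1 1 0 (.split 0
    2 1 L (.split 1 2 (-1) L L)) L))
    [⟨1, -1, 1, 1⟩, ⟨1, -1, 1, 1⟩] [] = true := by decide +kernel

theorem cN2 : run (fun _ => [node9E 1030 20 5682 1894 (-1786) 963 5503])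
    (.split 0 1 0 (.split 1 1 0 (.split 0 2 (-1) L (.split 1 2 (-1) L L)) (.split 0 2 (-1) L
    (.split 1 2 1 L L))) (.split 1 1 0 (.split 1 2 (-1) L (.split 0 2 1 L L)) (.split 0 2 1 L
    L)))
    [⟨1, -1, 1, 1⟩, ⟨1, -1, 1, 1⟩] [] = true := by decide +kernel

theorem cN3 : run (fun _ => [node9E 1081 20 6489 2580 (-1417) 992 6375])
    (.split 0 1 0 (.split 1 1 0 (.split 0 2 (-1) L (.split 1 2 (-1) L L)) (.split 0 2 (-1) L
    (.split 1 2 1 L L))) (.split 1 1 0 (.split 1 2 (-1) L (.split 0 2 1 L L)) (.split 0 2 1 L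
    L)))
    [⟨1, -1, 1, 1⟩, ⟨1, -1, 1, 1⟩] [] = true := by decide +kernel

theorem cN4 : run (fun _ => [node9E 1081 55 4998 2192 (-2209) 2803 4793])
    (.split 0 1 0 (.split 1 1 0 (.split 0 2 (-1) L (.split 1 2 (-1) L (.split 0 4 (-1) L L)))
    (.split 0 2 (-1) L (.split 1 2 1 L L))) (.split 1 1 0 (.split 1 2 (-1) L (.split 0 2 1 L L))
    (.split 0 2 1 L (.split 1 2 1 L L))))
    [⟨1, -1, 1, 1⟩, ⟨1, -1, 1, 1⟩] [] = true := by decide +kernel

theorem cN5 : run (fun _ => [node9E 1030 0 4580 1225 (-2121) 0 4504])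
    (.split 0 1 0 (.split 1 1 0 L L) (.split 1 1 0 L L))
    [⟨1, -1, 1, 1⟩, ⟨1, -1, 1, 1⟩] [] = true := by decide +kernel

theorem cN6 : run (fun _ => [node9E 1030 20 4756 1523 (-1730) 827 4720])
    (.split 0 1 0 (.split 1 1 0 L L) (.split 1 1 0 L L))
    [⟨1, -1, 1, 1⟩, ⟨1, -1, 1, 1⟩] [] = true := by decide +kernel

theorem cN7 : run (fun _ => [node9E 970 20 5243 1849 (-1251) 783 5209])
    (.split 0 1 0 (.split 1 1 0 L L) (.split 1 1 0 L L))
    [⟨1, -1, 1, 1⟩, ⟨1, -1, 1, 1⟩] [] = true := by decide +kernel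

theorem cN8 : run (fun _ => [node9E 970 55 3962 1756 (-1705) 2131 3928])
    (.split 0 1 0 (.split 1 1 0 L L) (.split 1 1 0 L L))
    [⟨1, -1, 1, 1⟩, ⟨1, -1, 1, 1⟩] [] = true := by decide +kernel


end Crest.Agent.R307.H2
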