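import Crest.Agent.R307.H2Expr

/-! Row 307, regime H2: certificates, part C. -/

set_option autoImplicit false

namespace Crest.Agent.R307.H2

open Crest.Agent.Lib.PolyBB

theorem cW1 : run (fun _ => [nodeWE 997 0 7254 3063 (-403) 10450 7238])
    (.split 0 24 17 (.split 1 24 17 L (.split 1 16 17 L (.split 1 96 119 L L))) (.split 1 24 17
    (.split 0 16 17 L (.split 0 96 119 L L)) (.split 0 16 17 L L)))
    [⟨1, 0, 12, 17⟩, ⟨1, 0, 12, 17⟩] [] = true := by decide +kernel

theorem cW2 : run (fun _ => [nodeWE 997 15 6693 2667 (-885) 11145 8169])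
    (.split 0 24 17 (.split 1 24 17 L (.split 1 16 17 L (.split 1 96 119 L L))) (.split 1 24 17
    (.split 0 16 17 L (.split 0 96 119 L L)) (.split 0 16 17 L (.split 1 16 17 L L))))
    [⟨1, 0, 12, 17⟩, ⟨1, 0, 12, 17⟩] [] = true := by decide +kernel

theorem cW3 : run (fun _ => [nodeWE 1110 15 8293 3904 (-412) 12423 9966])
    (.split 0 24 17 (.split 1 24 17 L (.split 1 16 17 (.split 0 48 17 L L) (.split 1 96 119
    (.split 0 48 17 L L) (.split 1 64 85 (.split 0 48 17 L L) L)))) (.split 1 24 17 (.split 0 16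
    17 (.split 1 48 17 L L) (.split 0 96 119 (.split 1 48 17 L L) (.split 0 64 85 (.split 1 48 17
    L L) L))) (.split 0 16 17 L (.split 1 16 17 L L))))
    [⟨1, 0, 12, 17⟩, ⟨1, 0, 12, 17⟩] [] = true := by decide +kernel

theorem cW4 : run (fun _ => [nodeWE 1110 28 6300 2224 (-2094) 13182 9196])
    (.split 0 24 17 (.split 1 24 17 L (.split 1 16 17 L (.split 1 96 119 (.split 0 48 17 L L)
    L))) (.split 1 24 17 (.split 0 16 17 L (.split 0 96 119 (.split 1 48 17 L L) L)) (.split 0 16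
    17 L (.split 1 16 17 L (.split 0 96 119 (.split 1 96 119 L L) L)))))
    [⟨1, 0, 12, 17⟩, ⟨1, 0, 12, 17⟩] [] = true := by decide +kernel

theorem cW5 : run (fun _ => [nodeWE 1110 28 6356 2292 (-2028) 13177 9269])
    (.split 0 24 17 (.split 1 24 17 L (.split 1 16 17 L (.split 1 96 119 (.split 0 48 17 L L)
    L))) (.split 1 24 17 (.split 0 16 17 L (.split 0 96 119 (.split 1 48 17 L L) L)) (.split 0 16
    17 L (.split 1 16 17 L (.split 0 96 119 (.split 1 96 119 L L) L)))))
    [⟨1, 0, 12, 17⟩, ⟨1, 0, 12, 17⟩] [] = true := by decide +kernel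

theorem cW6 : run (fun _ => [nodeWE 1110 40 5849 1968 (-2464) 13887 10028])
    (.split 0 24 17 (.split 1 24 17 (.split 0 48 17 L L) (.split 1 16 17 L (.split 1 96 119
    (.split 0 48 17 L L) L))) (.split 1 24 17 (.split 0 16 17 L (.split 0 96 119 (.split 1 48 17
    L L) L)) (.split 0 16 17 L (.split 1 16 17 L (.split 0 96 119 (.split 1 96 119 L L) L)))))
    [⟨1, 0, 12, 17⟩, ⟨1, 0, 12, 17⟩] [] = true := by decide +kernel

theorem cW7 : run (fun _ => [nodeWE 1270 40 7827 3724 (-1873) 15931 12707])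
    (.split 0 24 17 (.split 1 24 17 (.split 1 48 17 L L) (.split 1 16 17 L (.split 1 96 119
    (.split 0 48 17 L L) L))) (.split 1 24 17 (.split 0 16 17 L (.split 0 96 119 (.split 1 48 17
    L L) L)) (.split 0 16 17 L (.split 1 16 17 L (.split 0 96 119 (.split 1 96 119 L L) L)))))
    [⟨1, 0, 12, 17⟩, ⟨1, 0, 12, 17⟩] [] = true := by decide +kernel

theorem cW8 : run (fun _ => [nodeWE 1270 55 7131 3313 (-2473) 17045 13760])
    (.split 0 24 17 (.split 1 24 17 (.split 0 48 17 L L) (.split 1 16 17 L (.split 1 96 119 L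
    L))) (.split 1 24 17 (.split 0 16 17 L (.split 0 96 119 L L)) (.split 0 16 17 L (.split 1 16
    17 L (.split 0 96 119 (.split 1 96 119 L L) L)))))
    [⟨1, 0, 12, 17⟩, ⟨1, 0, 12, 17⟩] [] = true := by decide +kernel


end Crest.Agent.R307.H2
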