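import Crest.Agent.R307.H2Glue
import Crest.Agent.R307.Defs4

/-! Row 307, regime H2: the strip below `hel ρ = 13 / 25`. -/

set_option autoImplicit false

open Crest.CubeNoise

namespace Crest.Agent.R307.H2

/-- Node inequality with the denominators cleared; `u`, `v` are the values of `N U`. -/
def nodeQ (N k m μ p q α K u v τ σ : ℝ) : ℝ :=
  25000 * ((u - v) * ((1 + τ ^ 2) * (1 + σ ^ 2))) ^ 2
  + 2 * k * N * ((100 * (τ * (1 + σ ^ 2) + σ * (1 + τ ^ 2)) - m * ((1 + τ ^ 2) * (1 + σ ^ 2)))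
      * ((u + v) * ((1 + τ ^ 2) * (1 + σ ^ 2))))
  + 100 * N ^ 2 * ((μ * (1 - τ ^ 2 * σ ^ 2) + α * (τ * (1 + σ ^ 2) + σ * (1 + τ ^ 2))
        - K * ((1 + τ ^ 2) * (1 + σ ^ 2))) * ((1 + τ ^ 2) * (1 + σ ^ 2))
      + p * (τ * (1 + σ ^ 2) - σ * (1 + τ ^ 2)) ^ 2 + q * (τ * (1 + σ ^ 2) + σ * (1 + τ ^ 2)) ^ 2)

theorem nodeQ_sixty (k m μ p q α K τ σ : ℝ) :
    nodeQ 60 k m μ p q α K (u9 τ) (u9 σ) τ σ = 40 * nodeP k m μ p q α K τ σ := by
  unfold nodeQ nodeP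
  generalize u9 τ = u
  generalize u9 σ = v
  ring

/-- The node inequality. -/
def NodeR (U : ℝ → ℝ) (k m μ p q α K : ℝ) : Prop :=
  ∀ τ σ : ℝ, |τ| < 1 → |σ| < 1 →
    K / 1000 ≤ ((U τ - U σ) / 2) ^ 2
      + 4 * (k / 1000) * ((gT τ + gT σ) / 2 - m / 100) * ((U τ + U σ) / 2)
      + μ / 1000 * ((aT τ + aT σ) / 2) + p / 1000 * ((gT τ - gT σ) / 2) ^ 2
      + q / 1000 * ((gT τ + gT σ) / 2) ^ 2 + α / 1000 * ((gT τ + gT σ) / 2)

theorem nodeQ_real {N k m μ p q α K u v τ σ : ℝ} (hN : 0 < N)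
    (h : 0 ≤ nodeQ N k m μ p q α K u v τ σ) :
    K / 1000 ≤ ((u / N - v / N) / 2) ^ 2
      + 4 * (k / 1000) * ((gT τ + gT σ) / 2 - m / 100) * ((u / N + v / N) / 2)
      + μ / 1000 * ((aT τ + aT σ) / 2) + p / 1000 * ((gT τ - gT σ) / 2) ^ 2
      + q / 1000 * ((gT τ + gT σ) / 2) ^ 2 + α / 1000 * ((gT τ + gT σ) / 2) := by
  have ha : 0 < 1 + τ ^ 2 := by positivity
  have hb : 0 < 1 + σ ^ 2 := by positivity
  rw [← sub_nonneg]
  have e : ((u / N - v / N) / 2) ^ 2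
      + 4 * (k / 1000) * ((gT τ + gT σ) / 2 - m / 100) * ((u / N + v / N) / 2)
      + μ / 1000 * ((aT τ + aT σ) / 2) + p / 1000 * ((gT τ - gT σ) / 2) ^ 2
      + q / 1000 * ((gT τ + gT σ) / 2) ^ 2 + α / 1000 * ((gT τ + gT σ) / 2) - K / 1000 =
      nodeQ N k m μ p q α K u v τ σ / (100000 * N ^ 2 * ((1 + τ ^ 2) * (1 + σ ^ 2)) ^ 2) := by
    unfold nodeQ gT aT
    field_simp
    ring
  rw [e]
  positivity

/-- `-10⁵ U` in the variable `y = √(1 - τ)`. -/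
def wP (y : ℝ) : ℝ :=
  y * (199900 + y ^ 2 * (49301 + y ^ 2 * (17021 + y ^ 2 * (-6170 + y ^ 2 * (9365
    + y ^ 2 * (-10951 + y ^ 2 * 3554))))))

/-- The derivative of `wP` in the variable `v = y²`. -/
def rP (v : ℝ) : ℝ :=
  199900 + v * (147903 + v * (85105 + v * (-43190 + v * (84285 + v * (-120461 + v * 46202)))))

/-- The admissibility polynomial. -/
def admP (v : ℝ) : ℝ := 160000000000 - rP v ^ 2 * ((2 - v) * (1 + (1 - v) ^ 2))

noncomputable def UW (τ : ℝ) : ℝ := -wP (√(1 - τ)) / 100000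

theorem hasDerivAt_wP (y : ℝ) : HasDerivAt wP (rP (y ^ 2)) y := by
  have e : wP = fun y : ℝ => 199900 * y ^ 1 + 49301 * y ^ 3 + 17021 * y ^ 5 + -6170 * y ^ 7
      + 9365 * y ^ 9 + -10951 * y ^ 11 + 3554 * y ^ 13 := by
    funext y; unfold wP; ring
  rw [e]
  have h := fun (c : ℝ) (n : ℕ) => (hasDerivAt_pow n y).const_mul c
  refine (((((((h 199900 1).add (h 49301 3)).add (h 17021 5)).add (h (-6170) 7)).add
    (h 9365 9)).add (h (-10951) 11)).add (h 3554 13)).congr_deriv ?_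
  unfold rP
  norm_num
  ring

theorem admUW (h : ∀ v : ℝ, 0 ≤ v → v ≤ 2 → 0 ≤ admP v) : AdmU UW := by
  refine ⟨fun τ => rP (1 - τ) / (200000 * √(1 - τ)), fun τ hτ => ?_, fun τ hτ => ?_⟩
  · have h1 : 0 < 1 - τ := by linarith [(abs_lt.1 hτ).2]
    have h2 : HasDerivAt (fun τ : ℝ => √(1 - τ)) (-1 / (2 * √(1 - τ))) τ :=
      ((hasDerivAt_id τ).const_sub 1).sqrt h1.ne'
    have h3 := (((hasDerivAt_wP (√(1 - τ))).comp τ h2).neg).div_const 100000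
    refine h3.congr_deriv ?_
    rw [Real.sq_sqrt h1.le]
    have : 0 < √(1 - τ) := Real.sqrt_pos.2 h1
    field_simp
    ring
  · have h1 : 0 < 1 - τ := by linarith [(abs_lt.1 hτ).2]
    have h2 := h (1 - τ) h1.le (by linarith [(abs_lt.1 hτ).1])
    unfold admP at h2
    rw [div_pow, mul_pow, Real.sq_sqrt h1.le, div_mul_eq_mul_div, div_le_iff₀ (by positivity)]
    have e : 1 - τ ^ 4 = (1 - τ) * ((2 - (1 - τ)) * (1 + (1 - (1 - τ)) ^ 2)) := by ring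
    rw [e]
    nlinarith [mul_nonneg h1.le h2]

def NodeWOK (k m μ p q α K : ℝ) : Prop :=
  ∀ y z : ℝ, 0 ≤ y → 12 * y ≤ 17 → 0 ≤ z → 12 * z ≤ 17 →
    0 ≤ nodeQ 100000 k m μ p q α K (0 - wP y) (0 - wP z) (1 - y ^ 2) (1 - z ^ 2)

theorem nodeR_of_W {k m μ p q α K : ℝ} (h : NodeWOK k m μ p q α K) : NodeR UW k m μ p q α K := by
  intro τ σ hτ hσ
  have hb : ∀ τ : ℝ, |τ| < 1 → 12 * √(1 - τ) ≤ 17 ∧ 1 - √(1 - τ) ^ 2 = τ := fun τ hτ => by
    have h1 := abs_lt.1 hτ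
    refine ⟨?_, by rw [Real.sq_sqrt (by linarith)]; ring⟩
    have : √(1 - τ) ≤ 17 / 12 := Real.sqrt_le_iff.2 ⟨by norm_num, by linarith⟩
    linarith
  have h1 := h _ _ (Real.sqrt_nonneg _) (hb τ hτ).1 (Real.sqrt_nonneg _) (hb σ hσ).1
  rw [(hb τ hτ).2, (hb σ hσ).2, zero_sub, zero_sub] at h1
  exact nodeQ_real (by norm_num) h1

/-- Outer inequality with `om`, `b` in units of `1 / 10⁴`. -/
def outN (M O B k μ p q α K s : ℝ) : ℝ :=
  s * (16000000000000000 * K - 160000000000000 * (α * M) - 1600000000000 * (q * M ^ 2)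
      - 1000 * μ * (16000000000000 * s - (800000000 * M ^ 2 + 20000 * M ^ 4 + M ^ 6))
      - 1600000000000 * p * ((1 - s ^ 2) * O + (1 - s ^ 2) ^ 3 * B)
      - 1600000000 * (1000 * q + 2 * k ^ 2) * ((1 - s ^ 2) ^ 2 * (10000 - M ^ 2 - O - B)))
    - 16000000000000000000 * (1 - s ^ 2)

theorem outN_eq (M om b k μ p q α K s : ℝ) :
    outN M (100 * om) (100 * b) k μ p q α K s = outM M om b k μ p q α K s := by
  unfold outN outM; ring

/-- One cell of the strip. -/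
theorem cellN {n : ℕ} (f : Cube n → Bool) (ρ : ℝ) {U : ℝ → ℝ} (hU : AdmU U)
    (m1 m2 o0 o1 o2 k μ1 p1 q1 α1 K1 μ2 p2 q2 α2 K2 : ℝ)
    (hm12 : m1 < m2) (hm1 : m1 ≤ 100 * cubeAverage (sgn f)) (hm2 : 100 * cubeAverage (sgn f) ≤ m2)
    (hm0 : 0 ≤ m1) (hm3 : m2 ≤ 100)
    (hob : 10000 * W1 (sgn f) ≤
      o0 + o1 * (100 * cubeAverage (sgn f)) + o2 * (100 * cubeAverage (sgn f)) ^ 2)
    (hμ1 : 0 ≤ μ1) (hμ2 : 0 ≤ μ2) (hp1 : 0 ≤ p1) (hp2 : 0 ≤ p2)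
    (hq1 : 0 ≤ 1000 * q1 + 2 * k ^ 2) (hq2 : 0 ≤ 1000 * q2 + 2 * k ^ 2)
    (N1 : NodeR U k m1 μ1 p1 q1 α1 K1) (N2 : NodeR U k m2 μ2 p2 q2 α2 K2)
    (hout : ∀ θ M : ℝ, 0 ≤ θ → θ ≤ 1 → M = m1 + (m2 - m1) * θ → M = 100 * cubeAverage (sgn f) →
      ∀ i j : ℝ, (i = 0 ∨ i = 1) → (j = 0 ∨ j = 1) →
      0 ≤ outN M (i * (o0 + o1 * M + o2 * M ^ 2))
        (j * (10000 - 100 * M - i * (o0 + o1 * M + o2 * M ^ 2))) k
        (μ1 + (μ2 - μ1) * θ) (p1 + (p2 - p1) * θ) (q1 + (q2 - q1) * θ) (α1 + (α2 - α1) * θ)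
        (K1 + (K2 - K1) * θ) (hel ρ)) :
    StarAt n f ρ := by
  intro h0 h1
  set m := cubeAverage (sgn f) with hm
  obtain ⟨θ, hθ0, hθ1, hθ⟩ : ∃ θ : ℝ, 0 ≤ θ ∧ θ ≤ 1 ∧ m1 + (m2 - m1) * θ = 100 * m :=
    ⟨(100 * m - m1) / (m2 - m1), div_nonneg (by linarith) (by linarith),
      (div_le_one (by linarith)).2 (by linarith), by
        rw [mul_div_cancel₀ _ (sub_pos.2 hm12).ne']; ring⟩
  have hcomb : ∀ a b : ℝ, 0 ≤ a → 0 ≤ b → 0 ≤ a + (b - a) * θ := fun a b ha hb => by nlinarith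
  have habs : |m| ≤ 1 := abs_le.2 ⟨by linarith, by linarith⟩
  have hv := hout θ _ hθ0 hθ1 hθ.symm rfl
  set μ := μ1 + (μ2 - μ1) * θ with hμ
  set p := p1 + (p2 - p1) * θ with hp
  set q := q1 + (q2 - q1) * θ with hq
  set α := α1 + (α2 - α1) * θ with hα
  set K := K1 + (K2 - K1) * θ with hK
  have hμ0 : 0 ≤ μ := hcomb _ _ hμ1 hμ2
  refine starAt_of_lin f ρ hU m (o0 / 10000 + o1 / 100 * m + o2 * m ^ 2)
    (K / 1000 - α / 1000 * m - q / 1000 * m ^ 2)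
    (μ / 1000) (p / 1000) (q / 1000) (k / 1000) (α / 1000 + 2 * (q / 1000) * m) rfl (by linarith)
    (by positivity) (by have := hcomb _ _ hp1 hp2; positivity)
    (by have := hcomb _ _ hq1 hq2; nlinarith) (fun τ σ hτ hσ => ?_)
    (outM_real h0 h1 habs hμ0 ?_) (outM_real h0 h1 habs hμ0 ?_) (outM_real h0 h1 habs hμ0 ?_)
    (outM_real h0 h1 habs hμ0 ?_) h0 h1
  · have a1 := mul_le_mul_of_nonneg_left (N1 τ σ hτ hσ) (sub_nonneg.2 hθ1)
    have a2 := mul_le_mul_of_nonneg_left (N2 τ σ hτ hσ) hθ0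
    have em : m = (m1 + (m2 - m1) * θ) / 100 := by linarith
    generalize U τ = u at *
    generalize U σ = v at *
    generalize gT τ = g at *
    generalize gT σ = g' at *
    generalize aT τ = a at *
    generalize aT σ = a' at *
    have key : ((u - v) / 2) ^ 2 + 4 * (k / 1000) * ((g + g') / 2 - m) * ((u + v) / 2)
        + μ / 1000 * ((a + a') / 2) + p / 1000 * ((g - g') / 2) ^ 2
        + q / 1000 * ((g + g') / 2) ^ 2 + α / 1000 * ((g + g') / 2) - K / 1000 ≥ 0 := by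
      rw [hμ, hp, hq, hα, hK, em]
      linarith
    linarith
  · rw [← outN_eq]; convert hv 0 0 (Or.inl rfl) (Or.inl rfl) using 2 <;> ring
  · rw [← outN_eq]; convert hv 0 1 (Or.inl rfl) (Or.inr rfl) using 2 <;> ring
  · rw [← outN_eq]; convert hv 1 0 (Or.inr rfl) (Or.inl rfl) using 2 <;> ring
  · rw [← outN_eq]; convert hv 1 1 (Or.inr rfl) (Or.inr rfl) using 2 <;> ring

/-- Outer certificate of a cell of the strip. -/
def OutNOK (m1 m2 o0 o1 o2 k μ1 p1 q1 α1 K1 μ2 p2 q2 α2 K2 : ℝ) : Prop :=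
  ∀ v w : ℝ, 5000 - 13 * m1 ≤ 10000 * v → 10000 * v ≤ 5200 + 13 * (m2 - m1) → 0 ≤ w →
    10000 * w ≤ 1 → ∀ i j : ℝ, (i = 0 ∨ i = 1) → (j = 0 ∨ j = 1) →
      0 ≤ outN (m1 + (m2 - m1) * (10000 * w))
        (i * (o0 + o1 * (m1 + (m2 - m1) * (10000 * w)) + o2 * (m1 + (m2 - m1) * (10000 * w)) ^ 2))
        (j * (10000 - 100 * (m1 + (m2 - m1) * (10000 * w)) - i * (o0
          + o1 * (m1 + (m2 - m1) * (10000 * w)) + o2 * (m1 + (m2 - m1) * (10000 * w)) ^ 2))) k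
        (μ1 + (μ2 - μ1) * (10000 * w)) (p1 + (p2 - p1) * (10000 * w))
        (q1 + (q2 - q1) * (10000 * w)) (α1 + (α2 - α1) * (10000 * w))
        (K1 + (K2 - K1) * (10000 * w)) (v - 13 * (m2 - m1) * w)

theorem OutNOK.out {m1 m2 o0 o1 o2 k μ1 p1 q1 α1 K1 μ2 p2 q2 α2 K2 : ℝ}
    (h : OutNOK m1 m2 o0 o1 o2 k μ1 p1 q1 α1 K1 μ2 p2 q2 α2 K2) (hm : m1 ≤ m2) {s m : ℝ}
    (hs1 : 1 / 2 ≤ s + 13 / 100 * m) (hs2 : s ≤ 13 / 25) :
    ∀ θ M : ℝ, 0 ≤ θ → θ ≤ 1 → M = m1 + (m2 - m1) * θ → M = 100 * m →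
      ∀ i j : ℝ, (i = 0 ∨ i = 1) → (j = 0 ∨ j = 1) →
      0 ≤ outN M (i * (o0 + o1 * M + o2 * M ^ 2))
        (j * (10000 - 100 * M - i * (o0 + o1 * M + o2 * M ^ 2))) k
        (μ1 + (μ2 - μ1) * θ) (p1 + (p2 - p1) * θ) (q1 + (q2 - q1) * θ) (α1 + (α2 - α1) * θ)
        (K1 + (K2 - K1) * θ) s := by
  intro θ M h0 h1 e1 e2 i j hi hj
  have h2 : (m2 - m1) * θ ≤ m2 - m1 := by nlinarith
  have h3 := h (s + 13 * (m2 - m1) * (θ / 10000)) (θ / 10000) (by linarith) (by linarith)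
    (by positivity) (by linarith) i j hi hj
  rw [show 10000 * (θ / 10000) = θ by ring, add_sub_cancel_right, ← e1] at h3
  exact h3

theorem regH2_of_certs (hS : StarH2) (ha : ∀ v : ℝ, 0 ≤ v → v ≤ 2 → 0 ≤ admP v)
    (n1 : NodeWOK 997 0 7254 3063 (-403) 10450 7238)
    (n2 : NodeWOK 997 15 6693 2667 (-885) 11145 8169)
    (o1 : OutNOK 0 15 8000 0 (-1) 997 7254 3063 (-403) 10450 7238 6693 2667 (-885) 11145 8169)
    (n3 : NodeWOK 1110 15 8293 3904 (-412) 12423 9966)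
    (n4 : NodeWOK 1110 28 6300 2224 (-2094) 13182 9196)
    (o2 : OutNOK 15 28 8000 0 (-1) 1110 8293 3904 (-412) 12423 9966 6300 2224 (-2094) 13182 9196)
    (n5 : NodeWOK 1110 28 6356 2292 (-2028) 13177 9269)
    (n6 : NodeWOK 1110 40 5849 1968 (-2464) 13887 10028)
    (o3 : OutNOK 28 40 10000 (-100) 0 1110 6356 2292 (-2028) 13177 9269
      5849 1968 (-2464) 13887 10028)
    (n7 : NodeWOK 1270 40 7827 3724 (-1873) 15931 12707)
    (n8 : NodeWOK 1270 55 7131 3313 (-2473) 17045 13760)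
    (o4 : OutNOK 40 55 10000 (-100) 0 1270 7827 3724 (-1873) 15931 12707
      7131 3313 (-2473) 17045 13760) : RegH2 := by
  intro n f ρ hs hW hm
  by_cases hm0 : 0 ≤ cubeAverage (sgn f)
  swap
  · intro _ _ _ h; exact absurd h hm0
  have hW' := W1_le_one_sub f
  rcases le_total (13 / 25) (hel ρ) with hs2 | hs2
  · exact hS n f ρ hs2 (by nlinarith) hm
  have hU := admUW ha
  rcases le_total (cubeAverage (sgn f)) (28 / 100) with hm1 | hm1
  · rcases le_total (cubeAverage (sgn f)) (15 / 100) with hm2 | hm2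
    · exact cellN f ρ hU 0 15 8000 0 (-1) 997 7254 3063 (-403) 10450 7238
        6693 2667 (-885) 11145 8169
        (by norm_num) (by linarith) (by linarith) (by norm_num) (by norm_num) (by linarith)
        (by norm_num) (by norm_num) (by norm_num) (by norm_num) (by norm_num) (by norm_num)
        (nodeR_of_W n1) (nodeR_of_W n2) (o1.out (by norm_num) hs hs2)
    · exact cellN f ρ hU 15 28 8000 0 (-1) 1110 8293 3904 (-412) 12423 9966
        6300 2224 (-2094) 13182 9196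
        (by norm_num) (by linarith) (by linarith) (by norm_num) (by norm_num) (by linarith)
        (by norm_num) (by norm_num) (by norm_num) (by norm_num) (by norm_num) (by norm_num)
        (nodeR_of_W n3) (nodeR_of_W n4) (o2.out (by norm_num) hs hs2)
  · rcases le_total (cubeAverage (sgn f)) (40 / 100) with hm2 | hm2
    · exact cellN f ρ hU 28 40 10000 (-100) 0 1110 6356 2292 (-2028) 13177 9269
        5849 1968 (-2464) 13887 10028
        (by norm_num) (by linarith) (by linarith) (by norm_num) (by norm_num) (by linarith)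
        (by norm_num) (by norm_num) (by norm_num) (by norm_num) (by norm_num) (by norm_num)
        (nodeR_of_W n5) (nodeR_of_W n6) (o3.out (by norm_num) hs hs2)
    · exact cellN f ρ hU 40 55 10000 (-100) 0 1270 7827 3724 (-1873) 15931 12707
        7131 3313 (-2473) 17045 13760
        (by norm_num) (by linarith) (by linarith) (by norm_num) (by norm_num) (by linarith)
        (by norm_num) (by norm_num) (by norm_num) (by norm_num) (by norm_num) (by norm_num)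
        (nodeR_of_W n7) (nodeR_of_W n8) (o4.out (by norm_num) hs hs2)

end Crest.Agent.R307.H2
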