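import Crest.Agent.Lib.PolyBB.Basic
import Crest.Agent.R307.H2GlueN
import Crest.Agent.R307.H2CertA
import Crest.Agent.R307.H2CertB
import Crest.Agent.R307.H2CertC

/-! Row 307, regime H2. -/

set_option autoImplicit false

namespace Crest.Agent.R307.H2

open Crest.Agent.Lib.PolyBB

theorem of_run {es : List E} {t : T} {B : Box} (h : run (fun _ => es) t B [] = true)
    {x : ℕ → ℝ} (hx : B.mem x) : ∃ p : ℕ → ℤ, ∀ e ∈ es, 0 ≤ e.eval x p := by
  obtain ⟨_, ps, h⟩ := run_sound h hx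
  exact ⟨_, h⟩

theorem of_run_four {e : ℤ → ℤ → E} {t : T} {B : Box} (h : run (fun _ => four e) t B [] = true)
    {x : ℕ → ℝ} (hx : B.mem x) {i j : ℝ} (hi : i = 0 ∨ i = 1) (hj : j = 0 ∨ j = 1) :
    ∃ (p : ℕ → ℤ) (a b : ℤ), (a : ℝ) = i ∧ (b : ℝ) = j ∧ 0 ≤ (e a b).eval x p := by
  obtain ⟨p, h⟩ := of_run h hx
  rcases hi with rfl | rfl <;> rcases hj with rfl | rfl
  · exact ⟨p, 0, 0, by simp, by simp, h _ (by simp [four])⟩
  · exact ⟨p, 0, 1, by simp, by simp, h _ (by simp [four])⟩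
  · exact ⟨p, 1, 0, by simp, by simp, h _ (by simp [four])⟩
  · exact ⟨p, 1, 1, by simp, by simp, h _ (by simp [four])⟩

section ev

variable (x : ℕ → ℝ) (c : ℕ → ℤ)

theorem ev_u9 (t : E) : (u9E t).eval x c = u9 (t.eval x c) := by
  simp only [u9E, u9, E.eval, Int.cast_ofNat]

theorem ev_w (t : E) : (wE t).eval x c = wP (t.eval x c) := by
  simp only [wE, wP, E.eval, Int.cast_ofNat, Int.cast_neg]

theorem ev_adm (t : E) : (admE t).eval x c = admP (t.eval x c) := by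
  simp only [admE, admP, rE, rP, E.eval, Int.cast_ofNat, Int.cast_neg, Int.cast_one]

theorem ev_nodeQ (N k m μ p q α K u v τ σ : E) :
    (nodeQE N k m μ p q α K u v τ σ).eval x c = nodeQ (N.eval x c) (k.eval x c) (m.eval x c)
      (μ.eval x c) (p.eval x c) (q.eval x c) (α.eval x c) (K.eval x c) (u.eval x c) (v.eval x c)
      (τ.eval x c) (σ.eval x c) := by
  simp only [nodeQE, nodeQ, E.eval, Int.cast_ofNat, Int.cast_one]

theorem ev_outN (M O B k μ p q α K s : E) :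
    (outNE M O B k μ p q α K s).eval x c = outN (M.eval x c) (O.eval x c) (B.eval x c)
      (k.eval x c) (μ.eval x c) (p.eval x c) (q.eval x c) (α.eval x c) (K.eval x c)
      (s.eval x c) := by
  simp only [outNE, outN, E.eval, Int.cast_ofNat, Int.cast_one]

theorem ev_inn (k μ p q t τ z : E) :
    (innE k μ p q t τ z).eval x c = innS (k.eval x c) (μ.eval x c) (p.eval x c) (q.eval x c)
      (t.eval x c) (τ.eval x c) (z.eval x c) := by
  simp only [innE, innS, E.eval, Int.cast_ofNat, Int.cast_one]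

theorem ev_out (om b k μ p q s t : E) :
    (outE om b k μ p q s t).eval x c = outS (om.eval x c) (b.eval x c) (k.eval x c) (μ.eval x c)
      (p.eval x c) (q.eval x c) (s.eval x c) (t.eval x c) := by
  simp only [outE, outS, E.eval, Int.cast_ofNat, Int.cast_one]

end ev

theorem nodeOK_of {k m μ p q α K : ℤ} {t : T}
    (h : run (fun _ => [node9E k m μ p q α K]) t [⟨1, -1, 1, 1⟩, ⟨1, -1, 1, 1⟩] [] = true) :
    NodeOK k m μ p q α K := by
  intro τ σ h1 h2 h3 h4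
  obtain ⟨c, hc⟩ := of_run h (x := pt [τ, σ]) (by simp [*])
  have := hc _ (List.mem_singleton_self _)
  simp only [node9E, ev_nodeQ, ev_u9, E.eval, Int.cast_ofNat, pt_zero, pt_succ] at this
  change 0 ≤ nodeQ 60 _ _ _ _ _ _ _ (u9 τ) (u9 σ) τ σ at this
  rw [nodeQ_sixty] at this
  linarith

theorem nodeWOK_of {k m μ p q α K : ℤ} {t : T}
    (h : run (fun _ => [nodeWE k m μ p q α K]) t [⟨1, 0, 12, 17⟩, ⟨1, 0, 12, 17⟩] [] = true) :
    NodeWOK k m μ p q α K := by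
  intro y z h1 h2 h3 h4
  obtain ⟨c, hc⟩ := of_run h (x := pt [y, z]) (by simp [*]; constructor <;> linarith)
  have := hc _ (List.mem_singleton_self _)
  simp only [nodeWE, ev_nodeQ, ev_w, E.eval, Int.cast_ofNat, Int.cast_one, Int.cast_zero] at this
  exact this

theorem outMOK_of {s1 s2 m1 m2 o0 o1 k μ1 p1 q1 α1 K1 μ2 p2 q2 α2 K2 : ℤ} {t : T}
    (h : run (fun _ => four (outME m1 m2 o0 o1 k μ1 p1 q1 α1 K1 μ2 p2 q2 α2 K2)) t
      [⟨100, s1, 100, s2⟩, ⟨1, 0, 1, 1⟩] [] = true) :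
    OutMOK s1 s2 m1 m2 o0 o1 k μ1 p1 q1 α1 K1 μ2 p2 q2 α2 K2 := by
  intro s θ h1 h2 h3 h4 i j hi hj
  obtain ⟨c, a, b, rfl, rfl, hc⟩ := of_run_four h (x := pt [s, θ])
    (by simp [*]; constructor <;> linarith) hi hj
  simp only [outME, affE, ev_outN, E.eval, Int.cast_ofNat, outN_eq] at hc
  exact hc

theorem outNOK_of {m1 m2 o0 o1 o2 k μ1 p1 q1 α1 K1 μ2 p2 q2 α2 K2 : ℤ} {t : T} {a b : ℤ}
    (h : run (fun _ => four (outWE m1 m2 o0 o1 o2 k μ1 p1 q1 α1 K1 μ2 p2 q2 α2 K2)) t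
      [⟨10000, a, 10000, b⟩, ⟨1, 0, 10000, 1⟩] [] = true) (ha : a = 5000 - 13 * m1)
    (hb : b = 5200 + 13 * (m2 - m1)) :
    OutNOK m1 m2 o0 o1 o2 k μ1 p1 q1 α1 K1 μ2 p2 q2 α2 K2 := by
  intro v w h1 h2 h3 h4 i j hi hj
  subst ha hb
  obtain ⟨c, a, b, rfl, rfl, hc⟩ := of_run_four h (x := pt [v, w])
    (by simp [*]; refine ⟨⟨?_, ?_⟩, ?_⟩ <;> linarith) hi hj
  simp only [outWE, affE, ev_outN, E.eval, Int.cast_ofNat] at hc
  exact hc

theorem innSOK_of {t1 t2 k μa μb pa pb qa qb : ℤ} {t : T}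
    (h : run (fun _ => [innSE k μa μb pa pb qa qb]) t
      [⟨10, t1, 10, t2⟩, ⟨1, -1, 1, 1⟩, ⟨1, -1, 1, 1⟩] [] = true) :
    InnSOK t1 t2 k μa μb pa pb qa qb := by
  intro s τ z h1 h2 h3 h4 h5 h6
  obtain ⟨c, hc⟩ := of_run h (x := pt [s, τ, z]) (by simp [*]; constructor <;> linarith)
  have := hc _ (List.mem_singleton_self _)
  simp only [innSE, ev_inn, E.eval] at this
  exact this

theorem outSOK_of {t1 t2 o0 o1 k μa μb pa pb qa qb : ℤ} {t : T}
    (h : run (fun _ => four (outSE o0 o1 k μa μb pa pb qa qb)) t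
      [⟨100, 85, 1, 1⟩, ⟨10, t1, 10, t2⟩] [] = true) :
    OutSOK t1 t2 o0 o1 k μa μb pa pb qa qb := by
  intro s u h1 h2 h3 h4 i j hi hj
  obtain ⟨c, a, b, rfl, rfl, hc⟩ := of_run_four h (x := pt [s, u])
    (by simp [*]; refine ⟨?_, ?_, ?_⟩ <;> linarith) hi hj
  simp only [outSE, ev_out, E.eval, Int.cast_ofNat, Int.cast_one] at hc
  exact hc

theorem adm_ok (v : ℝ) (h0 : 0 ≤ v) (h2 : v ≤ 2) : 0 ≤ admP v := by
  obtain ⟨c, hc⟩ := of_run cAdm (x := pt [v]) (by simp [*])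
  have := hc _ (List.mem_singleton_self _)
  rw [ev_adm] at this
  exact this

theorem starH2 : StarH2 :=
  starH2_of_certs (by exact_mod_cast nodeOK_of cN1) (by exact_mod_cast nodeOK_of cN2)
    (by exact_mod_cast outMOK_of cOM1) (by exact_mod_cast nodeOK_of cN3)
    (by exact_mod_cast nodeOK_of cN4) (by exact_mod_cast outMOK_of cOM2)
    (by exact_mod_cast nodeOK_of cN5) (by exact_mod_cast nodeOK_of cN6)
    (by exact_mod_cast outMOK_of cOM3) (by exact_mod_cast nodeOK_of cN7)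
    (by exact_mod_cast nodeOK_of cN8) (by exact_mod_cast outMOK_of cOM4)
    (by exact_mod_cast innSOK_of cIS1) (by exact_mod_cast outSOK_of cOS1)
    (by exact_mod_cast innSOK_of cIS2) (by exact_mod_cast outSOK_of cOS2)

end Crest.Agent.R307.H2

namespace Crest.Agent.R307

open H2

theorem regH2 : RegH2 :=
  regH2_of_certs starH2 adm_ok (by exact_mod_cast nodeWOK_of cW1) (by exact_mod_cast nodeWOK_of cW2)
    (by exact_mod_cast outNOK_of cOW1 (by norm_num) (by norm_num))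
    (by exact_mod_cast nodeWOK_of cW3) (by exact_mod_cast nodeWOK_of cW4)
    (by exact_mod_cast outNOK_of cOW2 (by norm_num) (by norm_num))
    (by exact_mod_cast nodeWOK_of cW5) (by exact_mod_cast nodeWOK_of cW6)
    (by exact_mod_cast outNOK_of cOW3 (by norm_num) (by norm_num))
    (by exact_mod_cast nodeWOK_of cW7) (by exact_mod_cast nodeWOK_of cW8)
    (by exact_mod_cast outNOK_of cOW4 (by norm_num) (by norm_num))

end Crest.Agent.R307
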