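import Crest.Agent.Lib.PolyBB.Core

/-! Row 307, regime H2: the polynomials of the certificates as `PolyBB` expressions. -/

set_option autoImplicit false

namespace Crest.Agent.R307.H2

open Crest.Agent.Lib.PolyBB

local infixl:65 " ⊞ " => E.add
local infixl:65 " ⊟ " => E.sub
local infixl:70 " ⊠ " => E.mul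
local infixr:75 " ⊡ " => E.pow
local prefix:max "‡" => E.cst

def u9E (t : E) : E := ‡120 ⊠ t ⊞ ‡12 ⊠ t ⊡ 5 ⊞ ‡5 ⊠ t ⊡ 9

def wE (y : E) : E :=
  y ⊠ (‡199900 ⊞ y ⊡ 2 ⊠ (‡49301 ⊞ y ⊡ 2 ⊠ (‡17021 ⊞ y ⊡ 2 ⊠ (‡(-6170) ⊞ y ⊡ 2 ⊠ (‡9365
    ⊞ y ⊡ 2 ⊠ (‡(-10951) ⊞ y ⊡ 2 ⊠ ‡3554))))))

def rE (v : E) : E :=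
  ‡199900 ⊞ v ⊠ (‡147903 ⊞ v ⊠ (‡85105 ⊞ v ⊠ (‡(-43190) ⊞ v ⊠ (‡84285 ⊞ v ⊠ (‡(-120461)
    ⊞ v ⊠ ‡46202)))))

def admE (v : E) : E := ‡160000000000 ⊟ rE v ⊡ 2 ⊠ ((‡2 ⊟ v) ⊠ (‡1 ⊞ (‡1 ⊟ v) ⊡ 2))

def nodeQE (N k m μ p q α K u v τ σ : E) : E :=
  ‡25000 ⊠ ((u ⊟ v) ⊠ ((‡1 ⊞ τ ⊡ 2) ⊠ (‡1 ⊞ σ ⊡ 2))) ⊡ 2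
  ⊞ ‡2 ⊠ k ⊠ N ⊠ ((‡100 ⊠ (τ ⊠ (‡1 ⊞ σ ⊡ 2) ⊞ σ ⊠ (‡1 ⊞ τ ⊡ 2)) ⊟ m ⊠ ((‡1 ⊞ τ ⊡ 2) ⊠ (‡1 ⊞ σ ⊡ 2)))
      ⊠ ((u ⊞ v) ⊠ ((‡1 ⊞ τ ⊡ 2) ⊠ (‡1 ⊞ σ ⊡ 2))))
  ⊞ ‡100 ⊠ N ⊡ 2 ⊠ ((μ ⊠ (‡1 ⊟ τ ⊡ 2 ⊠ σ ⊡ 2) ⊞ α ⊠ (τ ⊠ (‡1 ⊞ σ ⊡ 2) ⊞ σ ⊠ (‡1 ⊞ τ ⊡ 2))
        ⊟ K ⊠ ((‡1 ⊞ τ ⊡ 2) ⊠ (‡1 ⊞ σ ⊡ 2))) ⊠ ((‡1 ⊞ τ ⊡ 2) ⊠ (‡1 ⊞ σ ⊡ 2))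
      ⊞ p ⊠ (τ ⊠ (‡1 ⊞ σ ⊡ 2) ⊟ σ ⊠ (‡1 ⊞ τ ⊡ 2)) ⊡ 2 ⊞ q ⊠ (τ ⊠ (‡1 ⊞ σ ⊡ 2) ⊞ σ ⊠ (‡1 ⊞ τ ⊡ 2)) ⊡ 2)

def node9E (k m μ p q α K : Int) : E :=
  nodeQE ‡60 ‡k ‡m ‡μ ‡p ‡q ‡α ‡K (u9E (.var 0)) (u9E (.var 1)) (.var 0) (.var 1)

def nodeWE (k m μ p q α K : Int) : E :=
  nodeQE ‡100000 ‡k ‡m ‡μ ‡p ‡q ‡α ‡K (‡0 ⊟ wE (.var 0)) (‡0 ⊟ wE (.var 1))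
    (‡1 ⊟ .var 0 ⊡ 2) (‡1 ⊟ .var 1 ⊡ 2)

def outNE (M O B k μ p q α K s : E) : E :=
  s ⊠ (‡16000000000000000 ⊠ K ⊟ ‡160000000000000 ⊠ (α ⊠ M) ⊟ ‡1600000000000 ⊠ (q ⊠ M ⊡ 2)
      ⊟ ‡1000 ⊠ μ ⊠ (‡16000000000000 ⊠ s ⊟ (‡800000000 ⊠ M ⊡ 2 ⊞ ‡20000 ⊠ M ⊡ 4 ⊞ M ⊡ 6))
      ⊟ ‡1600000000000 ⊠ p ⊠ ((‡1 ⊟ s ⊡ 2) ⊠ O ⊞ (‡1 ⊟ s ⊡ 2) ⊡ 3 ⊠ B)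
      ⊟ ‡1600000000 ⊠ (‡1000 ⊠ q ⊞ ‡2 ⊠ k ⊡ 2) ⊠ ((‡1 ⊟ s ⊡ 2) ⊡ 2 ⊠ (‡10000 ⊟ M ⊡ 2 ⊟ O ⊟ B)))
    ⊟ ‡16000000000000000000 ⊠ (‡1 ⊟ s ⊡ 2)

def affE (a b : Int) (θ : E) : E := ‡a ⊞ (‡b ⊟ ‡a) ⊠ θ

def outME (m1 m2 o0 o1 k μ1 p1 q1 α1 K1 μ2 p2 q2 α2 K2 i j : Int) : E :=
  outNE (affE m1 m2 (.var 1)) (‡100 ⊠ (‡i ⊠ (‡o0 ⊞ ‡o1 ⊠ affE m1 m2 (.var 1))))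
    (‡100 ⊠ (‡j ⊠ (‡100 ⊟ affE m1 m2 (.var 1) ⊟ ‡i ⊠ (‡o0 ⊞ ‡o1 ⊠ affE m1 m2 (.var 1))))) ‡k
    (affE μ1 μ2 (.var 1)) (affE p1 p2 (.var 1)) (affE q1 q2 (.var 1)) (affE α1 α2 (.var 1))
    (affE K1 K2 (.var 1)) (.var 0)

def outWE (m1 m2 o0 o1 o2 k μ1 p1 q1 α1 K1 μ2 p2 q2 α2 K2 i j : Int) : E :=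
  outNE (affE m1 m2 (‡10000 ⊠ .var 1))
    (‡i ⊠ (‡o0 ⊞ ‡o1 ⊠ affE m1 m2 (‡10000 ⊠ .var 1) ⊞ ‡o2 ⊠ affE m1 m2 (‡10000 ⊠ .var 1) ⊡ 2))
    (‡j ⊠ (‡10000 ⊟ ‡100 ⊠ affE m1 m2 (‡10000 ⊠ .var 1) ⊟ ‡i ⊠ (‡o0
      ⊞ ‡o1 ⊠ affE m1 m2 (‡10000 ⊠ .var 1) ⊞ ‡o2 ⊠ affE m1 m2 (‡10000 ⊠ .var 1) ⊡ 2))) ‡k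
    (affE μ1 μ2 (‡10000 ⊠ .var 1)) (affE p1 p2 (‡10000 ⊠ .var 1))
    (affE q1 q2 (‡10000 ⊠ .var 1)) (affE α1 α2 (‡10000 ⊠ .var 1))
    (affE K1 K2 (‡10000 ⊠ .var 1)) (.var 0 ⊟ ‡13 ⊠ (‡m2 ⊟ ‡m1) ⊠ .var 1)

def innE (k μ p q t τ z : E) : E :=
  (‡1 ⊟ z) ⊡ 2 ⊠ ((‡1 ⊟ t ⊡ 2) ⊠ (‡1 ⊞ t ⊡ 2) ⊡ 2) ⊠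
      (‡1000 ⊠ ((‡1 ⊞ τ ⊡ 2) ⊠ (‡1 ⊞ (t ⊞ z ⊠ (τ ⊟ t)) ⊡ 2)) ⊡ 2
        ⊞ p ⊠ (‡1 ⊟ τ ⊠ (t ⊞ z ⊠ (τ ⊟ t))) ⊡ 2)
    ⊟ μ ⊠ ((‡1 ⊞ (t ⊞ z ⊠ (τ ⊟ t)) ⊡ 2) ⊞ z ⊡ 2 ⊠ (‡1 ⊞ τ ⊡ 2))
      ⊠ ((‡1 ⊞ τ ⊡ 2) ⊠ (‡1 ⊞ (t ⊞ z ⊠ (τ ⊟ t)) ⊡ 2)) ⊠ (‡1 ⊞ t ⊡ 2) ⊡ 2
    ⊞ ((‡1 ⊟ τ ⊠ t) ⊠ (‡1 ⊞ (t ⊞ z ⊠ (τ ⊟ t)) ⊡ 2)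
        ⊞ z ⊠ (‡1 ⊟ (t ⊞ z ⊠ (τ ⊟ t)) ⊠ t) ⊠ (‡1 ⊞ τ ⊡ 2))
      ⊠ (‡1 ⊟ t ⊡ 2)
      ⊠ (q ⊠ ((‡1 ⊟ τ ⊠ t) ⊠ (‡1 ⊞ (t ⊞ z ⊠ (τ ⊟ t)) ⊡ 2)
            ⊞ z ⊠ (‡1 ⊟ (t ⊞ z ⊠ (τ ⊟ t)) ⊠ t) ⊠ (‡1 ⊞ τ ⊡ 2))
        ⊞ ‡4 ⊠ k ⊠ (‡1 ⊞ z) ⊠ ((‡1 ⊞ τ ⊡ 2) ⊠ (‡1 ⊞ (t ⊞ z ⊠ (τ ⊟ t)) ⊡ 2)) ⊠ (‡1 ⊞ t ⊡ 2))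

def innSE (k μa μb pa pb qa qb : Int) : E :=
  innE ‡k (‡μa ⊞ ‡μb ⊠ .var 0) (‡pa ⊞ ‡pb ⊠ .var 0) (‡qa ⊞ ‡qb ⊠ .var 0) (.var 0) (.var 1) (.var 2)

def outE (om b k μ p q s t : E) : E :=
  ‡5 ⊠ (‡1 ⊞ t ⊡ 2) ⊡ 2 ⊠ (‡1000 ⊠ μ ⊠ s ⊟ ‡1000000 ⊠ (‡1 ⊞ s))
    ⊟ s ⊠ (‡1 ⊞ s) ⊠ (‡1000 ⊠ p ⊠ ((‡1 ⊞ t ⊡ 2) ⊠ (om ⊞ (‡1 ⊟ s ⊡ 2) ⊡ 2 ⊠ b))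
      ⊞ (‡1000 ⊠ q ⊞ ‡2 ⊠ k ⊡ 2) ⊠ ((‡1 ⊟ s ⊡ 2) ⊠ (‡5 ⊠ (‡1 ⊟ t ⊡ 2) ⊡ 2 ⊟ (‡1 ⊞ t ⊡ 2) ⊠ (om ⊞ b))))

def outSE (o0 o1 k μa μb pa pb qa qb i j : Int) : E :=
  outE (‡i ⊠ (‡o0 ⊠ (‡1 ⊞ .var 1 ⊡ 2) ⊞ ‡o1 ⊠ (‡1 ⊟ .var 1) ⊡ 2))
    (‡j ⊠ (‡5 ⊠ (‡1 ⊟ .var 1) ⊡ 2 ⊟ ‡i ⊠ (‡o0 ⊠ (‡1 ⊞ .var 1 ⊡ 2) ⊞ ‡o1 ⊠ (‡1 ⊟ .var 1) ⊡ 2))) ‡k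
    (‡μa ⊞ ‡μb ⊠ .var 1) (‡pa ⊞ ‡pb ⊠ .var 1) (‡qa ⊞ ‡qb ⊠ .var 1) (.var 0) (.var 1)

/-- The four vertices. -/
def four (e : Int → Int → E) : List E := [e 0 0, e 0 1, e 1 0, e 1 1]

/-- A leaf. -/
def L : T := .leaf 0 []

end Crest.Agent.R307.H2
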