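import Crest.Agent.R307.H2Red

/-! Row 307, regime H2: reduction to integer polynomial inequalities. -/

set_option autoImplicit false

open Crest.CubeNoise

namespace Crest.Agent.R307.H2

/-- `60 U`. -/
def u9 (τ : ℝ) : ℝ := 120 * τ + 12 * τ ^ 5 + 5 * τ ^ 9

/-- Node inequality with the denominators cleared (`m` in units of `1/100`, the multipliers in
units of `1/1000`). -/
def nodeP (k m μ p q α K τ σ : ℝ) : ℝ :=
  625 * ((u9 τ - u9 σ) * ((1 + τ ^ 2) * (1 + σ ^ 2))) ^ 2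
  + 3 * k * ((100 * (τ * (1 + σ ^ 2) + σ * (1 + τ ^ 2)) - m * ((1 + τ ^ 2) * (1 + σ ^ 2)))
      * ((u9 τ + u9 σ) * ((1 + τ ^ 2) * (1 + σ ^ 2))))
  + 9000 * ((μ * (1 - τ ^ 2 * σ ^ 2) + α * (τ * (1 + σ ^ 2) + σ * (1 + τ ^ 2))
        - K * ((1 + τ ^ 2) * (1 + σ ^ 2))) * ((1 + τ ^ 2) * (1 + σ ^ 2))
      + p * (τ * (1 + σ ^ 2) - σ * (1 + τ ^ 2)) ^ 2 + q * (τ * (1 + σ ^ 2) + σ * (1 + τ ^ 2)) ^ 2)

def NodeOK (k m μ p q α K : ℝ) : Prop :=
  ∀ τ σ : ℝ, -1 ≤ τ → τ ≤ 1 → -1 ≤ σ → σ ≤ 1 → 0 ≤ nodeP k m μ p q α K τ σ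

/-- Outer inequality in the middle regime. -/
def outM (M om b k μ p q α K s : ℝ) : ℝ :=
  s * (16000000000000000 * K - 160000000000000 * (α * M) - 1600000000000 * (q * M ^ 2)
      - 1000 * μ * (16000000000000 * s - (800000000 * M ^ 2 + 20000 * M ^ 4 + M ^ 6))
      - 160000000000000 * p * ((1 - s ^ 2) * om + (1 - s ^ 2) ^ 3 * b)
      - 1600000000 * (1000 * q + 2 * k ^ 2) * ((1 - s ^ 2) ^ 2
        * (10000 - M ^ 2 - 100 * om - 100 * b)))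
    - 16000000000000000000 * (1 - s ^ 2)

theorem hel_sq {ρ : ℝ} (h : |ρ| ≤ 1) : hel ρ ^ 2 = 1 - ρ ^ 2 :=
  Real.sq_sqrt (by nlinarith [abs_nonneg ρ, sq_abs ρ])

theorem hel_le_poly {m : ℝ} (h : |m| ≤ 1) : hel m ≤ 1 - (m ^ 2 / 2 + m ^ 4 / 8 + m ^ 6 / 16) := by
  have h1 : m ^ 2 ≤ 1 := by nlinarith [abs_nonneg m, sq_abs m]
  have h0 : 0 ≤ m ^ 2 := sq_nonneg m
  have e4 : m ^ 4 = (m ^ 2) ^ 2 := by ring
  have e6 : m ^ 6 = (m ^ 2) ^ 3 := by ring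
  rw [hel, e4, e6]
  generalize m ^ 2 = y at h0 h1
  refine Real.sqrt_le_iff.2 ⟨by nlinarith [pow_le_one₀ h0 h1 (n := 2), pow_le_one₀ h0 h1 (n := 3)], ?_⟩
  have : (1 - (y / 2 + y ^ 2 / 8 + y ^ 3 / 16)) ^ 2 =
      1 - y + (5 / 64 * y ^ 4 + y ^ 5 / 64 + y ^ 6 / 256) := by ring
  rw [this]
  have : 0 ≤ 5 / 64 * y ^ 4 + y ^ 5 / 64 + y ^ 6 / 256 := by positivity
  linarith

theorem node_real {k m μ p q α K : ℝ} (h : NodeOK k m μ p q α K) {τ σ : ℝ} (hτ : |τ| < 1)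
    (hσ : |σ| < 1) :
    K / 1000 ≤ ((u9 τ / 60 - u9 σ / 60) / 2) ^ 2
      + 4 * (k / 1000) * ((gT τ + gT σ) / 2 - m / 100) * ((u9 τ / 60 + u9 σ / 60) / 2)
      + μ / 1000 * ((aT τ + aT σ) / 2) + p / 1000 * ((gT τ - gT σ) / 2) ^ 2
      + q / 1000 * ((gT τ + gT σ) / 2) ^ 2 + α / 1000 * ((gT τ + gT σ) / 2) := by
  have h1 := h τ σ (abs_lt.1 hτ).1.le (abs_lt.1 hτ).2.le (abs_lt.1 hσ).1.le (abs_lt.1 hσ).2.le
  have ha : 0 < 1 + τ ^ 2 := by positivity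
  have hb : 0 < 1 + σ ^ 2 := by positivity
  rw [← sub_nonneg]
  have e : ((u9 τ / 60 - u9 σ / 60) / 2) ^ 2
      + 4 * (k / 1000) * ((gT τ + gT σ) / 2 - m / 100) * ((u9 τ / 60 + u9 σ / 60) / 2)
      + μ / 1000 * ((aT τ + aT σ) / 2) + p / 1000 * ((gT τ - gT σ) / 2) ^ 2
      + q / 1000 * ((gT τ + gT σ) / 2) ^ 2 + α / 1000 * ((gT τ + gT σ) / 2) - K / 1000 =
      nodeP k m μ p q α K τ σ / (9000000 * ((1 + τ ^ 2) * (1 + σ ^ 2)) ^ 2) := by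
    unfold nodeP gT aT
    generalize u9 τ = u
    generalize u9 σ = v
    field_simp
    ring
  rw [e]
  positivity

theorem admU9 : AdmU (fun τ => u9 τ / 60) := by
  have : (fun τ => u9 τ / 60) = fun τ : ℝ => 2 * τ + τ ^ 5 / 5 + τ ^ 9 / 12 := by
    funext τ; unfold u9; ring
  rw [this]; exact admU_nine

theorem outM_real {ρ m om b k μ p q α K : ℝ} (h0 : 0 < ρ) (h1 : ρ < 1) (hm : |m| ≤ 1) (hμ : 0 ≤ μ)
    (h : 0 ≤ outM (100 * m) (100 * om) (100 * b) k μ p q α K (hel ρ)) :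
    ρ ^ 2 / hel ρ ≤ (K / 1000 - α / 1000 * m - q / 1000 * m ^ 2)
      - μ / 1000 * (hel ρ - (1 - hel m))
      - vcost ρ m (p / 1000) (q / 1000 + 2 * (k / 1000) ^ 2) om b := by
  have hs := hel_sq (ρ := ρ) (by rw [abs_of_pos h0]; exact h1.le)
  have hs0 : 0 < hel ρ := Real.sqrt_pos.2 (by nlinarith)
  have hc := hel_le_poly hm
  have e2 : ρ ^ 2 = 1 - hel ρ ^ 2 := by linarith
  have e4 : ρ ^ 4 = (1 - hel ρ ^ 2) ^ 2 := by rw [← e2]; ring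
  have e6 : ρ ^ 6 = (1 - hel ρ ^ 2) ^ 3 := by rw [← e2]; ring
  rw [vcost, e2, e4, e6, div_le_iff₀ hs0]
  unfold outM at h
  generalize hel ρ = s at *
  have := mul_le_mul_of_nonneg_left hc (mul_nonneg hμ hs0.le)
  linarith

/-- One cell of the middle regime. -/
theorem cellM {n : ℕ} (f : Cube n → Bool) (ρ : ℝ) (m1 m2 o0 o1 k μ1 p1 q1 α1 K1 μ2 p2 q2 α2 K2 : ℝ)
    (hm12 : m1 < m2) (hm1 : m1 ≤ 100 * cubeAverage (sgn f)) (hm2 : 100 * cubeAverage (sgn f) ≤ m2)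
    (hm0 : 0 ≤ m1) (hm3 : m2 ≤ 100)
    (hob : 100 * W1 (sgn f) ≤ o0 + o1 * (100 * cubeAverage (sgn f)))
    (hμ1 : 0 ≤ μ1) (hμ2 : 0 ≤ μ2) (hp1 : 0 ≤ p1) (hp2 : 0 ≤ p2)
    (hq1 : 0 ≤ 1000 * q1 + 2 * k ^ 2) (hq2 : 0 ≤ 1000 * q2 + 2 * k ^ 2)
    (N1 : NodeOK k m1 μ1 p1 q1 α1 K1) (N2 : NodeOK k m2 μ2 p2 q2 α2 K2)
    (hout : ∀ θ : ℝ, 0 ≤ θ → θ ≤ 1 → ∀ i j : ℝ, (i = 0 ∨ i = 1) → (j = 0 ∨ j = 1) →
      0 ≤ outM (m1 + (m2 - m1) * θ) (i * (o0 + o1 * (m1 + (m2 - m1) * θ)))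
        (j * (100 - (m1 + (m2 - m1) * θ) - i * (o0 + o1 * (m1 + (m2 - m1) * θ)))) k
        (μ1 + (μ2 - μ1) * θ) (p1 + (p2 - p1) * θ) (q1 + (q2 - q1) * θ) (α1 + (α2 - α1) * θ)
        (K1 + (K2 - K1) * θ) (hel ρ)) :
    StarAt n f ρ := by
  intro h0 h1
  set m := cubeAverage (sgn f) with hm
  obtain ⟨θ, hθ0, hθ1, hθ⟩ : ∃ θ : ℝ, 0 ≤ θ ∧ θ ≤ 1 ∧ m1 + (m2 - m1) * θ = 100 * m :=
    ⟨(100 * m - m1) / (m2 - m1), div_nonneg (by linarith) (by linarith),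
      (div_le_one (by linarith)).2 (by linarith), by
        rw [mul_div_cancel₀ _ (sub_pos.2 hm12).ne']; ring⟩
  have hcomb : ∀ a b : ℝ, 0 ≤ a → 0 ≤ b → 0 ≤ a + (b - a) * θ := fun a b ha hb => by nlinarith
  have habs : |m| ≤ 1 := abs_le.2 ⟨by linarith, by linarith⟩
  have hv := hout θ hθ0 hθ1
  rw [hθ] at hv
  set μ := μ1 + (μ2 - μ1) * θ with hμ
  set p := p1 + (p2 - p1) * θ with hp
  set q := q1 + (q2 - q1) * θ with hq
  set α := α1 + (α2 - α1) * θ with hα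
  set K := K1 + (K2 - K1) * θ with hK
  have hμ0 : 0 ≤ μ := hcomb _ _ hμ1 hμ2
  refine starAt_of_lin f ρ admU9 m (o0 / 100 + o1 * m) (K / 1000 - α / 1000 * m - q / 1000 * m ^ 2)
    (μ / 1000) (p / 1000) (q / 1000) (k / 1000) (α / 1000 + 2 * (q / 1000) * m) rfl (by linarith)
    (by positivity) (by have := hcomb _ _ hp1 hp2; positivity)
    (by have := hcomb _ _ hq1 hq2; nlinarith) (fun τ σ hτ hσ => ?_)
    (outM_real h0 h1 habs hμ0 ?_) (outM_real h0 h1 habs hμ0 ?_) (outM_real h0 h1 habs hμ0 ?_)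
    (outM_real h0 h1 habs hμ0 ?_) h0 h1
  · have a1 := mul_le_mul_of_nonneg_left (node_real N1 hτ hσ) (sub_nonneg.2 hθ1)
    have a2 := mul_le_mul_of_nonneg_left (node_real N2 hτ hσ) hθ0
    have em : m = (m1 + (m2 - m1) * θ) / 100 := by linarith
    generalize u9 τ / 60 = u at *
    generalize u9 σ / 60 = v at *
    generalize gT τ = g at *
    generalize gT σ = g' at *
    generalize aT τ = a at *
    generalize aT σ = a' at *
    have key : ((u - v) / 2) ^ 2 + 4 * (k / 1000) * ((g + g') / 2 - m) * ((u + v) / 2)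
        + μ / 1000 * ((a + a') / 2) + p / 1000 * ((g - g') / 2) ^ 2
        + q / 1000 * ((g + g') / 2) ^ 2 + α / 1000 * ((g + g') / 2) - K / 1000 ≥ 0 := by
      rw [hμ, hp, hq, hα, hK, em]
      linarith
    linarith
  · convert hv 0 0 (Or.inl rfl) (Or.inl rfl) using 2 <;> ring
  · convert hv 0 1 (Or.inl rfl) (Or.inr rfl) using 2 <;> ring
  · convert hv 1 0 (Or.inr rfl) (Or.inl rfl) using 2 <;> ring
  · convert hv 1 1 (Or.inr rfl) (Or.inr rfl) using 2 <;> ring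

/-- Inner inequality of the tangent regime in the chart `σ = t + z (τ - t)`. -/
def innS (k μ p q t τ z : ℝ) : ℝ :=
  (1 - z) ^ 2 * ((1 - t ^ 2) * (1 + t ^ 2) ^ 2) *
      (1000 * ((1 + τ ^ 2) * (1 + (t + z * (τ - t)) ^ 2)) ^ 2 + p * (1 - τ * (t + z * (τ - t))) ^ 2)
    - μ * ((1 + (t + z * (τ - t)) ^ 2) + z ^ 2 * (1 + τ ^ 2))
      * ((1 + τ ^ 2) * (1 + (t + z * (τ - t)) ^ 2)) * (1 + t ^ 2) ^ 2
    + ((1 - τ * t) * (1 + (t + z * (τ - t)) ^ 2) + z * (1 - (t + z * (τ - t)) * t) * (1 + τ ^ 2))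
      * (1 - t ^ 2)
      * (q * ((1 - τ * t) * (1 + (t + z * (τ - t)) ^ 2)
            + z * (1 - (t + z * (τ - t)) * t) * (1 + τ ^ 2))
        + 4 * k * (1 + z) * ((1 + τ ^ 2) * (1 + (t + z * (τ - t)) ^ 2)) * (1 + t ^ 2))

/-- Outer inequality of the tangent regime (`om`, `b` in units of `1 / (5 (1 + t²))`). -/
def outS (om b k μ p q s t : ℝ) : ℝ :=
  5 * (1 + t ^ 2) ^ 2 * (1000 * μ * s - 1000000 * (1 + s))
    - s * (1 + s) * (1000 * p * ((1 + t ^ 2) * (om + (1 - s ^ 2) ^ 2 * b))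
      + (1000 * q + 2 * k ^ 2) * ((1 - s ^ 2) * (5 * (1 - t ^ 2) ^ 2 - (1 + t ^ 2) * (om + b))))

/-- The Lagrangian of the tangent regime. -/
noncomputable def lagS (k μ p q t τ σ : ℝ) : ℝ :=
  ((2 * τ - 2 * σ) / 2) ^ 2 + 4 * k * ((gT τ + gT σ) / 2 - gT t) * ((2 * τ + 2 * σ) / 2)
    + μ * ((aT τ + aT σ) / 2) + p * ((gT τ - gT σ) / 2) ^ 2
    + q * ((gT τ + gT σ) / 2 - gT t) ^ 2
    + (μ * (2 * t / (1 - t ^ 2)) - 8 * k * t) * ((gT τ + gT σ) / 2 - gT t) - μ * aT t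

theorem lagS_symm (k μ p q t τ σ : ℝ) : lagS k μ p q t τ σ = lagS k μ p q t σ τ := by
  unfold lagS; ring

theorem lagS_eq (k μ p q t τ z : ℝ) (ht : t ^ 2 < 1) :
    lagS (k / 1000) (μ / 1000) (p / 1000) (q / 1000) t τ (t + z * (τ - t)) =
      (τ - t) ^ 2 * innS k μ p q t τ z / (1000 * (1 - t ^ 2) * (1 + t ^ 2) ^ 2 *
        ((1 + τ ^ 2) * (1 + (t + z * (τ - t)) ^ 2)) ^ 2) := by
  have h1 : 1 - t ^ 2 ≠ 0 := by linarith
  have h2 : 1 + t ^ 2 ≠ 0 := by positivity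
  have h3 : 1 + τ ^ 2 ≠ 0 := by positivity
  unfold innS
  generalize hσ : t + z * (τ - t) = σ
  have h4 : 1 + σ ^ 2 ≠ 0 := by positivity
  have hy : σ - t = z * (τ - t) := by linarith
  have g1 : ∀ u : ℝ, gT u - gT t = 2 * ((u - t) * (1 - u * t)) / ((1 + u ^ 2) * (1 + t ^ 2)) := by
    intro u
    have : 1 + u ^ 2 ≠ 0 := by positivity
    unfold gT; field_simp; ring
  have g2 : ∀ u : ℝ, aT u - aT t + 2 * t / (1 - t ^ 2) * (gT u - gT t) =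
      -(2 * (u - t) ^ 2 / ((1 + u ^ 2) * (1 - t ^ 2))) := by
    intro u
    have : 1 + u ^ 2 ≠ 0 := by positivity
    unfold gT aT; field_simp; ring
  have g3 : (gT τ - gT σ) / 2 =
      ((τ - t) - (σ - t)) * (1 - τ * σ) / ((1 + τ ^ 2) * (1 + σ ^ 2)) := by
    unfold gT; field_simp; ring
  have e : lagS (k / 1000) (μ / 1000) (p / 1000) (q / 1000) t τ σ =
      ((τ - t) - (σ - t)) ^ 2
      + 4 * (k / 1000) * (((gT τ - gT t) + (gT σ - gT t)) / 2) * ((τ - t) + (σ - t))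
      + μ / 1000 * (((aT τ - aT t + 2 * t / (1 - t ^ 2) * (gT τ - gT t))
        + (aT σ - aT t + 2 * t / (1 - t ^ 2) * (gT σ - gT t))) / 2)
      + p / 1000 * ((gT τ - gT σ) / 2) ^ 2
      + q / 1000 * (((gT τ - gT t) + (gT σ - gT t)) / 2) ^ 2 := by
    unfold lagS; ring
  rw [e, g2, g2, g1, g1, g3, hy]
  generalize 1 + τ ^ 2 = a at *
  generalize 1 + σ ^ 2 = b at *
  generalize 1 + t ^ 2 = c at *
  generalize 1 - t ^ 2 = d at *
  generalize 1 - τ * σ = w1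
  generalize 1 - τ * t = w2
  generalize 1 - σ * t = w3
  generalize τ - t = x
  field_simp
  ring

theorem lagS_nonneg {k μ p q t : ℝ} (ht : t ^ 2 < 1)
    (h : ∀ τ z : ℝ, -1 ≤ τ → τ ≤ 1 → -1 ≤ z → z ≤ 1 → 0 ≤ innS k μ p q t τ z) {τ σ : ℝ}
    (hτ : |τ| < 1) (hσ : |σ| < 1) :
    0 ≤ lagS (k / 1000) (μ / 1000) (p / 1000) (q / 1000) t τ σ := by
  wlog hle : |σ - t| ≤ |τ - t| generalizing τ σ
  · rw [lagS_symm]; exact this hσ hτ (le_of_not_ge hle)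
  obtain ⟨z, hz, rfl⟩ : ∃ z : ℝ, |z| ≤ 1 ∧ σ = t + z * (τ - t) := by
    by_cases h0 : τ - t = 0
    · rw [h0, abs_zero, abs_nonpos_iff] at hle
      exact ⟨0, by simp, by linarith⟩
    · refine ⟨(σ - t) / (τ - t), ?_, by rw [div_mul_cancel₀ _ h0]; ring⟩
      rw [abs_div]
      exact div_le_one_of_le₀ hle (abs_nonneg _)
  rw [lagS_eq _ _ _ _ _ _ _ ht]
  have h1 := h τ z (abs_lt.1 hτ).1.le (abs_lt.1 hτ).2.le (abs_le.1 hz).1 (abs_le.1 hz).2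
  have h2 : 0 < 1 - t ^ 2 := by linarith
  positivity

theorem outS_real {ρ t om b k μ p q : ℝ} (h0 : 0 < ρ) (h1 : ρ < 1)
    (h : 0 ≤ outS (5 * (1 + t ^ 2) * om) (5 * (1 + t ^ 2) * b) k μ p q (hel ρ) t) :
    ρ ^ 2 / hel ρ ≤ μ / 1000 * aT t - μ / 1000 * (hel ρ - (1 - aT t))
      - vcost ρ (gT t) (p / 1000) (q / 1000 + 2 * (k / 1000) ^ 2) om b := by
  have hs := hel_sq (ρ := ρ) (by rw [abs_of_pos h0]; exact h1.le)
  have hs0 : 0 < hel ρ := Real.sqrt_pos.2 (by nlinarith)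
  have hs1 : hel ρ ≤ 1 := by nlinarith
  have e2 : ρ ^ 2 = 1 - hel ρ ^ 2 := by linarith
  have e4 : ρ ^ 4 = (1 - hel ρ ^ 2) ^ 2 := by rw [← e2]; ring
  have e6 : ρ ^ 6 = (1 - hel ρ ^ 2) ^ 3 := by rw [← e2]; ring
  rw [vcost, e2, e4, e6, ← sub_nonneg]
  generalize hel ρ = s at *
  have hc : 0 < 1 + t ^ 2 := by positivity
  have e : μ / 1000 * aT t - μ / 1000 * (s - (1 - aT t))
      - (p / 1000 * ((1 - s ^ 2) * om + (1 - s ^ 2) ^ 3 * b)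
        + (q / 1000 + 2 * (k / 1000) ^ 2) * (1 - s ^ 2) ^ 2 * (1 - gT t ^ 2 - om - b))
      - (1 - s ^ 2) / s =
      (1 - s) * outS (5 * (1 + t ^ 2) * om) (5 * (1 + t ^ 2) * b) k μ p q s t /
        (5000000 * (1 + t ^ 2) ^ 2 * s) := by
    unfold outS gT
    field_simp
    ring
  rw [e]
  have : 0 ≤ 1 - s := by linarith
  positivity

/-- One cell of the tangent regime. -/
theorem cellS {n : ℕ} (f : Cube n → Bool) (ρ : ℝ) (t o0 o1 k μ p q : ℝ) (ht : |t| < 1)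
    (hm : cubeAverage (sgn f) = gT t) (ha : hel (gT t) = aT t)
    (hob : 5 * (1 + t ^ 2) * W1 (sgn f) ≤ o0 * (1 + t ^ 2) + o1 * (1 - t) ^ 2)
    (hμ : 0 ≤ μ) (hp : 0 ≤ p) (hq : 0 ≤ 1000 * q + 2 * k ^ 2)
    (hin : ∀ τ z : ℝ, -1 ≤ τ → τ ≤ 1 → -1 ≤ z → z ≤ 1 → 0 ≤ innS k μ p q t τ z)
    (hout : ∀ i j : ℝ, (i = 0 ∨ i = 1) → (j = 0 ∨ j = 1) →
      0 ≤ outS (i * (o0 * (1 + t ^ 2) + o1 * (1 - t) ^ 2))
        (j * (5 * (1 - t) ^ 2 - i * (o0 * (1 + t ^ 2) + o1 * (1 - t) ^ 2))) k μ p q (hel ρ) t) :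
    StarAt n f ρ := by
  intro h0 h1
  have ht2 : t ^ 2 < 1 := by nlinarith [abs_nonneg t, sq_abs t]
  have hc : 0 < 1 + t ^ 2 := by positivity
  refine starAt_of_lin f ρ admU_one (gT t)
    ((o0 * (1 + t ^ 2) + o1 * (1 - t) ^ 2) / (5 * (1 + t ^ 2))) (μ / 1000 * aT t)
    (μ / 1000) (p / 1000) (q / 1000) (k / 1000)
    (μ / 1000 * (2 * t / (1 - t ^ 2)) - 8 * (k / 1000) * t) hm
    (by rw [le_div_iff₀ (by positivity)]; linarith)
    (by positivity) (by positivity) (by nlinarith) (fun τ σ hτ hσ => ?_)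
    ?_ ?_ ?_ ?_ h0 h1
  · have := lagS_nonneg ht2 hin hτ hσ
    unfold lagS at this
    linarith
  · rw [ha]
    refine outS_real h0 h1 ?_
    convert hout 0 0 (Or.inl rfl) (Or.inl rfl) using 2 <;> ring
  · rw [ha]
    refine outS_real h0 h1 ?_
    convert hout 0 1 (Or.inl rfl) (Or.inr rfl) using 2
    · ring
    · unfold gT; field_simp; ring
  · rw [ha]
    refine outS_real h0 h1 ?_
    convert hout 1 0 (Or.inr rfl) (Or.inl rfl) using 2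
    · field_simp
    · ring
  · rw [ha]
    refine outS_real h0 h1 ?_
    convert hout 1 1 (Or.inr rfl) (Or.inr rfl) using 2
    · field_simp
    · unfold gT; field_simp; ring

/-- Outer certificate of a middle cell. -/
def OutMOK (s1 s2 m1 m2 o0 o1 k μ1 p1 q1 α1 K1 μ2 p2 q2 α2 K2 : ℝ) : Prop :=
  ∀ s θ : ℝ, s1 ≤ 100 * s → 100 * s ≤ s2 → 0 ≤ θ → θ ≤ 1 → ∀ i j : ℝ, (i = 0 ∨ i = 1) →
    (j = 0 ∨ j = 1) →
      0 ≤ outM (m1 + (m2 - m1) * θ) (i * (o0 + o1 * (m1 + (m2 - m1) * θ)))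
        (j * (100 - (m1 + (m2 - m1) * θ) - i * (o0 + o1 * (m1 + (m2 - m1) * θ)))) k
        (μ1 + (μ2 - μ1) * θ) (p1 + (p2 - p1) * θ) (q1 + (q2 - q1) * θ) (α1 + (α2 - α1) * θ)
        (K1 + (K2 - K1) * θ) s

/-- Inner certificate of a tangent cell. -/
def InnSOK (t1 t2 k μa μb pa pb qa qb : ℝ) : Prop :=
  ∀ t τ z : ℝ, t1 ≤ 10 * t → 10 * t ≤ t2 → -1 ≤ τ → τ ≤ 1 → -1 ≤ z → z ≤ 1 →
    0 ≤ innS k (μa + μb * t) (pa + pb * t) (qa + qb * t) t τ z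

/-- Outer certificate of a tangent cell. -/
def OutSOK (t1 t2 o0 o1 k μa μb pa pb qa qb : ℝ) : Prop :=
  ∀ s t : ℝ, 85 ≤ 100 * s → s ≤ 1 → t1 ≤ 10 * t → 10 * t ≤ t2 → ∀ i j : ℝ, (i = 0 ∨ i = 1) →
    (j = 0 ∨ j = 1) →
      0 ≤ outS (i * (o0 * (1 + t ^ 2) + o1 * (1 - t) ^ 2))
        (j * (5 * (1 - t) ^ 2 - i * (o0 * (1 + t ^ 2) + o1 * (1 - t) ^ 2))) k
        (μa + μb * t) (pa + pb * t) (qa + qb * t) s t

theorem starH2_of_certs
    (n1 : NodeOK 1030 0 7068 2900 (-723) 0 7022) (n2 : NodeOK 1030 20 5682 1894 (-1786) 963 5503)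
    (o1 : OutMOK 52 70 0 20 80 0 1030 7068 2900 (-723) 0 7022 5682 1894 (-1786) 963 5503)
    (n3 : NodeOK 1081 20 6489 2580 (-1417) 992 6375)
    (n4 : NodeOK 1081 55 4998 2192 (-2209) 2803 4793)
    (o2 : OutMOK 52 70 20 55 100 (-1) 1081 6489 2580 (-1417) 992 6375 4998 2192 (-2209) 2803 4793)
    (n5 : NodeOK 1030 0 4580 1225 (-2121) 0 4504) (n6 : NodeOK 1030 20 4756 1523 (-1730) 827 4720)
    (o3 : OutMOK 70 85 0 20 80 0 1030 4580 1225 (-2121) 0 4504 4756 1523 (-1730) 827 4720)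
    (n7 : NodeOK 970 20 5243 1849 (-1251) 783 5209)
    (n8 : NodeOK 970 55 3962 1756 (-1705) 2131 3928)
    (o4 : OutMOK 70 85 20 55 100 (-1) 970 5243 1849 (-1251) 783 5209 3962 1756 (-1705) 2131 3928)
    (i5 : InnSOK 0 1 1110 4582 (-7680) 1407 (-3390) 219 (-25750))
    (o5 : OutSOK 0 1 4 0 1110 4582 (-7680) 1407 (-3390) 219 (-25750))
    (i6 : InnSOK 1 3 772 3954 (-2985) 917 390 (-1191) 0)
    (o6 : OutSOK 1 3 0 5 772 3954 (-2985) 917 390 (-1191) 0) : StarH2 := by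
  intro n f ρ hs hW hm
  by_cases hm0 : 0 ≤ cubeAverage (sgn f)
  swap
  · intro _ _ _ h; exact absurd h hm0
  have hW' := W1_le_one_sub f
  rcases le_total (hel ρ) (85 / 100) with hs2 | hs2
  · rcases le_total (hel ρ) (70 / 100) with hs1 | hs1 <;>
      rcases le_total (cubeAverage (sgn f)) (20 / 100) with hm1 | hm1
    · exact cellM f ρ 0 20 80 0 1030 7068 2900 (-723) 0 7022 5682 1894 (-1786) 963 5503
        (by norm_num) (by linarith) (by linarith) (by norm_num) (by norm_num) (by linarith)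
        (by norm_num) (by norm_num) (by norm_num) (by norm_num) (by norm_num) (by norm_num) n1 n2
        fun θ h1 h2 => o1 _ θ (by linarith) (by linarith) h1 h2
    · exact cellM f ρ 20 55 100 (-1) 1081 6489 2580 (-1417) 992 6375 4998 2192 (-2209) 2803 4793
        (by norm_num) (by linarith) (by linarith) (by norm_num) (by norm_num) (by linarith)
        (by norm_num) (by norm_num) (by norm_num) (by norm_num) (by norm_num) (by norm_num) n3 n4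
        fun θ h1 h2 => o2 _ θ (by linarith) (by linarith) h1 h2
    · exact cellM f ρ 0 20 80 0 1030 4580 1225 (-2121) 0 4504 4756 1523 (-1730) 827 4720
        (by norm_num) (by linarith) (by linarith) (by norm_num) (by norm_num) (by linarith)
        (by norm_num) (by norm_num) (by norm_num) (by norm_num) (by norm_num) (by norm_num) n5 n6
        fun θ h1 h2 => o3 _ θ (by linarith) (by linarith) h1 h2
    · exact cellM f ρ 20 55 100 (-1) 970 5243 1849 (-1251) 783 5209 3962 1756 (-1705) 2131 3928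
        (by norm_num) (by linarith) (by linarith) (by norm_num) (by norm_num) (by linarith)
        (by norm_num) (by norm_num) (by norm_num) (by norm_num) (by norm_num) (by norm_num) n7 n8
        fun θ h1 h2 => o4 _ θ (by linarith) (by linarith) h1 h2
  · obtain ⟨t, ht, hg, ha⟩ := exists_half_angle (g := cubeAverage (sgn f))
      (abs_lt.2 ⟨by linarith, by linarith⟩)
    have hc : 0 < 1 + t ^ 2 := by positivity
    have hg' : cubeAverage (sgn f) * (1 + t ^ 2) = 2 * t := by rw [hg]; field_simp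
    have ht0 : 0 ≤ t := by nlinarith
    have ht3 : 10 * t ≤ 3 := by
      by_contra h
      have := (abs_lt.1 ht).2
      nlinarith
    have hs3 : hel ρ ≤ 1 := Real.sqrt_le_one.2 (by nlinarith)
    have ha' : hel (gT t) = aT t := by rw [gT, ← hg, ha, aT]
    rcases le_total (10 * t) 1 with ht1 | ht1
    · exact cellS f ρ t 4 0 1110 _ _ _ ht hg ha' (by nlinarith) (by linarith) (by linarith)
        (by linarith) (fun τ z => i5 t τ z (by linarith) ht1)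
        (o5 _ t (by linarith) hs3 (by linarith) ht1)
    · exact cellS f ρ t 0 5 772 _ _ _ ht hg ha' (by nlinarith) (by linarith) (by linarith)
        (by linarith) (fun τ z => i6 t τ z ht1 ht3) (o6 _ t (by linarith) hs3 ht1 ht3)

end Crest.Agent.R307.H2
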