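import Crest.Agent.R307.Static

/-! Row 307: reduction of `StarAt` to pointwise dual certificates (parity Poincare). -/

set_option autoImplicit false

open Crest.CubeNoise

namespace Crest.Agent.R307

/-- `sin` in the half-angle variable. -/
noncomputable def gT (τ : ℝ) : ℝ := 2 * τ / (1 + τ ^ 2)

/-- `cos` in the half-angle variable. -/
noncomputable def aT (τ : ℝ) : ℝ := (1 - τ ^ 2) / (1 + τ ^ 2)

/-- `U` is admissible for the edge comparison. -/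
def AdmU (U : ℝ → ℝ) : Prop :=
  ∃ U' : ℝ → ℝ, (∀ τ, |τ| < 1 → HasDerivAt U (U' τ) τ) ∧
    ∀ τ, |τ| < 1 → U' τ ^ 2 * (1 - τ ^ 4) ≤ 4

theorem W1_nonneg {n : ℕ} (u : Cube n → ℝ) : 0 ≤ W1 u :=
  Finset.sum_nonneg fun _ _ => sq_nonneg _

/-- All the static facts and the parity Poincare inequality, in half-angle variables. -/
theorem h2_master {n : ℕ} (f : Cube n → Bool) {ρ : ℝ} (h0 : 0 ≤ ρ) (h1 : ρ ≤ 1)
    (hg : ∀ x, |noise ρ (sgn f) x| < 1) {U : ℝ → ℝ} (hU : AdmU U) :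
    ∃ (τ : Cube n → ℝ) (b c : ℝ), (∀ x, |τ x| < 1) ∧ 0 ≤ b ∧ 0 ≤ c ∧
      W1 (sgn f) + b + c = 1 - cubeAverage (sgn f) ^ 2 ∧
      W1 (sgn f) + b ≤ 1 - |cubeAverage (sgn f)| ∧
      cubeAverage (fun x => ((gT (τ x) - gT (τ (anti x))) / 2) ^ 2)
        ≤ ρ ^ 2 * W1 (sgn f) + ρ ^ 6 * b ∧
      cubeAverage (fun x => ((gT (τ x) + gT (τ (anti x))) / 2 - cubeAverage (sgn f)) ^ 2)
        ≤ ρ ^ 4 * c ∧
      cubeAverage (fun x => (gT (τ x) + gT (τ (anti x))) / 2 - cubeAverage (sgn f)) = 0 ∧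
      cubeAverage (fun x => (aT (τ x) + aT (τ (anti x))) / 2)
        = cubeAverage (fun x => hel (noise ρ (sgn f) x)) ∧
      cubeAverage (fun x => ((U (τ x) - U (τ (anti x))) / 2) ^ 2)
        + 2 * (cubeAverage (fun x => ((U (τ x) + U (τ (anti x))) / 2) ^ 2)
          - cubeAverage (fun x => (U (τ x) + U (τ (anti x))) / 2) ^ 2)
        ≤ dir eH (noise ρ (sgn f)) := by
  obtain ⟨U', hU1, hU2⟩ := hU
  choose τ hτ hτg hτa using fun x => exists_half_angle (hg x)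
  obtain ⟨b, c, hb, hc, e1, e2, e3, e4⟩ := static_parity f h0 h1
  have hG : ∀ x, gT (τ x) = noise ρ (sgn f) x := fun x => (hτg x).symm
  have hA : ∀ x, aT (τ x) = hel (noise ρ (sgn f) x) := fun x => (hτa x).symm
  have half : ∀ φ : Cube n → ℝ,
      cubeAverage (fun x => (φ x + φ (anti x)) / 2) = cubeAverage φ := by
    intro φ
    have : (fun x => (φ x + φ (anti x)) / 2) = fun x => (1 / 2) * (φ x + φ (anti x)) := by
      funext x; ring
    rw [this, avg_mul_left, avg_add, avg_anti]; ring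
  refine ⟨τ, b, c, hτ, hb, hc, e1, e2, by simpa only [hG] using e3, by simpa only [hG] using e4,
    ?_, ?_, ?_⟩
  · rw [avg_sub, avg_const, half (fun x => gT (τ x))]
    simp only [hG]
    rw [avg_noise, sub_self]
  · rw [half (fun x => aT (τ x))]; simp only [hA]
  · rw [half (fun x => U (τ x))]
    refine (poincare_parity (fun x => U (τ x))).trans (avg_mono fun x => ?_)
    refine Finset.sum_le_sum fun i _ => ?_
    rw [hτg x, hτg (flipBit i x)]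
    exact edge_ge_sq U U' hU1 hU2 (hτ _) (hτ _)

/-- An affine function on the polygon `0 ≤ om ≤ ob`, `0 ≤ b`, `om + b ≤ r`. -/
theorem polygon_le {om b ob r c0 c1 c2 T : ℝ} (h0 : 0 ≤ om) (h1 : om ≤ ob) (hb : 0 ≤ b)
    (h2 : om + b ≤ r) (v1 : T ≤ c0) (v2 : T ≤ c0 + c2 * r) (v3 : T ≤ c0 + c1 * ob)
    (v4 : T ≤ c0 + c1 * ob + c2 * (r - ob)) : T ≤ c0 + c1 * om + c2 * b := by
  rcases le_total 0 c2 with h | h
  · rcases le_total 0 c1 with h' | h' <;> nlinarith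
  · rcases le_total 0 (c1 - c2) with h' | h' <;> nlinarith

/-- The cost of the Fourier constraints at a vertex `(om, b)` of the polygon. -/
def vcost (ρ m p q om b : ℝ) : ℝ :=
  p * (ρ ^ 2 * om + ρ ^ 6 * b) + q * ρ ^ 4 * (1 - m ^ 2 - om - b)

/-- Dual certificate with linearised variance. -/
theorem starAt_of_lin {n : ℕ} (f : Cube n → Bool) (ρ : ℝ) {U : ℝ → ℝ} (hU : AdmU U)
    (m ob K μ p q k α : ℝ) (hm : cubeAverage (sgn f) = m) (hob : W1 (sgn f) ≤ ob)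
    (hμ : 0 ≤ μ) (hp : 0 ≤ p) (hq : 0 ≤ q + 2 * k ^ 2)
    (hin : ∀ τ σ : ℝ, |τ| < 1 → |σ| < 1 →
      K ≤ ((U τ - U σ) / 2) ^ 2 + 4 * k * ((gT τ + gT σ) / 2 - m) * ((U τ + U σ) / 2)
        + μ * ((aT τ + aT σ) / 2) + p * ((gT τ - gT σ) / 2) ^ 2
        + q * ((gT τ + gT σ) / 2 - m) ^ 2 + α * ((gT τ + gT σ) / 2 - m))
    (v1 : ρ ^ 2 / hel ρ ≤ K - μ * (hel ρ - (1 - hel m)) - vcost ρ m p (q + 2 * k ^ 2) 0 0)
    (v2 : ρ ^ 2 / hel ρ ≤ K - μ * (hel ρ - (1 - hel m)) - vcost ρ m p (q + 2 * k ^ 2) 0 (1 - m))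
    (v3 : ρ ^ 2 / hel ρ ≤ K - μ * (hel ρ - (1 - hel m)) - vcost ρ m p (q + 2 * k ^ 2) ob 0)
    (v4 : ρ ^ 2 / hel ρ ≤
      K - μ * (hel ρ - (1 - hel m)) - vcost ρ m p (q + 2 * k ^ 2) ob (1 - m - ob)) :
    StarAt n f ρ := by
  intro h0 h1 hg hm0 hA
  obtain ⟨τ, b, c, hτ, hb, hc, e1, e2, e3, e4, e5, e6, e7⟩ := h2_master f h0.le h1.le hg hU
  rw [hm] at e1 e2 e4 e5 hA hm0
  rw [abs_of_nonneg hm0] at e2
  set ub : Cube n → ℝ := fun x => (U (τ x) + U (τ (anti x))) / 2 with hub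
  set ev : Cube n → ℝ := fun x => (gT (τ x) + gT (τ (anti x))) / 2 - m with hev
  set cb := cubeAverage ub with hcb
  have hvar : 0 ≤ cubeAverage (fun x => ub x ^ 2) - cb ^ 2
      - 2 * k * cubeAverage (fun x => ev x * ub x) + k ^ 2 * cubeAverage (fun x => ev x ^ 2) := by
    have h : cubeAverage (fun _ : Cube n => (0 : ℝ)) ≤
        cubeAverage (fun x => (ub x - cb - k * ev x) ^ 2) := avg_mono fun x => sq_nonneg _
    have e : (fun x => (ub x - cb - k * ev x) ^ 2) = fun x =>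
        ub x ^ 2 + (-2 * cb) * ub x + cb ^ 2 + (-2 * k) * (ev x * ub x) + (2 * k * cb) * ev x
          + k ^ 2 * ev x ^ 2 := by funext x; ring
    rw [e, avg_const] at h
    simp only [avg_add, avg_mul_left, avg_const] at h
    rw [e5, ← hcb] at h
    nlinarith
  have hK : cubeAverage (fun _ : Cube n => K) ≤ cubeAverage (fun x =>
      ((U (τ x) - U (τ (anti x))) / 2) ^ 2 + (4 * k) * (ev x * ub x)
        + μ * ((aT (τ x) + aT (τ (anti x))) / 2) + p * ((gT (τ x) - gT (τ (anti x))) / 2) ^ 2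
        + q * ev x ^ 2 + α * ev x) := avg_mono fun x => by
    have := hin (τ x) (τ (anti x)) (hτ _) (hτ _)
    simp only [hub, hev]
    linarith
  rw [avg_const] at hK
  simp only [avg_add, avg_mul_left] at hK
  rw [e5, e6] at hK
  have hpoly := polygon_le (T := ρ ^ 2 / hel ρ)
    (c0 := K - μ * (hel ρ - (1 - hel m)) - (q + 2 * k ^ 2) * ρ ^ 4 * (1 - m ^ 2))
    (c1 := (q + 2 * k ^ 2) * ρ ^ 4 - p * ρ ^ 2) (c2 := (q + 2 * k ^ 2) * ρ ^ 4 - p * ρ ^ 6)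
    (W1_nonneg _) hob hb e2 (by unfold vcost at v1; linarith) (by unfold vcost at v2; linarith)
    (by unfold vcost at v3; linarith) (by unfold vcost at v4; linarith)
  have f1 := mul_le_mul_of_nonneg_left hA.le hμ
  have f2 := mul_le_mul_of_nonneg_left e3 hp
  have f3 := mul_le_mul_of_nonneg_left e4 hq
  have hc' : c = 1 - m ^ 2 - W1 (sgn f) - b := by linarith
  rw [hc'] at f3
  nlinarith

/-- Dual certificate with a cell `c1 ≤ E ub ≤ c2` for the mean of `ub`; the multipliers may depend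
on the cell. -/
theorem starAt_of_cell {n : ℕ} (f : Cube n → Bool) (ρ : ℝ) {U : ℝ → ℝ} (hU : AdmU U)
    (m ob : ℝ) (hm : cubeAverage (sgn f) = m) (hob : W1 (sgn f) ≤ ob)
    (hcert : ∀ cb : ℝ, ∃ c1 c2 K μ p q α : ℝ, c1 ≤ cb ∧ cb ≤ c2 ∧ 0 ≤ μ ∧ 0 ≤ p ∧ 0 ≤ q ∧
      (∀ τ σ : ℝ, |τ| < 1 → |σ| < 1 →
        K ≤ ((U τ - U σ) / 2) ^ 2 + 2 * (((U τ + U σ) / 2 - c1) * ((U τ + U σ) / 2 - c2))
          + μ * ((aT τ + aT σ) / 2) + p * ((gT τ - gT σ) / 2) ^ 2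
          + q * ((gT τ + gT σ) / 2 - m) ^ 2 + α * ((gT τ + gT σ) / 2 - m)) ∧
      ρ ^ 2 / hel ρ ≤ K - μ * (hel ρ - (1 - hel m)) - vcost ρ m p q 0 0 ∧
      ρ ^ 2 / hel ρ ≤ K - μ * (hel ρ - (1 - hel m)) - vcost ρ m p q 0 (1 - m) ∧
      ρ ^ 2 / hel ρ ≤ K - μ * (hel ρ - (1 - hel m)) - vcost ρ m p q ob 0 ∧
      ρ ^ 2 / hel ρ ≤ K - μ * (hel ρ - (1 - hel m)) - vcost ρ m p q ob (1 - m - ob)) :
    StarAt n f ρ := by
  intro h0 h1 hg hm0 hA
  obtain ⟨τ, b, c, hτ, hb, hc, e1, e2, e3, e4, e5, e6, e7⟩ := h2_master f h0.le h1.le hg hU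
  rw [hm] at e1 e2 e4 e5 hA hm0
  rw [abs_of_nonneg hm0] at e2
  set ub : Cube n → ℝ := fun x => (U (τ x) + U (τ (anti x))) / 2 with hub
  set ev : Cube n → ℝ := fun x => (gT (τ x) + gT (τ (anti x))) / 2 - m with hev
  set cb := cubeAverage ub with hcb
  obtain ⟨c1, c2, K, μ, p, q, α, hc1, hc2, hμ, hp, hq, hin, v1, v2, v3, v4⟩ := hcert cb
  have hK : cubeAverage (fun _ : Cube n => K) ≤ cubeAverage (fun x =>
      ((U (τ x) - U (τ (anti x))) / 2) ^ 2 + 2 * ub x ^ 2 + (-2 * (c1 + c2)) * ub x + 2 * c1 * c2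
        + μ * ((aT (τ x) + aT (τ (anti x))) / 2) + p * ((gT (τ x) - gT (τ (anti x))) / 2) ^ 2
        + q * ev x ^ 2 + α * ev x) := avg_mono fun x => by
    have := hin (τ x) (τ (anti x)) (hτ _) (hτ _)
    simp only [hub, hev]
    linarith
  rw [avg_const] at hK
  simp only [avg_add, avg_mul_left, avg_const] at hK
  rw [e5, e6, ← hcb] at hK
  have hpoly := polygon_le (T := ρ ^ 2 / hel ρ)
    (c0 := K - μ * (hel ρ - (1 - hel m)) - q * ρ ^ 4 * (1 - m ^ 2))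
    (c1 := q * ρ ^ 4 - p * ρ ^ 2) (c2 := q * ρ ^ 4 - p * ρ ^ 6)
    (W1_nonneg _) hob hb e2 (by unfold vcost at v1; linarith) (by unfold vcost at v2; linarith)
    (by unfold vcost at v3; linarith) (by unfold vcost at v4; linarith)
  have f1 := mul_le_mul_of_nonneg_left hA.le hμ
  have f2 := mul_le_mul_of_nonneg_left e3 hp
  have f3 := mul_le_mul_of_nonneg_left e4 hq
  have f4 := mul_nonneg (sub_nonneg.2 hc1) (sub_nonneg.2 hc2)
  have hc' : c = 1 - m ^ 2 - W1 (sgn f) - b := by linarith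
  rw [hc'] at f3
  nlinarith

/-- `W1 ≤ 1 - m`. -/
theorem W1_le_one_sub {n : ℕ} (f : Cube n → Bool) : W1 (sgn f) ≤ 1 - cubeAverage (sgn f) := by
  obtain ⟨b, c, hb, -, -, e2, -, -⟩ := static_parity f (ρ := 0) le_rfl zero_le_one
  linarith [le_abs_self (cubeAverage (sgn f))]

theorem admU_one : AdmU (fun τ => 2 * τ) :=
  ⟨fun _ => 2, fun τ _ => by simpa using (hasDerivAt_id τ).const_mul 2,
    fun τ _ => by nlinarith [pow_two_nonneg (τ ^ 2)]⟩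

theorem admU_nine : AdmU (fun τ => 2 * τ + τ ^ 5 / 5 + τ ^ 9 / 12) := by
  refine ⟨fun τ => 2 + τ ^ 4 + 3 / 4 * τ ^ 8, fun τ _ => ?_, fun τ _ => ?_⟩
  · have h := (((hasDerivAt_id τ).const_mul 2).add ((hasDerivAt_pow 5 τ).div_const 5)).add
      ((hasDerivAt_pow 9 τ).div_const 12)
    refine h.congr_deriv ?_
    norm_num
    ring
  · have hy : 0 ≤ τ ^ 4 := by positivity
    have e : τ ^ 8 = (τ ^ 4) ^ 2 := by ring
    simp only [e]
    generalize τ ^ 4 = y at hy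
    have : (2 + y + 3 / 4 * y ^ 2) ^ 2 * (1 - y) =
        4 - (5 / 2 * y ^ 3 + 15 / 16 * y ^ 4 + 9 / 16 * y ^ 5) := by ring
    rw [this]
    have : 0 ≤ 5 / 2 * y ^ 3 + 15 / 16 * y ^ 4 + 9 / 16 * y ^ 5 := by positivity
    linarith

end Crest.Agent.R307
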