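import Crest.Agent.R307.H3Chk

/-! Row 307: the regime of large bias. -/

set_option autoImplicit false

open Crest.CubeNoise

namespace Crest.Agent.R307

namespace H3

/-- Cell 1. -/
def c1 : Cell :=
  ⟨true, 0, 1/5, 3/5, 1, 3/25, 42407/10000, 993/1000, 2, 1, -1, 0, 19197/1000, 19231/500,
    4797/500, 0, 0, 18489/1000, 34259/1000, 231/25, 0, 0, 4, 0, 0⟩
theorem ok1 : c1.ok = true := by decide +kernel

/-- Cell 2. -/
def c2 : Cell :=
  ⟨true, 1/5, 3/10, 21/50, 1, 1/4, 27727/10000, 121/125, 12/5, 1, -1, 0, 22187/1000,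
    41111/1000, 1386/125, 0, 0, 18201/1000, 30689/1000, 1733/500, 0, 0, 4, 0, 0⟩
theorem ok2 : c2.ok = true := by decide +kernel

/-- Cell 3. -/
def c3 : Cell :=
  ⟨true, 3/10, 19/50, 29/100, 1, 17/50, 10789/5000, 47/50, 57/20, 1, -1, 0, 3467/200,
    3531/125, 66/125, 0, 0, 4447/250, 13213/500, 139/125, 0, 0, 3, 0, 0⟩
theorem ok3 : c3.ok = true := by decide +kernel

/-- Cell 4. -/
def c4 : Cell :=
  ⟨true, 19/50, 11/25, 47/100, 1, 41/100, 17833/10000, 114/125, 21/10, 1, -1, 0, 1504/125,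
    3491/200, 37/125, 0, 0, 12007/1000, 63/4, 471/1000, 0, 0, 3, 0, 0⟩
theorem ok4 : c4.ok = true := by decide +kernel

/-- Cell 5. -/
def c5 : Cell :=
  ⟨false, 19/50, 11/25, 1/5, 47/100, 41/100, 17833/10000, 114/125, 5/2, 1, -1, 0, 42233/2000,
    188363/5000, 0, -2733/250, -79799/10000, 2023/80, 357243/10000, 61723/10000, -109291/10000,
    -453/2000, 5, 0, 0⟩
theorem ok5 : c5.ok = true := by decide +kernel

/-- Cell 6. -/
def c6 : Cell :=
  ⟨true, 11/25, 9487/20000, 63/100, 1, 457/1000, 15663/10000, 889/1000, 7/4, 1, -1, 0,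
    9511/1000, 12237/1000, 47/250, 0, 0, 951/100, 11379/1000, 273/1000, 0, 0, 2, 0, 0⟩
theorem ok6 : c6.ok = true := by decide +kernel

/-- Cell 7. -/
def c7 : Cell :=
  ⟨false, 11/25, 9487/20000, 2/5, 63/100, 457/1000, 15663/10000, 889/1000, 2, 1, -1, 0,
    133287/10000, 11501/625, 11209/10000, -42107/10000, 273/1000, 26423/2000, 140333/10000,
    17699/10000, -26431/10000, 6549/2000, 4, 0, 0⟩
theorem ok7 : c7.ok = true := by decide +kernel

/-- Cell 8. -/
def c8 : Cell :=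
  ⟨false, 11/25, 9487/20000, 31/100, 2/5, 457/1000, 15663/10000, 889/1000, 23/10, 1, -1, 0,
    83637/5000, 232273/10000, 0, -56567/10000, -8211/5000, 44763/2500, 154397/10000,
    44091/10000, -1227/500, 34711/5000, 5, 0, 0⟩
theorem ok8 : c8.ok = true := by decide +kernel

/-- Cell 9. -/
def c9 : Cell :=
  ⟨false, 11/25, 9487/20000, 1/4, 31/100, 457/1000, 15663/10000, 889/1000, 5/2, 1, -1, 0,
    355181/10000, 0, 230177/10000, 4456/625, 43893/1250, 248169/10000, 244433/10000,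
    81417/10000, -6101/1000, 37613/5000, 6, 0, 0⟩
theorem ok9 : c9.ok = true := by decide +kernel

/-- Cell 10. -/
def c10 : Cell :=
  ⟨false, 11/25, 9487/20000, 4/25, 1/4, 457/1000, 15663/10000, 889/1000, 11/4, 1, -1, 0, 60,
    0, 115043/2500, 82047/10000, 597267/10000, 52099/1250, 246357/5000, 89061/5000,
    -174283/10000, 65031/10000, 6, 0, 0⟩
theorem ok10 : c10.ok = true := by decide +kernel

theorem hel_le_of {σ m g lo : ℝ} (σ0 : 0 ≤ σ) (hσm : σ ^ 2 = (1 - m) / 2) (hg : σ ≤ g)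
    (h1 : g ^ 2 ≤ 1 / 2) (h2 : 4 * g ^ 2 * (1 - g ^ 2) ≤ (1 - lo) ^ 2) (h3 : lo ≤ 1) :
    hel m ≤ 1 - lo := by
  have e1 : 1 - m ^ 2 = 4 * σ ^ 2 * (1 - σ ^ 2) := by rw [hσm]; ring
  have e2 : σ ^ 2 ≤ g ^ 2 := pow_le_pow_left₀ σ0 hg 2
  refine Real.sqrt_le_iff.2 ⟨by linarith, ?_⟩
  rw [e1]
  nlinarith [mul_nonneg (sub_nonneg.2 e2) (show 0 ≤ 1 - g ^ 2 - σ ^ 2 by linarith)]

end H3

open H3 in
theorem starH3 : StarH3 := by
  intro n f ρ hm h0 h1 hg hm0 hA
  have hW := W1_le_one_sub f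
  have hm1 : cubeAverage (sgn f) ≤ 1 := by linarith [W1_nonneg (sgn f)]
  obtain ⟨σ, σ0, hσm⟩ : ∃ σ : ℝ, 0 ≤ σ ∧ σ ^ 2 = (1 - cubeAverage (sgn f)) / 2 :=
    ⟨_, Real.sqrt_nonneg _, Real.sq_sqrt (by linarith)⟩
  have hA0 : 0 ≤ cubeAverage (fun x => hel (noise ρ (sgn f) x)) :=
    st_avg_nonneg fun x => Real.sqrt_nonneg _
  have s1 : hel ρ ≤ 1 := Real.sqrt_le_iff.2 ⟨zero_le_one, by nlinarith⟩
  have key : ∀ c : Cell, c.ok = true → c.o0 = 1 → c.o1 = -1 → c.o2 = 0 → (c.g1 : ℝ) ≤ σ →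
      σ ≤ c.g2 → (c.s1 : ℝ) ≤ hel ρ → hel ρ ≤ c.s2 → ρ ^ 2 / hel ρ ≤ dir eH (noise ρ (sgn f)) :=
    fun c h e0 e1 e2 a1 a2 a3 a4 => c.sound h f ρ σ hσm a1 a2 a3 a4
      (by rw [e0, e1, e2]; push_cast; linarith) h0 h1 hg hm0 hA
  have top : σ ≤ 9487 / 20000 := (abs_le_of_sq_le_sq' (by linarith) (by norm_num)).2
  rcases le_total σ (1/5) with u0 | u0
  · have lo := hel_le_of (lo := 3/5) σ0 hσm u0 (by norm_num) (by norm_num) (by norm_num)
    exact key c1 ok1 rfl rfl rfl (by norm_num [c1]; linarith) (by norm_num [c1]; linarith)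
        (by norm_num [c1]; linarith) (by norm_num [c1]; linarith)
  rcases le_total σ (3/10) with u1 | u1
  · have lo := hel_le_of (lo := 21/50) σ0 hσm u1 (by norm_num) (by norm_num) (by norm_num)
    exact key c2 ok2 rfl rfl rfl (by norm_num [c2]; linarith) (by norm_num [c2]; linarith)
        (by norm_num [c2]; linarith) (by norm_num [c2]; linarith)
  rcases le_total σ (19/50) with u2 | u2
  · have lo := hel_le_of (lo := 29/100) σ0 hσm u2 (by norm_num) (by norm_num) (by norm_num)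
    exact key c3 ok3 rfl rfl rfl (by norm_num [c3]; linarith) (by norm_num [c3]; linarith)
        (by norm_num [c3]; linarith) (by norm_num [c3]; linarith)
  rcases le_total σ (11/25) with u3 | u3
  · have lo := hel_le_of (lo := 1/5) σ0 hσm u3 (by norm_num) (by norm_num) (by norm_num)
    rcases le_total (47/100) (hel ρ) with w0 | w0
    · exact key c4 ok4 rfl rfl rfl (by norm_num [c4]; linarith) (by norm_num [c4]; linarith)
        (by norm_num [c4]; linarith) (by norm_num [c4]; linarith)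
    exact key c5 ok5 rfl rfl rfl (by norm_num [c5]; linarith) (by norm_num [c5]; linarith)
        (by norm_num [c5]; linarith) (by norm_num [c5]; linarith)
  have lo := hel_le_of (lo := 4/25) σ0 hσm top (by norm_num) (by norm_num) (by norm_num)
  rcases le_total (63/100) (hel ρ) with w0 | w0
  · exact key c6 ok6 rfl rfl rfl (by norm_num [c6]; linarith) (by norm_num [c6]; linarith)
      (by norm_num [c6]; linarith) (by norm_num [c6]; linarith)
  rcases le_total (2/5) (hel ρ) with w1 | w1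
  · exact key c7 ok7 rfl rfl rfl (by norm_num [c7]; linarith) (by norm_num [c7]; linarith)
      (by norm_num [c7]; linarith) (by norm_num [c7]; linarith)
  rcases le_total (31/100) (hel ρ) with w2 | w2
  · exact key c8 ok8 rfl rfl rfl (by norm_num [c8]; linarith) (by norm_num [c8]; linarith)
      (by norm_num [c8]; linarith) (by norm_num [c8]; linarith)
  rcases le_total (1/4) (hel ρ) with w3 | w3
  · exact key c9 ok9 rfl rfl rfl (by norm_num [c9]; linarith) (by norm_num [c9]; linarith)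
      (by norm_num [c9]; linarith) (by norm_num [c9]; linarith)
  exact key c10 ok10 rfl rfl rfl (by norm_num [c10]; linarith) (by norm_num [c10]; linarith)
      (by norm_num [c10]; linarith) (by norm_num [c10]; linarith)

end Crest.Agent.R307
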