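import Mathlib

/-! A small verified checker for polynomial inequalities on `[0,1]` and `[0,1]²`.

Polynomials are coefficient lists (constant term first).  They are built over `ℚ`, rounded down to
integers and then tested with Bernstein coefficients and bisection. -/

set_option autoImplicit false

namespace Crest.Agent.R307.PC

/-! ### Integer polynomials and the test -/

/-- Evaluation of an integer coefficient list. -/
noncomputable def evZ : List ℤ → ℝ → ℝ
  | [], _ => 0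
  | c :: p, x => (c : ℝ) + x * evZ p x

/-- Sum of coefficient lists. -/
def addZ : List ℤ → List ℤ → List ℤ
  | [], q => q
  | c :: p, [] => c :: p
  | c :: p, d :: q => Int.add c d :: addZ p q

theorem evZ_add (x : ℝ) : ∀ p q : List ℤ, evZ (addZ p q) x = evZ p x + evZ q x
  | [], q => by simp [addZ, evZ]
  | c :: p, [] => by simp [addZ, evZ]
  | c :: p, d :: q => by
    simp only [addZ, evZ, evZ_add x p q, Int.add_def]; push_cast; ring

/-- `c + (1 + y) * p`. -/
def stepZ (c : ℤ) (p : List ℤ) : List ℤ := addZ p (c :: p)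

theorem evZ_step (c : ℤ) (p : List ℤ) (y : ℝ) : evZ (stepZ c p) y = c + (1 + y) * evZ p y := by
  simp only [stepZ, evZ_add, evZ]; ring

/-- `p (x + 1)`. -/
def shiftZ : List ℤ → List ℤ
  | [] => []
  | c :: p => stepZ c (shiftZ p)

theorem evZ_shift (x : ℝ) : ∀ p : List ℤ, evZ (shiftZ p) x = evZ p (1 + x)
  | [] => rfl
  | c :: p => by simp only [shiftZ, evZ_step, evZ_shift x p, evZ]

/-- Unnormalised Bernstein coefficients. -/
def btZ : List ℤ → List ℤ → List ℤ
  | [], acc => acc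
  | c :: p, acc => btZ p (stepZ c acc)

theorem evZ_bt {x y : ℝ} (h : x * (1 + y) = 1) : ∀ p acc : List ℤ,
    evZ (btZ p acc) y * x ^ p.length = evZ acc y + x * evZ p x
  | [], acc => by simp [btZ, evZ]
  | c :: p, acc => by
    simp only [btZ, List.length_cons, pow_succ, ← mul_assoc, evZ_bt h p, evZ_step, evZ]
    linear_combination (evZ acc y) * h

/-- Sign test. -/
def nnZ : ℤ → Bool
  | Int.ofNat _ => true
  | Int.negSucc _ => false

theorem nnZ_sound : ∀ {c : ℤ}, nnZ c = true → (0 : ℝ) ≤ c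
  | Int.ofNat n, _ => by simp
  | Int.negSucc _, h => by simp [nnZ] at h

/-- All coefficients are nonnegative. -/
def allZ : List ℤ → Bool
  | [] => true
  | c :: p => nnZ c && allZ p

theorem allZ_sound {y : ℝ} (hy : 0 ≤ y) : ∀ {p : List ℤ}, allZ p = true → 0 ≤ evZ p y
  | [], _ => le_rfl
  | c :: p, h => by
    simp only [allZ, Bool.and_eq_true] at h
    exact add_nonneg (nnZ_sound h.1) (mul_nonneg hy (allZ_sound hy h.2))

/-- The Bernstein test. -/
def bernZ (p : List ℤ) : Bool := nnZ (p.headD 0) && allZ (btZ p [])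

theorem evZ_zero (p : List ℤ) : evZ p 0 = (p.headD 0 : ℤ) := by
  cases p <;> simp [evZ]

theorem bernZ_sound {p : List ℤ} (h : bernZ p = true) {x : ℝ} (x0 : 0 ≤ x) (x1 : x ≤ 1) :
    0 ≤ evZ p x := by
  simp only [bernZ, Bool.and_eq_true] at h
  rcases x0.eq_or_lt with rfl | x0
  · rw [evZ_zero]; exact nnZ_sound h.1
  have hy : 0 ≤ 1 / x - 1 := by rw [sub_nonneg, le_div_iff₀ x0]; linarith
  have e := evZ_bt (x := x) (y := 1 / x - 1) (by field_simp; ring) p []
  have := mul_nonneg (allZ_sound hy h.2) (pow_nonneg x0.le p.length)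
  rw [e] at this
  simp only [evZ, zero_add] at this
  by_contra hh
  nlinarith [mul_pos x0 (neg_pos.2 (not_le.1 hh))]

/-- `p (x / 2) / d`, rounded down. -/
def halfZ : ℕ → List ℤ → List ℤ
  | _, [] => []
  | d, c :: p => Int.shiftRight c d :: halfZ (Nat.succ d) p

theorem evZ_half {x : ℝ} (x0 : 0 ≤ x) : ∀ (p : List ℤ) (d : ℕ),
    evZ (halfZ d p) x * 2 ^ d ≤ evZ p (x / 2)
  | [], d => by simp [halfZ, evZ]
  | c :: p, d => by
    have ih := mul_le_mul_of_nonneg_left (evZ_half x0 p (d + 1)) x0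
    have h : Int.shiftRight c d * 2 ^ d ≤ c := by
      have : Int.shiftRight c d = c / ((2 ^ d : ℕ) : ℤ) := Int.shiftRight_eq_div_pow c d
      rw [this]
      push_cast
      exact Int.ediv_mul_le c (by positivity)
    have h' : ((Int.shiftRight c d : ℤ) : ℝ) * 2 ^ d ≤ c := by exact_mod_cast h
    simp only [halfZ, evZ, Nat.succ_eq_add_one]
    rw [pow_succ] at ih
    nlinarith

/-- Bernstein test with bisection. -/
def posZ : ℕ → List ℤ → Bool
  | 0, p => bernZ p
  | n + 1, p => bernZ p || (posZ n (halfZ 0 p) && posZ n (shiftZ (halfZ 0 p)))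

theorem posZ_sound : ∀ (n : ℕ) {p : List ℤ}, posZ n p = true → ∀ {x : ℝ}, 0 ≤ x → x ≤ 1 →
    0 ≤ evZ p x
  | 0, _, h, _, x0, x1 => bernZ_sound h x0 x1
  | n + 1, p, h, x, x0, x1 => by
    simp only [posZ, Bool.or_eq_true, Bool.and_eq_true] at h
    rcases h with h | ⟨h1, h2⟩
    · exact bernZ_sound h x0 x1
    have k := evZ_half (x := 2 * x) (by linarith) p 0
    rw [pow_zero, mul_one, show 2 * x / 2 = x by ring] at k
    refine le_trans ?_ k
    rcases le_total x (1 / 2) with hx | hx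
    · exact posZ_sound n h1 (by linarith) (by linarith)
    · have := posZ_sound n h2 (x := 2 * x - 1) (by linarith) (by linarith)
      rwa [evZ_shift, show 1 + (2 * x - 1) = 2 * x by ring] at this

/-! ### Rational polynomials -/

/-- Univariate polynomials over `ℚ`. -/
structure P1 where
  /-- coefficients -/
  l : List ℚ

/-- Evaluation of a rational coefficient list. -/
noncomputable def evQ : List ℚ → ℝ → ℝ
  | [], _ => 0
  | c :: p, x => (c : ℝ) + x * evQ p x

/-- Sum. -/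
def addQ : List ℚ → List ℚ → List ℚ
  | [], q => q
  | c :: p, [] => c :: p
  | c :: p, d :: q => (c + d) :: addQ p q

theorem evQ_add (x : ℝ) : ∀ p q : List ℚ, evQ (addQ p q) x = evQ p x + evQ q x
  | [], q => by simp [addQ, evQ]
  | c :: p, [] => by simp [addQ, evQ]
  | c :: p, d :: q => by simp only [addQ, evQ, evQ_add x p q]; push_cast; ring

/-- Scalar multiple. -/
def smulQ (a : ℚ) : List ℚ → List ℚ
  | [] => []
  | c :: p => (a * c) :: smulQ a p

theorem evQ_smul (a : ℚ) (x : ℝ) : ∀ p : List ℚ, evQ (smulQ a p) x = a * evQ p x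
  | [] => by simp [smulQ, evQ]
  | c :: p => by simp only [smulQ, evQ, evQ_smul a x p]; push_cast; ring

/-- Product. -/
def mulQ : List ℚ → List ℚ → List ℚ
  | [], _ => []
  | [c], q => smulQ c q
  | c :: d :: p, q => addQ (smulQ c q) (0 :: mulQ (d :: p) q)

theorem evQ_mul (x : ℝ) (q : List ℚ) : ∀ p : List ℚ, evQ (mulQ p q) x = evQ p x * evQ q x
  | [] => by simp [mulQ, evQ]
  | [c] => by simp [mulQ, evQ, evQ_smul]
  | c :: d :: p => by
    have := evQ_mul x q (d :: p)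
    simp only [mulQ, evQ_add, evQ_smul, evQ, this]; push_cast; ring

/-- Derivative. -/
def derQ : List ℚ → List ℚ
  | [] => []
  | _ :: p => addQ p (0 :: derQ p)

theorem hasDerivAt_evQ (x : ℝ) : ∀ p : List ℚ, HasDerivAt (evQ p) (evQ (derQ p) x) x
  | [] => by simpa [evQ, derQ] using hasDerivAt_const x (0 : ℝ)
  | c :: p => by
    have h := ((hasDerivAt_id x).mul (hasDerivAt_evQ x p)).const_add (c : ℝ)
    refine HasDerivAt.congr_deriv h ?_
    simp [derQ, evQ_add, evQ]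

/-- Composition. -/
def compQ (q : List ℚ) : List ℚ → List ℚ
  | [] => []
  | c :: p => addQ [c] (mulQ q (compQ q p))

theorem evQ_comp (x : ℝ) (q : List ℚ) : ∀ p : List ℚ, evQ (compQ q p) x = evQ p (evQ q x)
  | [] => rfl
  | c :: p => by simp [compQ, evQ_add, evQ_mul, evQ_comp x q p, evQ]

/-- Rounding down to integers after scaling. -/
def toZ (D : ℕ) : List ℚ → List ℤ
  | [] => []
  | c :: p => Int.ediv (Int.mul c.num (Int.ofNat D)) (Int.ofNat c.den) :: toZ D p

theorem evZ_toZ (D : ℕ) {x : ℝ} (x0 : 0 ≤ x) : ∀ p : List ℚ, evZ (toZ D p) x ≤ D * evQ p x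
  | [] => by simp [toZ, evZ, evQ]
  | c :: p => by
    have ih := mul_le_mul_of_nonneg_left (evZ_toZ D x0 p) x0
    have hd : (0 : ℝ) < c.den := by exact_mod_cast c.den_pos
    have h : (c.num * (D : ℤ)) / (c.den : ℤ) * (c.den : ℤ) ≤ c.num * (D : ℤ) :=
      Int.ediv_mul_le _ (by exact_mod_cast c.den_ne_zero)
    have h' : (((c.num * (D : ℤ)) / (c.den : ℤ) : ℤ) : ℝ) * c.den ≤ c.num * D := by
      exact_mod_cast h
    have h2 : (((c.num * (D : ℤ)) / (c.den : ℤ) : ℤ) : ℝ) ≤ D * (c : ℝ) := by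
      rw [Rat.cast_def, ← mul_div_assoc, le_div_iff₀ hd]; linarith
    change (((c.num * (D : ℤ)) / (c.den : ℤ) : ℤ) : ℝ) + x * evZ (toZ D p) x ≤
      D * ((c : ℝ) + x * evQ p x)
    nlinarith

/-- The scale used for rounding. -/
def scale : ℕ := 1000000000000000000000000000000000000000

/-- Positivity test on `[0,1]`. -/
def posQ (n : ℕ) (p : List ℚ) : Bool := posZ n (toZ scale p)

theorem posQ_sound {n : ℕ} {p : List ℚ} (h : posQ n p = true) {x : ℝ} (x0 : 0 ≤ x) (x1 : x ≤ 1) :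
    0 ≤ evQ p x := by
  have := (posZ_sound n h x0 x1).trans (evZ_toZ scale x0 p)
  have hs : (0 : ℝ) < (scale : ℕ) := by unfold scale; positivity
  by_contra hh
  nlinarith [mul_pos hs (neg_pos.2 (not_le.1 hh))]

namespace P1

/-- Evaluation. -/
noncomputable def ev (p : P1) (x : ℝ) : ℝ := evQ p.l x
/-- Constants. -/
def C (c : ℚ) : P1 := ⟨[c]⟩
/-- The affine polynomial `a + b x`. -/
def aff (a b : ℚ) : P1 := ⟨[a, b]⟩
instance : Add P1 := ⟨fun p q => ⟨addQ p.l q.l⟩⟩
instance : Mul P1 := ⟨fun p q => ⟨mulQ p.l q.l⟩⟩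
instance : Sub P1 := ⟨fun p q => ⟨addQ p.l (smulQ (-1) q.l)⟩⟩
/-- Powers. -/
def pow (p : P1) : ℕ → P1
  | 0 => C 1
  | n + 1 => p * pow p n
/-- Composition of a coefficient list with a polynomial. -/
def comp (l : List ℚ) (q : P1) : P1 := ⟨compQ q.l l⟩
/-- Positivity test on `[0,1]`. -/
def pos (n : ℕ) (p : P1) : Bool := posQ n p.l

@[simp] theorem ev_C (c : ℚ) (x : ℝ) : (C c).ev x = c := by simp [ev, C, evQ]
@[simp] theorem ev_aff (a b : ℚ) (x : ℝ) : (aff a b).ev x = a + b * x := by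
  simp [ev, aff, evQ, mul_comm]
@[simp] theorem ev_add (p q : P1) (x : ℝ) : (p + q).ev x = p.ev x + q.ev x := evQ_add x _ _
@[simp] theorem ev_mul (p q : P1) (x : ℝ) : (p * q).ev x = p.ev x * q.ev x := evQ_mul x _ _
@[simp] theorem ev_sub (p q : P1) (x : ℝ) : (p - q).ev x = p.ev x - q.ev x := by
  change evQ (addQ p.l (smulQ (-1) q.l)) x = evQ p.l x - evQ q.l x
  rw [evQ_add, evQ_smul]; push_cast; ring
@[simp] theorem ev_pow (p : P1) (x : ℝ) : ∀ n : ℕ, (p.pow n).ev x = p.ev x ^ n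
  | 0 => by simp [pow]
  | n + 1 => by simp [pow, ev_pow p x n, pow_succ']
@[simp] theorem ev_comp (l : List ℚ) (q : P1) (x : ℝ) : (comp l q).ev x = evQ l (q.ev x) :=
  evQ_comp x _ _
theorem pos_sound {n : ℕ} {p : P1} (h : p.pos n = true) {x : ℝ} (x0 : 0 ≤ x) (x1 : x ≤ 1) :
    0 ≤ p.ev x := posQ_sound h x0 x1

end P1

/-! ### Bivariate polynomials: lists in `t` of coefficient lists in `x` -/

/-- Evaluation of a bivariate integer polynomial. -/
noncomputable def evZ2 : List (List ℤ) → ℝ → ℝ → ℝ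
  | [], _, _ => 0
  | c :: p, t, x => evZ c x + t * evZ2 p t x

/-- Sum. -/
def addZ2 : List (List ℤ) → List (List ℤ) → List (List ℤ)
  | [], q => q
  | c :: p, [] => c :: p
  | c :: p, d :: q => addZ c d :: addZ2 p q

theorem evZ2_add (t x : ℝ) : ∀ p q, evZ2 (addZ2 p q) t x = evZ2 p t x + evZ2 q t x
  | [], q => by simp [addZ2, evZ2]
  | c :: p, [] => by simp [addZ2, evZ2]
  | c :: p, d :: q => by simp only [addZ2, evZ2, evZ2_add t x p q, evZ_add]; ring

/-- `c + (1 + y) * p`. -/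
def stepZ2 (c : List ℤ) (p : List (List ℤ)) : List (List ℤ) := addZ2 p (c :: p)

theorem evZ2_step (c : List ℤ) (p : List (List ℤ)) (y x : ℝ) :
    evZ2 (stepZ2 c p) y x = evZ c x + (1 + y) * evZ2 p y x := by
  simp only [stepZ2, evZ2_add, evZ2]; ring

/-- Shift in `t`. -/
def shiftZ2 : List (List ℤ) → List (List ℤ)
  | [] => []
  | c :: p => stepZ2 c (shiftZ2 p)

theorem evZ2_shift (t x : ℝ) : ∀ p, evZ2 (shiftZ2 p) t x = evZ2 p (1 + t) x
  | [] => rfl
  | c :: p => by simp only [shiftZ2, evZ2_step, evZ2_shift t x p, evZ2]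

/-- Bernstein coefficients in `t`. -/
def btZ2 : List (List ℤ) → List (List ℤ) → List (List ℤ)
  | [], acc => acc
  | c :: p, acc => btZ2 p (stepZ2 c acc)

theorem evZ2_bt {t y : ℝ} (h : t * (1 + y) = 1) (x : ℝ) : ∀ p acc,
    evZ2 (btZ2 p acc) y x * t ^ p.length = evZ2 acc y x + t * evZ2 p t x
  | [], acc => by simp [btZ2, evZ2]
  | c :: p, acc => by
    simp only [btZ2, List.length_cons, pow_succ, ← mul_assoc, evZ2_bt h x p, evZ2_step, evZ2]
    linear_combination (evZ2 acc y x) * h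

/-- All coefficient polynomials pass the test. -/
def allZ2 (n : ℕ) : List (List ℤ) → Bool
  | [] => true
  | c :: p => posZ n c && allZ2 n p

theorem allZ2_sound {n : ℕ} {y x : ℝ} (hy : 0 ≤ y) (x0 : 0 ≤ x) (x1 : x ≤ 1) :
    ∀ {p}, allZ2 n p = true → 0 ≤ evZ2 p y x
  | [], _ => le_rfl
  | c :: p, h => by
    simp only [allZ2, Bool.and_eq_true] at h
    exact add_nonneg (posZ_sound n h.1 x0 x1) (mul_nonneg hy (allZ2_sound hy x0 x1 h.2))

/-- Bernstein test in `t`, bisection in `x`. -/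
def bernZ2 (n : ℕ) (p : List (List ℤ)) : Bool := posZ n (p.headD []) && allZ2 n (btZ2 p [])

theorem bernZ2_sound {n : ℕ} {p : List (List ℤ)} (h : bernZ2 n p = true) {t x : ℝ} (t0 : 0 ≤ t)
    (t1 : t ≤ 1) (x0 : 0 ≤ x) (x1 : x ≤ 1) : 0 ≤ evZ2 p t x := by
  simp only [bernZ2, Bool.and_eq_true] at h
  rcases t0.eq_or_lt with rfl | t0
  · have : evZ2 p 0 x = evZ (p.headD []) x := by cases p <;> simp [evZ2, evZ]
    rw [this]; exact posZ_sound n h.1 x0 x1
  have hy : 0 ≤ 1 / t - 1 := by rw [sub_nonneg, le_div_iff₀ t0]; linarith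
  have e := evZ2_bt (t := t) (y := 1 / t - 1) (by field_simp; ring) x p []
  have := mul_nonneg (allZ2_sound hy x0 x1 h.2) (pow_nonneg t0.le p.length)
  rw [e] at this
  simp only [evZ2, zero_add] at this
  by_contra hh
  nlinarith [mul_pos t0 (neg_pos.2 (not_le.1 hh))]

/-- Division by `2 ^ d`, rounded down. -/
def shrZ (d : ℕ) : List ℤ → List ℤ
  | [] => []
  | c :: p => Int.shiftRight c d :: shrZ d p

theorem evZ_shr {x : ℝ} (x0 : 0 ≤ x) (d : ℕ) : ∀ p : List ℤ, evZ (shrZ d p) x * 2 ^ d ≤ evZ p x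
  | [] => by simp [shrZ, evZ]
  | c :: p => by
    have ih := mul_le_mul_of_nonneg_left (evZ_shr x0 d p) x0
    have h : Int.shiftRight c d * 2 ^ d ≤ c := by
      have : Int.shiftRight c d = c / ((2 ^ d : ℕ) : ℤ) := Int.shiftRight_eq_div_pow c d
      rw [this]
      push_cast
      exact Int.ediv_mul_le c (by positivity)
    have h' : ((Int.shiftRight c d : ℤ) : ℝ) * 2 ^ d ≤ c := by exact_mod_cast h
    simp only [shrZ, evZ]
    nlinarith

/-- Halving in `t`. -/
def halfZ2 : ℕ → List (List ℤ) → List (List ℤ)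
  | _, [] => []
  | d, c :: p => shrZ d c :: halfZ2 (Nat.succ d) p

theorem evZ2_half {t x : ℝ} (t0 : 0 ≤ t) (x0 : 0 ≤ x) : ∀ (p : List (List ℤ)) (d : ℕ),
    evZ2 (halfZ2 d p) t x * 2 ^ d ≤ evZ2 p (t / 2) x
  | [], d => by simp [halfZ2, evZ2]
  | c :: p, d => by
    have ih := mul_le_mul_of_nonneg_left (evZ2_half t0 x0 p (d + 1)) t0
    have h := evZ_shr x0 d c
    simp only [halfZ2, evZ2, Nat.succ_eq_add_one]
    rw [pow_succ] at ih
    nlinarith

/-- Test with bisection depth `m` in `t` and `n` in `x`. -/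
def posZ2 (n : ℕ) : ℕ → List (List ℤ) → Bool
  | 0, p => bernZ2 n p
  | m + 1, p => bernZ2 n p || (posZ2 n m (halfZ2 0 p) && posZ2 n m (shiftZ2 (halfZ2 0 p)))

theorem posZ2_sound (n : ℕ) {x : ℝ} (x0 : 0 ≤ x) (x1 : x ≤ 1) : ∀ (m : ℕ) {p : List (List ℤ)},
    posZ2 n m p = true → ∀ {t : ℝ}, 0 ≤ t → t ≤ 1 → 0 ≤ evZ2 p t x
  | 0, _, h, _, t0, t1 => bernZ2_sound h t0 t1 x0 x1
  | m + 1, p, h, t, t0, t1 => by
    simp only [posZ2, Bool.or_eq_true, Bool.and_eq_true] at h
    rcases h with h | ⟨h1, h2⟩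
    · exact bernZ2_sound h t0 t1 x0 x1
    have k := evZ2_half (t := 2 * t) (by linarith) x0 p 0
    rw [pow_zero, mul_one, show 2 * t / 2 = t by ring] at k
    refine le_trans ?_ k
    rcases le_total t (1 / 2) with hx | hx
    · exact posZ2_sound n x0 x1 m h1 (by linarith) (by linarith)
    · have := posZ2_sound n x0 x1 m h2 (t := 2 * t - 1) (by linarith) (by linarith)
      rwa [evZ2_shift, show 1 + (2 * t - 1) = 2 * t by ring] at this

/-- Evaluation of a bivariate rational polynomial. -/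
noncomputable def evQ2 : List (List ℚ) → ℝ → ℝ → ℝ
  | [], _, _ => 0
  | c :: p, t, x => evQ c x + t * evQ2 p t x

/-- Sum. -/
def addQ2 : List (List ℚ) → List (List ℚ) → List (List ℚ)
  | [], q => q
  | c :: p, [] => c :: p
  | c :: p, d :: q => addQ c d :: addQ2 p q

theorem evQ2_add (t x : ℝ) : ∀ p q, evQ2 (addQ2 p q) t x = evQ2 p t x + evQ2 q t x
  | [], q => by simp [addQ2, evQ2]
  | c :: p, [] => by simp [addQ2, evQ2]
  | c :: p, d :: q => by simp only [addQ2, evQ2, evQ2_add t x p q, evQ_add]; ring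

/-- Multiplication by a polynomial in `x`. -/
def smulQ2 (a : List ℚ) : List (List ℚ) → List (List ℚ)
  | [] => []
  | c :: p => mulQ a c :: smulQ2 a p

theorem evQ2_smul (a : List ℚ) (t x : ℝ) : ∀ p, evQ2 (smulQ2 a p) t x = evQ a x * evQ2 p t x
  | [] => by simp [smulQ2, evQ2]
  | c :: p => by simp only [smulQ2, evQ2, evQ2_smul a t x p, evQ_mul]; ring

/-- Product. -/
def mulQ2 : List (List ℚ) → List (List ℚ) → List (List ℚ)
  | [], _ => []
  | [c], q => smulQ2 c q
  | c :: d :: p, q => addQ2 (smulQ2 c q) ([] :: mulQ2 (d :: p) q)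

theorem evQ2_mul (t x : ℝ) (q : List (List ℚ)) :
    ∀ p, evQ2 (mulQ2 p q) t x = evQ2 p t x * evQ2 q t x
  | [] => by simp [mulQ2, evQ2]
  | [c] => by simp [mulQ2, evQ2, evQ2_smul]
  | c :: d :: p => by
    have := evQ2_mul t x q (d :: p)
    simp only [mulQ2, evQ2_add, evQ2_smul, evQ2, evQ, this]; ring

/-- Rounding. -/
def toZ2 (D : ℕ) : List (List ℚ) → List (List ℤ)
  | [] => []
  | c :: p => toZ D c :: toZ2 D p

theorem evZ2_toZ (D : ℕ) {t x : ℝ} (t0 : 0 ≤ t) (x0 : 0 ≤ x) :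
    ∀ p, evZ2 (toZ2 D p) t x ≤ D * evQ2 p t x
  | [] => by simp [toZ2, evZ2, evQ2]
  | c :: p => by
    have ih := mul_le_mul_of_nonneg_left (evZ2_toZ D t0 x0 p) t0
    have h := evZ_toZ D x0 c
    simp only [toZ2, evZ2, evQ2]
    nlinarith

/-- Bivariate polynomials over `ℚ`. -/
structure P2 where
  /-- coefficients -/
  l : List (List ℚ)

namespace P2

/-- Evaluation. -/
noncomputable def ev (p : P2) (t x : ℝ) : ℝ := evQ2 p.l t x
/-- Constants. -/
def C (c : ℚ) : P2 := ⟨[[c]]⟩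
/-- `a + b t`. -/
def affT (a b : ℚ) : P2 := ⟨[[a], [b]]⟩
/-- `a + b x`. -/
def affX (a b : ℚ) : P2 := ⟨[[a, b]]⟩
instance : Add P2 := ⟨fun p q => ⟨addQ2 p.l q.l⟩⟩
instance : Mul P2 := ⟨fun p q => ⟨mulQ2 p.l q.l⟩⟩
instance : Sub P2 := ⟨fun p q => ⟨addQ2 p.l (smulQ2 [-1] q.l)⟩⟩
/-- Powers. -/
def pow (p : P2) : ℕ → P2
  | 0 => C 1
  | n + 1 => p * pow p n
/-- Positivity test on the unit square: depth `m` in `t`, depth `n` in `x`. -/
def pos (m n : ℕ) (p : P2) : Bool := posZ2 n m (toZ2 scale p.l)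

@[simp] theorem ev_C (c : ℚ) (t x : ℝ) : (C c).ev t x = c := by simp [ev, C, evQ2, evQ]
@[simp] theorem ev_affT (a b : ℚ) (t x : ℝ) : (affT a b).ev t x = a + b * t := by
  simp [ev, affT, evQ2, evQ, mul_comm]
@[simp] theorem ev_affX (a b : ℚ) (t x : ℝ) : (affX a b).ev t x = a + b * x := by
  simp [ev, affX, evQ2, evQ, mul_comm]
@[simp] theorem ev_add (p q : P2) (t x : ℝ) : (p + q).ev t x = p.ev t x + q.ev t x :=
  evQ2_add t x _ _
@[simp] theorem ev_mul (p q : P2) (t x : ℝ) : (p * q).ev t x = p.ev t x * q.ev t x :=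
  evQ2_mul t x _ _
@[simp] theorem ev_sub (p q : P2) (t x : ℝ) : (p - q).ev t x = p.ev t x - q.ev t x := by
  change evQ2 (addQ2 p.l (smulQ2 [-1] q.l)) t x = evQ2 p.l t x - evQ2 q.l t x
  rw [evQ2_add, evQ2_smul]; simp [evQ]; ring
@[simp] theorem ev_pow (p : P2) (t x : ℝ) : ∀ n : ℕ, (p.pow n).ev t x = p.ev t x ^ n
  | 0 => by simp [pow]
  | n + 1 => by simp [pow, ev_pow p t x n, pow_succ']

theorem pos_sound {m n : ℕ} {p : P2} (h : p.pos m n = true) {t x : ℝ} (t0 : 0 ≤ t) (t1 : t ≤ 1)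
    (x0 : 0 ≤ x) (x1 : x ≤ 1) : 0 ≤ p.ev t x := by
  have := (posZ2_sound n x0 x1 m h t0 t1).trans (evZ2_toZ scale t0 x0 p.l)
  have hs : (0 : ℝ) < (scale : ℕ) := by unfold scale; positivity
  change 0 ≤ evQ2 p.l t x
  by_contra hh
  nlinarith [mul_pos hs (neg_pos.2 (not_le.1 hh))]

end P2

end Crest.Agent.R307.PC
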