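import Crest.Agent.R307.H3Red
import Crest.Agent.R307.PolyChk

/-! Row 307: the checker for cells of one dimensional dual certificates. -/

set_option autoImplicit false

open Crest.CubeNoise

namespace Crest.Agent.R307.H3

open PC

/-- Polynomial potential in the quarter-angle variable. -/
def Ul : List ℚ :=
  [0, 3997529/1000000, 0, -1961711/500000, 0, 8880237/1000000, 0, -10136953/500000, 0,
  35913029/1000000, 0, -43941959/1000000, 0, 34255109/1000000, 0, -3038269/200000, 0,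
  2905949/1000000]

/-- Polynomial upper bound for `√(1 + 6 v² + v⁴)`. -/
def Sl : List ℚ :=
  [1000293/1000000, 0, 595707/200000, 0, -429763/125000, 0, 153121/25000, 0, -947051/125000, 0,
  81592/15625, 0, -1482561/1000000]

/-- `v = 1 - 2 x`. -/
def pv : P1 := P1.aff 1 (-2)
/-- `v²`. -/
def pv2 : P1 := pv * pv
/-- `Q`. -/
def pQ : P1 := P1.C 1 + P1.C 6 * pv2 + pv2 * pv2
/-- `G = g Q`. -/
def pG : P1 := P1.C 4 * pv * (P1.C 1 + pv2)
/-- `1 - v²`. -/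
def pE : P1 := P1.C 1 - pv2
/-- The potential. -/
def pU : P1 := P1.comp Ul pv
/-- The bound for `√Q`. -/
def pS : P1 := P1.comp Sl pv
/-- `Q²`. -/
def pQ2 : P1 := pQ * pQ

theorem ev_pv (x : ℝ) : pv.ev x = 1 - 2 * x := by simp [pv]; ring
theorem ev_pv2 (x : ℝ) : pv2.ev x = pv.ev x ^ 2 := by simp [pv2]; ring
theorem ev_pQ (x : ℝ) : pQ.ev x = 1 + 6 * pv.ev x ^ 2 + pv.ev x ^ 4 := by
  simp [pQ, ev_pv2]; ring
theorem ev_pG (x : ℝ) : pG.ev x = 4 * pv.ev x * (1 + pv.ev x ^ 2) := by simp [pG, ev_pv2]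
theorem ev_pE (x : ℝ) : pE.ev x = 1 - pv.ev x ^ 2 := by simp [pE, ev_pv2]
theorem ev_pQ2 (x : ℝ) : pQ2.ev x = pQ.ev x ^ 2 := by simp [pQ2]; ring

theorem of_pos {p : P1} {d : ℕ} (h : p.pos d = true) {v : ℝ} (hv : |v| < 1) :
    ∃ x, pv.ev x = v ∧ 0 ≤ p.ev x := by
  have := abs_lt.1 hv
  exact ⟨(1 - v) / 2, by rw [ev_pv]; ring, P1.pos_sound h (by linarith) (by linarith)⟩

theorem chkU : (P1.C 16 - (P1.comp (derQ Ul) pv).pow 2 * pQ).pos 8 = true := by decide +kernel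
theorem chkS : (pS * pS - pQ).pos 8 = true := by decide +kernel
theorem chkS0 : pS.pos 8 = true := by decide +kernel

theorem admG_Ul : AdmG (fun g => evQ Ul (hf (hf g))) := by
  refine admG_of_chart (fun v => hasDerivAt_evQ v Ul) fun v hv => ?_
  obtain ⟨x, hx, h⟩ := of_pos chkU hv
  simp only [P1.ev_sub, P1.ev_C, P1.ev_mul, P1.ev_pow, P1.ev_comp, ev_pQ, hx] at h
  push_cast at h
  linarith

theorem le_Sl {v S : ℝ} (hv : |v| < 1) (hS : S ^ 2 = 1 + 6 * v ^ 2 + v ^ 4) : S ≤ evQ Sl v := by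
  obtain ⟨x, hx, h⟩ := of_pos chkS hv
  obtain ⟨x', hx', h'⟩ := of_pos chkS0 hv
  simp only [pS, P1.ev_sub, P1.ev_mul, P1.ev_comp, ev_pQ, hx, hx'] at h h'
  exact (abs_le_of_sq_le_sq' (by nlinarith) h').2

/-! ### Inner inequalities -/

/-- Pieces of the tangent inequality. -/
def Ta : P1 := (P1.C 4 * pQ2 - pG * pG) * pQ2
/-- Pieces of the tangent inequality. -/
def Tb : P1 := pG * pQ * pQ2
/-- Pieces of the tangent inequality. -/
def Tl : P1 := pE * pS * pQ * pQ2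
/-- Pieces of the tangent inequality. -/
def Tp : P1 := pE * pS * pE.pow 6
/-- Pieces of the tangent inequality. -/
def Tn : P1 := P1.C (141421 / 800000) * pE * (P1.C 1 + pv).pow 6 * pQ2
/-- The tangent inequality. -/
def innerT (k m l n p : ℚ) : P1 :=
  P1.C k * Ta - P1.C (3 * k * m) * Tb - P1.C l * Tl + P1.C (2 * p) * Tp + P1.C n * Tn

/-- Real form of the tangent inequality. -/
def InT (k m l n p : ℝ) : Prop :=
  ∀ g, |g| < 1 → 0 ≤ k * (4 - g ^ 2 - 3 * m * g) - l * bb g + 2 * p * bb g ^ 7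
      + n * (bb g ^ 7 / (16 * √((1 - g) / 2) ^ 3))

theorem sqrt2_ge : (141421 / 100000 : ℝ) ≤ √2 := Real.le_sqrt_of_sq_le (by norm_num)

theorem innerT_sound {k m l n p : ℚ} {d : ℕ} (h : (innerT k m l n p).pos d = true)
    (hp : 0 ≤ p) (hl : 2 * p ≤ l) (hn : 0 ≤ n) : InT k m l n p := by
  intro g hg
  obtain ⟨v, S, -, hv, S0, hS, eg, ea, eb, ey⟩ := chart_spec hg
  obtain ⟨x, hx, h⟩ := of_pos h hv
  have hSl := le_Sl hv hS
  simp only [innerT, Ta, Tb, Tl, Tp, Tn, pS, P1.ev_sub, P1.ev_add, P1.ev_C, P1.ev_mul, P1.ev_pow,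
    P1.ev_comp, ev_pQ2, ev_pQ, ev_pG, ev_pE, hx, ← hS] at h
  push_cast at h
  have hp' : (0 : ℝ) ≤ p := by exact_mod_cast hp
  have hl' : 2 * (p : ℝ) ≤ l := by exact_mod_cast hl
  have hn' : (0 : ℝ) ≤ n := by exact_mod_cast hn
  have hv' := abs_lt.1 hv
  have hE : 0 < 1 - v ^ 2 := by nlinarith
  have hv1 : 0 < 1 - v := by linarith
  have hb1 : bb g ^ 6 ≤ 1 := by
    have h1 := hel_sq hg
    have h2 := bb_sq hg
    have h3 : hel g ≤ 1 := by nlinarith [hel_pos hg]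
    calc bb g ^ 6 = hel g ^ 3 := by rw [← h2]; ring
      _ ≤ 1 := pow_le_one₀ (hel_pos hg).le h3
  have eb' : bb g = (1 - v ^ 2) / S := eb
  have e2 : √2 ^ 2 = 2 := Real.sq_sqrt (by norm_num)
  have s2 : 0 < √2 := by positivity
  have en : bb g ^ 7 / (16 * √((1 - g) / 2) ^ 3) = √2 / 8 * (1 - v ^ 2) * (1 + v) ^ 6 / S ^ 4 := by
    rw [eb', ey, show 1 - v ^ 2 = (1 - v) * (1 + v) by ring]
    field_simp
    linear_combination (8 * (1 + v) ^ 7) * e2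
  have hbS : bb g ≤ (1 - v ^ 2) * evQ Sl v / S ^ 2 := by
    rw [eb', div_le_div_iff₀ S0 (by positivity)]
    nlinarith [mul_le_mul_of_nonneg_left hSl (mul_pos hE S0).le]
  have f1 : bb g * (l - 2 * p * bb g ^ 6) ≤
      (1 - v ^ 2) * evQ Sl v / S ^ 2 * (l - 2 * p * bb g ^ 6) :=
    mul_le_mul_of_nonneg_right hbS (by nlinarith)
  have f2 : n * (141421 / 800000 * (1 - v ^ 2) * (1 + v) ^ 6 / S ^ 4) ≤
      n * (√2 / 8 * (1 - v ^ 2) * (1 + v) ^ 6 / S ^ 4) := by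
    have h2 : (141421 / 800000 : ℝ) ≤ √2 / 8 := by linarith [sqrt2_ge]
    have h3 : 0 ≤ (1 - v ^ 2) * (1 + v) ^ 6 / S ^ 4 := by positivity
    have := mul_le_mul_of_nonneg_left (mul_le_mul_of_nonneg_right h2 h3) hn'
    simpa only [mul_assoc, mul_div_assoc] using this
  have f3 : 0 ≤ k * (4 - g ^ 2 - 3 * m * g)
      - (1 - v ^ 2) * evQ Sl v / S ^ 2 * (l - 2 * p * bb g ^ 6)
      + n * (141421 / 800000 * (1 - v ^ 2) * (1 + v) ^ 6 / S ^ 4) := by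
    refine le_of_le_of_eq (div_nonneg h (pow_pos S0 8).le) ?_
    rw [eb', eg]
    field_simp
    ring
  rw [en]
  linarith

theorem InT.mix {k m l n p m' l' n' p' t : ℝ} (h : InT k m l n p) (h' : InT k m' l' n' p')
    (t0 : 0 ≤ t) (t1 : t ≤ 1) :
    InT k (m + (m' - m) * t) (l + (l' - l) * t) (n + (n' - n) * t) (p + (p' - p) * t) := by
  intro g hg
  have := add_nonneg (mul_nonneg (sub_nonneg.2 t1) (h g hg)) (mul_nonneg t0 (h' g hg))
  linarith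

/-- Pieces of the dual inequality. -/
def Da : P1 := pG * pU * pQ
/-- Pieces of the dual inequality. -/
def Db : P1 := pQ2 * pU
/-- Pieces of the dual inequality. -/
def Dl : P1 := pE * pE * pQ
/-- Pieces of the dual inequality. -/
def Dp : P1 := pG * pG
/-- Pieces of the dual inequality. -/
def Dal : P1 := pG * pQ
/-- Pieces of the dual inequality. -/
def Dn : P1 := P1.C (707107 / 1000000) * (P1.C 1 - pv).pow 2 * pS * pQ
/-- The dual inequality. -/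
def innerD (k m l n p a K : ℚ) : P1 :=
  P1.C (2 * k) * Da - P1.C (2 * k * m) * Db + P1.C l * Dl + P1.C p * Dp + P1.C a * Dal
    - P1.C n * Dn - P1.C K * pQ2

/-- Real form of the dual inequality. -/
def InD (k m l n p a K : ℝ) : Prop :=
  ∀ g : ℝ, |g| < 1 → K ≤ 2 * k * ((g - m) * evQ Ul (hf (hf g))) + l * hel g + p * g ^ 2 + a * g
    - n * √((1 - g) / 2)

theorem innerD_sound {k m l n p a K : ℚ} {d : ℕ} (h : (innerD k m l n p a K).pos d = true)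
    (hn : 0 ≤ n) : InD k m l n p a K := by
  intro g hg
  obtain ⟨v, S, ev, hv, S0, hS, eg, ea, -, ey⟩ := chart_spec hg
  obtain ⟨x, hx, h⟩ := of_pos h hv
  have hSl := le_Sl hv hS
  simp only [innerD, Da, Db, Dl, Dp, Dal, Dn, pS, pU, P1.ev_sub, P1.ev_add, P1.ev_C, P1.ev_mul,
    P1.ev_pow, P1.ev_comp, ev_pQ2, ev_pQ, ev_pG, ev_pE, hx, ← hS] at h
  push_cast at h
  have hn' : (0 : ℝ) ≤ n := by exact_mod_cast hn
  have s2 : 0 < √2 := by positivity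
  have hy : √((1 - g) / 2) ≤ 707107 / 1000000 * (1 - v) ^ 2 * evQ Sl v / S ^ 2 := by
    rw [ey, div_le_div_iff₀ (by positivity) (by positivity)]
    have h1 : 1 ≤ 707107 / 1000000 * √2 := by
      have : (1000000 / 707107 : ℝ) ≤ √2 := Real.le_sqrt_of_sq_le (by norm_num)
      linarith
    have h2 : S * 1 ≤ evQ Sl v * (707107 / 1000000 * √2) :=
      mul_le_mul hSl h1 zero_le_one (S0.le.trans hSl)
    nlinarith [mul_le_mul_of_nonneg_left h2 (mul_nonneg (sq_nonneg (1 - v)) S0.le)]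
  have f1 := mul_le_mul_of_nonneg_left hy hn'
  have f3 : 0 ≤ 2 * k * ((g - m) * evQ Ul v) + l * hel g + p * g ^ 2 + a * g
      - n * (707107 / 1000000 * (1 - v) ^ 2 * evQ Sl v / S ^ 2) - K := by
    refine le_of_le_of_eq (div_nonneg h (pow_pos S0 4).le) ?_
    rw [ea, eg]
    field_simp
  rw [← ev]
  linarith

theorem InD.mix {k m l n p a K m' l' n' p' a' K' t : ℝ} (h : InD k m l n p a K)
    (h' : InD k m' l' n' p' a' K') (t0 : 0 ≤ t) (t1 : t ≤ 1) :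
    InD k (m + (m' - m) * t) (l + (l' - l) * t) (n + (n' - n) * t) (p + (p' - p) * t)
      (a + (a' - a) * t) (K + (K' - K) * t) := by
  intro g hg
  have := add_le_add (mul_le_mul_of_nonneg_left (h g hg) (sub_nonneg.2 t1))
    (mul_le_mul_of_nonneg_left (h' g hg) t0)
  linarith

theorem hel_le_amgm {κ σ m : ℝ} (hκ : 0 < κ) (σ0 : 0 ≤ σ) (hσm : σ ^ 2 = (1 - m) / 2)
    (hm1 : |m| < 1) : hel m ≤ 1 / κ * σ * (1 + κ * κ - σ * σ) := by
  have e1 : 1 - m ^ 2 = 4 * σ ^ 2 * (1 - σ ^ 2) := by rw [hσm]; ring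
  have e2 : σ ^ 2 ≤ 1 := by rw [hσm]; linarith [(abs_lt.1 hm1).1]
  apply Real.sqrt_le_iff.2
  refine ⟨mul_nonneg (by positivity) (by nlinarith), ?_⟩
  rw [e1, show 1 / κ * σ * (1 + κ * κ - σ * σ) = σ * (1 + κ * κ - σ * σ) / κ by ring, div_pow,
    le_div_iff₀ (by positivity)]
  nlinarith [mul_nonneg (sq_nonneg σ) (sq_nonneg (1 - κ * κ - σ * σ))]

theorem out_aux {r s B ν N E : ℝ} (s0 : 0 < s) (hE : 0 < E)
    (h : 0 ≤ (s * B - r) * E + ν * (N * E) * s) : r / s ≤ B + ν * N := by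
  rw [div_le_iff₀ s0]
  by_contra hh
  nlinarith [mul_pos hE (sub_pos.2 (not_le.1 hh))]

/-! ### Cells -/

/-- A cell `[g1, g2] × [s1, s2]` in `(σ, s)` with its multipliers. -/
structure Cell where
  /-- tangent form -/
  ty : Bool
  (g1 g2 s1 s2 g0 L ka k o0 o1 o2 l1 n1 p1 a1 K1 l2 n2 p2 a2 K2 : ℚ)
  (di dm dn : ℕ)

namespace Cell

variable (c : Cell)

/-- `σ`. -/
def sg : P2 := P2.affT c.g1 (c.g2 - c.g1)
/-- `s`. -/
def s : P2 := P2.affX c.s2 (c.s1 - c.s2)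
/-- The interpolation parameter. -/
def tm : P2 := P2.C (1 / (c.g2 * c.g2 - c.g1 * c.g1)) * (c.sg * c.sg - P2.C (c.g1 * c.g1))
/-- Interpolation. -/
def ip (a b : ℚ) : P2 := P2.C a + P2.C (b - a) * c.tm
/-- `m`. -/
def m : P2 := P2.C 1 - P2.C 2 * c.sg * c.sg
/-- `ρ²`. -/
def r : P2 := P2.C 1 - c.s * c.s
/-- `2 (2 - ρ²)`. -/
def D : P2 := P2.C 2 + P2.C 2 * c.s * c.s
/-- `L ρ²`. -/
def y : P2 := P2.C c.L * c.r
/-- Numerator of the Taylor polynomial. -/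
def Tn : P2 := c.D.pow 5 - c.y * c.D.pow 4 + P2.C (1 / 2) * c.y.pow 2 * c.D.pow 3
  - P2.C (1 / 6) * c.y.pow 3 * c.D.pow 2 + P2.C (1 / 24) * c.y.pow 4 * c.D
  - P2.C (1 / 120) * c.y.pow 5
/-- Numerator of the hypercontractive bound. -/
def Nn : P2 := (c.sg * c.D + P2.C 2 * c.r * (c.sg - P2.C c.g0)) * c.Tn
/-- The bound for the level one weight. -/
def ob : P2 := P2.C c.o0 + P2.C c.o1 * c.m + P2.C c.o2 * c.m * c.m
/-- The weight above level one. -/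
def hi : P2 := c.r * c.r * (P2.C 1 - c.m * c.m - c.ob)
/-- Variance bound. -/
def V : P2 := c.r * c.ob + c.hi
/-- Cost of the test function. -/
def X : P2 := c.r * c.ob + P2.C (1 / 2) * c.hi
/-- Value in tangent form. -/
def BT : P2 := c.ip c.l1 c.l2 * (P2.C 1 - c.s) - c.ip c.n1 c.n2 * c.sg - c.ip c.p1 c.p2 * c.V
  - P2.C (c.k * c.k) * c.X
/-- Value in dual form. -/
def BD : P2 := c.ip c.K1 c.K2 - c.ip c.a1 c.a2 * c.m
  - c.ip c.l1 c.l2 * (c.s - P2.C 1 + P2.C (1 / c.ka) * c.sg * (P2.C (1 + c.ka * c.ka) - c.sg * c.sg))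
  - c.ip c.p1 c.p2 * (c.m * c.m + c.V) - P2.C (c.k * c.k) * c.X
/-- The outer inequality. -/
def outer (B : P2) : P2 := (c.s * B - c.r) * c.D.pow 6 + c.ip c.n1 c.n2 * c.Nn * c.s

/-- Partial sum of the exponential series. -/
def expQ (L : ℚ) : ℕ → ℚ
  | 0 => 0
  | n + 1 => expQ L n + L ^ n / (n.factorial : ℚ)

theorem expQ_le {L : ℚ} (hL : 0 ≤ L) (n : ℕ) : (expQ L n : ℝ) ≤ Real.exp L := by
  refine le_trans (le_of_eq ?_) (Real.sum_le_exp_of_nonneg (by exact_mod_cast hL) n)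
  induction n with
  | zero => simp [expQ]
  | succ n ih => rw [Finset.sum_range_succ, ← ih]; simp [expQ]

/-- Side conditions. -/
def side : Prop := 0 ≤ c.g1 ∧ c.g1 < c.g2 ∧ 0 < c.s1 ∧ c.s1 < c.s2 ∧ 0 < c.g0 ∧ 0 ≤ c.L ∧
  1 ≤ c.g0 ^ 2 * expQ c.L 14 ∧ (1 - c.s1 ^ 2) * c.L ≤ 2 * (1 + c.s1 ^ 2) ∧ 0 < c.ka ∧
  0 ≤ c.l1 ∧ 0 ≤ c.l2 ∧ 0 ≤ c.n1 ∧ 0 ≤ c.n2 ∧ 0 ≤ c.p1 ∧ 0 ≤ c.p2

instance : Decidable c.side := by unfold side; infer_instance

/-- The check. -/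
def ok : Bool := decide c.side && match c.ty with
  | true => decide (2 * c.p1 ≤ c.l1 ∧ 2 * c.p2 ≤ c.l2)
      && (innerT c.k (1 - 2 * c.g1 * c.g1) c.l1 c.n1 c.p1).pos c.di
      && (innerT c.k (1 - 2 * c.g2 * c.g2) c.l2 c.n2 c.p2).pos c.di
      && (c.outer c.BT).pos c.dm c.dn
  | false => (innerD c.k (1 - 2 * c.g1 * c.g1) c.l1 c.n1 c.p1 c.a1 c.K1).pos c.di
      && (innerD c.k (1 - 2 * c.g2 * c.g2) c.l2 c.n2 c.p2 c.a2 c.K2).pos c.di
      && (c.outer c.BD).pos c.dm c.dn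

theorem sound (h : c.ok = true) {n : ℕ} (f : Cube n → Bool) (ρ σ : ℝ)
    (hσm : σ ^ 2 = (1 - cubeAverage (sgn f)) / 2) (hσ1 : (c.g1 : ℝ) ≤ σ) (hσ2 : σ ≤ c.g2)
    (hs1 : (c.s1 : ℝ) ≤ hel ρ) (hs2 : hel ρ ≤ c.s2)
    (hob : W1 (sgn f) ≤ c.o0 + c.o1 * cubeAverage (sgn f) + c.o2 * cubeAverage (sgn f) ^ 2) :
    StarAt n f ρ := by
  intro h0 h1 hg hm0 hA
  simp only [ok, Bool.and_eq_true, decide_eq_true_eq] at h
  obtain ⟨⟨a1, a2, a3, a4, a5, a6, a7, a8, a9, l1, l2, n1, n2, p1, p2⟩, h⟩ := h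
  have hρ : |ρ| < 1 := abs_lt.2 ⟨by linarith, h1⟩
  set m := cubeAverage (sgn f) with hm
  set s := hel ρ with hs
  have hr : ρ ^ 2 = 1 - s ^ 2 := by have := hel_sq hρ; linarith
  have s0 : 0 < s := hel_pos hρ
  have A1 : (0 : ℝ) ≤ c.g1 := by exact_mod_cast a1
  have A2 : (c.g1 : ℝ) < c.g2 := by exact_mod_cast a2
  have A3 : (0 : ℝ) < c.s1 := by exact_mod_cast a3
  have A4 : (c.s1 : ℝ) < c.s2 := by exact_mod_cast a4
  have A5 : (0 : ℝ) < c.g0 := by exact_mod_cast a5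
  have A6 : (0 : ℝ) ≤ c.L := by exact_mod_cast a6
  have A7 : 1 ≤ (c.g0 : ℝ) ^ 2 * Real.exp c.L := by
    have : (1 : ℝ) ≤ (c.g0 : ℝ) ^ 2 * (expQ c.L 14 : ℚ) := by exact_mod_cast a7
    exact this.trans (mul_le_mul_of_nonneg_left (expQ_le a6 14) (sq_nonneg _))
  have A8 : (1 - (c.s1 : ℝ) ^ 2) * c.L ≤ 2 * (1 + c.s1 ^ 2) := by exact_mod_cast a8
  have A9 : (0 : ℝ) < c.ka := by exact_mod_cast a9
  have σ0 : 0 ≤ σ := A1.trans hσ1
  have hm1 : |m| < 1 := by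
    have hA0 : 0 ≤ cubeAverage (fun x => hel (noise ρ (sgn f) x)) :=
      st_avg_nonneg fun x => Real.sqrt_nonneg _
    have : s ≤ 1 := by nlinarith
    have h2 : 0 < hel m := by linarith
    have h3 := Real.sqrt_pos.1 h2
    exact (sq_lt_one_iff_abs_lt_one m).1 (by linarith)
  -- coordinates
  set t : ℝ := (σ - c.g1) / (c.g2 - c.g1) with ht
  set x : ℝ := (c.s2 - s) / (c.s2 - c.s1) with hx
  have d1 : (0 : ℝ) < c.g2 - c.g1 := by linarith
  have d2 : (0 : ℝ) < c.s2 - c.s1 := by linarith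
  have d3 : (0 : ℝ) < c.g2 * c.g2 - c.g1 * c.g1 := by nlinarith
  have t0 : 0 ≤ t := div_nonneg (by linarith) d1.le
  have t1 : t ≤ 1 := (div_le_one d1).2 (by linarith)
  have x0 : 0 ≤ x := div_nonneg (by linarith) d2.le
  have x1 : x ≤ 1 := (div_le_one d2).2 (by linarith)
  have esg : c.sg.ev t x = σ := by
    simp only [sg, P2.ev_affT]; push_cast; rw [ht]; field_simp; ring
  have es : c.s.ev t x = s := by
    simp only [Cell.s, P2.ev_affX]; push_cast; rw [hx]; field_simp; ring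
  set θ : ℝ := (σ * σ - c.g1 * c.g1) / (c.g2 * c.g2 - c.g1 * c.g1) with hθ
  have θ0 : 0 ≤ θ := div_nonneg (by nlinarith) d3.le
  have θ1 : θ ≤ 1 := (div_le_one d3).2 (by nlinarith)
  have eip : ∀ a b : ℚ, (c.ip a b).ev t x = a + (b - a) * θ := by
    intro a b
    simp only [ip, tm, P2.ev_add, P2.ev_mul, P2.ev_sub, P2.ev_C, esg]
    push_cast
    rw [hθ]; ring
  have em : c.m.ev t x = m := by
    simp only [Cell.m, P2.ev_mul, P2.ev_sub, P2.ev_C, esg]; push_cast; linarith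
  have emθ : m = ((1 - 2 * c.g1 * c.g1 : ℚ) : ℝ) +
      (((1 - 2 * c.g2 * c.g2 : ℚ) : ℝ) - ((1 - 2 * c.g1 * c.g1 : ℚ) : ℝ)) * θ := by
    push_cast
    have hθ' : θ * (c.g2 * c.g2 - c.g1 * c.g1) = σ * σ - c.g1 * c.g1 := div_mul_cancel₀ _ d3.ne'
    linear_combination 2 * hθ' + 2 * hσm
  have er : c.r.ev t x = ρ ^ 2 := by
    simp only [r, P2.ev_mul, P2.ev_sub, P2.ev_C, es]; push_cast; linarith
  have eD : c.D.ev t x = 2 * (2 - ρ ^ 2) := by
    simp only [D, P2.ev_mul, P2.ev_add, P2.ev_C, es]; push_cast; linarith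
  have D0 : 0 < 2 * (2 - ρ ^ 2) := by nlinarith
  set δ : ℝ := ρ ^ 2 / (2 * (2 - ρ ^ 2)) with hδ
  have hδL : δ * c.L ≤ 1 := by
    rw [hδ, div_mul_eq_mul_div, div_le_one D0, hr]
    nlinarith [mul_le_mul_of_nonneg_right (pow_le_pow_left₀ A3.le hs1 2) A6,
      pow_le_pow_left₀ A3.le hs1 2]
  have hN := rhc_lower f h0.le h1.le σ0 hσm A5 A6 A7 hδ hδL
  set N := T5 (δ * c.L) * (σ + 2 * δ * (σ - c.g0)) with hNdef
  have eN : c.Nn.ev t x = N * (2 * (2 - ρ ^ 2)) ^ 6 := by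
    simp only [Nn, Cell.Tn, y, P2.ev_mul, P2.ev_add, P2.ev_sub, P2.ev_pow, P2.ev_C, esg, er, eD]
    push_cast
    rw [hNdef, hδ, T5]
    generalize 2 * (2 - ρ ^ 2) = E at D0
    field_simp
  have eob : c.ob.ev t x = c.o0 + c.o1 * m + c.o2 * m ^ 2 := by
    simp only [ob, P2.ev_mul, P2.ev_add, P2.ev_C, em]; ring
  set o : ℝ := c.o0 + c.o1 * m + c.o2 * m ^ 2 with ho
  have eV : c.V.ev t x = ρ ^ 2 * o + ρ ^ 4 * (1 - m ^ 2 - o) := by
    simp only [V, hi, P2.ev_mul, P2.ev_add, P2.ev_sub, P2.ev_C, em, er, eob]; push_cast; ring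
  have eX : c.X.ev t x = ρ ^ 2 * o + ρ ^ 4 * (1 - m ^ 2 - o) / 2 := by
    simp only [X, hi, P2.ev_mul, P2.ev_add, P2.ev_sub, P2.ev_C, em, er, eob]; push_cast; ring
  have hout : ∀ B : P2, (c.outer B).pos c.dm c.dn = true →
      ρ ^ 2 / s ≤ B.ev t x + (c.n1 + (c.n2 - c.n1) * θ) * N := by
    intro B hB
    have := P2.pos_sound hB t0 t1 x0 x1
    simp only [outer, P2.ev_mul, P2.ev_add, P2.ev_sub, P2.ev_pow, es, er, eD, eN, eip] at this
    exact out_aux s0 (pow_pos D0 6) this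
  have mix0 : ∀ {a b : ℚ}, 0 ≤ a → 0 ≤ b → (0 : ℝ) ≤ a + (b - a) * θ := by
    intro a b ha hb
    have ha' : (0 : ℝ) ≤ a := by exact_mod_cast ha
    have hb' : (0 : ℝ) ≤ b := by exact_mod_cast hb
    nlinarith [mul_nonneg ha' (sub_nonneg.2 θ1), mul_nonneg hb' θ0]
  have hσs : √((1 - m) / 2) = σ := by rw [← hσm, Real.sqrt_sq σ0]
  cases hty : c.ty with
  | true =>
    simp only [hty, Bool.and_eq_true, decide_eq_true_eq] at h
    obtain ⟨⟨⟨⟨b1, b2⟩, i1⟩, i2⟩, ho⟩ := h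
    have I := (innerT_sound i1 p1 b1 n1).mix (innerT_sound i2 p2 b2 n2) θ0 θ1
    rw [← emθ] at I
    have O := hout _ ho
    simp only [BT, P2.ev_mul, P2.ev_sub, P2.ev_C, es, esg, eip, eV, eX] at O
    push_cast at O
    refine starAt_of_tan f ρ m o c.k _ _ _ N rfl hm1 hob (mix0 l1 l2) (mix0 n1 n2) (mix0 p1 p2) hN I
      ?_ h0 h1 hg hm0 hA
    rw [hσs]
    linarith
  | false =>
    simp only [hty, Bool.and_eq_true] at h
    obtain ⟨⟨i1, i2⟩, ho⟩ := h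
    have I := (innerD_sound i1 n1).mix (innerD_sound i2 n2) θ0 θ1
    rw [← emθ] at I
    have O := hout _ ho
    simp only [BD, P2.ev_mul, P2.ev_add, P2.ev_sub, P2.ev_C, es, esg, em, eip, eV, eX] at O
    push_cast at O
    have hw' := mul_le_mul_of_nonneg_left (hel_le_amgm A9 σ0 hσm hm1) (mix0 l1 l2)
    refine starAt_of_dual f ρ admG_Ul m o c.k _ _ _ _ _ N rfl hob (mix0 l1 l2) (mix0 n1 n2)
      (mix0 p1 p2) hN I ?_ h0 h1 hg hm0 hA
    linarith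

end Cell

end Crest.Agent.R307.H3
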