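import Crest.Agent.R307.Static

/-! Row 307: reverse hypercontractivity with `q = 1/2` on the cube. -/

set_option autoImplicit false

open Crest.CubeNoise

namespace Crest.Agent.R307

namespace RHC

/-- Weak majorisation for the exponential. -/
theorem exp_major {u1 u2 v1 v2 : ℝ} (h12 : u2 ≤ u1) (h1 : u1 ≤ v1) (hs : u1 + u2 ≤ v1 + v2) :
    Real.exp u1 + Real.exp u2 ≤ Real.exp v1 + Real.exp v2 := by
  have e1 : Real.exp u1 * (1 + (v1 - u1)) ≤ Real.exp v1 := by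
    have := Real.add_one_le_exp (v1 - u1)
    have h : Real.exp v1 = Real.exp u1 * Real.exp (v1 - u1) := by
      rw [← Real.exp_add]; ring_nf
    rw [h]
    exact mul_le_mul_of_nonneg_left (by linarith) (Real.exp_pos _).le
  have e2 : Real.exp u2 * (1 + (v2 - u2)) ≤ Real.exp v2 := by
    have := Real.add_one_le_exp (v2 - u2)
    have h : Real.exp v2 = Real.exp u2 * Real.exp (v2 - u2) := by
      rw [← Real.exp_add]; ring_nf
    rw [h]
    exact mul_le_mul_of_nonneg_left (by linarith) (Real.exp_pos _).le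
  have e3 : Real.exp u2 ≤ Real.exp u1 := Real.exp_le_exp.2 h12
  have p2 := Real.exp_pos u2
  nlinarith [mul_le_mul_of_nonneg_right e3 (sub_nonneg.2 h1),
    mul_nonneg p2.le (show 0 ≤ v1 + v2 - u1 - u2 by linarith)]

/-- Concavity of the logarithm along the segment from `1`. -/
theorem mul_log_le {t y : ℝ} (t0 : 0 ≤ t) (t1 : t ≤ 1) (y1 : y < 1) :
    t * Real.log (1 - y) ≤ Real.log (1 - t * y) := by
  have h := (strictConcaveOn_log_Ioi.concaveOn).2 (show (1 : ℝ) ∈ Set.Ioi (0 : ℝ) from Set.mem_Ioi.2 one_pos)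
    (show (1 - y) ∈ Set.Ioi (0 : ℝ) from Set.mem_Ioi.2 (sub_pos.2 y1)) (sub_nonneg.2 t1) t0 (by ring)
  simp only [smul_eq_mul, Real.log_one, mul_zero, zero_add] at h
  rwa [show (1 - t) * 1 + t * (1 - y) = 1 - t * y by ring] at h

/-- The comparison of second derivatives. -/
theorem second {ρ x : ℝ} (h0 : 0 ≤ ρ) (h1 : ρ ≤ 1) (x0 : 0 ≤ x) (x1 : x < 1) :
    (1 + ρ * x) ^ (-(3 / 2) : ℝ) + (1 - ρ * x) ^ (-(3 / 2) : ℝ) ≤
      (1 + x) ^ (-(1 + ρ ^ 2 / 2)) + (1 - x) ^ (-(1 + ρ ^ 2 / 2)) := by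
  have hx : 0 ≤ ρ * x := mul_nonneg h0 x0
  have hx1 : ρ * x < 1 := by nlinarith
  have a1 : 0 < 1 + ρ * x := by linarith
  have a2 : 0 < 1 - ρ * x := by linarith
  have a3 : 0 < 1 + x := by linarith
  have a4 : 0 < 1 - x := by linarith
  rw [Real.rpow_def_of_pos a1, Real.rpow_def_of_pos a2, Real.rpow_def_of_pos a3,
    Real.rpow_def_of_pos a4, add_comm, add_comm (Real.exp (Real.log (1 + x) * _))]
  have l1 := mul_log_le h0 h1 x1
  have l2 := mul_log_le (t := ρ ^ 2) (y := x ^ 2) (by positivity) (by nlinarith) (by nlinarith)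
  have m1 : Real.log (1 - x ^ 2) = Real.log (1 + x) + Real.log (1 - x) := by
    rw [← Real.log_mul a3.ne' a4.ne']; ring_nf
  have m2 : Real.log (1 - ρ ^ 2 * x ^ 2) = Real.log (1 + ρ * x) + Real.log (1 - ρ * x) := by
    rw [← Real.log_mul a1.ne' a2.ne']; ring_nf
  have n1 : Real.log (1 - x) ≤ 0 := Real.log_nonpos a4.le (by linarith)
  have n2 : Real.log (1 - x ^ 2) ≤ 0 := Real.log_nonpos (by nlinarith) (by nlinarith)
  have n3 : Real.log (1 - ρ * x) ≤ Real.log (1 + ρ * x) := Real.log_le_log a2 (by linarith)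
  apply exp_major
  · linarith
  · nlinarith [mul_nonneg (mul_nonneg (sub_nonneg.2 h1) (show 0 ≤ 2 - ρ by linarith))
      (neg_nonneg.2 n1)]
  · rw [m1, m2] at l2
    rw [m1] at n2
    nlinarith [mul_nonneg (show 0 ≤ 1 - ρ ^ 2 by nlinarith) (neg_nonneg.2 n2)]

/-- The first derivative is nonnegative. -/
theorem first {ρ x : ℝ} (h0 : 0 ≤ ρ) (h1 : ρ ≤ 1) (x0 : 0 ≤ x) (x1 : x < 1) :
    (1 + x) ^ (-(ρ ^ 2 / 2)) - (1 - x) ^ (-(ρ ^ 2 / 2)) ≤
      ρ * ((1 + ρ * x) ^ (-(1 / 2) : ℝ) - (1 - ρ * x) ^ (-(1 / 2) : ℝ)) := by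
  set D : ℝ → ℝ := fun y => ρ * ((1 + ρ * y) ^ (-(1 / 2) : ℝ) - (1 - ρ * y) ^ (-(1 / 2) : ℝ))
    - ((1 + y) ^ (-(ρ ^ 2 / 2)) - (1 - y) ^ (-(ρ ^ 2 / 2))) with hD
  have hd : ∀ y, 0 ≤ y → y < 1 → HasDerivAt D
      (ρ ^ 2 / 2 * ((1 + y) ^ (-(1 + ρ ^ 2 / 2)) + (1 - y) ^ (-(1 + ρ ^ 2 / 2))
        - ((1 + ρ * y) ^ (-(3 / 2) : ℝ) + (1 - ρ * y) ^ (-(3 / 2) : ℝ)))) y := by
    intro y y0 y1
    have hx : 0 ≤ ρ * y := mul_nonneg h0 y0
    have hx1 : ρ * y < 1 := by nlinarith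
    have d1 := (((hasDerivAt_id y).const_mul ρ).const_add 1).rpow_const (p := -(1 / 2))
      (Or.inl (by simp only [id]; linarith))
    have d2 := (((hasDerivAt_id y).const_mul ρ).const_sub 1).rpow_const (p := -(1 / 2))
      (Or.inl (by simp only [id]; linarith))
    have d3 := ((hasDerivAt_id y).const_add 1).rpow_const (p := -(ρ ^ 2 / 2))
      (Or.inl (by simp only [id]; linarith))
    have d4 := ((hasDerivAt_id y).const_sub 1).rpow_const (p := -(ρ ^ 2 / 2))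
      (Or.inl (by simp only [id]; linarith))
    have d := ((d1.sub d2).const_mul ρ).sub (d3.sub d4)
    refine HasDerivAt.congr_deriv d ?_
    simp only [id]
    rw [show (-(1 / 2) - 1 : ℝ) = -(3 / 2) by norm_num,
      show (-(ρ ^ 2 / 2) - 1 : ℝ) = -(1 + ρ ^ 2 / 2) by ring]
    ring
  have hmono : MonotoneOn D (Set.Icc 0 x) := by
    apply monotoneOn_of_deriv_nonneg (convex_Icc 0 x)
    · intro y hy
      exact (hd y hy.1 (hy.2.trans_lt x1)).continuousAt.continuousWithinAt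
    · intro y hy
      rw [interior_Icc] at hy
      exact (hd y hy.1.le (hy.2.trans x1)).differentiableAt.differentiableWithinAt
    · intro y hy
      rw [interior_Icc] at hy
      rw [(hd y hy.1.le (hy.2.trans x1)).deriv]
      exact mul_nonneg (by positivity) (sub_nonneg.2 (second h0 h1 hy.1.le (hy.2.trans x1)))
  have := hmono ⟨le_rfl, x0⟩ ⟨x0, le_rfl⟩ x0
  simp only [hD, mul_zero, add_zero, sub_zero, Real.one_rpow, sub_self] at this
  linarith

/-- The linearised two point inequality. -/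
theorem zeroth {ρ x : ℝ} (h0 : 0 ≤ ρ) (h1 : ρ ≤ 1) (x0 : 0 ≤ x) (x1 : x ≤ 1) :
    ((1 + x) ^ (1 - ρ ^ 2 / 2) + (1 - x) ^ (1 - ρ ^ 2 / 2)) / 2 ≤
      1 + (2 - ρ ^ 2) * ((√(1 + ρ * x) + √(1 - ρ * x)) / 2 - 1) := by
  set p : ℝ := 1 - ρ ^ 2 / 2 with hp
  have p0 : 0 < p := by nlinarith
  set D : ℝ → ℝ := fun y => p * ((1 + ρ * y) ^ (1 / 2 : ℝ) + (1 - ρ * y) ^ (1 / 2 : ℝ))
    - ((1 + y) ^ p + (1 - y) ^ p) / 2 with hD
  have hd : ∀ y, 0 ≤ y → y < 1 → HasDerivAt D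
      (p / 2 * (ρ * ((1 + ρ * y) ^ (-(1 / 2) : ℝ) - (1 - ρ * y) ^ (-(1 / 2) : ℝ))
        - ((1 + y) ^ (-(ρ ^ 2 / 2)) - (1 - y) ^ (-(ρ ^ 2 / 2))))) y := by
    intro y y0 y1
    have hx : 0 ≤ ρ * y := mul_nonneg h0 y0
    have hx1 : ρ * y < 1 := by nlinarith
    have d1 := (((hasDerivAt_id y).const_mul ρ).const_add 1).rpow_const (p := 1 / 2)
      (Or.inl (by simp only [id]; linarith))
    have d2 := (((hasDerivAt_id y).const_mul ρ).const_sub 1).rpow_const (p := 1 / 2)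
      (Or.inl (by simp only [id]; linarith))
    have d3 := ((hasDerivAt_id y).const_add 1).rpow_const (p := p)
      (Or.inl (by simp only [id]; linarith))
    have d4 := ((hasDerivAt_id y).const_sub 1).rpow_const (p := p)
      (Or.inl (by simp only [id]; linarith))
    have d := ((d1.add d2).const_mul p).sub ((d3.add d4).div_const 2)
    refine HasDerivAt.congr_deriv d ?_
    simp only [id]
    rw [show (1 / 2 - 1 : ℝ) = -(1 / 2) by norm_num,
      show (p - 1 : ℝ) = -(ρ ^ 2 / 2) by rw [hp]; ring]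
    ring
  have hmono : MonotoneOn D (Set.Icc 0 1) := by
    apply monotoneOn_of_deriv_nonneg (convex_Icc 0 1)
    · apply Continuous.continuousOn
      have c1 : Continuous fun y : ℝ => y ^ (1 / 2 : ℝ) := Real.continuous_rpow_const (by norm_num)
      have c2 : Continuous fun y : ℝ => y ^ p := Real.continuous_rpow_const p0.le
      exact (continuous_const.mul ((c1.comp (by fun_prop)).add (c1.comp (by fun_prop)))).sub
        (((c2.comp (by fun_prop)).add (c2.comp (by fun_prop))).div_const 2)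
    · intro y hy
      rw [interior_Icc] at hy
      exact (hd y hy.1.le hy.2).differentiableAt.differentiableWithinAt
    · intro y hy
      rw [interior_Icc] at hy
      rw [(hd y hy.1.le hy.2).deriv]
      exact mul_nonneg (by positivity) (sub_nonneg.2 (first h0 h1 hy.1.le hy.2))
  have := hmono ⟨le_rfl, zero_le_one⟩ ⟨x0, x1⟩ x0
  simp only [hD, mul_zero, add_zero, sub_zero, Real.one_rpow] at this
  rw [Real.sqrt_eq_rpow, Real.sqrt_eq_rpow]
  have e : 2 - ρ ^ 2 = 2 * p := by rw [hp]; ring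
  rw [e]
  linarith

/-- The normalised two point inequality. -/
theorem two_point_norm {ρ x : ℝ} (h0 : 0 ≤ ρ) (h1 : ρ ≤ 1) (x0 : 0 ≤ x) (x1 : x ≤ 1) :
    ((1 + x) ^ (1 - ρ ^ 2 / 2) + (1 - x) ^ (1 - ρ ^ 2 / 2)) / 2 ≤
      ((√(1 + ρ * x) + √(1 - ρ * x)) / 2) ^ (2 - ρ ^ 2) := by
  refine (zeroth h0 h1 x0 x1).trans ?_
  have h := one_add_mul_self_le_rpow_one_add
    (s := (√(1 + ρ * x) + √(1 - ρ * x)) / 2 - 1)
    (by have := Real.sqrt_nonneg (1 + ρ * x); have := Real.sqrt_nonneg (1 - ρ * x); linarith)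
    (p := 2 - ρ ^ 2) (by nlinarith)
  simpa using h

/-- The two point inequality for an ordered pair. -/
theorem two_point_le {ρ A B : ℝ} (h0 : 0 ≤ ρ) (h1 : ρ ≤ 1) (hB : 0 ≤ B) (hAB : B ≤ A) :
    (A ^ (2 - ρ ^ 2) + B ^ (2 - ρ ^ 2)) / 2 ≤
      ((√((1 + ρ) / 2 * A ^ 2 + (1 - ρ) / 2 * B ^ 2)
        + √((1 + ρ) / 2 * B ^ 2 + (1 - ρ) / 2 * A ^ 2)) / 2) ^ (2 - ρ ^ 2) := by
  have hA : 0 ≤ A := hB.trans hAB
  have hq : 0 < 2 - ρ ^ 2 := by nlinarith
  rcases hA.eq_or_lt with hA0 | hA0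
  · have hB0 : B = 0 := le_antisymm (hA0 ▸ hAB) hB
    subst hB0
    rw [← hA0]
    simp [Real.zero_rpow hq.ne']
  set c : ℝ := (A ^ 2 + B ^ 2) / 2 with hc
  have c0 : 0 < c := by positivity
  set x : ℝ := (A ^ 2 - B ^ 2) / (2 * c) with hx
  have x0 : 0 ≤ x := div_nonneg (by nlinarith) (by positivity)
  have x1 : x ≤ 1 := by
    rw [hx, div_le_one (by positivity), hc]; nlinarith [sq_nonneg B]
  have eA : A ^ 2 = c * (1 + x) := by rw [hx]; field_simp; rw [hc]; ring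
  have eB : B ^ 2 = c * (1 - x) := by rw [hx]; field_simp; rw [hc]; ring
  have h := two_point_norm h0 h1 x0 x1
  have hx0 : 0 ≤ ρ * x := mul_nonneg h0 x0
  have hx1 : ρ * x ≤ 1 := by nlinarith
  have s1 : √((1 + ρ) / 2 * A ^ 2 + (1 - ρ) / 2 * B ^ 2) = √c * √(1 + ρ * x) := by
    rw [← Real.sqrt_mul c0.le, eA, eB]; congr 1; ring
  have s2 : √((1 + ρ) / 2 * B ^ 2 + (1 - ρ) / 2 * A ^ 2) = √c * √(1 - ρ * x) := by
    rw [← Real.sqrt_mul c0.le, eA, eB]; congr 1; ring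
  have pw : ∀ y : ℝ, 0 ≤ y → y ^ (2 - ρ ^ 2) = (y ^ 2) ^ (1 - ρ ^ 2 / 2) := by
    intro y hy
    rw [← Real.rpow_natCast y 2, ← Real.rpow_mul hy]; congr 1; push_cast; ring
  have hs : 0 ≤ (√(1 + ρ * x) + √(1 - ρ * x)) / 2 := by positivity
  rw [s1, s2, show (√c * √(1 + ρ * x) + √c * √(1 - ρ * x)) / 2
      = √c * ((√(1 + ρ * x) + √(1 - ρ * x)) / 2) by ring,
    Real.mul_rpow (Real.sqrt_nonneg c) hs, pw A hA, pw B hB, pw _ (Real.sqrt_nonneg c),
    Real.sq_sqrt c0.le, eA, eB, Real.mul_rpow c0.le (by linarith),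
    Real.mul_rpow c0.le (by linarith)]
  have := mul_le_mul_of_nonneg_left h (Real.rpow_nonneg c0.le (1 - ρ ^ 2 / 2))
  linarith

/-- The two point inequality. -/
theorem two_point {ρ A B : ℝ} (h0 : 0 ≤ ρ) (h1 : ρ ≤ 1) (hA : 0 ≤ A) (hB : 0 ≤ B) :
    (A ^ (2 - ρ ^ 2) + B ^ (2 - ρ ^ 2)) / 2 ≤
      ((√((1 + ρ) / 2 * A ^ 2 + (1 - ρ) / 2 * B ^ 2)
        + √((1 + ρ) / 2 * B ^ 2 + (1 - ρ) / 2 * A ^ 2)) / 2) ^ (2 - ρ ^ 2) := by
  rcases le_total B A with h | h
  · exact two_point_le h0 h1 hB h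
  · have := two_point_le h0 h1 hA h
    rwa [add_comm (B ^ _), add_comm (√_)] at this

/-- Minkowski's inequality for a weighted Euclidean norm. -/
theorem sqrt_avg_le {n : ℕ} {α β : ℝ} (hα : 0 ≤ α) (hβ : 0 ≤ β) (u v : Cube n → ℝ) :
    √(α * cubeAverage u ^ 2 + β * cubeAverage v ^ 2) ≤
      cubeAverage (fun x => √(α * u x ^ 2 + β * v x ^ 2)) := by
  set A := cubeAverage u
  set B := cubeAverage v
  set N := √(α * A ^ 2 + β * B ^ 2) with hN
  have N0 : 0 ≤ N := Real.sqrt_nonneg _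
  have N2 : N ^ 2 = α * A ^ 2 + β * B ^ 2 := Real.sq_sqrt (by positivity)
  rcases N0.eq_or_lt with h | h
  · rw [← h]; exact st_avg_nonneg fun x => Real.sqrt_nonneg _
  have key : ∀ x, α * A / N * u x + β * B / N * v x ≤ √(α * u x ^ 2 + β * v x ^ 2) := by
    intro x
    apply Real.le_sqrt_of_sq_le
    have e : α * A / N * u x + β * B / N * v x = (α * A * u x + β * B * v x) / N := by ring
    rw [e, div_pow, div_le_iff₀ (by positivity), N2]
    nlinarith [mul_nonneg (mul_nonneg hα hβ) (sq_nonneg (A * v x - B * u x))]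
  refine le_trans (le_of_eq ?_) (avg_mono key)
  rw [st_avg_lin]
  field_simp
  linarith

end RHC

/-- Reverse hypercontractivity: `‖F‖_p ≤ ‖T F‖_{1/2}` for `p = 1 - ρ²/2`. -/
theorem rhc {ρ : ℝ} (h0 : 0 ≤ ρ) (h1 : ρ ≤ 1) : ∀ (n : ℕ) (F : Cube n → ℝ), (∀ x, 0 ≤ F x) →
    cubeAverage (fun x => F x ^ (1 - ρ ^ 2 / 2)) ≤
      cubeAverage (fun x => √(noise ρ F x)) ^ (2 - ρ ^ 2) := by
  have hρ : |ρ| ≤ 1 := by rw [abs_of_nonneg h0]; exact h1
  have nn : ∀ {n : ℕ} (F : Cube n → ℝ), (∀ x, 0 ≤ F x) → ∀ x, 0 ≤ noise ρ F x := by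
    intro n F hF x
    rw [noise_eq]
    exact Finset.sum_nonneg fun y _ => mul_nonneg (nzW_nonneg hρ x y) (hF y)
  intro n
  induction n with
  | zero =>
    intro F hF
    rw [avg_zero, avg_zero]
    have e : noise ρ F default = F default := by
      have := avg_noise ρ F
      rwa [avg_zero, avg_zero] at this
    rw [e, Real.sqrt_eq_rpow, ← Real.rpow_mul (hF _)]
    apply le_of_eq; congr 1; ring
  | succ n ih =>
    intro F hF
    have f0 : ∀ b x, 0 ≤ face 0 b F x := fun b x => hF _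
    have i0 := ih _ (f0 false)
    have i1 := ih _ (f0 true)
    set u : Cube n → ℝ := fun x => √(noise ρ (face 0 false F) x) with hu
    set v : Cube n → ℝ := fun x => √(noise ρ (face 0 true F) x) with hv
    have u2 : ∀ x, u x ^ 2 = noise ρ (face 0 false F) x := fun x => Real.sq_sqrt (nn _ (f0 _) x)
    have v2 : ∀ x, v x ^ 2 = noise ρ (face 0 true F) x := fun x => Real.sq_sqrt (nn _ (f0 _) x)
    have a0 : 0 ≤ (1 + ρ) / 2 := by linarith
    have b0 : 0 ≤ (1 - ρ) / 2 := by linarith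
    have m0 := RHC.sqrt_avg_le a0 b0 u v
    have m1 := RHC.sqrt_avg_le a0 b0 v u
    have tp := RHC.two_point h0 h1 (A := cubeAverage u) (B := cubeAverage v)
      (st_avg_nonneg fun x => Real.sqrt_nonneg _) (st_avg_nonneg fun x => Real.sqrt_nonneg _)
    have e0 : face 0 false (fun x => √(noise ρ F x)) =
        fun x => √((1 + ρ) / 2 * u x ^ 2 + (1 - ρ) / 2 * v x ^ 2) := by
      funext x
      rw [u2, v2]
      exact congrArg Real.sqrt (noise_face ρ F 0 false x)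
    have e1 : face 0 true (fun x => √(noise ρ F x)) =
        fun x => √((1 + ρ) / 2 * v x ^ 2 + (1 - ρ) / 2 * u x ^ 2) := by
      funext x
      rw [u2, v2]
      exact congrArg Real.sqrt (noise_face ρ F 0 true x)
    rw [avg_split 0, avg_split 0 (fun x => √(noise ρ F x)), e0, e1]
    refine le_trans ?_ (tp.trans (Real.rpow_le_rpow (by positivity) (by linarith) (by nlinarith)))
    have j0 : cubeAverage (face 0 false fun x => F x ^ (1 - ρ ^ 2 / 2)) ≤ _ := i0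
    have j1 : cubeAverage (face 0 true fun x => F x ^ (1 - ρ ^ 2 / 2)) ≤ _ := i1
    linarith

/-- Reverse hypercontractivity for the set where a Boolean function is negative. -/
theorem rhc_sgn {n : ℕ} (f : Cube n → Bool) {ρ : ℝ} (h0 : 0 ≤ ρ) (h1 : ρ ≤ 1) :
    (1 - cubeAverage (sgn f)) / 2 ≤
      cubeAverage (fun x => √((1 - noise ρ (sgn f) x) / 2)) ^ (2 - ρ ^ 2) := by
  have hp : 0 < 1 - ρ ^ 2 / 2 := by nlinarith
  have h := rhc h0 h1 n (fun x => 1 / 2 * 1 + -(1 / 2) * sgn f x) (fun x => by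
    rcases st_sgn_cases f x with h | h <;> rw [h] <;> norm_num)
  have e1 : (fun x => (1 / 2 * 1 + -(1 / 2) * sgn f x) ^ (1 - ρ ^ 2 / 2)) =
      fun x => 1 / 2 * 1 + -(1 / 2) * sgn f x := by
    funext x
    rcases st_sgn_cases f x with h | h <;> rw [h]
    · norm_num [Real.zero_rpow hp.ne']
    · norm_num
  have e2 : ∀ x, noise ρ (fun x => 1 / 2 * 1 + -(1 / 2) * sgn f x) x =
      (1 - noise ρ (sgn f) x) / 2 := by
    intro x
    rw [st_noise_lin ρ (1 / 2) (-(1 / 2)) (fun _ => 1) (sgn f) x, noise_eq ρ (fun _ => 1)]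
    simp only [mul_one, sum_nzW]
    ring
  rw [e1, st_avg_lin (1 / 2) (-(1 / 2)) (fun _ => 1) (sgn f), avg_const] at h
  simp only [e2] at h
  linarith

end Crest.Agent.R307
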