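import Crest.Agent.R307.H2Red
import Crest.Agent.R307.RHC

/-! Row 307: one dimensional dual certificates for `StarAt`. -/

set_option autoImplicit false

open Crest.CubeNoise

namespace Crest.Agent.R307

/-- `u` is admissible for the edge comparison. -/
def AdmG (u : ℝ → ℝ) : Prop :=
  ∀ g g' : ℝ, |g| < 1 → |g'| < 1 → ((u g - u g') / 2) ^ 2 ≤ eH g g'

theorem dir_sq_eq {n : ℕ} (u : Cube n → ℝ) :
    dir (fun a b => ((a - b) / 2) ^ 2) u = ∑ S : Finset (Fin n), (S.card : ℝ) * coef u S ^ 2 := by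
  unfold dir
  rw [avg_sum]
  have h : ∀ i : Fin n, cubeAverage (fun x => ((u x - u (flipBit i x)) / 2) ^ 2) =
      ∑ S : Finset (Fin n), if i ∈ S then coef u S ^ 2 else 0 := by
    intro i
    rw [st_avg_congr (h := fun x => (1 / 2 * u x + -(1 / 2) * u (flipBit i x)) ^ 2)
      (fun x => by ring), st_parseval_sq]
    refine Finset.sum_congr rfl fun S _ => ?_
    rw [st_coef_lin (1 / 2) (-(1 / 2)) u (fun x => u (flipBit i x)), coef_flip]
    split_ifs <;> ring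
  simp only [h]
  rw [Finset.sum_comm]
  refine Finset.sum_congr rfl fun S _ => ?_
  rw [Finset.sum_ite_mem, Finset.univ_inter, Finset.sum_const, nsmul_eq_mul]

theorem sum_coef_sgn {n : ℕ} (f : Cube n → Bool) :
    ∑ S : Finset (Fin n), coef (sgn f) S ^ 2 = 1 := by
  rw [← st_parseval_sq, st_avg_congr (h := fun _ => (1 : ℝ)) fun x => by
    rw [sq]; exact st_sgn_sq f x, avg_const]

/-- A level weighted sum of squares. -/
theorem level_sum {n : ℕ} (f : Cube n → Bool) (a b : ℝ) :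
    ∑ S : Finset (Fin n), (a * (if S.card = 1 then coef (sgn f) S ^ 2 else 0)
      + b * (coef (sgn f) S ^ 2 - if S.card = 0 then coef (sgn f) S ^ 2 else 0))
      = a * W1 (sgn f) + b * (1 - cubeAverage (sgn f) ^ 2) := by
  rw [Finset.sum_add_distrib, ← Finset.mul_sum, ← Finset.mul_sum, Finset.sum_sub_distrib,
    sum_coef_sgn, ← st_W1_eq, ← st_empty_sq]

theorem pow_card_le {ρ : ℝ} (h0 : 0 ≤ ρ) (h1 : ρ ≤ 1) {j : ℕ} (hj0 : j ≠ 0) (hj1 : j ≠ 1) :
    (ρ ^ j) ^ 2 ≤ ρ ^ 4 := by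
  rw [← pow_mul]
  exact pow_le_pow_of_le_one h0 h1 (by omega)

/-- Variance of the noisy function. -/
theorem spec_var {n : ℕ} (f : Cube n → Bool) {ρ : ℝ} (h0 : 0 ≤ ρ) (h1 : ρ ≤ 1) {m ob : ℝ}
    (hm : cubeAverage (sgn f) = m) (hob : W1 (sgn f) ≤ ob) :
    cubeAverage (fun x => noise ρ (sgn f) x ^ 2) ≤
      m ^ 2 + (ρ ^ 2 * ob + ρ ^ 4 * (1 - m ^ 2 - ob)) := by
  have h : cubeAverage (fun x => noise ρ (sgn f) x ^ 2) - cubeAverage (sgn f) ^ 2 ≤
      (ρ ^ 2 - ρ ^ 4) * W1 (sgn f) + ρ ^ 4 * (1 - cubeAverage (sgn f) ^ 2) := by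
    rw [← level_sum, st_parseval_sq, st_empty_sq, ← Finset.sum_sub_distrib]
    refine Finset.sum_le_sum fun S _ => ?_
    rw [coef_noise]
    by_cases hS0 : S.card = 0
    · simp [hS0]
    by_cases hS1 : S.card = 1
    · simp only [hS1]; norm_num; nlinarith
    simp only [hS0, hS1, if_false]
    nlinarith [mul_le_mul_of_nonneg_right (pow_card_le h0 h1 hS0 hS1) (sq_nonneg (coef (sgn f) S))]
  rw [hm] at h
  have : 0 ≤ ρ ^ 2 - ρ ^ 4 := by nlinarith [mul_nonneg (sq_nonneg ρ) (show 0 ≤ 1 - ρ ^ 2 by nlinarith)]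
  nlinarith [mul_le_mul_of_nonneg_left hob this]

/-- The Dirichlet form tested against `L⁻¹ (g - m)`. -/
theorem spec_dir {n : ℕ} (f : Cube n → Bool) {ρ : ℝ} (h0 : 0 ≤ ρ) (h1 : ρ ≤ 1) {m ob : ℝ}
    (hm : cubeAverage (sgn f) = m) (hob : W1 (sgn f) ≤ ob) (u : Cube n → ℝ) (k : ℝ) :
    2 * k * cubeAverage (fun x => (noise ρ (sgn f) x - m) * u x)
      - k ^ 2 * (ρ ^ 2 * ob + ρ ^ 4 * (1 - m ^ 2 - ob) / 2)
      ≤ dir (fun a b => ((a - b) / 2) ^ 2) u := by
  have e : cubeAverage (fun x => (noise ρ (sgn f) x - m) * u x) =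
      ∑ S : Finset (Fin n), (ρ ^ S.card * coef (sgn f) S * coef u S
        - if S.card = 0 then coef (sgn f) S * coef u S else 0) := by
    rw [st_avg_congr (h := fun x => 1 * (noise ρ (sgn f) x * u x) + (-m) * u x) (fun x => by ring),
      st_avg_lin, parseval, Finset.sum_sub_distrib]
    simp only [coef_noise, Finset.card_eq_zero, Finset.sum_ite_eq', Finset.mem_univ, if_true,
      coef_empty, hm]
    ring
  have h : 2 * k * cubeAverage (fun x => (noise ρ (sgn f) x - m) * u x)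
      - k ^ 2 * ((ρ ^ 2 - ρ ^ 4 / 2) * W1 (sgn f) + ρ ^ 4 / 2 * (1 - cubeAverage (sgn f) ^ 2))
      ≤ dir (fun a b => ((a - b) / 2) ^ 2) u := by
    rw [← level_sum, e, dir_sq_eq, Finset.mul_sum, Finset.mul_sum, ← Finset.sum_sub_distrib]
    refine Finset.sum_le_sum fun S _ => ?_
    by_cases hS0 : S.card = 0
    · simp [hS0]
    by_cases hS1 : S.card = 1
    · simp only [hS1]; norm_num
      nlinarith [sq_nonneg (k * ρ * coef (sgn f) S - coef u S)]
    simp only [hS0, hS1, if_false]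
    have h2 : (2 : ℝ) ≤ S.card := by exact_mod_cast (show 2 ≤ S.card by omega)
    nlinarith [mul_le_mul_of_nonneg_right (pow_card_le h0 h1 hS0 hS1)
      (sq_nonneg (k * coef (sgn f) S)), sq_nonneg (k * ρ ^ S.card * coef (sgn f) S - 2 * coef u S),
      mul_le_mul_of_nonneg_right h2 (sq_nonneg (coef u S))]
  rw [hm] at h
  have : 0 ≤ ρ ^ 2 - ρ ^ 4 / 2 := by
    nlinarith [mul_nonneg (sq_nonneg ρ) (show 0 ≤ 1 - ρ ^ 2 by nlinarith)]
  nlinarith [mul_le_mul_of_nonneg_left (mul_le_mul_of_nonneg_left hob this) (sq_nonneg k)]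

/-- One dimensional dual certificate. -/
theorem starAt_of_dual {n : ℕ} (f : Cube n → Bool) (ρ : ℝ) {u : ℝ → ℝ} (hu : AdmG u)
    (m ob k l ν p α K N : ℝ) (hm : cubeAverage (sgn f) = m) (hob : W1 (sgn f) ≤ ob)
    (hl : 0 ≤ l) (hν : 0 ≤ ν) (hp : 0 ≤ p)
    (hN : N ≤ cubeAverage (fun x => √((1 - noise ρ (sgn f) x) / 2)))
    (hin : ∀ g : ℝ, |g| < 1 →
      K ≤ 2 * k * ((g - m) * u g) + l * hel g + p * g ^ 2 + α * g - ν * √((1 - g) / 2))
    (hout : ρ ^ 2 / hel ρ ≤ K - α * m - l * (hel ρ - (1 - hel m))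
      - p * (m ^ 2 + (ρ ^ 2 * ob + ρ ^ 4 * (1 - m ^ 2 - ob)))
      - k ^ 2 * (ρ ^ 2 * ob + ρ ^ 4 * (1 - m ^ 2 - ob) / 2) + ν * N) :
    StarAt n f ρ := by
  intro h0 h1 hg _ hA
  have e1 := spec_var f h0.le h1.le hm hob
  have e2 := spec_dir f h0.le h1.le hm hob (fun x => u (noise ρ (sgn f) x)) k
  have e3 : dir (fun a b => ((a - b) / 2) ^ 2) (fun x => u (noise ρ (sgn f) x)) ≤
      dir eH (noise ρ (sgn f)) :=
    avg_mono fun x => Finset.sum_le_sum fun i _ => hu _ _ (hg _) (hg _)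
  have hK : cubeAverage (fun _ : Cube n => K) ≤ cubeAverage (fun x =>
      2 * k * ((noise ρ (sgn f) x - m) * u (noise ρ (sgn f) x)) + l * hel (noise ρ (sgn f) x)
        + p * noise ρ (sgn f) x ^ 2 + α * noise ρ (sgn f) x
        - ν * √((1 - noise ρ (sgn f) x) / 2)) := avg_mono fun x => hin _ (hg x)
  rw [avg_const] at hK
  simp only [avg_add, avg_sub, avg_mul_left] at hK
  rw [avg_noise, hm] at hK
  rw [hm] at hA
  have f1 := mul_le_mul_of_nonneg_left hA.le hl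
  have f2 := mul_le_mul_of_nonneg_left e1 hp
  have f3 := mul_le_mul_of_nonneg_left hN hν
  linarith

/-! ### The lower bound for `E √h` -/

/-- Fifth order Taylor polynomial of `exp (-x)`. -/
noncomputable def T5 (x : ℝ) : ℝ := 1 - x + x ^ 2 / 2 - x ^ 3 / 6 + x ^ 4 / 24 - x ^ 5 / 120

theorem T5_le {x : ℝ} (hx : 0 ≤ x) : T5 x ≤ Real.exp (-x) := by
  have hd : ∀ y, HasDerivAt (fun y => Real.exp y * T5 y) (-(Real.exp y * y ^ 5 / 120)) y := by
    intro y
    have d := (((((hasDerivAt_id y).const_sub 1).add ((hasDerivAt_pow 2 y).div_const 2)).sub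
      ((hasDerivAt_pow 3 y).div_const 6)).add ((hasDerivAt_pow 4 y).div_const 24)).sub
      ((hasDerivAt_pow 5 y).div_const 120)
    have dT : HasDerivAt T5 (-1 + y - y ^ 2 / 2 + y ^ 3 / 6 - y ^ 4 / 24) y := by
      refine HasDerivAt.congr_deriv d ?_
      norm_num
      ring
    refine HasDerivAt.congr_deriv ((Real.hasDerivAt_exp y).mul dT) ?_
    unfold T5
    ring
  have hanti : AntitoneOn (fun y => Real.exp y * T5 y) (Set.Ici 0) := by
    apply antitoneOn_of_deriv_nonpos (convex_Ici 0)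
    · exact fun y _ => (hd y).continuousAt.continuousWithinAt
    · exact fun y _ => (hd y).differentiableAt.differentiableWithinAt
    · intro y hy
      rw [interior_Ici] at hy
      rw [(hd y).deriv, neg_nonpos]
      have : (0 : ℝ) < y := hy
      positivity
  have h := hanti (Set.mem_Ici.2 le_rfl) hx hx
  simp only [T5, Real.exp_zero] at h
  have hp := Real.exp_pos x
  rw [Real.exp_neg, ← one_div, le_div_iff₀ hp]
  unfold T5
  nlinarith

theorem T5_nonneg {x : ℝ} (h1 : x ≤ 1) : 0 ≤ T5 x := by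
  have : T5 x = (1 - x) + x ^ 2 / 2 * (1 - x / 3) + x ^ 4 / 24 * (1 - x / 5) := by
    unfold T5; ring
  rw [this]
  have a : 0 ≤ 1 - x / 3 := by linarith
  have b : 0 ≤ 1 - x / 5 := by linarith
  have c : 0 ≤ 1 - x := by linarith
  positivity

/-- The rational lower bound coming from reverse hypercontractivity. -/
theorem rhc_lower {n : ℕ} (f : Cube n → Bool) {ρ : ℝ} (h0 : 0 ≤ ρ) (h1 : ρ ≤ 1) {σ σ0 L δ : ℝ}
    (hσ : 0 ≤ σ) (hσm : σ ^ 2 = (1 - cubeAverage (sgn f)) / 2) (hσ0 : 0 < σ0) (hL0 : 0 ≤ L)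
    (hL : 1 ≤ σ0 ^ 2 * Real.exp L) (hδ : δ = ρ ^ 2 / (2 * (2 - ρ ^ 2))) (hδL : δ * L ≤ 1) :
    T5 (δ * L) * (σ + 2 * δ * (σ - σ0)) ≤
      cubeAverage (fun x => √((1 - noise ρ (sgn f) x) / 2)) := by
  have h := rhc_sgn f h0 h1
  set Y := cubeAverage (fun x => √((1 - noise ρ (sgn f) x) / 2))
  have Y0 : 0 ≤ Y := st_avg_nonneg fun x => Real.sqrt_nonneg _
  have q0 : 0 < 2 - ρ ^ 2 := by nlinarith
  have d0 : 0 ≤ δ := by rw [hδ]; positivity
  rcases le_total (σ + 2 * δ * (σ - σ0)) 0 with hb | hb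
  · exact (mul_nonpos_of_nonneg_of_nonpos (T5_nonneg hδL) hb).trans Y0
  rw [← hσm] at h
  have a1 : σ ^ (1 + 2 * δ) ≤ Y := by
    have := Real.rpow_le_rpow (by positivity) h (inv_pos.2 q0).le
    rw [Real.rpow_rpow_inv Y0 q0.ne', ← Real.rpow_natCast, ← Real.rpow_mul hσ] at this
    convert this using 2
    rw [hδ]; field_simp; ring
  have a2 : σ0 ^ (2 * δ) * (σ + 2 * δ * (σ - σ0)) ≤ σ ^ (1 + 2 * δ) := by
    have b := one_add_mul_self_le_rpow_one_add (s := σ / σ0 - 1)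
      (by have : 0 ≤ σ / σ0 := by positivity
          linarith) (p := 1 + 2 * δ) (by linarith)
    rw [show 1 + (σ / σ0 - 1) = σ / σ0 by ring, Real.div_rpow hσ hσ0.le,
      le_div_iff₀ (Real.rpow_pos_of_pos hσ0 _), Real.rpow_add hσ0, Real.rpow_one] at b
    refine le_trans (le_of_eq ?_) b
    field_simp
    ring
  have a3 : T5 (δ * L) ≤ σ0 ^ (2 * δ) := by
    refine (T5_le (by positivity)).trans ?_
    rw [Real.rpow_def_of_pos hσ0, Real.exp_le_exp]
    have := Real.log_le_log one_pos hL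
    rw [Real.log_one, Real.log_mul (by positivity) (Real.exp_pos L).ne', Real.log_exp,
      Real.log_pow] at this
    push_cast at this
    nlinarith
  exact (mul_le_mul_of_nonneg_right a3 hb).trans (a2.trans a1)

/-! ### Half angle charts -/

/-- The half-angle map. -/
noncomputable def hf (x : ℝ) : ℝ := x / (1 + hel x)

theorem hel_pos {g : ℝ} (hg : |g| < 1) : 0 < hel g :=
  Real.sqrt_pos.2 (by have := (sq_lt_one_iff_abs_lt_one g).2 hg; linarith)

theorem hel_sq {g : ℝ} (hg : |g| < 1) : hel g ^ 2 = 1 - g ^ 2 :=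
  Real.sq_sqrt (by have := (sq_lt_one_iff_abs_lt_one g).2 hg; linarith)

theorem hf_spec {g : ℝ} (hg : |g| < 1) :
    |hf g| < 1 ∧ g = 2 * hf g / (1 + hf g ^ 2) ∧ hel g = (1 - hf g ^ 2) / (1 + hf g ^ 2) := by
  have hs := hel_pos hg
  have hss := hel_sq hg
  have h2 : |hf g| < 1 := by
    rw [hf, abs_div, abs_of_pos (by linarith : 0 < 1 + hel g), div_lt_one (by linarith)]
    linarith
  have h3 : g = 2 * hf g / (1 + hf g ^ 2) := by
    rw [eq_div_iff (by positivity), hf]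
    field_simp
    linear_combination (g) * hss
  refine ⟨h2, h3, ?_⟩
  rw [← hel_half_angle h2, ← h3]

theorem hasDerivAt_hel {g : ℝ} (hg : |g| < 1) : HasDerivAt hel (-g / hel g) g := by
  have h1 : 1 - g ^ 2 ≠ 0 := by have := (sq_lt_one_iff_abs_lt_one g).2 hg; linarith
  have d := ((hasDerivAt_pow 2 g).const_sub 1).sqrt h1
  refine HasDerivAt.congr_deriv d ?_
  have := (hel_pos hg).ne'
  change _ / (2 * hel g) = _
  field_simp
  norm_num

theorem hasDerivAt_hf {g : ℝ} (hg : |g| < 1) : HasDerivAt hf (1 / (hel g * (1 + hel g))) g := by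
  have hs := hel_pos hg
  have hss := hel_sq hg
  have d := (hasDerivAt_id g).div ((hasDerivAt_hel hg).const_add 1) (by positivity)
  refine HasDerivAt.congr_deriv d ?_
  simp only [id]
  field_simp
  linear_combination hss

theorem admG_of_admU {U : ℝ → ℝ} (hU : AdmU U) : AdmG (fun g => U (hf g)) := by
  obtain ⟨U', h1, h2⟩ := hU
  intro g g' hg hg'
  obtain ⟨a1, a2, -⟩ := hf_spec hg
  obtain ⟨b1, b2, -⟩ := hf_spec hg'
  have := edge_ge_sq U U' h1 h2 a1 b1
  rwa [← a2, ← b2] at this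

/-- Admissibility in the quarter-angle variable. -/
theorem admG_of_chart {P P' : ℝ → ℝ} (hP : ∀ v, HasDerivAt P (P' v) v)
    (hb : ∀ v, |v| < 1 → P' v ^ 2 * (1 + 6 * v ^ 2 + v ^ 4) ≤ 16) :
    AdmG (fun g => P (hf (hf g))) := by
  apply admG_of_admU (U := fun τ => P (hf τ))
  refine ⟨fun τ => P' (hf τ) * (1 / (hel τ * (1 + hel τ))),
    fun τ hτ => (hP _).comp τ (hasDerivAt_hf hτ), fun τ hτ => ?_⟩
  have hs := hel_pos hτ
  have hss := hel_sq hτ
  have h := hb _ (hf_spec hτ).1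
  have e : (P' (hf τ) * (1 / (hel τ * (1 + hel τ)))) ^ 2 * (1 - τ ^ 4) =
      P' (hf τ) ^ 2 * (1 + 6 * hf τ ^ 2 + hf τ ^ 4) / 4 := by
    have e2 : τ ^ 2 = 1 - hel τ ^ 2 := by linarith
    have e4 : τ ^ 4 = (1 - hel τ ^ 2) ^ 2 := by rw [← e2]; ring
    generalize P' (hf τ) = c
    simp only [hf, div_pow, e2, e4]
    field_simp
    ring
  simp only [e]
  linarith

/-- The quarter-angle chart. -/
theorem chart_spec {g : ℝ} (hg : |g| < 1) : ∃ v S : ℝ, v = hf (hf g) ∧ |v| < 1 ∧ 0 < S ∧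
    S ^ 2 = 1 + 6 * v ^ 2 + v ^ 4 ∧ g = 4 * v * (1 + v ^ 2) / S ^ 2 ∧
    hel g = (1 - v ^ 2) ^ 2 / S ^ 2 ∧ √(hel g) = (1 - v ^ 2) / S ∧
    √((1 - g) / 2) = (1 - v) ^ 2 / (√2 * S) := by
  obtain ⟨a1, a2, a3⟩ := hf_spec hg
  obtain ⟨b1, b2, -⟩ := hf_spec a1
  set v := hf (hf g)
  have hQ : 0 < 1 + 6 * v ^ 2 + v ^ 4 := by positivity
  have hS := Real.sq_sqrt hQ.le
  have hS0 := Real.sqrt_pos.2 hQ
  have hv : v ^ 2 < 1 := (sq_lt_one_iff_abs_lt_one v).2 b1
  have eg : g = 4 * v * (1 + v ^ 2) / (1 + 6 * v ^ 2 + v ^ 4) := by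
    rw [a2, b2]; field_simp; ring
  have ea : hel g = (1 - v ^ 2) ^ 2 / (1 + 6 * v ^ 2 + v ^ 4) := by
    rw [a3, b2]; field_simp; ring
  refine ⟨v, √(1 + 6 * v ^ 2 + v ^ 4), rfl, b1, hS0, hS, by rw [hS]; exact eg,
    by rw [hS]; exact ea, ?_, ?_⟩
  · rw [ea, Real.sqrt_div' _ hQ.le, Real.sqrt_sq (by linarith)]
  · rw [Real.sqrt_eq_iff_mul_self_eq (by linarith [(abs_lt.1 hg).2]) (by positivity),
      div_mul_div_comm, show √2 * √(1 + 6 * v ^ 2 + v ^ 4) * (√2 * √(1 + 6 * v ^ 2 + v ^ 4))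
        = √2 ^ 2 * √(1 + 6 * v ^ 2 + v ^ 4) ^ 2 by ring, hS, Real.sq_sqrt (by norm_num), eg]
    field_simp
    ring

/-! ### The exact potential and the tangent form -/

/-- The fourth root of `1 - g²`. -/
noncomputable def bb (g : ℝ) : ℝ := √(hel g)

theorem bb_pos {g : ℝ} (hg : |g| < 1) : 0 < bb g := Real.sqrt_pos.2 (hel_pos hg)

theorem bb_sq {g : ℝ} (hg : |g| < 1) : bb g ^ 2 = hel g := Real.sq_sqrt (hel_pos hg).le

theorem hasDerivAt_bb {g : ℝ} (hg : |g| < 1) : HasDerivAt bb (-g / (2 * bb g ^ 3)) g := by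
  have d := (hasDerivAt_hel hg).sqrt (hel_pos hg).ne'
  refine HasDerivAt.congr_deriv d ?_
  have := (bb_pos hg).ne'
  change _ / (2 * bb g) = _
  rw [← bb_sq hg]
  field_simp

/-- The exact potential. -/
noncomputable def uex (g : ℝ) : ℝ := ∫ t in (0 : ℝ)..g, 1 / bb t ^ 3

theorem hasDerivAt_uex {g : ℝ} (hg : |g| < 1) : HasDerivAt uex (1 / bb g ^ 3) g := by
  have hc : ContinuousOn (fun t => 1 / bb t ^ 3) (Set.Ioo (-1) 1) := fun t ht =>
    (continuousAt_const.div ((hasDerivAt_bb (abs_lt.2 ht)).continuousAt.pow 3)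
      (pow_pos (bb_pos (abs_lt.2 ht)) 3).ne').continuousWithinAt
  have hg' : g ∈ Set.Ioo (-1 : ℝ) 1 := abs_lt.1 hg
  refine intervalIntegral.integral_hasDerivAt_right ?_
    (hc.stronglyMeasurableAtFilter isOpen_Ioo g hg') (hc.continuousAt (isOpen_Ioo.mem_nhds hg'))
  apply ContinuousOn.intervalIntegrable
  exact hc.mono ((Set.ordConnected_Ioo).uIcc_subset ⟨by norm_num, by norm_num⟩ hg')

theorem admG_uex : AdmG uex := by
  have key : AdmU (fun τ => uex (2 * τ / (1 + τ ^ 2))) := by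
    have hlt : ∀ τ : ℝ, |τ| < 1 → |2 * τ / (1 + τ ^ 2)| < 1 := by
      intro τ hτ
      rw [abs_div, abs_of_pos (by positivity : 0 < 1 + τ ^ 2), div_lt_one (by positivity), abs_mul,
        abs_two, ← sq_abs τ]
      nlinarith [abs_nonneg τ]
    refine ⟨fun τ => 1 / bb (2 * τ / (1 + τ ^ 2)) ^ 3 * (2 * (1 - τ ^ 2) / (1 + τ ^ 2) ^ 2),
      fun τ hτ => ?_, fun τ hτ => ?_⟩
    · have d := ((hasDerivAt_id τ).const_mul 2).div ((hasDerivAt_pow 2 τ).const_add 1)
        (by positivity)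
      have d2 : HasDerivAt (fun τ : ℝ => 2 * τ / (1 + τ ^ 2))
          (2 * (1 - τ ^ 2) / (1 + τ ^ 2) ^ 2) τ := by
        refine HasDerivAt.congr_deriv d ?_
        simp only [id]; norm_num; ring
      exact (hasDerivAt_uex (hlt τ hτ)).comp τ d2
    · have h1 := bb_sq (hlt τ hτ)
      rw [hel_half_angle hτ] at h1
      have ht : 0 < 1 - τ ^ 2 := by have := (sq_lt_one_iff_abs_lt_one τ).2 hτ; linarith
      apply le_of_eq
      rw [mul_pow, div_pow, one_pow, ← pow_mul, mul_comm 3 2, pow_mul, h1]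
      field_simp
      ring
  intro g g' hg hg'
  have := admG_of_admU key g g' hg hg'
  simp only at this
  rwa [← (hf_spec hg).2.1, ← (hf_spec hg').2.1] at this

/-- A convex function with a double zero is nonnegative. -/
theorem nonneg_of_convex {F F' F'' : ℝ → ℝ} {m : ℝ} (hm : |m| < 1)
    (h1 : ∀ g, |g| < 1 → HasDerivAt F (F' g) g) (h2 : ∀ g, |g| < 1 → HasDerivAt F' (F'' g) g)
    (h3 : ∀ g, |g| < 1 → 0 ≤ F'' g) (z0 : F m = 0) (z1 : F' m = 0) {g : ℝ} (hg : |g| < 1) :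
    0 ≤ F g := by
  have mono : MonotoneOn F' (Set.Ioo (-1) 1) := by
    apply monotoneOn_of_deriv_nonneg (convex_Ioo _ _)
    · exact fun y hy => (h2 y (abs_lt.2 hy)).continuousAt.continuousWithinAt
    · intro y hy
      rw [interior_Ioo] at hy
      exact (h2 y (abs_lt.2 hy)).differentiableAt.differentiableWithinAt
    · intro y hy
      rw [interior_Ioo] at hy
      rw [(h2 y (abs_lt.2 hy)).deriv]
      exact h3 y (abs_lt.2 hy)
  have hm' := abs_lt.1 hm
  have hg' := abs_lt.1 hg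
  rcases lt_trichotomy m g with h | h | h
  · obtain ⟨c, hc, e⟩ := exists_hasDerivAt_eq_slope F F' h
      (fun y hy => (h1 y (abs_lt.2 ⟨by linarith [hy.1], by linarith [hy.2]⟩)).continuousAt.continuousWithinAt)
      (fun y hy => h1 y (abs_lt.2 ⟨by linarith [hy.1], by linarith [hy.2]⟩))
    have := mono hm' ⟨by linarith [hc.1], by linarith [hc.2]⟩ hc.1.le
    rw [z1, e, z0, sub_zero] at this
    exact (div_nonneg_iff.1 this).elim (fun h => h.1) fun h' => absurd h'.2 (by linarith)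
  · rw [← h, z0]
  · obtain ⟨c, hc, e⟩ := exists_hasDerivAt_eq_slope F F' h
      (fun y hy => (h1 y (abs_lt.2 ⟨by linarith [hy.1], by linarith [hy.2]⟩)).continuousAt.continuousWithinAt)
      (fun y hy => h1 y (abs_lt.2 ⟨by linarith [hy.1], by linarith [hy.2]⟩))
    have := mono ⟨by linarith [hc.1], by linarith [hc.2]⟩ hm' hc.2.le
    rw [z1, e, z0, zero_sub, div_nonpos_iff] at this
    rcases this with h' | h'
    · exact absurd h'.2 (by linarith)
    · linarith [h'.1]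

theorem hasDerivAt_yy {g : ℝ} (hg : |g| < 1) :
    HasDerivAt (fun g => √((1 - g) / 2)) (-1 / (4 * √((1 - g) / 2))) g := by
  have h1 : (1 - g) / 2 ≠ 0 := by have := (abs_lt.1 hg).2; linarith
  have d := (((hasDerivAt_id g).const_sub 1).div_const 2).sqrt h1
  refine HasDerivAt.congr_deriv d ?_
  simp only [id]
  ring

/-- The tangent form: convexity suffices. -/
theorem tan_nonneg {m k l ν p : ℝ} (hm : |m| < 1)
    (H : ∀ g, |g| < 1 → 0 ≤ k * (4 - g ^ 2 - 3 * m * g) - l * bb g + 2 * p * bb g ^ 7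
      + ν * (bb g ^ 7 / (16 * √((1 - g) / 2) ^ 3))) {g : ℝ} (hg : |g| < 1) :
    0 ≤ 2 * k * ((g - m) * (uex g - uex m)) - l * (hel m - hel g - m / hel m * (g - m))
      + ν * (√((1 - m) / 2) - (g - m) / (4 * √((1 - m) / 2)) - √((1 - g) / 2))
      + p * (g - m) ^ 2 := by
  have ypos : ∀ g : ℝ, |g| < 1 → 0 < √((1 - g) / 2) := fun g hg =>
    Real.sqrt_pos.2 (by have := (abs_lt.1 hg).2; linarith)
  refine nonneg_of_convex
    (F := fun g => 2 * k * ((g - m) * (uex g - uex m)) - l * (hel m - hel g - m / hel m * (g - m))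
      + ν * (√((1 - m) / 2) - (g - m) / (4 * √((1 - m) / 2)) - √((1 - g) / 2)) + p * (g - m) ^ 2)
    (F' := fun g => 2 * k * ((uex g - uex m) + (g - m) * (1 / bb g ^ 3))
      - l * (g / hel g - m / hel m) + ν * (1 / (4 * √((1 - g) / 2)) - 1 / (4 * √((1 - m) / 2)))
      + p * (2 * (g - m)))
    (F'' := fun g => (k * (4 - g ^ 2 - 3 * m * g) - l * bb g + 2 * p * bb g ^ 7
      + ν * (bb g ^ 7 / (16 * √((1 - g) / 2) ^ 3))) / bb g ^ 7) hm ?_ ?_
    (fun g hg => div_nonneg (H g hg) (pow_pos (bb_pos hg) 7).le) (by simp) (by simp) hg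
  · intro g hg
    have i := (hasDerivAt_id g).sub_const m
    have d := ((((i.mul ((hasDerivAt_uex hg).sub_const (uex m))).const_mul (2 * k)).sub
      ((((hasDerivAt_hel hg).const_sub (hel m)).sub (i.const_mul (m / hel m))).const_mul l)).add
      ((((i.div_const (4 * √((1 - m) / 2))).const_sub (√((1 - m) / 2))).sub
        (hasDerivAt_yy hg)).const_mul ν)).add ((i.pow 2).const_mul p)
    refine HasDerivAt.congr_deriv d ?_
    simp only [id]
    generalize √((1 - g) / 2) = y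
    generalize √((1 - m) / 2) = z
    norm_num
    ring
  · intro g hg
    have i := (hasDerivAt_id g).sub_const m
    have b0 := bb_pos hg
    have y0 := ypos g hg
    have d3 := (hasDerivAt_const g (1 : ℝ)).div ((hasDerivAt_bb hg).pow 3) (pow_pos b0 3).ne'
    have dh := (hasDerivAt_id g).div (hasDerivAt_hel hg) (hel_pos hg).ne'
    have dy := (hasDerivAt_const g (1 : ℝ)).div ((hasDerivAt_yy hg).const_mul 4)
      (by positivity)
    have d := ((((((hasDerivAt_uex hg).sub_const (uex m)).add (i.mul d3)).const_mul (2 * k)).sub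
      ((dh.sub_const (m / hel m)).const_mul l)).add
      ((dy.sub_const (1 / (4 * √((1 - m) / 2)))).const_mul ν)).add ((i.const_mul 2).const_mul p)
    refine HasDerivAt.congr_deriv d ?_
    have e4 : g ^ 2 = 1 - bb g ^ 4 := by
      have := hel_sq hg
      rw [← bb_sq hg] at this
      linarith
    simp only [id, Pi.pow_apply, Pi.div_apply, ← bb_sq hg]
    generalize bb g = b at *
    generalize √((1 - g) / 2) = y at *
    norm_num
    field_simp
    linear_combination (1024 * k * y ^ 3 - 256 * b * l * y ^ 3) * e4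

/-- The tangent certificate. -/
theorem starAt_of_tan {n : ℕ} (f : Cube n → Bool) (ρ : ℝ)
    (m ob k l ν p N : ℝ) (hm : cubeAverage (sgn f) = m) (hm1 : |m| < 1) (hob : W1 (sgn f) ≤ ob)
    (hl : 0 ≤ l) (hν : 0 ≤ ν) (hp : 0 ≤ p)
    (hN : N ≤ cubeAverage (fun x => √((1 - noise ρ (sgn f) x) / 2)))
    (hin : ∀ g, |g| < 1 → 0 ≤ k * (4 - g ^ 2 - 3 * m * g) - l * bb g + 2 * p * bb g ^ 7
      + ν * (bb g ^ 7 / (16 * √((1 - g) / 2) ^ 3)))
    (hout : ρ ^ 2 / hel ρ ≤ l * (1 - hel ρ) - ν * √((1 - m) / 2)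
      - p * (ρ ^ 2 * ob + ρ ^ 4 * (1 - m ^ 2 - ob))
      - k ^ 2 * (ρ ^ 2 * ob + ρ ^ 4 * (1 - m ^ 2 - ob) / 2) + ν * N) :
    StarAt n f ρ := by
  refine starAt_of_dual f ρ admG_uex m ob k l ν p
    (-(2 * k * uex m) + l * (m / hel m) - ν / (4 * √((1 - m) / 2)) - 2 * p * m)
    ((-(2 * k * uex m) + l * (m / hel m) - ν / (4 * √((1 - m) / 2)) - 2 * p * m) * m
      + l * hel m - ν * √((1 - m) / 2) + p * m ^ 2) N hm hob hl hν hp hN (fun g hg => ?_)
    (by linarith)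
  have := tan_nonneg hm1 hin hg
  have e : (g - m) / (4 * √((1 - m) / 2)) = 1 / (4 * √((1 - m) / 2)) * (g - m) := by ring
  have e' : ν / (4 * √((1 - m) / 2)) = ν * (1 / (4 * √((1 - m) / 2))) := by ring
  rw [e] at this
  rw [e']
  linarith

end Crest.Agent.R307
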