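import Crest.Agent.R307.Cube
import Crest.Agent.R307.Noise

/-! Row 307: the Hellinger inequality from its differential form (fence argument). -/

set_option autoImplicit false

open Crest.CubeNoise

namespace Crest.Agent.R307

theorem HelRed_fence {Y : ℝ → ℝ} (hY : Continuous Y) {a b : ℝ} (hab : a ≤ b) (hb : Y b ≤ 0)
    (hd : ∀ r ∈ Set.Ioo a b, 0 < Y r → ∃ y', HasDerivAt Y y' r ∧ 0 ≤ y') : Y a ≤ 0 := by
  obtain ⟨s, ⟨hs1, hs2⟩, hs3⟩ := (isCompact_Icc.inter_right
    (isClosed_le hY continuous_const) : IsCompact (Set.Icc a b ∩ {t | Y t ≤ 0})).exists_isLeast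
    ⟨b, ⟨hab, le_rfl⟩, hb⟩
  have h1 : ∀ r ∈ interior (Set.Icc a s), ∃ y', HasDerivAt Y y' r ∧ 0 ≤ y' := by
    intro r hr
    rw [interior_Icc] at hr
    refine hd r ⟨hr.1, hr.2.trans_le hs1.2⟩ (lt_of_not_ge fun h => ?_)
    exact absurd (hs3 ⟨⟨hr.1.le, hr.2.le.trans hs1.2⟩, h⟩) (not_le.2 hr.2)
  have h2 : MonotoneOn Y (Set.Icc a s) :=
    monotoneOn_of_deriv_nonneg (convex_Icc a s) hY.continuousOn
      (fun r hr => (h1 r hr).choose_spec.1.differentiableAt.differentiableWithinAt)
      fun r hr => by rw [(h1 r hr).choose_spec.1.deriv]; exact (h1 r hr).choose_spec.2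
  exact (h2 ⟨le_rfl, hs1.1⟩ ⟨hs1.1, le_rfl⟩ hs1.1).trans hs2

theorem HelRed_nonneg (u : ℝ) : 0 ≤ hel u := Real.sqrt_nonneg _

theorem HelRed_le_one (u : ℝ) : hel u ≤ 1 := Real.sqrt_le_one.2 (by nlinarith [sq_nonneg u])

theorem HelRed_pos {w : ℝ} (hw : |w| < 1) : 0 < hel w :=
  Real.sqrt_pos.2 (sub_pos.2 ((sq_lt_one_iff_abs_lt_one w).2 hw))

theorem HelRed_continuous : Continuous hel := by unfold hel; fun_prop

theorem HelRed_deriv {w : ℝ} (hw : |w| < 1) : HasDerivAt (fun v => -hel v) (w / hel w) w := by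
  have h1 := (((hasDerivAt_pow 2 w).const_sub 1).sqrt
    (sub_pos.2 ((sq_lt_one_iff_abs_lt_one w).2 hw)).ne').neg
  have h2 := HelRed_pos hw
  refine h1.congr_deriv ?_
  unfold hel at h2 ⊢
  field_simp
  simp

theorem HelRed_avg_nonneg {n : ℕ} (g : Cube n → ℝ) : 0 ≤ cubeAverage fun x => hel (g x) :=
  (avg_const 0).ge.trans (avg_mono fun x => HelRed_nonneg (g x))

theorem HelRed_main (H : Star) (n : ℕ) (f : Cube n → Bool) {ρ : ℝ} (h0 : 0 ≤ ρ) (h1 : ρ ≤ 1)
    (hm : 0 ≤ cubeAverage fun x => spin (f x)) :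
    hel (cubeAverage fun x => spin (f x)) -
      cubeAverage (fun x => hel (noise ρ (fun y => spin (f y)) x)) ≤ 1 - hel ρ := by
  set u : Cube n → ℝ := fun x => spin (f x) with hu
  have hu1 : ∀ x, |u x| ≤ 1 := fun x => by
    simp only [hu, spin]
    split_ifs <;> simp
  by_cases hm1 : |cubeAverage u| < 1
  swap
  · have h2 : hel (cubeAverage u) = 0 :=
      Real.sqrt_eq_zero_of_nonpos (sub_nonpos.2 ((one_le_sq_iff_one_le_abs _).2 (not_lt.1 hm1)))
    linarith [HelRed_avg_nonneg (noise ρ u), HelRed_le_one ρ]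
  rcases h0.eq_or_lt with rfl | h0
  · simp only [noise_zero, avg_const, sub_self]
    linarith [HelRed_le_one 0]
  have key := HelRed_fence (Y := fun r => hel r - (1 - hel (cubeAverage u)) -
      cubeAverage fun x => hel (noise r u x)) ?_ h1 ?_ ?_
  · linarith
  · refine (HelRed_continuous.sub continuous_const).sub ?_
    unfold cubeAverage
    exact (continuous_finsetSum _ fun x _ =>
      HelRed_continuous.comp (continuous_noise u x)).div_const _
  · have : hel 1 = 0 := by simp [hel]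
    linarith [HelRed_avg_nonneg (noise 1 u), HelRed_le_one (cubeAverage u)]
  · intro r hr hY
    have hr0 : 0 < r := h0.trans hr.1
    have hr1 : |r| < 1 := by rw [abs_of_pos hr0]; exact hr.2
    have hn := abs_noise_lt hr1 hu1 hm1
    have hs := H n f r hr0 hr.2 hn hm (by linarith)
    have d1 := hasDerivAt_avg_noise u hr0.ne' (fun v => -hel v) (fun w => w / hel w)
      fun x => HelRed_deriv (hn x)
    have d2 := (((HelRed_deriv hr1).neg.sub_const (1 - hel (cubeAverage u))).add d1)
    refine ⟨_, d2.congr_of_eventuallyEq (Filter.Eventually.of_forall fun t => ?_), ?_⟩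
    · simp only [cubeAverage, Pi.add_apply, Pi.neg_apply, neg_neg, Finset.sum_neg_distrib]
      ring
    · have h3 : r / hel r = r ^ 2 / hel r / r := by field_simp
      rw [h3, neg_add_eq_sub, sub_nonneg]
      exact div_le_div_of_nonneg_right hs hr0.le

theorem hellinger_of_star (H : Star) (n : ℕ) (f : (Fin n → Bool) → Bool) (ρ : ℝ) (hρ : |ρ| ≤ 1) :
    Real.sqrt (1 - (cubeAverage (fun x => spin (f x))) ^ 2)
        - cubeAverage (fun x => Real.sqrt (1 - (noise ρ (fun y => spin (f y)) x) ^ 2))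
      ≤ 1 - Real.sqrt (1 - ρ ^ 2) := by
  wlog h0 : 0 ≤ ρ generalizing ρ
  · have h := this (-ρ) (by rwa [abs_neg]) (by linarith)
    simp only [noise_neg, even_two.neg_pow] at h
    rwa [avg_anti fun x => Real.sqrt (1 - (noise ρ (fun y => spin (f y)) x) ^ 2)] at h
  wlog hm : 0 ≤ cubeAverage fun x => spin (f x) generalizing f
  · have e : ∀ b, spin (!b) = -spin b := fun b => by cases b <;> simp [spin]
    have e1 : (cubeAverage fun x => spin (!f x)) = -cubeAverage fun x => spin (f x) := by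
      simp only [cubeAverage, e, Finset.sum_neg_distrib, neg_div]
    have e2 : ∀ x, noise ρ (fun y => spin (!f y)) x = -noise ρ (fun y => spin (f y)) x := by
      intro x
      simp only [noise, e, mul_neg, Finset.sum_neg_distrib]
    have h := this (fun x => !f x) (by rw [e1]; linarith)
    simpa only [e1, e2, even_two.neg_pow] using h
  exact HelRed_main H n f h0 ((le_abs_self ρ).trans hρ) hm

end Crest.Agent.R307
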