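import Crest.Agent.R307.LBaseSound
import Crest.Agent.R307.LBaseData

/-! Row 307, low noise regime: the base of the Bellman induction. -/

set_option autoImplicit false

namespace Crest.Agent.R307.L

theorem baseA : BaseA := fun _ _ _ hu hg hh => Base.baseA_of Base.okA (by linarith) hg hh

theorem baseB : BaseB := Base.baseB_of Base.okA Base.okB

end Crest.Agent.R307.L
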