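import Crest.Agent.Lib.PolyBB.Core

/-! Row 307, low noise regime: the polynomial inequalities behind `Fams` and their checker. -/

set_option autoImplicit false

namespace Crest.Agent.R307.L.Fam

open Crest.Agent.Lib.PolyBB

scoped instance : Add E := ⟨E.add⟩
scoped instance : Sub E := ⟨E.sub⟩
scoped instance : Mul E := ⟨E.mul⟩
scoped instance : Pow E Nat := ⟨E.pow⟩

section poly

variable {α : Type} [Add α] [Sub α] [Mul α] [Pow α Nat] (c : Int → α) (P : Nat → α)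

def pX (x : α) : α := c 1 + x ^ 2
def pG (x : α) : α := c 1 - x ^ 2
def pS (x : α) : α := x * (c 1 + x) ^ 2

/-- `kp = pK / (10 x X³)`. -/
def pK (x : α) : α := c 5 * pX c x ^ 3 - c 4 * x ^ 3 * pG c x

/-- `zz = pZ / (80000 X³ pS)`. -/
def pZ (x : α) : α :=
  x ^ 2 * (((c 41150 * x - c 15571 * pX c x) * pX c x - c 32020 * x ^ 2) * pX c x
    + c 318080 * x ^ 3)

def pF (x : α) : α := c 8000 * pK c x * (c 1 + x) ^ 2 * pX c x + pG c x * pZ c x

/-- `chi = pG pC / (300 X⁶)`. -/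
def pC (x : α) : α :=
  (((c 300 * pX c x ^ 2 + c 600 * x ^ 2) * pX c x - c 1000 * x ^ 3) * pX c x + c 1584 * x ^ 4)
    * pX c x - c 1280 * x ^ 5

/-- `eP = (x - y)² En / (160000 pS X⁵ pS Y⁵)`. -/
def En (x y : α) : α :=
  pF c x * (pS c y * pX c y ^ 4) + pS c x * pX c x ^ 4 * pF c y
    + pG c x * pS c x * pX c x ^ 3 * (pZ c y * pX c y)
    + pZ c x * pX c x * (pG c y * pS c y * pX c y ^ 3)

def An (x y : α) : α := P 1 * x * pX c y ^ 2 + P 2 * y * pX c x ^ 2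

def s3 (y : α) : α := c 99 * pX c y - c 80 * y
def s2 (y : α) : α := c 2 * y * s3 c y - c 125 * pX c y ^ 2
def s1 (y : α) : α := c 2 * y * s2 c y + c 150 * pX c y ^ 3

def Phi (x y : α) : α :=
  pX c x ^ 4 * (c 2 * y * s1 c y) + c 2 * x * pX c x ^ 3 * (s1 c y * pX c y)
    + c 4 * x ^ 2 * pX c x ^ 2 * (s2 c y * pX c y ^ 2)
    + c 8 * x ^ 3 * pX c x * (s3 c y * pX c y ^ 3) - c 640 * x ^ 4 * pX c y ^ 4

/-- `Bn = 2 (y - x) B1`. -/
def B1 (x y : α) : α :=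
  (c 1 - x * y) * (pG c x * pX c y) * Phi c x y - (x + y) * (pX c x ^ 5 * pC c y)
    - P 0 * (c 3 * ((c 1 - x * y * (c 2 + x ^ 2 + x * y + y ^ 2)) * (pX c x ^ 4 * pX c y ^ 4)))

def pW (x : α) : α := pG c x * pC c x - c 6 * P 0 * x * pX c x ^ 4

def Bn (x y : α) : α := pX c x ^ 6 * pW c P y - pW c P x * pX c y ^ 6

/-- The discriminant. -/
def disc (x y : α) : α :=
  c 9 * (An c P x y * (pX c x ^ 5 * pX c y ^ 5)) * En c x y
    - c 20000 * (pS c x * pS c y) * B1 c P x y ^ 2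

/-- The numerator of the slack. -/
def qq (x y t : α) : α :=
  c 3 * ((x - y) ^ 2 * (pX c x * pX c y) * En c x y)
    + t * ((pS c x * pS c y) * (c 96 * t * (An c P x y * (pX c x ^ 4 * pX c y ^ 4))
      - c 800 * Bn c P x y))

end poly

/-- The three ways to close a leaf. -/
def es (x y : E) : Nat → List E
  | 0 => [An .cst .par x y, En .cst x y, disc .cst .par x y]
  | 1 => [An .cst .par x y, En .cst x y, .cst 0 - Bn .cst .par x y, .var 2]
  | _ => [qq .cst .par x y (.var 2)]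

/-- The main chart, where two corners are left to the other charts. -/
def esA : Nat → List E
  | 0 => [.cst 1 - .cst 8 * .var 0, .cst 1 - .cst 8 * .var 1]
  | 1 => [.var 0 - .cst 8, .var 1 - .cst 8]
  | k + 2 => es (.var 0) (.var 1) k

def esB : Nat → List E := es (.var 0) (.var 0 * .var 1)

def esC : Nat → List E := es (.var 0 * .var 1) (.var 0)

abbrev Fm := Int × Int × Int × Int × Int

def tIv (f : Fm) : Iv :=
  if f.2.2.2.2 = 0 then ⟨10, f.2.2.2.1, 0, 1⟩ else ⟨10, f.2.2.2.1, 10, f.2.2.2.2⟩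

/-- The trees of a family. -/
structure Tr where
  a : T
  b0 : T
  c0 : T
  b1 : T
  c1 : T

noncomputable def famChk (f : Fm) (t : Tr) : Bool :=
  band (run esA t.a [⟨1, 0, 0, 1⟩, ⟨1, 0, 0, 1⟩, tIv f] [f.1, f.2.1, f.2.2.1])
    (band (band (run esB t.b0 [⟨1, 0, 8, 1⟩, ⟨1, 0, 1, 1⟩, tIv f] [f.1, f.2.1, f.2.2.1])
        (run esC t.c0 [⟨1, 0, 8, 1⟩, ⟨1, 0, 1, 1⟩, tIv f] [f.1, f.2.1, f.2.2.1]))
      (band (run esB t.b1 [⟨1, 8, 0, 1⟩, ⟨1, 1, 0, 1⟩, tIv f] [f.1, f.2.1, f.2.2.1])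
        (run esC t.c1 [⟨1, 8, 0, 1⟩, ⟨1, 1, 0, 1⟩, tIv f] [f.1, f.2.1, f.2.2.1])))

noncomputable def allChk : List Fm → List Tr → Bool
  | [], _ => true
  | _ :: _, [] => false
  | f :: fs, t :: ts => band (famChk f t) (allChk fs ts)

end Crest.Agent.R307.L.Fam
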