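import Crest.Agent.R307.LCmp
import Crest.Agent.R307.LFamDef

/-! Row 307, low noise regime: the polynomial inequalities behind `BaseA`, `BaseB` and their
checker. -/

set_option autoImplicit false

namespace Crest.Agent.R307.L.Base

open Crest.Agent.Lib.PolyBB Crest.Agent.R307.L.Fam

section poly

variable {α : Type} [Add α] [Sub α] [Mul α] [Pow α Nat] (c : Int → α) (P : Nat → α)

def Wk (x y : α) (k : Nat) : α := pX c x ^ k * pX c y ^ k
def Sn (x y : α) : α := pS c x * pS c y

/-- `Z = Zn / W ^ 2`. -/
def Zn (x y : α) : α := x * pX c y ^ 2 + pX c x ^ 2 * y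

/-- `M = Mn / (600 W ^ 6)`. -/
def Mn (x y : α) : α := pG c x * pC c x * pX c y ^ 6 + pX c x ^ 6 * (pG c y * pC c y)

/-- `e = Ed / (160000 S W ^ 5)`. -/
def Ed (x y : α) : α := (x - y) ^ 2 * En c x y

def Z4 (x y : α) : α := c 6000000000 * Zn c x y * Wk c x y 4
def E1 (x y : α) : α := c 30000000 * Ed c x y * Wk c x y 1
def af (x y : α) (i : Nat) : α := P i * (c 600 * Wk c x y 6) + P (i + 1) * Mn c x y

def skip (x y : α) : α := c 1000 * x - c 1001 * y
def rLo (x y : α) : α := c 10000000 * Mn c x y - P 0 * (c 600 * Wk c x y 6)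
def rHi (x y : α) : α := P 1 * (c 600 * Wk c x y 6) - c 10000000 * Mn c x y
def aA (x y : α) : α := Z4 c x y - af c P x y 2

def dA (x y : α) : α :=
  aA c P x y * (c 800 * Sn c x y * (Z4 c x y - af c P x y 6) + E1 c x y)
    - Sn c x y * (c 200 * af c P x y 4 ^ 2 + Wk c x y 6 ^ 2)

def dB (x y : α) : α :=
  P 6 * (c 3 * Wk c x y 6) * (E1 c x y - c 800 * Sn c x y * af c P x y 2)
    - Sn c x y * (af c P x y 4 - Z4 c x y) ^ 2

def dD (x y q b : α) : α :=
  c 30000000 * q * Wk c x y 6
    - Sn c x y * b ^ 2 * (P 4 * Wk c x y 2 + P 3 * (c 4 * Zn c x y))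

def P0 (x y : α) : α :=
  Sn c x y * (c 480000 * Zn c x y ^ 2 * Wk c x y 4 - c 497 * Zn c x y * Mn c x y
      - c 120000 * Wk c x y 8 - c 64 * Mn c x y * Wk c x y 2)
    + c 3 * Zn c x y * Ed c x y * Wk c x y 1

def idQ (x y q : α) : α := P0 c x y - (c 1 - x * y) ^ 2 * q
def idB (x y b : α) : α := Mn c x y - (c 1 - x * y) * b
def idC (x y b : α) : α := (c 1 - x * y) * b - Mn c x y

def afI (m : α) (i : Nat) : α := P i + P (i + 1) * m
def Dn (x : α) : α := c 3 + c 100 * x
def gA (u a0 a1 a2 : α) : α := u * (u * a0 + a1) + a2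

def gB (l b0 b1 b2 b3 b4 : α) : α :=
  c 625 * b0 + (l - c 5) * (c 125 * b1 + (l - c 5) * (c 25 * b2 + (l - c 5) * (c 5 * b3
    + (l - c 5) * b4)))

def inA (u x m g : α) : α :=
  c 8000 * Dn c x * u * (u * (u * afI P m 2 + afI P m 4) + afI P m 6) - c 10000000 * g

def inD (u x m g : α) : α :=
  c 10 * Dn c x * u * (u * (c 8000000000 + c 1280000000 * m + c 800 * P 2 * m ^ 2)
    + c 4970000000 * m + c 800 * P 3 * m ^ 2) - c 10000000 * g

def inD2 (m : α) : α :=
  c 6250000000 * P 4 - c 1600000000000000 - c 12500000000 * P 2 - c 2000000000 * P 2 * m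
    - c 625 * P 2 ^ 2 * m ^ 2

def inB (l x m g : α) : α :=
  c 80000000 * Dn c x * (afI P m 2 + l * (afI P m 4 - P 6 * l)) - c 10000000 * g

end poly

/-- Bivariate Horner scheme. -/
def hor2 : List (List ℤ) → E
  | [] => .cst 0
  | [r] => horE r (.var 1)
  | r :: s :: l => .add (horE r (.var 1)) (.mul (.var 0) (hor2 (s :: l)))

/-- `P0 / (1 - x y) ^ 2`. -/
def Qe : E := hor2 [
  [0, 0, 0, 0, 120000, 240000, 720000, 1200000, 1800000, 2400000, 2400000, 2400000, 1800000, 1200000, 720000, 240000, 120000, 0],
  [0, -158400, -615000, -1542000, -3357800, -5375402, -7274780, -9991248, -4657812, -7363708, -2754492, -914176, 1150412, 1028262, 1650432, 698176, 416000, 120000],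
  [0, -615000, -1423200, -5557800, -8553800, -18318004, -22256858, -31885268, -27792330, -14627248, -23102252, -862128, -4208404, 1483100, 1768422, 1346764, 629926, 208000],
  [0, -1542000, -5557800, -15026748, -32575496, -53893256, -84556332, -108977362, -108320480, -90347494, -90841040, -46268840, -26003064, -14910332, -96316, -178442, 1115392, 420250],
  [120000, -3357800, -8553800, -32575496, -56742780, -113066156, -161032766, -228573048, -240934570, -180454140, -214793036, -109274888, -69984536, -41371844, -8024366, -2903448, 584318, 548020],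
  [240000, -5375402, -18318004, -53893256, -113066156, -191733876, -302062260, -411831506, -460909032, -381360282, -421014588, -271512900, -167380348, -112641032, -38029180, -14632290, -2683536, 312000],
  [720000, -7274780, -22256858, -84556332, -161032766, -302062260, -441467204, -623518264, -678614656, -537960680, -585901962, -381126236, -204063398, -159069156, -42401880, -25307296, -3233564, -1266372],
  [1200000, -9991248, -31885268, -108977362, -228573048, -411831506, -623518264, -917375368, -1030874800, -902364592, -939518484, -683204250, -391135336, -266733610, -97449792, -33286092, -7363664, 756284],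
  [1800000, -4657812, -27792330, -108320480, -240934570, -460909032, -678614656, -1030874800, -1162707816, -1026131808, -1078810594, -833569168, -489911026, -376536280, -150973524, -80043136, -18991292, -6447852],
  [2400000, -7363708, -14627248, -90347494, -180454140, -381360282, -537960680, -902364592, -1026131808, -885769416, -950968088, -732502382, -392031684, -289871410, -99628880, -44199676, -6967264, -1478128],
  [2400000, -2754492, -23102252, -90841040, -214793036, -421014588, -585901962, -939518484, -1078810594, -950968088, -1006194216, -807619160, -484320536, -353389356, -153226402, -72509028, -18347066, -4236388],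
  [2400000, -914176, -862128, -46268840, -109274888, -271512900, -381126236, -683204250, -833569168, -732502382, -807619160, -654579348, -388376184, -279516152, -117140412, -57124458, -13552656, -4052886],
  [1800000, 1150412, -4208404, -26003064, -69984536, -167380348, -204063398, -391135336, -489911026, -392031684, -484320536, -388376184, -254369204, -177835732, -84943918, -40305416, -10875010, -2847768],
  [1200000, 1028262, 1483100, -14910332, -41371844, -112641032, -159069156, -266733610, -376536280, -289871410, -353389356, -279516152, -177835732, -125170972, -55052332, -29049442, -7108848, -2483024],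
  [720000, 1650432, 1768422, -96316, -8024366, -38029180, -42401880, -97449792, -150973524, -99628880, -153226402, -117140412, -84943918, -55052332, -27527148, -13069800, -3611600, -1071400],
  [240000, 698176, 1346764, -178442, -2903448, -14632290, -25307296, -33286092, -80043136, -44199676, -72509028, -57124458, -40305416, -29049442, -13069800, -7507200, -1795200, -734400],
  [120000, 416000, 629926, 1115392, 584318, -2683536, -3233564, -7363664, -18991292, -6967264, -18347066, -13552656, -10875010, -7108848, -3611600, -1795200, -489600, -163200],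
  [0, 120000, 208000, 420250, 548020, 312000, -1266372, 756284, -6447852, -1478128, -4236388, -4052886, -2847768, -2483024, -1071400, -734400, -163200, -81600]]

/-- `Mn / (1 - x y)`. -/
def Be : E := hor2 [
  [600, 0, 3600, -1000, 8784, -2280, 6000, 2280, 216, 1000, 0, 0],
  [0, 600, 0, 3600, -1000, 8784, -2280, 6000, 2280, 216, 1000, 0],
  [3600, 0, 22200, -6000, 56304, -14680, 44784, 11400, 7296, 8280, 216, 1000],
  [-1000, 3600, -6000, 22200, -21000, 56304, -34680, 44784, -3600, 7296, 2280, 216],
  [8784, -1000, 56304, -21000, 150720, -55200, 141984, -480, 44784, 11400, 6000, 2280],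
  [-2280, 8784, -14680, 56304, -55200, 150720, -100800, 141984, -34680, 44784, -2280, 6000],
  [6000, -2280, 44784, -34680, 141984, -100800, 150720, -55200, 56304, -14680, 8784, -2280],
  [2280, 6000, 11400, 44784, -480, 141984, -55200, 150720, -21000, 56304, -1000, 8784],
  [216, 2280, 7296, -3600, 44784, -34680, 56304, -21000, 22200, -6000, 3600, -1000],
  [1000, 216, 8280, 7296, 11400, 44784, -14680, 56304, -6000, 22200, 0, 3600],
  [0, 1000, 216, 2280, 6000, -2280, 8784, -1000, 3600, 0, 600, 0],
  [0, 0, 1000, 216, 2280, 6000, -2280, 8784, -1000, 3600, 0, 600]]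

def esA : Nat → List E
  | 0 => [skip .cst (.var 0) (.var 1)]
  | 1 => [dA .cst .par (.var 0) (.var 1), aA .cst .par (.var 0) (.var 1),
      rLo .cst .par (.var 0) (.var 1), rHi .cst .par (.var 0) (.var 1)]
  | 2 => [rLo .cst .par (.var 0) (.var 1), rHi .cst .par (.var 0) (.var 1)]
  | _ => [dD .cst .par (.var 0) (.var 1) Qe Be, rLo .cst .par (.var 0) (.var 1),
      rHi .cst .par (.var 0) (.var 1), idQ .cst (.var 0) (.var 1) Qe,
      idB .cst (.var 0) (.var 1) Be, idC .cst (.var 0) (.var 1) Be]

def esB : Nat → List E
  | 0 => [skip .cst (.var 0) (.var 1)]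
  | 1 => [dB .cst .par (.var 0) (.var 1), rLo .cst .par (.var 0) (.var 1),
      rHi .cst .par (.var 0) (.var 1), E.par 6 - E.cst 1]
  | _ => [rLo .cst .par (.var 0) (.var 1), rHi .cst .par (.var 0) (.var 1)]

def mE : Bool → E
  | true => .var 1
  | false => E.cst 0 - E.var 1

def gAE (s : Bool) : E :=
  gA (.var 0) (horE (nA s 0) (.var 1)) (horE (nA s 1) (.var 1)) (horE (nA s 2) (.var 1))

def gBE (s : Bool) : E :=
  gB .cst (.var 0) (horE (nB s 0) (.var 1)) (horE (nB s 1) (.var 1)) (horE (nB s 2) (.var 1))
    (horE (nB s 3) (.var 1)) (horE (nB s 4) (.var 1))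

def innA (s : Bool) : Nat → List E
  | 0 => []
  | 1 => [inA .cst .par (.var 0) (.var 1) (mE s) (gAE s)]
  | 2 => [E.cst 0 - gAE s]
  | _ => [inD .cst .par (.var 0) (.var 1) (mE s) (gAE s), inD2 .cst .par (mE s)]

def innB (s : Bool) : Nat → List E
  | 0 => []
  | 1 => [inB .cst .par (.var 0) (.var 1) (mE s) (gBE s)]
  | _ => [E.cst 0 - gBE s]

/-- Trees with an arbitrary leaf test. -/
noncomputable def runG (f : Nat → Box → Bool) (t : T) : Box → Bool :=
  T.rec (motive := fun _ => Box → Bool) (fun k _ B => f k B)
    (fun i u v _ _ l r B => band (l (setHi u v B i)) (r (setLo u v B i))) t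

/-- A majorant of the Bellman function on a range of moments. -/
structure Ent where
  kind : Nat
  ps : List Int
  tp : T
  tn : T

noncomputable def entOK (inn : Bool → Nat → List E) (I : Iv) (e : Ent) : Bool :=
  band (if 0 ≤ nth 0 e.ps 1 then runG (fun _ B => chkAll (inn true e.kind) B e.ps) e.tp
      [I, ⟨10000000, max (nth 0 e.ps 0) 0, 10000000, nth 0 e.ps 1⟩] else true)
    (if nth 0 e.ps 0 < 0 then runG (fun _ B => chkAll (inn false e.kind) B e.ps) e.tn
      [I, ⟨10000000, max (-nth 0 e.ps 1) 0, 10000000, -nth 0 e.ps 0⟩] else true)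

noncomputable def tabOK (inn : Bool → Nat → List E) (I : Iv) (tab : List Ent) : Bool :=
  List.rec (motive := fun _ => Bool) true (fun e _ ih => band (entOK inn I e) ih) tab

def ent0 : Ent := ⟨0, [], .leaf 0 [], .leaf 0 []⟩

noncomputable def allOK (es : Nat → List E) (inn : Bool → Nat → List E) (I : Iv) (tab : List Ent)
    (t : T) : Bool :=
  band (tabOK inn I tab)
    (runG (fun k B => chkAll (es (nth ent0 tab k).kind) B (nth ent0 tab k).ps) t
      [⟨1, 0, 0, 1⟩, ⟨1, 0, 0, 1⟩])

end Crest.Agent.R307.L.Base
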