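import Crest.Agent.R307.LDefs
import Crest.Agent.R307.LFamData
import Crest.Agent.Lib.PolyBB.Basic

/-! Row 307, low noise regime: all the families of multipliers are admissible. -/

set_option autoImplicit false

open Crest.CubeNoise

namespace Crest.Agent.R307.L.Fam

open Crest.Agent.Lib.PolyBB

/-- Integer constants as real numbers. -/
def ci (z : ℤ) : ℝ := z

theorem exists_tan {g : ℝ} (hg : |g| < 1) :
    ∃ x : ℝ, 0 < x ∧ g = (1 - x ^ 2) / (1 + x ^ 2) ∧ hel g = 2 * x / (1 + x ^ 2) := by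
  have h1 : g ^ 2 < 1 := (sq_lt_one_iff_abs_lt_one g).2 hg
  have h2 : 0 < 1 + g := by linarith [(abs_lt.1 hg).1]
  have hs : 0 < hel g := Real.sqrt_pos.2 (by linarith)
  have hss : hel g ^ 2 = 1 - g ^ 2 := Real.sq_sqrt (by linarith)
  have h3 : (hel g / (1 + g)) ^ 2 = (1 - g) / (1 + g) := by
    rw [div_pow, hss]
    field_simp
    ring
  refine ⟨hel g / (1 + g), by positivity, ?_, ?_⟩ <;> rw [h3] <;> field_simp <;> ring

theorem pX_pos (x : ℝ) : 0 < pX ci x := by
  simp only [pX, ci, Int.cast_one]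
  positivity

theorem pS_pos {x : ℝ} (hx : 0 < x) : 0 < pS ci x := by
  simp only [pS, ci, Int.cast_one]
  positivity

theorem one_var {g x : ℝ} (hx : 0 < x) (h1 : g = (1 - x ^ 2) / (1 + x ^ 2))
    (h2 : hel g = 2 * x / (1 + x ^ 2)) :
    zeta g = 2 * x / pX ci x ^ 2 ∧ chi g = pG ci x * pC ci x / (300 * pX ci x ^ 6) ∧
      kp g = pK ci x * (1 + x) ^ 2 / (10 * pS ci x * pX ci x ^ 3) ∧
      zz (hel g) = pZ ci x / (80000 * pS ci x * pX ci x ^ 3) := by
  have e : 1 + 2 * x / (1 + x ^ 2) = (1 + x) ^ 2 / (1 + x ^ 2) := by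
    field_simp
    ring
  simp only [zeta, chi, kp, zz, h2, e, pC, pK, pZ, pS, pG, pX, ci]
  rw [h1]
  push_cast
  refine ⟨?_, ?_, ?_, ?_⟩ <;> field_simp <;> ring

theorem of_qq {P : ℕ → ℝ} {g h x y t : ℝ} (hx : 0 < x) (h1 : g = (1 - x ^ 2) / (1 + x ^ 2))
    (h2 : hel g = 2 * x / (1 + x ^ 2)) (hy : 0 < y) (h3 : h = (1 - y ^ 2) / (1 + y ^ 2))
    (h4 : hel h = 2 * y / (1 + y ^ 2)) (hq : 0 ≤ qq ci P x y t) :
    t * (chi h - chi g) / 2 ≤ eP g h + (P 1 / 10000 * t ^ 2 - P 0 / 200 * t) * zeta g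
      + (P 2 / 10000 * t ^ 2 + P 0 / 200 * t) * zeta h := by
  obtain ⟨a1, a2, a3, a4⟩ := one_var hx h1 h2
  obtain ⟨b1, b2, b3, b4⟩ := one_var hy h3 h4
  have e : 1 - g * h - hel g * hel h = 2 * (x - y) ^ 2 / (pX ci x * pX ci y) := by
    rw [h2, h4, h1, h3]
    simp only [pX, ci, Int.cast_one]
    field_simp
    ring
  have g1 : g = pG ci x / pX ci x := by simpa [pG, pX, ci] using h1
  have g2 : h = pG ci y / pX ci y := by simpa [pG, pX, ci] using h3
  have X := pX_pos x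
  have Y := pX_pos y
  have S := pS_pos hx
  have T := pS_pos hy
  have key : eP g h + (P 1 / 10000 * t ^ 2 - P 0 / 200 * t) * zeta g
      + (P 2 / 10000 * t ^ 2 + P 0 / 200 * t) * zeta h - t * (chi h - chi g) / 2
      = qq ci P x y t / (480000 * (pS ci x * pX ci x ^ 6) * (pS ci y * pX ci y ^ 6)) := by
    rw [eP, e, a1, a2, a3, a4, b1, b2, b3, b4, g1, g2]
    simp only [qq, En, An, Bn, pW, pF, ci]
    push_cast
    field_simp
    ring
  have : 0 ≤ qq ci P x y t / (480000 * (pS ci x * pX ci x ^ 6) * (pS ci y * pX ci y ^ 6)) := by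
    positivity
  linarith

theorem Bn_eq (P : ℕ → ℝ) (x y : ℝ) : Bn ci P x y = 2 * (y - x) * B1 ci P x y := by
  simp only [Bn, B1, pW, Phi, s1, s2, s3, pC, pG, pX, ci]
  push_cast
  ring

theorem quad_nonneg {a b c d t : ℝ} (ha : 0 ≤ a) (hc : 0 ≤ c) (h : b ^ 2 ≤ a * c) :
    0 ≤ a * d ^ 2 - 2 * b * d * t + c * t ^ 2 := by
  have h1 : 0 ≤ a * d ^ 2 + c * t ^ 2 := by positivity
  have h2 : (2 * b * d * t) ^ 2 ≤ (a * d ^ 2 + c * t ^ 2) ^ 2 := by
    nlinarith [mul_le_mul_of_nonneg_right h (sq_nonneg (d * t)), sq_nonneg (a * d ^ 2 - c * t ^ 2)]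
  linarith [(abs_le_of_sq_le_sq' h2 h1).2]

theorem es_sound {a b : E} {X : ℕ → ℝ} {p : ℕ → ℤ} (hx : 0 < a.eval X p) (hy : 0 < b.eval X p)
    {k : ℕ} (h : ∀ e ∈ es a b k, 0 ≤ e.eval X p) :
    0 ≤ qq ci (fun j => p j) (a.eval X p) (b.eval X p) (X 2) := by
  have x1 := pX_pos (a.eval X p)
  have y1 := pX_pos (b.eval X p)
  have S := pS_pos hx
  have T := pS_pos hy
  rcases k with _ | _ | k
  · have h1 : 0 ≤ An ci (fun j => p j) (a.eval X p) (b.eval X p) :=
      h (An .cst .par a b) (by simp [es])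
    have h2 : 0 ≤ En ci (a.eval X p) (b.eval X p) := h (En .cst a b) (by simp [es])
    have h3 : 0 ≤ disc ci (fun j => p j) (a.eval X p) (b.eval X p) :=
      h (disc .cst .par a b) (by simp [es])
    generalize a.eval X p = x at *
    generalize b.eval X p = y at *
    rw [qq, Bn_eq]
    rw [disc] at h3
    simp only [ci] at h3 ⊢
    push_cast at h3 ⊢
    have := quad_nonneg (a := 3 * (pX ci x * pX ci y) * En ci x y)
      (b := 800 * (pS ci x * pS ci y) * B1 ci (fun j => p j) x y)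
      (c := 96 * (pS ci x * pS ci y) * (An ci (fun j => p j) x y * (pX ci x ^ 4 * pX ci y ^ 4)))
      (d := y - x) (t := X 2) (by positivity) (by positivity)
      (by linarith [mul_nonneg (mul_pos S T).le h3])
    linarith
  · have h1 : 0 ≤ An ci (fun j => p j) (a.eval X p) (b.eval X p) :=
      h (An .cst .par a b) (by simp [es])
    have h2 : 0 ≤ En ci (a.eval X p) (b.eval X p) := h (En .cst a b) (by simp [es])
    have h3 : 0 ≤ ci 0 - Bn ci (fun j => p j) (a.eval X p) (b.eval X p) :=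
      h (E.cst 0 - Bn .cst .par a b) (by simp [es])
    have h4 : 0 ≤ X 2 := h (.var 2) (by simp [es])
    rw [qq]
    simp only [ci] at h3 ⊢
    push_cast at h3 ⊢
    refine add_nonneg (by positivity) (mul_nonneg h4 (mul_nonneg (by positivity) ?_))
    have : 0 ≤ 96 * X 2 * (An ci (fun j => p j) (a.eval X p) (b.eval X p) *
      (pX ci (a.eval X p) ^ 4 * pX ci (b.eval X p) ^ 4)) := by positivity
    linarith
  · exact h (qq .cst .par a b (.var 2)) (by simp [es])

theorem fam_sound {f : Fm} {τ : Tr} (h : famChk f τ = true) : FamOK f := by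
  simp only [famChk, band_eq_true] at h
  obtain ⟨hA, ⟨hB0, hC0⟩, hB1, hC1⟩ := h
  intro t t1 t2 g g' hg hg'
  obtain ⟨x, hx, x1, x2⟩ := exists_tan hg
  obtain ⟨y, hy, y1, y2⟩ := exists_tan hg'
  have ht : (tIv f).mem t := by
    unfold tIv
    split_ifs with h0
    · simpa [mul_comm] using t1
    · simpa [mul_comm] using And.intro t1 (t2.resolve_left h0)
  suffices ∃ p : ℕ → ℤ, (∀ j < 3, p j = [f.1, f.2.1, f.2.2.1].getD j 0) ∧
      0 ≤ qq ci (fun j => p j) x y t by
    obtain ⟨p, hp, hq⟩ := this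
    simpa [hp 0, hp 1, hp 2] using of_qq hx x1 x2 hy y1 y2 hq
  have cB : ∀ {T I J}, run esB T [I, J, tIv f] [f.1, f.2.1, f.2.2.1] = true → I.mem x →
      J.mem (y / x) → ∃ p : ℕ → ℤ, (∀ j < 3, p j = [f.1, f.2.1, f.2.2.1].getD j 0) ∧
        0 ≤ qq ci (fun j => p j) x y t := fun h hI hJ => by
    obtain ⟨k, p, hp, h⟩ := (Holds.of_run h).elim (x := pt [x, y / x, t]) (by
      simp only [Box.mem_cons_pt, hI, hJ, ht, Box.mem_nil, and_true])
    have e : (E.var 0 * E.var 1).eval (pt [x, y / x, t]) p = y := mul_div_cancel₀ _ hx.ne'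
    have := es_sound (a := .var 0) (X := pt [x, y / x, t]) hx (hy.trans_eq e.symm) h
    rw [e] at this
    exact ⟨p, hp, this⟩
  have cC : ∀ {T I J}, run esC T [I, J, tIv f] [f.1, f.2.1, f.2.2.1] = true → I.mem y →
      J.mem (x / y) → ∃ p : ℕ → ℤ, (∀ j < 3, p j = [f.1, f.2.1, f.2.2.1].getD j 0) ∧
        0 ≤ qq ci (fun j => p j) x y t := fun h hI hJ => by
    obtain ⟨k, p, hp, h⟩ := (Holds.of_run h).elim (x := pt [y, x / y, t]) (by
      simp only [Box.mem_cons_pt, hI, hJ, ht, Box.mem_nil, and_true])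
    have e : (E.var 0 * E.var 1).eval (pt [y, x / y, t]) p = x := mul_div_cancel₀ _ hy.ne'
    have := es_sound (b := .var 0) (X := pt [y, x / y, t]) (hx.trans_eq e.symm) hy h
    rw [e] at this
    exact ⟨p, hp, this⟩
  obtain ⟨k, p, hp, h⟩ := (Holds.of_run hA).elim (x := pt [x, y, t]) (by
    simp [ht, hx.le, hy.le])
  rcases k with _ | _ | k
  · have h1 : 0 ≤ ci 1 - ci 8 * x := h (E.cst 1 - E.cst 8 * E.var 0) (by simp [esA])
    have h2 : 0 ≤ ci 1 - ci 8 * y := h (E.cst 1 - E.cst 8 * E.var 1) (by simp [esA])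
    simp only [ci] at h1 h2
    push_cast at h1 h2
    rcases le_total y x with h | h
    · exact cB hB0 (by simp [hx.le]; linarith) (by simp [div_le_one hx, h]; positivity)
    · exact cC hC0 (by simp [hy.le]; linarith) (by simp [div_le_one hy, h]; positivity)
  · have h1 : 0 ≤ x - ci 8 := h (E.var 0 - E.cst 8) (by simp [esA])
    have h2 : 0 ≤ y - ci 8 := h (E.var 1 - E.cst 8) (by simp [esA])
    simp only [ci] at h1 h2
    push_cast at h1 h2
    rcases le_total x y with h | h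
    · exact cB hB1 (by simp; linarith) (by simp [one_le_div hx, h])
    · exact cC hC1 (by simp; linarith) (by simp [one_le_div hy, h])
  · exact ⟨p, hp, es_sound (a := .var 0) (b := .var 1) (X := pt [x, y, t]) hx hy h⟩

theorem all_sound : ∀ {fs : List Fm} {ts : List Tr}, allChk fs ts = true → ∀ f ∈ fs, FamOK f
  | [], _, _ => by simp
  | _ :: _, [], h => absurd h (by simp [allChk])
  | _ :: _, _ :: _, h => by
    obtain ⟨h1, h2⟩ := band_eq_true.1 h
    exact List.forall_mem_cons.2 ⟨fam_sound h1, all_sound h2⟩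

end Crest.Agent.R307.L.Fam

theorem Crest.Agent.R307.L.fams_ok : Crest.Agent.R307.L.Fams :=
  Crest.Agent.R307.L.Fam.all_sound Crest.Agent.R307.L.Fam.all_ok
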