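import Crest.Agent.R307.LDefs
import Crest.Agent.R307.Cube
import Crest.Agent.R307.Noise

/-! Row 307, low noise regime: `RegL` from the interface claims (Bellman induction on the cube). -/

set_option autoImplicit false

open Crest.CubeNoise

namespace Crest.Agent.R307.L

/-! ### Pointwise facts -/

theorem hel_nonneg (g : ℝ) : 0 ≤ hel g := Real.sqrt_nonneg _

theorem hel_le_one (g : ℝ) : hel g ≤ 1 := Real.sqrt_le_one.2 (by nlinarith [sq_nonneg g])

theorem hel_pos {g : ℝ} (hg : |g| < 1) : 0 < hel g :=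
  Real.sqrt_pos.2 (sub_pos.2 ((sq_lt_one_iff_abs_lt_one g).2 hg))

theorem hel_sq {g : ℝ} (hg : |g| ≤ 1) : hel g ^ 2 = 1 - g ^ 2 :=
  Real.sq_sqrt (sub_nonneg.2 ((sq_le_one_iff_abs_le_one g).2 hg))

theorem hel_neg (g : ℝ) : hel (-g) = hel g := by simp [hel]

theorem zeta_nonneg {g : ℝ} (hg : |g| ≤ 1) : 0 ≤ zeta g := by
  have h1 := hel_nonneg g
  have h2 : 0 ≤ 1 + g := by linarith [(abs_le.1 hg).1]
  unfold zeta
  positivity

theorem zeta_add_neg (g : ℝ) : zeta g + zeta (-g) = hel g := by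
  simp only [zeta, hel_neg]
  ring

theorem chi_neg (g : ℝ) : chi (-g) = -chi g := by
  simp only [chi, hel_neg]
  ring

theorem chiBd : ChiBd := by
  intro g hg
  have h0 := hel_nonneg g
  have h1 := hel_le_one g
  have h2 := hel_sq hg.le
  rw [← sq_le_one_iff_abs_le_one]
  unfold chi
  generalize hel g = a at h0 h1 h2
  have hg2 : g ^ 2 = 1 - a ^ 2 := by linarith
  have key : 0 ≤ 5 / 6 + 9 / 100 * a - 3 / 20 * a ^ 2 + 1463 / 3600 * a ^ 3 - 11 / 40 * a ^ 4
      + 709 / 2500 * a ^ 5 - 961 / 3000 * a ^ 6 + 6067 / 30000 * a ^ 7 - 11 / 125 * a ^ 8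
      + 4 / 225 * a ^ 9 := by
    have e2 := pow_le_one₀ (n := 2) h0 h1
    have e4 := pow_le_one₀ (n := 4) h0 h1
    have e6 := pow_le_one₀ (n := 6) h0 h1
    have e8 := pow_le_one₀ (n := 8) h0 h1
    have e3 := pow_nonneg h0 3
    have e5 := pow_nonneg h0 5
    have e7 := pow_nonneg h0 7
    have e9 := pow_nonneg h0 9
    linarith
  have h3 := mul_nonneg (pow_nonneg h0 3) key
  rw [mul_pow, hg2]
  linarith [h3]

theorem eP_comm (g h : ℝ) : eP g h = eP h g := by
  unfold eP
  ring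

theorem eP_self {g : ℝ} (hg : |g| ≤ 1) : eP g g = 0 := by
  have h := hel_sq hg
  have h2 : 1 - g * g - hel g * hel g = 0 := by linarith
  rw [eP, h2, mul_zero, zero_div]

theorem kp_add_neg (g : ℝ) : kp g + kp (-g) = 1 / hel g := by
  simp only [kp, hel_neg]
  ring

theorem eP_add_neg {g h : ℝ} (hg : |g| < 1) (hh : |h| < 1) :
    eP g h + eP (-g) (-h) = eH g h := by
  have ha := hel_pos hg
  have hb := hel_pos hh
  have h1 := hel_sq hg.le
  have h2 := hel_sq hh.le
  have e1 : eP g h + eP (-g) (-h) =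
      (kp g + kp (-g) + (kp h + kp (-h))) * (1 - g * h - hel g * hel h) / 4 := by
    simp only [eP, hel_neg]
    ring
  rw [e1, kp_add_neg, kp_add_neg, eH, edge]
  generalize hel g = a at ha h1
  generalize hel h = b at hb h2
  field_simp
  linear_combination (-b) * h1 - a * h2

theorem fam0_mem : ((130, 1815, 2500, 0, 10) : ℤ × ℤ × ℤ × ℤ × ℤ) ∈ fams := by decide

theorem eP_nonneg (hF : Fams) {g h : ℝ} (hg : |g| < 1) (hh : |h| < 1) : 0 ≤ eP g h := by
  have h1 := hF _ fam0_mem 0 (by norm_num) (Or.inr (by norm_num)) g h hg hh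
  simpa using h1

/-! ### The lower bound predicate -/

theorem LB_mono {lam lam' M v v' : ℝ} (h1 : lam ≤ lam') (h2 : v' ≤ v) (h : LB lam M v) :
    LB lam' M v' := by
  rcases h with ⟨a, b⟩ | ⟨u, a, b, c⟩ | ⟨y, a, b, c, d⟩
  · exact Or.inl ⟨a.trans h1, h2.trans b⟩
  · exact Or.inr (Or.inl ⟨u, a, b.trans h1, h2.trans c⟩)
  · exact Or.inr (Or.inr ⟨y, a, b, c.trans h1, h2.trans d⟩)

theorem LB_zero {lam M v : ℝ} (h1 : 0 ≤ lam) (h2 : v ≤ 0) : LB lam M v := Or.inl ⟨h1, h2⟩

theorem LB_A {lam M v u : ℝ} (h1 : 2 ≤ u) (h2 : 1 + u ^ 2 ≤ lam) (h3 : v ≤ GA u M) :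
    LB lam M v := Or.inr (Or.inl ⟨u, h1, h2, h3⟩)

theorem GB_le_GA (h : CmpUp) {u M : ℝ} (h1 : 7 / 5 ≤ u) (h2 : u ≤ 7 / 3) (hM : |M| ≤ 1) :
    GB ((u ^ 2 - 4) / 5) M ≤ GA u M := by
  have hM' := abs_le.1 hM
  rcases le_total 0 M with h0 | h0
  · rw [GA_pos h0, GB_pos h0]
    exact h true u M h1 h2 h0 hM'.2
  · have h3 : 0 ≤ -M := by linarith
    have := h false u (-M) h1 h2 h3 (by linarith)
    rwa [← GA_neg h3, ← GB_neg h3, neg_neg] at this

theorem LB_B (h : CmpUp) {lam M v y : ℝ} (h1 : -1 ≤ y) (h2 : y ≤ 13 / 45)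
    (h3 : 5 * (1 + y) ≤ lam) (hM : |M| ≤ 1) (h4 : v ≤ GB y M) : LB lam M v := by
  rcases le_total y 0 with h0 | h0
  · exact Or.inr (Or.inr ⟨y, h1, h0, h3, h4⟩)
  · have hs : Real.sqrt (4 + 5 * y) ^ 2 = 4 + 5 * y := Real.sq_sqrt (by linarith)
    have hl : 2 ≤ Real.sqrt (4 + 5 * y) := Real.le_sqrt_of_sq_le (by linarith)
    have hu : Real.sqrt (4 + 5 * y) ≤ 7 / 3 := Real.sqrt_le_iff.2 ⟨by norm_num, by linarith⟩
    have h5 := GB_le_GA h (M := M) (le_trans (by norm_num) hl) hu hM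
    have h6 : (Real.sqrt (4 + 5 * y) ^ 2 - 4) / 5 = y := by rw [hs]; ring
    rw [h6] at h5
    exact LB_A hl (by rw [hs]; linarith) (h4.trans h5)

/-! ### The Bellman induction -/

/-- The claim that is proved by induction on the dimension. -/
def Claim (n : ℕ) (g : Cube n → ℝ) : Prop :=
  ∀ lam v : ℝ, LB lam (cubeAverage fun x => chi (g x)) v →
    v ≤ dir eP g + lam * cubeAverage (fun x => zeta (g x))

theorem avg_zeta_nonneg {n : ℕ} {g : Cube n → ℝ} (hg : ∀ x, |g x| < 1) :
    0 ≤ cubeAverage (fun x => zeta (g x)) :=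
  (avg_const 0).ge.trans (avg_mono fun x => zeta_nonneg (hg x).le)

theorem dir_eP_nonneg (hF : Fams) {n : ℕ} {g : Cube n → ℝ} (hg : ∀ x, |g x| < 1) :
    0 ≤ dir eP g :=
  (avg_const 0).ge.trans
    (avg_mono fun x => Finset.sum_nonneg fun _ _ => eP_nonneg hF (hg x) (hg _))

theorem abs_avg_chi_le {n : ℕ} {g : Cube n → ℝ} (hg : ∀ x, |g x| < 1) :
    |cubeAverage fun x => chi (g x)| ≤ 1 :=
  abs_le.2 ⟨(avg_const (-1)).ge.trans (avg_mono fun x => (abs_le.1 (chiBd _ (hg x))).1),
    (avg_mono fun x => (abs_le.1 (chiBd _ (hg x))).2).trans (avg_const 1).le⟩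

theorem claim_of (hF : Fams) {n : ℕ} {g : Cube n → ℝ} (hg : ∀ x, |g x| < 1)
    (hA : ∀ u : ℝ, 2 ≤ u → GA u (cubeAverage fun x => chi (g x)) ≤
      dir eP g + (1 + u ^ 2) * cubeAverage (fun x => zeta (g x)))
    (hB : ∀ y : ℝ, -1 ≤ y → y ≤ 0 → GB y (cubeAverage fun x => chi (g x)) ≤
      dir eP g + 5 * (1 + y) * cubeAverage (fun x => zeta (g x))) : Claim n g := by
  have h1 := avg_zeta_nonneg hg
  have h2 := dir_eP_nonneg hF hg
  intro lam v h
  rcases h with ⟨a, b⟩ | ⟨u, a, b, c⟩ | ⟨y, a, b, c, d⟩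
  · have := mul_nonneg a h1
    linarith
  · have := mul_le_mul_of_nonneg_right b h1
    linarith [hA u a]
  · have := mul_le_mul_of_nonneg_right c h1
    linarith [hB y a b]

theorem step_core {n : ℕ} {g0 g1 : Cube n → ℝ} (h0 : ∀ x, |g0 x| < 1) (h1 : ∀ x, |g1 x| < 1)
    (c0 : Claim n g0) (c1 : Claim n g1) {lam v : ℝ}
    (h : StepAt lam (((cubeAverage fun x => chi (g0 x)) + cubeAverage fun x => chi (g1 x)) / 2)
      (((cubeAverage fun x => chi (g1 x)) - cubeAverage fun x => chi (g0 x)) / 2) v) :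
    v ≤ (dir eP g0 + dir eP g1) / 2 + cubeAverage (fun x => eP (g0 x) (g1 x))
      + lam * ((cubeAverage (fun x => zeta (g0 x)) + cubeAverage (fun x => zeta (g1 x))) / 2) := by
  obtain ⟨t, n0, n1, v0, v1, hV, l0, l1, hv⟩ := h
  have e0 := c0 (lam - 2 * n0) v0 (by convert l0 using 1; ring)
  have e1 := c1 (lam - 2 * n1) v1 (by convert l1 using 1; ring)
  have e2 := avg_mono (n := n) (g := fun x => t / 2 * (chi (g1 x) - chi (g0 x)))
    (h := fun x => eP (g0 x) (g1 x) + n0 * zeta (g0 x) + n1 * zeta (g1 x)) fun x => by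
      have := hV _ _ (h0 x) (h1 x)
      linarith
  rw [avg_mul_left, avg_sub, avg_add, avg_add, avg_mul_left, avg_mul_left] at e2
  nlinarith

theorem step_two (sA : StepA) (sB : StepB) {n : ℕ} {g0 g1 : Cube n → ℝ} (h0 : ∀ x, |g0 x| < 1)
    (h1 : ∀ x, |g1 x| < 1) (c0 : Claim n g0) (c1 : Claim n g1)
    (hle : (cubeAverage fun x => chi (g0 x)) ≤ cubeAverage fun x => chi (g1 x))
    (hd : (cubeAverage fun x => chi (g1 x)) - (cubeAverage fun x => chi (g0 x)) ≤ 1) :
    (∀ u : ℝ, 2 ≤ u →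
      GA u (((cubeAverage fun x => chi (g0 x)) + cubeAverage fun x => chi (g1 x)) / 2) ≤
      (dir eP g0 + dir eP g1) / 2 + cubeAverage (fun x => eP (g0 x) (g1 x)) + (1 + u ^ 2) *
        ((cubeAverage (fun x => zeta (g0 x)) + cubeAverage (fun x => zeta (g1 x))) / 2)) ∧
    (∀ y : ℝ, -1 ≤ y → y ≤ 0 →
      GB y (((cubeAverage fun x => chi (g0 x)) + cubeAverage fun x => chi (g1 x)) / 2) ≤
      (dir eP g0 + dir eP g1) / 2 + cubeAverage (fun x => eP (g0 x) (g1 x)) + 5 * (1 + y) *
        ((cubeAverage (fun x => zeta (g0 x)) + cubeAverage (fun x => zeta (g1 x))) / 2)) := by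
  have b0 := abs_le.1 (abs_avg_chi_le h0)
  have b1 := abs_le.1 (abs_avg_chi_le h1)
  have hM : |((cubeAverage fun x => chi (g0 x)) + cubeAverage fun x => chi (g1 x)) / 2|
      + ((cubeAverage fun x => chi (g1 x)) - cubeAverage fun x => chi (g0 x)) / 2 ≤ 1 := by
    rcases abs_cases (((cubeAverage fun x => chi (g0 x)) + cubeAverage fun x => chi (g1 x)) / 2)
      with h | h <;> linarith [h.1]
  exact ⟨fun u hu => step_core h0 h1 c0 c1 (sA u _ _ hu (by linarith) (by linarith) hM),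
    fun y a b => step_core h0 h1 c0 c1 (sB y _ _ a b (by linarith) (by linarith) hM)⟩

theorem avg_comp_split {n : ℕ} (i : Fin (n + 1)) (φ : ℝ → ℝ) (g : Cube (n + 1) → ℝ) :
    cubeAverage (fun x => φ (g x)) = (cubeAverage (fun x => φ (face i false g x))
      + cubeAverage (fun x => φ (face i true g x))) / 2 :=
  avg_split i fun x => φ (g x)

theorem bellman (hF : Fams) (hA : BaseA) (hB : BaseB) (sA : StepA) (sB : StepB) :
    ∀ (n : ℕ) (g : Cube n → ℝ), (∀ x, |g x| < 1) → ∀ lam v : ℝ,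
      LB lam (cubeAverage fun x => chi (g x)) v →
        v ≤ dir eP g + lam * cubeAverage (fun x => zeta (g x)) := by
  refine cube_induct (fun u => |u| < 1) chi chiBd Claim ?_ ?_ ?_
  · intro g hg
    have e := eP_self (hg default).le
    refine claim_of hF hg (fun u hu => ?_) fun y a b => ?_
    · have := hA u _ _ hu (hg default) (hg default)
      rw [e, add_self_div_two] at this
      rw [avg_zero, avg_zero, dir_zero]
      linarith
    · have := hB y _ _ a b (hg default) (hg default)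
      rw [e, add_self_div_two] at this
      rw [avg_zero, avg_zero, dir_zero]
      linarith
  · intro g hg
    have a0 : |face 0 false g default| < 1 := hg _
    have a1 : |face 0 true g default| < 1 := hg _
    refine claim_of hF hg (fun u hu => ?_) fun y a b => ?_
    · have := hA u _ _ hu a0 a1
      rw [avg_comp_split 0 chi, avg_comp_split 0 zeta, dir_split eP eP_comm 0]
      simp only [avg_zero, dir_zero]
      linarith
    · have := hB y _ _ a b a0 a1
      rw [avg_comp_split 0 chi, avg_comp_split 0 zeta, dir_split eP eP_comm 0]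
      simp only [avg_zero, dir_zero]
      linarith
  · intro n g i hg hd c0 c1
    have a0 : ∀ x, |face i false g x| < 1 := fun x => hg _
    have a1 : ∀ x, |face i true g x| < 1 := fun x => hg _
    have hd' := abs_le.1 hd
    rcases le_total (cubeAverage fun x => chi (face i false g x))
      (cubeAverage fun x => chi (face i true g x)) with hle | hle
    · obtain ⟨kA, kB⟩ := step_two sA sB a0 a1 c0 c1 hle hd'.2
      refine claim_of hF hg (fun u hu => ?_) fun y a b => ?_
      · rw [avg_comp_split i chi, avg_comp_split i zeta, dir_split eP eP_comm i]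
        exact kA u hu
      · rw [avg_comp_split i chi, avg_comp_split i zeta, dir_split eP eP_comm i]
        exact kB y a b
    · obtain ⟨kA, kB⟩ := step_two sA sB a1 a0 c1 c0 hle (by linarith [hd'.1])
      simp only [eP_comm (face i true g _)] at kA kB
      refine claim_of hF hg (fun u hu => ?_) fun y a b => ?_
      · rw [avg_comp_split i chi, avg_comp_split i zeta, dir_split eP eP_comm i,
          add_comm (cubeAverage fun x => chi (face i false g x))]
        linarith [kA u hu]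
      · rw [avg_comp_split i chi, avg_comp_split i zeta, dir_split eP eP_comm i,
          add_comm (cubeAverage fun x => chi (face i false g x))]
        linarith [kB y a b]

/-! ### The top level -/

theorem dir_eH_eq {n : ℕ} {g : Cube n → ℝ} (hg : ∀ x, |g x| < 1) :
    dir eH g = dir eP g + dir eP (fun x => -g x) := by
  unfold dir
  rw [← avg_add]
  congr 1
  funext x
  rw [← Finset.sum_add_distrib]
  exact Finset.sum_congr rfl fun i _ => (eP_add_neg (hg x) (hg _)).symm

theorem regL_of (hF : Fams) (hA : BaseA) (hB : BaseB) (sA : StepA) (sB : StepB) (hT : Top) :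
    RegL := by
  intro n f ρ hs hm h0 h1 hg hm0 hlt
  have hρ : |ρ| < 1 := by rw [abs_of_pos h0]; exact h1
  have hav := avg_noise ρ (sgn f)
  generalize noise ρ (sgn f) = g at hg hlt hav
  have hg' : ∀ x, |-g x| < 1 := fun x => by rw [abs_neg]; exact hg x
  obtain ⟨lp, lm, vp, vm, k0, k1, k2, k3, hk2, l0, l1, hpt, hfin⟩ :=
    hT (hel ρ) _ _ (hel_pos hρ) hm0 hm hs (abs_avg_chi_le hg)
  have e0 := bellman hF hA hB sA sB n g hg lp vp l0
  have hneg : (cubeAverage fun x => chi (-g x)) = -cubeAverage fun x => chi (g x) := by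
    have := avg_mul_left (-1) fun x => chi (g x)
    simpa only [chi_neg, neg_one_mul] using this
  have e1 := bellman hF hA hB sA sB n (fun x => -g x) hg' lm vm (by rw [hneg]; exact l1)
  have e2 := avg_mono (n := n) (g := fun x => lp * zeta (g x) + lm * zeta (-g x))
    (h := fun x => k0 + k1 * g x + k2 * hel (g x) + k3 * chi (g x)) fun x => hpt _ (hg x)
  rw [avg_add, avg_add, avg_add, avg_add, avg_mul_left, avg_mul_left, avg_mul_left, avg_mul_left,
    avg_mul_left, avg_const] at e2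
  have e3 := mul_le_mul_of_nonneg_left hlt.le hk2
  have e4 : ρ ^ 2 = 1 - hel ρ ^ 2 := by rw [hel_sq hρ.le]; ring
  have e5 : (cubeAverage fun x => g x) = cubeAverage (sgn f) := hav
  rw [e5] at e2
  rw [e4, dir_eH_eq hg]
  linarith

end Crest.Agent.R307.L
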