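import Crest.Agent.R307.LBaseDef
import Crest.Agent.R307.LFam
import Crest.Agent.R307.LGlue

/-! Row 307, low noise regime: soundness of the checker for `BaseA`, `BaseB`. -/

set_option autoImplicit false

open Crest.CubeNoise

namespace Crest.Agent.R307.L.Base

open Crest.Agent.Lib.PolyBB Crest.Agent.R307.L.Fam

theorem runG_sound {f : ℕ → Box → Bool} {t : T} {B : Box} (h : runG f t B = true) {x : ℕ → ℝ}
    (hx : B.mem x) : ∃ k B', B'.mem x ∧ f k B' = true := by
  induction t generalizing B with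
  | leaf k ps => exact ⟨k, B, hx, h⟩
  | split i u v l r ihl ihr =>
    obtain ⟨h1, h2⟩ := band_eq_true.mp h
    exact (mem_setHi_or_setLo u v i hx).elim (ihl h1) (ihr h2)

theorem entOK_sound {inn : Bool → ℕ → List E} {I : Iv} {e : Ent} (h : entOK inn I e = true)
    {t M : ℝ} (ht : I.mem t) (h0 : (e.ps.getD 0 0 : ℤ) ≤ 10000000 * M)
    (h1 : 10000000 * M ≤ (e.ps.getD 1 0 : ℤ)) :
    ∃ (s : Bool) (x : ℝ), 0 ≤ x ∧ M = (if s then x else -x) ∧
      ∀ f ∈ inn s e.kind, 0 ≤ f.eval (pt [t, x]) (fun j => e.ps.getD j 0) := by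
  simp only [entOK, band_eq_true, nth_eq] at h
  obtain ⟨hp, hn⟩ := h
  generalize e.ps.getD 0 0 = lo at hp hn h0
  generalize e.ps.getD 1 0 = hi at hp hn h1
  rcases le_or_gt 0 M with hM | hM
  · have : (0 : ℝ) ≤ hi := by linarith
    rw [if_pos (by exact_mod_cast this)] at hp
    obtain ⟨k, B, hB, hc⟩ := runG_sound hp (x := pt [t, M]) (by
      simp only [Box.mem_cons_pt, Iv.mem_mk, Box.mem_nil, and_true, ht, true_and]
      push_cast
      exact ⟨max_le (by linarith) (by linarith), by linarith⟩)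
    exact ⟨true, M, hM, rfl, chkAll_sound hc hB⟩
  · have : (lo : ℝ) < 0 := by linarith
    rw [if_pos (by exact_mod_cast this)] at hn
    obtain ⟨k, B, hB, hc⟩ := runG_sound hn (x := pt [t, -M]) (by
      simp only [Box.mem_cons_pt, Iv.mem_mk, Box.mem_nil, and_true, ht, true_and]
      push_cast
      exact ⟨max_le (by linarith) (by linarith), by linarith⟩)
    exact ⟨false, -M, by linarith, by simp, chkAll_sound hc hB⟩

theorem tabOK_sound {inn : Bool → ℕ → List E} {I : Iv} :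
    ∀ {tab : List Ent}, tabOK inn I tab = true → ∀ e ∈ tab, entOK inn I e = true
  | [], _ => by simp
  | _ :: _, h => by
    obtain ⟨h1, h2⟩ := band_eq_true.1 h
    exact List.forall_mem_cons.2 ⟨h1, tabOK_sound h2⟩

theorem allOK_sound {es : ℕ → List E} {inn : Bool → ℕ → List E} {I : Iv} {tab : List Ent} {t : T}
    (h : allOK es inn I tab t = true) {x y : ℝ} (hx : 0 ≤ x) (hy : 0 ≤ y) :
    ∃ e : Ent, (e.kind = 0 ∨ entOK inn I e = true) ∧
      ∀ f ∈ es e.kind, 0 ≤ f.eval (pt [x, y]) (fun j => e.ps.getD j 0) := by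
  obtain ⟨h1, h2⟩ := band_eq_true.1 h
  obtain ⟨k, B, hB, hc⟩ := runG_sound h2 (x := pt [x, y]) (by simp [hx, hy])
  refine ⟨nth ent0 tab k, ?_, chkAll_sound hc hB⟩
  rw [nth_eq]
  rcases lt_or_ge k tab.length with hk | hk
  · rw [List.getD_eq_getElem _ _ hk]
    exact Or.inr (tabOK_sound h1 _ (List.getElem_mem hk))
  · rw [List.getD_eq_default _ _ hk]
    exact Or.inl rfl

/-- The quantities `Z`, `e`, `M` in terms of the half angle tangents. -/
structure Rep (x y Z e M : ℝ) : Prop where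
  hx : 0 < x
  hxy : x ≤ y
  hZ : Zn ci x y = Z * (pX ci x * pX ci y) ^ 2
  hM : Mn ci x y = 600 * M * (pX ci x * pX ci y) ^ 6
  hE : Ed ci x y = 160000 * e * Sn ci x y * (pX ci x * pX ci y) ^ 5
  he : 0 ≤ e

theorem rep_of {g h x y : ℝ} (hg : |g| < 1) (hh : |h| < 1) (hx : 0 < x) (hxy : x ≤ y)
    (h1 : g = (1 - x ^ 2) / (1 + x ^ 2)) (h2 : hel g = 2 * x / (1 + x ^ 2))
    (h3 : h = (1 - y ^ 2) / (1 + y ^ 2)) (h4 : hel h = 2 * y / (1 + y ^ 2)) :
    Rep x y ((zeta g + zeta h) / 2) (eP g h) ((chi g + chi h) / 2) := by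
  have hy := hx.trans_le hxy
  obtain ⟨a1, a2, a3, a4⟩ := one_var hx h1 h2
  obtain ⟨b1, b2, b3, b4⟩ := one_var hy h3 h4
  have e : 1 - g * h - hel g * hel h = 2 * (x - y) ^ 2 / (pX ci x * pX ci y) := by
    rw [h2, h4, h1, h3]
    simp only [pX, ci, Int.cast_one]
    field_simp
    ring
  have g1 : g = pG ci x / pX ci x := by simpa [pG, pX, ci] using h1
  have g2 : h = pG ci y / pX ci y := by simpa [pG, pX, ci] using h3
  have X := pX_pos x
  have Y := pX_pos y
  have S := pS_pos hx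
  have T := pS_pos hy
  refine ⟨hx, hxy, ?_, ?_, ?_, eP_nonneg fams_ok hg hh⟩
  · rw [a1, b1, Zn]
    field_simp
  · rw [a2, b2, Mn]
    field_simp
    ring
  · rw [eP, e, a3, a4, b3, b4, g1, g2]
    simp only [Ed, En, Sn, pF, ci]
    push_cast
    field_simp
    ring

theorem of_rep {C : ℝ → ℝ → ℝ → Prop} (H : ∀ x y Z e M, Rep x y Z e M → C Z e M) {g h : ℝ}
    (hg : |g| < 1) (hh : |h| < 1) :
    C ((zeta g + zeta h) / 2) (eP g h) ((chi g + chi h) / 2) := by
  obtain ⟨x, hx, x1, x2⟩ := exists_tan hg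
  obtain ⟨y, hy, y1, y2⟩ := exists_tan hh
  rcases le_total x y with hxy | hxy
  · exact H _ _ _ _ _ (rep_of hg hh hx hxy x1 x2 y1 y2)
  · rw [add_comm (zeta g), add_comm (chi g), eP_comm]
    exact H _ _ _ _ _ (rep_of hh hg hy hxy y1 y2 x1 x2)

theorem Wk_eq (x y : ℝ) (k : ℕ) : Wk ci x y k = (pX ci x * pX ci y) ^ k := (mul_pow _ _ _).symm

theorem W_pos (x y : ℝ) : 0 < pX ci x * pX ci y := mul_pos (pX_pos x) (pX_pos y)

namespace Rep

variable {x y Z e M : ℝ} (r : Rep x y Z e M) {P : ℕ → ℝ}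

include r

theorem S_pos : 0 < Sn ci x y := mul_pos (pS_pos r.hx) (pS_pos (r.hx.trans_le r.hxy))

theorem Z_pos : 0 < Z := by
  have h1 := r.hx
  have h2 := r.hx.trans_le r.hxy
  have X := pX_pos x
  have Y := pX_pos y
  have h : 0 < Zn ci x y := by unfold Zn; positivity
  rw [r.hZ] at h
  exact (mul_pos_iff_of_pos_right (by positivity)).1 h

theorem not_skip (h : 0 ≤ skip ci x y) : False := by
  simp only [skip, ci] at h
  push_cast at h
  linarith [r.hx, r.hxy]

theorem of_rLo (h : 0 ≤ rLo ci P x y) : P 0 ≤ 10000000 * M := by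
  have W := W_pos x y
  have e1 : rLo ci P x y = 600 * (pX ci x * pX ci y) ^ 6 * (10000000 * M - P 0) := by
    simp only [rLo, r.hM, Wk_eq, ci]; push_cast; ring
  rw [e1, mul_nonneg_iff_of_pos_left (by positivity)] at h
  linarith

theorem of_rHi (h : 0 ≤ rHi ci P x y) : 10000000 * M ≤ P 1 := by
  have W := W_pos x y
  have e1 : rHi ci P x y = 600 * (pX ci x * pX ci y) ^ 6 * (P 1 - 10000000 * M) := by
    simp only [rHi, r.hM, Wk_eq, ci]; push_cast; ring
  rw [e1, mul_nonneg_iff_of_pos_left (by positivity)] at h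
  linarith

theorem of_aA (h : 0 ≤ aA ci P x y) : 0 ≤ 10000000 * Z - afI P M 2 := by
  have W := W_pos x y
  have e1 : aA ci P x y = 600 * (pX ci x * pX ci y) ^ 6 * (10000000 * Z - afI P M 2) := by
    simp only [aA, Z4, af, afI, r.hM, r.hZ, Wk_eq, ci]; push_cast; ring
  rwa [e1, mul_nonneg_iff_of_pos_left (by positivity)] at h

theorem of_dA (h : 0 ≤ dA ci P x y) : afI P M 4 ^ 2 <
    4 * (10000000 * Z - afI P M 2) * (10000000 * (Z + e) - afI P M 6) := by
  have W := W_pos x y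
  have S := r.S_pos
  have e1 : dA ci P x y = Sn ci x y * (pX ci x * pX ci y) ^ 12 * (72000000 *
      (4 * (10000000 * Z - afI P M 2) * (10000000 * (Z + e) - afI P M 6) - afI P M 4 ^ 2) - 1) := by
    simp only [dA, aA, Z4, E1, af, afI, r.hM, r.hZ, r.hE, Wk_eq, ci]; push_cast; ring
  rw [e1, mul_nonneg_iff_of_pos_left (by positivity)] at h
  linarith

theorem of_dB (h : 0 ≤ dB ci P x y) : (afI P M 4 - 10000000 * Z) ^ 2 ≤
    4 * P 6 * (10000000 * e - afI P M 2) := by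
  have W := W_pos x y
  have S := r.S_pos
  have e1 : dB ci P x y = 360000 * Sn ci x y * (pX ci x * pX ci y) ^ 12 *
      (4 * P 6 * (10000000 * e - afI P M 2) - (afI P M 4 - 10000000 * Z) ^ 2) := by
    simp only [dB, Z4, E1, af, afI, r.hM, r.hZ, r.hE, Wk_eq, ci]; push_cast; ring
  rw [e1, mul_nonneg_iff_of_pos_left (by positivity)] at h
  linarith

theorem of_dD {q b : ℝ} (h : 0 ≤ dD ci P x y q b) (h1 : 0 ≤ idQ ci x y q) (h2 : 0 ≤ idB ci x y b)
    (h3 : 0 ≤ idC ci x y b) : 10000000 * (1 + 8 / 25 * M) + P 4 * M ^ 2 ≤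
      4 * Z * (10000000 * (Z + e - 497 / 800 * M) - P 3 * M ^ 2) := by
  have W := W_pos x y
  have S := r.S_pos
  have e0 : P0 ci x y = 120000 * Sn ci x y * (pX ci x * pX ci y) ^ 8 *
      (4 * Z * (Z + e - 497 / 800 * M) - 1 - 8 / 25 * M) := by
    simp only [P0, r.hM, r.hZ, r.hE, Wk_eq, ci]; push_cast; ring
  simp only [idQ, idB, idC, dD, e0, r.hM, r.hZ, Wk_eq, ci] at h h1 h2 h3
  push_cast at h h1 h2 h3
  generalize pX ci x * pX ci y = w at *
  generalize Sn ci x y = s at *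
  generalize 1 - x * y = d at *
  have e1 : d * b = 600 * M * w ^ 6 := le_antisymm (by linarith) (by linarith)
  have h4 := mul_nonneg (sq_nonneg d) h
  have h5 := mul_nonneg (show 0 ≤ 30000000 * w ^ 6 by positivity) h1
  have h6 : 0 ≤ 360000 * s * w ^ 14 * (4 * Z * (10000000 * (Z + e - 497 / 800 * M) - P 3 * M ^ 2)
      - (10000000 * (1 + 8 / 25 * M) + P 4 * M ^ 2)) := by
    refine (add_nonneg h4 h5).trans_eq ?_
    linear_combination (-s * (P 4 * w ^ 2 + P 3 * (4 * (Z * w ^ 2))) * (d * b + 600 * M * w ^ 6)) * e1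
  rw [mul_nonneg_iff_of_pos_left (by positivity)] at h6
  linarith

end Rep

theorem quad {a b c t : ℝ} (ha : 0 < a) (h : b ^ 2 ≤ 4 * a * c) : 0 ≤ a * t ^ 2 - b * t + c := by
  have h1 : 0 ≤ 4 * a * (a * t ^ 2 - b * t + c) := by nlinarith [sq_nonneg (2 * a * t - b)]
  rwa [mul_nonneg_iff_of_pos_left (by positivity)] at h1

theorem GA_eq (s : Bool) {u x : ℝ} (hu : 0 < u) (hx : 0 ≤ x) (p : ℕ → ℤ) :
    (gAE s).eval (pt [u, x]) p = 8000 * (3 + 100 * x) * u * GA u (if s then x else -x) := by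
  have h : GA u (if s then x else -x) = GAs s u x := by
    cases s
    · exact GA_neg hx
    · exact GA_pos hx
  have h2 : (gAE s).eval (pt [u, x]) p = gA u ((horE (nA s 0) (.var 1)).eval (pt [u, x]) p)
      ((horE (nA s 1) (.var 1)).eval (pt [u, x]) p)
      ((horE (nA s 2) (.var 1)).eval (pt [u, x]) p) := rfl
  have hD : 0 < 3 + 100 * x := by positivity
  rw [h, h2, GAs, gA]
  simp only [eval_horE, E.eval_var, pt_succ, pt_zero]
  field_simp

theorem GB_eq (s : Bool) (l : ℝ) {x : ℝ} (hx : 0 ≤ x) (p : ℕ → ℤ) :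
    (gBE s).eval (pt [l, x]) p =
      80000000 * (3 + 100 * x) * GB (l / 5 - 1) (if s then x else -x) := by
  have h : GB (l / 5 - 1) (if s then x else -x) = GBs s (l / 5 - 1) x := by
    cases s
    · exact GB_neg hx
    · exact GB_pos hx
  have h2 : (gBE s).eval (pt [l, x]) p = gB ci l ((horE (nB s 0) (.var 1)).eval (pt [l, x]) p)
      ((horE (nB s 1) (.var 1)).eval (pt [l, x]) p) ((horE (nB s 2) (.var 1)).eval (pt [l, x]) p)
      ((horE (nB s 3) (.var 1)).eval (pt [l, x]) p)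
      ((horE (nB s 4) (.var 1)).eval (pt [l, x]) p) := rfl
  have hD : 0 < 3 + 100 * x := by positivity
  rw [h, h2, GBs, gB]
  simp only [eval_horE, E.eval_var, pt_succ, pt_zero, ci]
  push_cast
  field_simp
  ring

theorem mE_eq (s : Bool) (t x : ℝ) (p : ℕ → ℤ) :
    (mE s).eval (pt [t, x]) p = if s then x else -x := by
  cases s
  · exact (show ((0 : ℤ) : ℝ) - x = -x by simp)
  · rfl

theorem claimA {tab : List Ent} {t : T} (h : allOK esA innA ⟨5, 7, 0, 1⟩ tab t = true) {u : ℝ}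
    (hu : 7 / 5 ≤ u) {x y Z e M : ℝ} (r : Rep x y Z e M) : GA u M ≤ e + (1 + u ^ 2) * Z := by
  obtain ⟨⟨k, ps, tp, tn⟩, hk, hf⟩ := allOK_sound h r.hx.le (r.hx.le.trans r.hxy)
  have u0 : 0 < u := by linarith
  have hZ := r.Z_pos
  have he := r.he
  rcases k with _ | k
  · exact (r.not_skip (hf (skip .cst (.var 0) (.var 1)) (by simp [esA]))).elim
  have h0 : ((ps.getD 0 0 : ℤ) : ℝ) ≤ 10000000 * M := r.of_rLo (P := fun j => (ps.getD j 0 : ℤ))
    (hf (rLo .cst .par (.var 0) (.var 1)) (by rcases k with _ | _ | k <;> simp [esA]))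
  have h1 : 10000000 * M ≤ ((ps.getD 1 0 : ℤ) : ℝ) := r.of_rHi (P := fun j => (ps.getD j 0 : ℤ))
    (hf (rHi .cst .par (.var 0) (.var 1)) (by rcases k with _ | _ | k <;> simp [esA]))
  obtain ⟨s, z, hz, hM, hi⟩ := entOK_sound (hk.resolve_left (by simp)) (t := u)
    (by simp; linarith) h0 h1
  have hG := GA_eq s u0 hz (fun j => ps.getD j 0)
  have hm := mE_eq s u z (fun j => ps.getD j 0)
  rw [← hM] at hG hm
  have hD : 0 < (3 + 100 * z) * u := by positivity
  rcases k with _ | _ | k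
  · have a1 := r.of_aA (P := fun j => (ps.getD j 0 : ℤ))
      (hf (aA .cst .par (.var 0) (.var 1)) (by simp [esA]))
    have a2 := r.of_dA (P := fun j => (ps.getD j 0 : ℤ))
      (hf (dA .cst .par (.var 0) (.var 1)) (by simp [esA]))
    have a3 : 0 ≤ inA ci (fun j => (ps.getD j 0 : ℤ)) u z
        ((mE s).eval (pt [u, z]) (fun j => ps.getD j 0))
        ((gAE s).eval (pt [u, z]) (fun j => ps.getD j 0)) :=
      hi (inA .cst .par (.var 0) (.var 1) (mE s) (gAE s)) (by simp [innA])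
    rw [hG, hm] at a3
    simp only [inA, Dn, ci] at a3
    push_cast at a3
    generalize afI (fun j => ((ps.getD j 0 : ℤ) : ℝ)) M = f at *
    have a4 : 0 < 10000000 * Z - f 2 := a1.lt_of_ne fun h => by
      rw [← h] at a2; nlinarith [sq_nonneg (f 4)]
    have a5 := quad (t := u) a4 a2.le
    have a6 : 0 ≤ (3 + 100 * z) * u *
        (8000 * (u * (u * f 2 + f 4) + f 6 - 10000000 * GA u M)) := a3.trans_eq (by ring)
    rw [mul_nonneg_iff_of_pos_left hD] at a6
    nlinarith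
  · have a3 : 0 ≤ ((0 : ℤ) : ℝ) - (gAE s).eval (pt [u, z]) (fun j => ps.getD j 0) :=
      hi (E.cst 0 - gAE s) (by simp [innA])
    rw [hG] at a3
    have a6 : 0 ≤ (3 + 100 * z) * u * (8000 * -GA u M) := a3.trans_eq (by push_cast; ring)
    rw [mul_nonneg_iff_of_pos_left hD] at a6
    have : 0 ≤ (1 + u ^ 2) * Z := by positivity
    linarith
  · have a1 := r.of_dD (P := fun j => (ps.getD j 0 : ℤ))
      (q := Qe.eval (pt [x, y]) (fun j => ps.getD j 0))
      (b := Be.eval (pt [x, y]) (fun j => ps.getD j 0))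
      (hf (dD .cst .par (.var 0) (.var 1) Qe Be) (by simp [esA]))
      (hf (idQ .cst (.var 0) (.var 1) Qe) (by simp [esA]))
      (hf (idB .cst (.var 0) (.var 1) Be) (by simp [esA]))
      (hf (idC .cst (.var 0) (.var 1) Be) (by simp [esA]))
    have a2 : 0 ≤ inD2 ci (fun j => (ps.getD j 0 : ℤ))
        ((mE s).eval (pt [u, z]) (fun j => ps.getD j 0)) :=
      hi (inD2 .cst .par (mE s)) (by simp [innA])
    have a3 : 0 ≤ inD ci (fun j => (ps.getD j 0 : ℤ)) u z
        ((mE s).eval (pt [u, z]) (fun j => ps.getD j 0))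
        ((gAE s).eval (pt [u, z]) (fun j => ps.getD j 0)) :=
      hi (inD .cst .par (.var 0) (.var 1) (mE s) (gAE s)) (by simp [innA])
    rw [hG, hm] at a3
    rw [hm] at a2
    simp only [inD, inD2, Dn, ci] at a1 a2 a3
    push_cast at a2 a3
    generalize ((ps.getD 2 0 : ℤ) : ℝ) = k0 at *
    generalize ((ps.getD 3 0 : ℤ) : ℝ) = k1 at *
    generalize ((ps.getD 4 0 : ℤ) : ℝ) = k2 at *
    have a4 := mul_nonneg (sq_nonneg M) a2
    have a5 := quad (t := u) (a := 10000000 * Z) (b := 10000000 * (1 + 4 / 25 * M) + k0 * M ^ 2)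
      (c := 10000000 * (Z + e - 497 / 800 * M) - k1 * M ^ 2) (by positivity) (by nlinarith)
    have a6 : 0 ≤ (3 + 100 * z) * u * (8000 * (u * (10000000 * (1 + 4 / 25 * M) + k0 * M ^ 2)
        + 10000000 * (497 / 800 * M) + k1 * M ^ 2 - 10000000 * GA u M)) := a3.trans_eq (by ring)
    rw [mul_nonneg_iff_of_pos_left hD] at a6
    nlinarith

theorem claimB {tab : List Ent} {t : T} (h : allOK esB innB ⟨1, 0, 25, 74⟩ tab t = true) {l : ℝ}
    (l0 : 0 ≤ l) (l1 : l ≤ 74 / 25) {x y Z e M : ℝ} (r : Rep x y Z e M) :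
    GB (l / 5 - 1) M ≤ e + l * Z := by
  obtain ⟨⟨k, ps, tp, tn⟩, hk, hf⟩ := allOK_sound h r.hx.le (r.hx.le.trans r.hxy)
  have hZ := r.Z_pos
  have he := r.he
  rcases k with _ | k
  · exact (r.not_skip (hf (skip .cst (.var 0) (.var 1)) (by simp [esB]))).elim
  have h0 : ((ps.getD 0 0 : ℤ) : ℝ) ≤ 10000000 * M := r.of_rLo (P := fun j => (ps.getD j 0 : ℤ))
    (hf (rLo .cst .par (.var 0) (.var 1)) (by rcases k with _ | k <;> simp [esB]))
  have h1 : 10000000 * M ≤ ((ps.getD 1 0 : ℤ) : ℝ) := r.of_rHi (P := fun j => (ps.getD j 0 : ℤ))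
    (hf (rHi .cst .par (.var 0) (.var 1)) (by rcases k with _ | k <;> simp [esB]))
  obtain ⟨s, z, hz, hM, hi⟩ := entOK_sound (hk.resolve_left (by simp)) (t := l)
    (by simp [l0]; linarith) h0 h1
  have hG := GB_eq s l hz (fun j => ps.getD j 0)
  have hm := mE_eq s l z (fun j => ps.getD j 0)
  rw [← hM] at hG hm
  have hD : 0 < 3 + 100 * z := by positivity
  rcases k with _ | k
  · have a1 : 0 ≤ ((ps.getD 6 0 : ℤ) : ℝ) - ((1 : ℤ) : ℝ) := hf (E.par 6 - E.cst 1) (by simp [esB])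
    have a2 := r.of_dB (P := fun j => (ps.getD j 0 : ℤ))
      (hf (dB .cst .par (.var 0) (.var 1)) (by simp [esB]))
    have a3 : 0 ≤ inB ci (fun j => (ps.getD j 0 : ℤ)) l z
        ((mE s).eval (pt [l, z]) (fun j => ps.getD j 0))
        ((gBE s).eval (pt [l, z]) (fun j => ps.getD j 0)) :=
      hi (inB .cst .par (.var 0) (.var 1) (mE s) (gBE s)) (by simp [innB])
    rw [hG, hm] at a3
    simp only [inB, Dn, ci] at a2 a3
    push_cast at a1 a3
    generalize afI (fun j => ((ps.getD j 0 : ℤ) : ℝ)) M = f at *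
    generalize ((ps.getD 6 0 : ℤ) : ℝ) = ρ at *
    have a5 := quad (t := l) (by linarith : 0 < ρ) a2
    have a6 : 0 ≤ (3 + 100 * z) * (80000000 * (f 2 + l * (f 4 - ρ * l)
        - 10000000 * GB (l / 5 - 1) M)) := a3.trans_eq (by ring)
    rw [mul_nonneg_iff_of_pos_left hD] at a6
    nlinarith
  · have a3 : 0 ≤ ((0 : ℤ) : ℝ) - (gBE s).eval (pt [l, z]) (fun j => ps.getD j 0) :=
      hi (E.cst 0 - gBE s) (by simp [innB])
    rw [hG] at a3
    have a6 : 0 ≤ (3 + 100 * z) * (80000000 * -GB (l / 5 - 1) M) :=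
      a3.trans_eq (by push_cast; ring)
    rw [mul_nonneg_iff_of_pos_left hD] at a6
    have : 0 ≤ l * Z := by positivity
    linarith

theorem baseA_of {tab : List Ent} {t : T} (h : allOK esA innA ⟨5, 7, 0, 1⟩ tab t = true)
    {u g g' : ℝ} (hu : 7 / 5 ≤ u) (hg : |g| < 1) (hh : |g'| < 1) :
    GA u ((chi g + chi g') / 2) ≤ eP g g' + (1 + u ^ 2) * (zeta g + zeta g') / 2 := by
  rw [mul_div_assoc]
  exact of_rep (C := fun Z e M => GA u M ≤ e + (1 + u ^ 2) * Z)
    (fun _ _ _ _ _ r => claimA h hu r) hg hh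

theorem baseB_of {tab tab' : List Ent} {t t' : T} (h : allOK esA innA ⟨5, 7, 0, 1⟩ tab t = true)
    (h' : allOK esB innB ⟨1, 0, 25, 74⟩ tab' t' = true) : BaseB := by
  intro y g g' y0 y1 hg hh
  rcases le_total y (-51 / 125) with hy | hy
  · have := of_rep (C := fun Z e M => GB (5 * (1 + y) / 5 - 1) M ≤ e + 5 * (1 + y) * Z)
      (fun _ _ _ _ _ r => claimB h' (by linarith) (by linarith) r) hg hh
    rwa [show 5 * (1 + y) / 5 - 1 = y by ring, ← mul_div_assoc] at this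
  · have hs : Real.sqrt (4 + 5 * y) ^ 2 = 4 + 5 * y := Real.sq_sqrt (by linarith)
    have hl : 7 / 5 ≤ Real.sqrt (4 + 5 * y) := Real.le_sqrt_of_sq_le (by linarith)
    have hu : Real.sqrt (4 + 5 * y) ≤ 7 / 3 := Real.sqrt_le_iff.2 ⟨by norm_num, by linarith⟩
    have c1 := abs_le.1 (chiBd g hg)
    have c2 := abs_le.1 (chiBd g' hh)
    have h5 := GB_le_GA cmpUp (M := (chi g + chi g') / 2) hl hu
      (abs_le.2 ⟨by linarith [c1.1, c2.1], by linarith [c1.2, c2.2]⟩)
    have h6 := baseA_of h hl hg hh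
    rw [hs] at h5 h6
    rw [show (4 + 5 * y - 4) / 5 = y by ring] at h5
    rw [show 5 * (1 + y) = 1 + (4 + 5 * y) by ring]
    exact h5.trans h6

end Crest.Agent.R307.L.Base
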