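import Crest.Agent.R307.LDefs
import Crest.Agent.Lib.PolyBB.Basic

/-! Row 307, low noise regime: `CmpUp` (generated by notes307/lb/gencmp.py). -/

set_option autoImplicit false

namespace Crest.Agent.R307.L

open Crest.Agent.Lib.PolyBB

/-- Horner scheme as an expression. -/
def horE : List ℤ → E → E
  | [], _ => .cst 0
  | [c], _ => .cst c
  | c :: d :: l, x => .add (.cst c) (.mul x (horE (d :: l) x))

theorem eval_horE (X : ℕ → ℝ) (p : ℕ → ℤ) (x : E) :
    ∀ l : List ℤ, (horE l x).eval X p = hor l (x.eval X p)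
  | [] => by simp [horE, hor]
  | [c] => by simp [horE, hor]
  | c :: d :: l => by
    have := eval_horE X p x (d :: l)
    rw [horE, hor, E.eval_add, E.eval_mul, E.eval_cst, this]

/-- `u ^ 2 - 4`. -/
def cmpW : E := .sub (.pow (.var 0) 2) (.cst 4)

/-- The numerator of `GAs - GBs`. -/
def cmpE (s : Bool) : E :=
  .sub (.mul (.cst 10000) (.add (.mul (.var 0) (.add (.mul (.var 0) (horE (nA s 0) (.var 1)))
      (horE (nA s 1) (.var 1)))) (horE (nA s 2) (.var 1))))
    (.mul (.var 0) (.add (.mul (.cst 625) (horE (nB s 0) (.var 1))) (.mul cmpW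
      (.add (.mul (.cst 125) (horE (nB s 1) (.var 1))) (.mul cmpW
        (.add (.mul (.cst 25) (horE (nB s 2) (.var 1))) (.mul cmpW
          (.add (.mul (.cst 5) (horE (nB s 3) (.var 1))) (.mul cmpW (horE (nB s 4) (.var 1)))))))))))

theorem cmp_true : run (fun _ => [cmpE true]) (dec 4 (nat_lit 0x200000400005860000000000000100000400002c300000100000200018830000020000010002e41))
    [⟨5, 7, 3, 7⟩, ⟨1, 0, 1, 1⟩] [] = true := by decide +kernel

theorem cmp_false : run (fun _ => [cmpE false]) (dec 7 (nat_lit 0x3000003800016180000000300000400002c3000000002000004000058600000000005800006000016180000000500000300002c100000000c00000e000058600000000c0000100000b0c0000000000100000400002c300000100000200018830000020000010008541))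
    [⟨5, 7, 3, 7⟩, ⟨1, 0, 1, 1⟩] [] = true := by decide +kernel

theorem cmpUp : CmpUp := by
  intro s u x h1 h2 h3 h4
  have hH : Holds (fun _ => [cmpE s]) [] [⟨5, 7, 3, 7⟩, ⟨1, 0, 1, 1⟩] := by
    cases s
    · exact Holds.of_run cmp_false
    · exact Holds.of_run cmp_true
  obtain ⟨k, p, -, h⟩ := hH.elim (x := pt [u, x]) (by
    simp only [Box.mem_cons_pt, Iv.mem_mk, Box.mem_nil, and_true]
    push_cast
    refine ⟨⟨?_, ?_⟩, ?_, ?_⟩ <;> linarith)
  have h5 := h (cmpE s) (by simp)
  simp only [cmpE, cmpW, E.eval_sub, E.eval_mul, E.eval_add, E.eval_cst, E.eval_pow, E.eval_var,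
    eval_horE, pt_zero, pt_succ] at h5
  push_cast at h5
  have hu : 0 < u := by linarith
  have hx : 0 < 3 + 100 * x := by linarith
  rw [GAs, GBs, ← sub_nonneg]
  generalize hor (nA s 0) x = a0 at *
  generalize hor (nA s 1) x = a1 at *
  generalize hor (nA s 2) x = a2 at *
  generalize hor (nB s 0) x = b0 at *
  generalize hor (nB s 1) x = b1 at *
  generalize hor (nB s 2) x = b2 at *
  generalize hor (nB s 3) x = b3 at *
  generalize hor (nB s 4) x = b4 at *
  refine le_of_le_of_eq (div_nonneg h5 (b := 80000000 * u * (3 + 100 * x)) (by positivity)) ?_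
  field_simp
  ring

end Crest.Agent.R307.L
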