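/-! Row 307, low noise regime: the numerical data (no import; generated). -/

set_option autoImplicit false

namespace Crest.Agent.R307.L

/-- Coefficients of the Bellman function for large multiplier (`true`: nonnegative moment). -/
def nA : Bool → Nat → List Int
  | true, 0 => [24000, 803840, 110686, -820027, 531477, -2573779, 6749654, -10387470, 8330652, -2769265]
  | true, 1 => [0, 14910, 1107510, -421172, -812474, 18258515, -82811917, 146946142, -119436786, 36570050]
  | true, _ => [0, 0, -1110073, 1981672, -1013548, -28240600, 144753504, -270348927, 227579568, -73151079]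
  | false, 0 => [24000, 796160, -108376, -1290593, 5666229, -27021143, 64619868, -79241348, 48135777, -11580823]
  | false, 1 => [0, -14910, -428873, 3889580, -26847043, 112103061, -261586468, 325264930, -200768845, 48385564]
  | false, _ => [0, 0, -141034, -4719535, 29651834, -110415285, 256476791, -326928457, 205915412, -49835626]

/-- Coefficients of the Bellman function for small multiplier. -/
def nB : Bool → Nat → List Int
  | true, 0 => [768000, 25961440, 12381528, -17126240, -4100704, -16149488, 49026288, -144052184, 176228832, -88704312]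
  | true, 1 => [480000, 16076800, 7764085, -26308900, 15697280, 89727420, -588774440, 1143995235, -971284800, 310370095]
  | true, 2 => [-215409, -7206937, 9889071, -40370833, 123489936, -407998164, 675324615, -364944826]
  | true, 3 => [141300, 4746111, 4587224, -9372867, -189423313, 381696579, -18479513, -228480071]
  | true, _ => [-285, -150419, -7490552, 24413324, -293231800, 780524567, -741425372, 197148477]
  | false, 0 => [768000, 25238560, -11458272, -16821976, -11018688, 45650120, -65733384, 53088088, -24633360, 4897680]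
  | false, 1 => [480000, 15923200, -1462350, -2214185, -34934590, 11653565, 10013405, 49815325, -66861520, 17561670]
  | false, 2 => [-215409, -7153663, -11964063, 37948149, 160979243, -727178206, 909977408, -362434876]
  | false, 3 => [141300, 4673889, -34696373, 14974757, 484392594, -1506396258, 1599721177, -562255992]
  | false, _ => [-285, 131419, -15823518, -10884702, 311459537, -841780721, 810493672, -262488236]

/-- The families `(100 c, 10000 x₀, 10000 x₁, 10 T₁, 10 T₂)`, with `T₂ = 0` for `+∞`. -/
def fams : List (Int × Int × Int × Int × Int) := [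
  (130, 1815, 2500, 0, 10),
  (130, 2065, 2250, 0, 6),
  (128, 2060, 2500, 0, 10),
  (130, 2475, 2000, 0, 6),
  (110, 535, 3750, 6, 12),
  (110, 1795, 3250, 8, 14),
  (120, 690, 3750, 10, 20),
  (80, -80, 4750, 10, 20),
  (80, 580, 4500, 11, 20),
  (80, -310, 4750, 11, 20),
  (130, 620, 4250, 20, 50),
  (125, 300, 4750, 40, 120),
  (50, 290, 4920, 50, 120),
  (80, 90, 5010, 10, 0),
  (60, 95, 5010, 20, 0),
  (40, 125, 5010, 40, 0),
  (40, 190, 5010, 30, 80),
  (50, -15, 5250, 15, 30),
  (50, 20, 5100, 20, 0),
  (60, -235, 5010, 20, 40),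
  (60, -450, 5100, 15, 30),
  (60, 765, 5250, 11, 20),
  (70, -50, 4750, 15, 30),
  (70, 90, 5010, 15, 0),
  (70, 755, 5000, 10, 20),
  (80, -35, 4650, 11, 20),
  (80, -660, 5500, 7, 14),
  (80, -770, 5250, 8, 14),
  (80, 90, 5010, 30, 0),
  (80, 540, 4500, 20, 40),
  (95, -210, 4500, 8, 14),
  (95, 1815, 4000, 8, 14),
  (100, 105, 5010, 10, 0),
  (100, 190, 4250, 10, 20),
  (110, 525, 3750, 8, 14),
  (110, 955, 3500, 8, 14),
  (120, 415, 4500, 20, 60),
  (120, 500, 4000, 11, 20),
  (120, 690, 3750, 11, 20),
  (120, 715, 3500, 4, 10),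
  (120, 765, 3500, 8, 14),
  (120, 890, 3250, 5, 10),
  (125, 320, 5010, 0, 0),
  (125, 415, 4500, 30, 60),
  (125, 525, 4250, 20, 40),
  (125, 645, 4000, 15, 30),
  (125, 1015, 3250, 8, 14),
  (125, 1495, 2750, 5, 10),
  (125, 2170, 2500, 5, 10),
  (130, 1400, 3000, 0, 14),
  (130, 1815, 2500, 0, 3),
  (130, 1815, 2500, 0, 6),
  (130, 2065, 2250, 0, 3),
  (130, 2400, 2000, 0, 3),
  (130, 2690, 2500, 8, 14),
  (130, 3095, 1750, 0, 4),
  (133, 1115, 3500, 12, 25),
  (133, 1960, 2500, 0, 10),
  (133, 2195, 2250, 0, 10),
  (133, 3830, 1500, 0, 6),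
  (133, 3840, 1250, 0, 4),
  (135, 2575, 2000, 0, 8)]

end Crest.Agent.R307.L
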