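import Crest.Agent.Lib.PolyBB.Core
import Crest.Agent.R307.LCoef

/-! Row 307, low noise regime, induction step: the polynomials of the certificate.
Variables: `w` (position), `d` (half distance of the moments), `a = 1 / u` or `y`. -/

set_option autoImplicit false

open Crest.Agent.Lib.PolyBB

namespace Crest.Agent.R307.L.Step

/-- Penalty coefficients for the use of the large multiplier formula slightly below `u = 2`. -/
def nK : Bool → List Int
  | true => [343, 10061, -37900, -106221, 732950, -396304, -1168687, 1036971]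
  | false => [334, 13839, -13631, 437658, -3249507, 8524464, -9134476, 3424246]

noncomputable def hE1 (x : E) (l : List Int) : Int → E :=
  List.rec (motive := fun _ => Int → E) (fun c => .cst c)
    (fun d _ ih c => .add (.cst c) (.mul x (ih d))) l

noncomputable def hE (l : List Int) (x : E) : E :=
  List.rec (motive := fun _ => E) (.cst 0) (fun c l _ => hE1 x l c) l

abbrev Fm := Int × Int × Int × Int × Int

/-- Signs and absolute values of the moments of the first child, the parent, the second child. -/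
structure Ch where
  s0 : Bool
  sP : Bool
  s1 : Bool
  x0 : E
  xP : E
  x1 : E

def eB : E := .mul (.sub (.cst 1) (.mul (.cst 2) (.var 1))) (.var 0)
def eB1 : E := .add eB (.var 1)
def eB2 : E := .add eB (.mul (.cst 2) (.var 1))
def eW : E := .mul (.var 0) (.var 1)
def eWm : E := .sub (.var 1) eW
def eWp : E := .add (.var 1) eW

def ch0 : Ch := ⟨true, true, true, eB, eB1, eB2⟩
def ch1 : Ch := ⟨false, false, false, eB2, eB1, eB⟩
def ch2 : Ch := ⟨false, true, true, eWm, eW, eWp⟩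
def ch3 : Ch := ⟨false, false, true, eWp, eW, eWm⟩

def tau : E := .add (.par 0) (.mul (.par 1) (.var 1))
def tau2 : E := .mul (.cst 2) (.pow tau 2)

def lin3 (j : Nat) : E :=
  .add (.add (.par j) (.mul (.par (Nat.add j 1)) (.var 2))) (.mul (.par (Nat.add j 2)) (.var 1))

def lin (j : Nat) : E :=
  .add (.add (.par j) (.mul (.par (Nat.add j 1)) (.var 2)))
    (.mul (.add (.add (.par (Nat.add j 2)) (.mul (.par (Nat.add j 3)) (.var 2)))
      (.mul (.par (Nat.add j 4)) (.var 1))) (.var 1))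

def den (x : E) : E := .add (.cst 3) (.mul (.cst 100) x)

/-- `r ^ 2 N₀ + r b N₁ + b ^ 2 N₂`. -/
noncomputable def nAc (s : Bool) (x r b : E) : E :=
  .add (.mul (.add (.mul (hE (nA s 0) x) r) (.mul (hE (nA s 1) x) b)) r)
    (.mul (hE (nA s 2) x) (.pow b 2))

/-- `∑ B_k y ^ k Q ^ (4 - k)`. -/
noncomputable def nBc (s : Bool) (x y : E) : E :=
  .add (.mul (.cst 1000000000000000000000000) (hE (nB s 0) x)) (.mul y
    (.add (.mul (.cst 1000000000000000000) (hE (nB s 1) x)) (.mul y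
      (.add (.mul (.cst 1000000000000) (hE (nB s 2) x)) (.mul y
        (.add (.mul (.cst 1000000) (hE (nB s 3) x)) (.mul y (hE (nB s 4) x))))))))

noncomputable def fam (i : Nat) : Fm := nth (130, 1815, 2500, 0, 10) fams i

/-! ## Large multiplier -/

def qa : E := .mul (.cst 1000000) (.var 2)
def ta : E := .mul (.cst 100000000) (.mul tau (.var 2))

def rho0 (f : Fm) : E :=
  .add (.sub (.cst 10000000000000000) (.mul (.cst f.2.1) tau2)) (.mul (.cst f.1) ta)

def rho1 (f : Fm) : E :=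
  .sub (.sub (.cst 10000000000000000) (.mul (.cst f.2.2.1) tau2)) (.mul (.cst f.1) ta)

def sq4 (r : E) : E := .mul (.cst 10000) (.pow r 2)
def ge2 (r : E) : E := .sub r (.mul (.cst 2) qa)

noncomputable def parA (c : Ch) : E :=
  .add (hE (nA c.sP 0) c.xP) (.mul (.var 2)
    (.add (hE (nA c.sP 1) c.xP) (.mul (.var 2) (hE (nA c.sP 2) c.xP))))

noncomputable def mainA (c : Ch) (n0 e0 n1 e1 : E) : E :=
  .add (.mul (den c.xP) (.add (.mul n0 e1) (.mul n1 e0)))
    (.mul (.mul e0 e1) (.sub (.mul (.cst 16000) (.mul (.mul tau (.var 1)) (den c.xP)))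
      (.mul (.cst 2000000) (parA c))))

noncomputable def mA (c : Ch) (j : Nat) (n1 e1 : E) : E :=
  mainA c (nAc c.s0 c.x0 (lin j) qa) (.mul (lin j) (den c.x0)) n1 e1

noncomputable def mAA (c : Ch) (j k : Nat) : E :=
  mA c j (nAc c.s1 c.x1 (lin k) qa) (.mul (lin k) (den c.x1))

noncomputable def nP (c : Ch) : E :=
  .sub (.mul (.cst 1000000000000) (nAc c.s1 c.x1 (lin 7) qa))
    (.mul (.mul (.mul (.cst 8) (.par 12)) (.mul (lin 7) (.pow (.sub (.cst 1000000) (lin 7)) 2)))
      (hE (nK c.s1) c.x1))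

noncomputable def mAP (c : Ch) : E :=
  mA c 2 (nP c) (.mul (.mul (.cst 1000000000000) (lin 7)) (den c.x1))

noncomputable def mAB (c : Ch) : E :=
  mA c 2 (.mul (.var 2) (nBc c.s1 c.x1 (lin3 7))) (.mul (.cst 16000000000000000000) (den c.x1))

noncomputable def mAZ (c : Ch) : E := mA c 2 (.cst 0) (den c.x1)

def loA (f : Fm) : E := .sub (.mul (.cst 10) tau) (.mul (.cst f.2.2.2.1) qa)

def hiA (f : Fm) : E :=
  .mul (.cst f.2.2.2.2) (.sub (.mul (.cst f.2.2.2.2) qa) (.mul (.cst 10) tau))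

def geM (y : E) : E := .add y (.cst 1000000)
def leC (y : E) : E := .sub (.cst 13000000) (.mul (.cst 45) y)

noncomputable def blk (c : Ch) (f : Fm) (j k : Nat) (l : List E) : List E :=
  .sub (rho0 f) (sq4 (lin j)) :: ge2 (lin j) :: .sub (rho1 f) (sq4 (lin k)) :: ge2 (lin k) ::
    mAA c j k :: l

def env1 : Nat → Fm
  | 0 => (80, -80, 4750, 10, 20)
  | 1 => (100, 105, 5010, 10, 0)
  | _ => (80, 90, 5010, 10, 0)

def env2 : Nat → Fm
  | 0 => (60, 95, 5010, 20, 0)
  | 1 => (100, 105, 5010, 10, 0)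
  | _ => (80, 90, 5010, 10, 0)

noncomputable def optA (c : Ch) (i : Nat) : Nat → List E
  | 0 => loA (fam i) :: hiA (fam i) :: blk c (fam i) 2 7 []
  | 1 => [loA (fam i), hiA (fam i), .sub (rho0 (fam i)) (sq4 (lin 2)), ge2 (lin 2),
      .sub (rho1 (fam i)) (sq4 (lin 7)), .sub (.mul (.cst 10) (lin 7)) (.mul (.cst 17) qa),
      .sub (.mul (.par 12) (.var 2)) (.cst 1000000), mAP c]
  | 2 => [loA (fam i), hiA (fam i), .sub (rho0 (fam i)) (sq4 (lin 2)), ge2 (lin 2),
      .sub (rho1 (fam i)) (.mul (.mul (.cst 10000000000) (.pow (.var 2) 2))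
        (.add (.cst 4000000) (.mul (.cst 5) (lin3 7)))), geM (lin3 7), leC (lin3 7), mAB c]
  | 3 => [loA (fam i), hiA (fam i), .sub (rho0 (fam i)) (sq4 (lin 2)), ge2 (lin 2),
      .add (rho1 (fam i)) (sq4 qa), mAZ c]
  | _ => tau :: blk c (130, 1815, 2500, 0, 10) 2 7 (blk c (env1 i) 12 17 (blk c (env2 i) 22 27 []))

noncomputable def esA (c : Ch) (k : Nat) : List E := optA c (Nat.div k 8) (Nat.mod k 8)

/-! ## Small multiplier -/

def y5 : E := .mul (.cst 50000000000000000) (.var 2)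
def tb : E := .mul (.cst 100000000) tau

def eta0 (f : Fm) : E := .add (.sub y5 (.mul (.cst f.2.1) tau2)) (.mul (.cst f.1) tb)
def eta1 (f : Fm) : E := .sub (.sub y5 (.mul (.cst f.2.2.1) tau2)) (.mul (.cst f.1) tb)

noncomputable def parB (c : Ch) : E :=
  .add (hE (nB c.sP 0) c.xP) (.mul (.var 2) (.add (hE (nB c.sP 1) c.xP) (.mul (.var 2)
    (.add (hE (nB c.sP 2) c.xP) (.mul (.var 2)
      (.add (hE (nB c.sP 3) c.xP) (.mul (.var 2) (hE (nB c.sP 4) c.xP))))))))

noncomputable def mainB (c : Ch) (n0 e0 n1 e1 : E) : E :=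
  .add (.mul (den c.xP) (.add (.mul n0 e1) (.mul n1 e0)))
    (.mul (.mul e0 e1)
      (.sub (.mul (.cst 256000000000000000000000) (.mul (.mul tau (.var 1)) (den c.xP)))
        (.mul (.cst 2000000000000000000000000) (parB c))))

def loB (f : Fm) : E := .sub (.mul (.cst 10) tau) (.mul (.cst f.2.2.2.1) (.cst 1000000))

def hiB (f : Fm) : E :=
  .mul (.cst f.2.2.2.2) (.sub (.mul (.cst f.2.2.2.2) (.cst 1000000)) (.mul (.cst 10) tau))

def sdB (h y : E) (l : List E) : List E :=
  .sub h (.mul (.cst 50000000000) y) :: geM y :: leC y :: l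

def sdZ (h : E) (l : List E) : List E := .add h (.cst 50000000000000000) :: l

def sdA (h u : E) (l : List E) : List E :=
  .sub (.add h (.cst 40000000000000000)) (sq4 u) :: .sub u (.cst 2000000) :: l

noncomputable def nU (c : Ch) : E :=
  .mul (.cst 16000000000000000000) (nAc c.s0 c.x0 (lin3 2) (.cst 1000000))

noncomputable def mB (c : Ch) : Nat → E
  | 0 => mainB c (nBc c.s0 c.x0 (lin 2)) (den c.x0) (nBc c.s1 c.x1 (lin 7)) (den c.x1)
  | 1 => mainB c (nBc c.s0 c.x0 (lin 2)) (den c.x0) (.cst 0) (den c.x1)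
  | 2 => mainB c (.cst 0) (den c.x0) (nBc c.s1 c.x1 (lin 7)) (den c.x1)
  | 3 => mainB c (.cst 0) (den c.x0) (.cst 0) (den c.x1)
  | _ => mainB c (nU c) (.mul (lin3 2) (den c.x0)) (nBc c.s1 c.x1 (lin 7)) (den c.x1)

noncomputable def optB (c : Ch) (f : Fm) : Nat → List E
  | 0 => sdB (eta0 f) (lin 2) (sdB (eta1 f) (lin 7) [mB c 0])
  | 1 => sdB (eta0 f) (lin 2) (sdZ (eta1 f) [mB c 1])
  | 2 => sdZ (eta0 f) (sdB (eta1 f) (lin 7) [mB c 2])
  | 3 => sdZ (eta0 f) (sdZ (eta1 f) [mB c 3])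
  | _ => sdA (eta0 f) (lin3 2) (sdB (eta1 f) (lin 7) [mB c 4])

noncomputable def esB (c : Ch) (k : Nat) : List E :=
  loB (fam (Nat.div k 8)) :: hiB (fam (Nat.div k 8)) :: optB c (fam (Nat.div k 8)) (Nat.mod k 8)

end Crest.Agent.R307.L.Step
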