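import Crest.Agent.R307.LCmp
import Crest.Agent.R307.LStepDef

/-! Row 307, low noise regime: below `u = 2` the large multiplier formula minus a penalty is below
the small multiplier formula (generated by notes307/step/gencmpd.py). -/

set_option autoImplicit false

namespace Crest.Agent.R307.L.Step

open Crest.Agent.Lib.PolyBB

def cmpD (s : Bool) : E :=
  .sub (.mul (.mul (.cst 80000) (.mul (.var 0) (.pow (.sub (.cst 2) (.var 0)) 2)))
    (horE (nK s) (.var 1))) (cmpE s)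

theorem cmpD_true : run (fun _ => [horE (nK true) (.var 1), cmpD true]) (dec 4 (nat_lit 0x600000800005860000000000000100000700002c300000100000400018830000010000020002e43))
    [⟨10, 17, 1, 2⟩, ⟨1, 0, 1, 1⟩] [] = true := by decide +kernel

theorem cmpD_false : run (fun _ => [horE (nK false) (.var 1), cmpD false]) (dec 4 (nat_lit 0x600000700002c300000000600000800005860000000000000100000700002c300000100000400018830000010000020002e43))
    [⟨10, 17, 1, 2⟩, ⟨1, 0, 1, 1⟩] [] = true := by decide +kernel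

theorem cmpD_aux (s : Bool) {u x : ℝ} (h1 : 17 / 10 ≤ u) (h2 : u ≤ 2) (h3 : 0 ≤ x) (h4 : x ≤ 1) :
    0 ≤ hor (nK s) x ∧ 0 ≤ (cmpD s).eval (pt [u, x]) (fun _ => 0) := by
  have hH : Holds (fun _ => [horE (nK s) (.var 1), cmpD s]) [] [⟨10, 17, 1, 2⟩, ⟨1, 0, 1, 1⟩] := by
    cases s
    · exact Holds.of_run cmpD_false
    · exact Holds.of_run cmpD_true
  obtain ⟨k, p, -, h⟩ := hH.elim (x := pt [u, x]) (by
    simp only [Box.mem_cons_pt, Iv.mem_mk, Box.mem_nil, and_true]
    push_cast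
    refine ⟨⟨?_, ?_⟩, ?_, ?_⟩ <;> linarith)
  have h5 := h (cmpD s) (by simp)
  have h6 := h (horE (nK s) (.var 1)) (by simp)
  simp only [cmpD, cmpE, cmpW, E.eval_sub, E.eval_mul, E.eval_add, E.eval_cst, E.eval_pow,
    E.eval_var, eval_horE, pt_zero, pt_succ] at h5 h6 ⊢
  exact ⟨h6, h5⟩

theorem nK_nonneg (s : Bool) {x : ℝ} (h3 : 0 ≤ x) (h4 : x ≤ 1) : 0 ≤ hor (nK s) x :=
  (cmpD_aux s (u := 2) (by norm_num) le_rfl h3 h4).1

theorem cmpDown (s : Bool) {u x : ℝ} (h1 : 17 / 10 ≤ u) (h2 : u ≤ 2) (h3 : 0 ≤ x) (h4 : x ≤ 1) :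
    GAs s u x - hor (nK s) x / (1000 * (3 + 100 * x)) * (2 - u) ^ 2 ≤
      GBs s ((u ^ 2 - 4) / 5) x := by
  have h5 := (cmpD_aux s h1 h2 h3 h4).2
  simp only [cmpD, cmpE, cmpW, E.eval_sub, E.eval_mul, E.eval_add, E.eval_cst, E.eval_pow,
    E.eval_var, eval_horE, pt_zero, pt_succ] at h5
  push_cast at h5
  have hu : 0 < u := by linarith
  have hx : 0 < 3 + 100 * x := by linarith
  rw [GAs, GBs, ← sub_nonneg]
  refine le_of_le_of_eq (div_nonneg h5 (b := 80000000 * u * (3 + 100 * x)) (by positivity)) ?_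
  field_simp
  ring

end Crest.Agent.R307.L.Step
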