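import Crest.Agent.R307.Defs4
import Crest.Agent.R307.LCoef

/-! Row 307, low noise regime: one-sided Bellman function, definitions and interface claims. -/

set_option autoImplicit false

open Crest.CubeNoise

namespace Crest.Agent.R307.L

/-- One-sided weight; `zeta g + zeta (-g) = hel g`. -/
noncomputable def zeta (g : ℝ) : ℝ := hel g * (1 + g) / 2

/-- The (odd) moment function. -/
noncomputable def chi (g : ℝ) : ℝ :=
  g * (1 + hel g ^ 2 / 2 - 5 / 12 * hel g ^ 3 + 33 / 100 * hel g ^ 4 - 2 / 15 * hel g ^ 5)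

/-- `kp g + kp (-g) = 1 / hel g`. -/
noncomputable def kp (g : ℝ) : ℝ := (1 + g) / (2 * hel g) - g * hel g ^ 2 / 10

noncomputable def zz (a : ℝ) : ℝ :=
  a * (-15571 + 20575 * a - 8005 * a ^ 2 + 39760 * a ^ 3) / (160000 * (1 + a))

/-- One-sided edge function; `eP g h + eP (-g) (-h) = eH g h`. -/
noncomputable def eP (g h : ℝ) : ℝ :=
  (kp g + kp h + (g + h) * (zz (hel g) + zz (hel h))) * (1 - g * h - hel g * hel h) / 4

/-- Horner evaluation. -/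
noncomputable def hor : List ℤ → ℝ → ℝ
  | [], _ => 0
  | c :: l, x => c + x * hor l x

/-- Bellman function at multiplier `1 + u ^ 2` and moment `± x`. -/
noncomputable def GAs (s : Bool) (u x : ℝ) : ℝ :=
  (u * hor (nA s 0) x + hor (nA s 1) x + hor (nA s 2) x / u) / (8000 * (3 + 100 * x))

/-- Bellman function at multiplier `l = 5 (1 + y)` and moment `± x`. -/
noncomputable def GBs (s : Bool) (y x : ℝ) : ℝ :=
  (hor (nB s 0) x + y * (hor (nB s 1) x + y * (hor (nB s 2) x + y * (hor (nB s 3) x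
    + y * hor (nB s 4) x)))) / (128000 * (3 + 100 * x))

noncomputable def GA (u M : ℝ) : ℝ := if 0 ≤ M then GAs true u M else GAs false u (-M)

noncomputable def GB (y M : ℝ) : ℝ := if 0 ≤ M then GBs true y M else GBs false y (-M)

theorem GA_pos {u M : ℝ} (h : 0 ≤ M) : GA u M = GAs true u M := if_pos h

theorem GB_pos {y M : ℝ} (h : 0 ≤ M) : GB y M = GBs true y M := if_pos h

theorem GA_neg {u x : ℝ} (h : 0 ≤ x) : GA u (-x) = GAs false u x := by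
  rcases h.eq_or_lt with h | h
  · subst h; simp [GA, GAs, hor, nA]
  · rw [GA, if_neg (by linarith), neg_neg]

theorem GB_neg {y x : ℝ} (h : 0 ≤ x) : GB y (-x) = GBs false y x := by
  rcases h.eq_or_lt with h | h
  · subst h; simp [GB, GBs, hor, nB]
  · rw [GB, if_neg (by linarith), neg_neg]

/-- `v` is a claimed lower bound of `dir eP g + lam * E zeta g` when `E chi g = M`. -/
def LB (lam M v : ℝ) : Prop :=
  (0 ≤ lam ∧ v ≤ 0) ∨ (∃ u, 2 ≤ u ∧ 1 + u ^ 2 ≤ lam ∧ v ≤ GA u M) ∨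
    (∃ y, -1 ≤ y ∧ y ≤ 0 ∧ 5 * (1 + y) ≤ lam ∧ v ≤ GB y M)

/-- Admissible multipliers of the induction step. -/
def Valid (t n0 n1 : ℝ) : Prop :=
  ∀ g h : ℝ, |g| < 1 → |h| < 1 → t * (chi h - chi g) / 2 ≤ eP g h + n0 * zeta g + n1 * zeta h

def FamOK (f : ℤ × ℤ × ℤ × ℤ × ℤ) : Prop :=
  ∀ t : ℝ, (f.2.2.2.1 : ℝ) ≤ 10 * t → (f.2.2.2.2 = 0 ∨ 10 * t ≤ (f.2.2.2.2 : ℝ)) →
    Valid t (f.2.1 / 10000 * t ^ 2 - f.1 / 200 * t) (f.2.2.1 / 10000 * t ^ 2 + f.1 / 200 * t)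

/-- All the families are admissible (`t = 0` in the first one gives `0 ≤ eP`). -/
def Fams : Prop := ∀ f ∈ fams, FamOK f

def ChiBd : Prop := ∀ g : ℝ, |g| < 1 → |chi g| ≤ 1

/-- The small multiplier formula is below the large multiplier formula on the overlap. -/
def CmpUp : Prop :=
  ∀ (s : Bool) (u x : ℝ), 7 / 5 ≤ u → u ≤ 7 / 3 → 0 ≤ x → x ≤ 1 →
    GBs s ((u ^ 2 - 4) / 5) x ≤ GAs s u x

def BaseA : Prop :=
  ∀ u g h : ℝ, 2 ≤ u → |g| < 1 → |h| < 1 →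
    GA u ((chi g + chi h) / 2) ≤ eP g h + (1 + u ^ 2) * (zeta g + zeta h) / 2

def BaseB : Prop :=
  ∀ y g h : ℝ, -1 ≤ y → y ≤ 0 → |g| < 1 → |h| < 1 →
    GB y ((chi g + chi h) / 2) ≤ eP g h + 5 * (1 + y) * (zeta g + zeta h) / 2

/-- The conclusion of the induction step. -/
def StepAt (lam M d v : ℝ) : Prop :=
  ∃ t n0 n1 v0 v1 : ℝ, Valid t n0 n1 ∧ LB (lam - 2 * n0) (M - d) v0 ∧
    LB (lam - 2 * n1) (M + d) v1 ∧ v ≤ (v0 + v1) / 2 + t * d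

def StepA : Prop :=
  ∀ u M d : ℝ, 2 ≤ u → 0 ≤ d → d ≤ 1 / 2 → |M| + d ≤ 1 → StepAt (1 + u ^ 2) M d (GA u M)

def StepB : Prop :=
  ∀ y M d : ℝ, -1 ≤ y → y ≤ 0 → 0 ≤ d → d ≤ 1 / 2 → |M| + d ≤ 1 →
    StepAt (5 * (1 + y)) M d (GB y M)

/-- The top level: `s = hel ρ`, `m = E g`, `M = E chi g`. -/
def Top : Prop :=
  ∀ s m M : ℝ, 0 < s → 0 ≤ m → m ≤ 11 / 20 → s + 13 / 100 * m ≤ 1 / 2 → |M| ≤ 1 →
    ∃ lp lm vp vm k0 k1 k2 k3 : ℝ, 0 ≤ k2 ∧ LB lp M vp ∧ LB lm (-M) vm ∧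
      (∀ g : ℝ, |g| < 1 → lp * zeta g + lm * zeta (-g) ≤ k0 + k1 * g + k2 * hel g + k3 * chi g) ∧
      (1 - s ^ 2) / s ≤ vp + vm - k0 - k1 * m - k2 * (s - (1 - hel m)) - k3 * M

end Crest.Agent.R307.L
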