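import Crest.Agent.Lib.PolyBB.Basic
import Crest.Agent.R307.LStepA0C0
import Crest.Agent.R307.LStepA0C1

set_option autoImplicit false
set_option maxRecDepth 100000
set_option Elab.async false

open Crest.Agent.Lib.PolyBB

namespace Crest.Agent.R307.L.Step.LStepA0Cert

theorem g0 : Holds (esA ch0) [] [⟨1, 0, 2, 1⟩, ⟨1, 0, 2, 1⟩, ⟨1, 0, 4, 1⟩] :=
  Holds.of_run c0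

theorem g1 : Holds (esA ch0) [] [⟨1, 0, 2, 1⟩, ⟨1, 0, 2, 1⟩, ⟨4, 1, 8, 3⟩] :=
  Holds.of_run c1

theorem g2 : Holds (esA ch0) [] [⟨1, 0, 2, 1⟩, ⟨1, 0, 2, 1⟩, ⟨8, 3, 2, 1⟩] :=
  Holds.of_run c2

theorem g3 : Holds (esA ch0) [] [⟨1, 0, 2, 1⟩, ⟨1, 0, 2, 1⟩, ⟨4, 1, 2, 1⟩] :=
  Holds.split 2 8 3 g1 g2

theorem g4 : Holds (esA ch0) [] [⟨1, 0, 2, 1⟩, ⟨1, 0, 2, 1⟩, ⟨1, 0, 2, 1⟩] :=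
  Holds.split 2 4 1 g0 g3

theorem g5 : Holds (esA ch0) [] [⟨2, 1, 4, 3⟩, ⟨1, 0, 2, 1⟩, ⟨1, 0, 4, 1⟩] :=
  Holds.of_run c3

theorem g6 : Holds (esA ch0) [] [⟨2, 1, 4, 3⟩, ⟨1, 0, 2, 1⟩, ⟨4, 1, 2, 1⟩] :=
  Holds.of_run c4

theorem g7 : Holds (esA ch0) [] [⟨2, 1, 4, 3⟩, ⟨1, 0, 2, 1⟩, ⟨1, 0, 2, 1⟩] :=
  Holds.split 2 4 1 g5 g6

theorem g8 : Holds (esA ch0) [] [⟨4, 3, 16, 13⟩, ⟨1, 0, 32, 1⟩, ⟨1, 0, 32, 1⟩] :=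
  Holds.of_run c5

theorem g9 : Holds (esA ch0) [] [⟨16, 13, 8, 7⟩, ⟨1, 0, 32, 1⟩, ⟨1, 0, 32, 1⟩] :=
  Holds.of_run c6

theorem g10 : Holds (esA ch0) [] [⟨4, 3, 8, 7⟩, ⟨1, 0, 32, 1⟩, ⟨1, 0, 32, 1⟩] :=
  Holds.split 0 16 13 g8 g9

theorem g11 : Holds (esA ch0) [] [⟨4, 3, 8, 7⟩, ⟨1, 0, 32, 1⟩, ⟨32, 1, 16, 1⟩] :=
  Holds.of_run c7

theorem g12 : Holds (esA ch0) [] [⟨4, 3, 8, 7⟩, ⟨1, 0, 32, 1⟩, ⟨1, 0, 16, 1⟩] :=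
  Holds.split 2 32 1 g10 g11

theorem g13 : Holds (esA ch0) [] [⟨4, 3, 8, 7⟩, ⟨32, 1, 16, 1⟩, ⟨1, 0, 16, 1⟩] :=
  Holds.of_run c8

theorem g14 : Holds (esA ch0) [] [⟨4, 3, 8, 7⟩, ⟨1, 0, 16, 1⟩, ⟨1, 0, 16, 1⟩] :=
  Holds.split 1 32 1 g12 g13

theorem g15 : Holds (esA ch0) [] [⟨4, 3, 8, 7⟩, ⟨1, 0, 16, 1⟩, ⟨16, 1, 8, 1⟩] :=
  Holds.of_run c9

theorem g16 : Holds (esA ch0) [] [⟨4, 3, 8, 7⟩, ⟨1, 0, 16, 1⟩, ⟨1, 0, 8, 1⟩] :=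
  Holds.split 2 16 1 g14 g15

theorem g17 : Holds (esA ch0) [] [⟨4, 3, 8, 7⟩, ⟨1, 0, 16, 1⟩, ⟨8, 1, 4, 1⟩] :=
  Holds.of_run c10

theorem g18 : Holds (esA ch0) [] [⟨4, 3, 8, 7⟩, ⟨1, 0, 16, 1⟩, ⟨1, 0, 4, 1⟩] :=
  Holds.split 2 8 1 g16 g17

theorem g19 : Holds (esA ch0) [] [⟨4, 3, 8, 7⟩, ⟨16, 1, 8, 1⟩, ⟨1, 0, 4, 1⟩] :=
  Holds.of_run c11

theorem g20 : Holds (esA ch0) [] [⟨4, 3, 8, 7⟩, ⟨1, 0, 8, 1⟩, ⟨1, 0, 4, 1⟩] :=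
  Holds.split 1 16 1 g18 g19

theorem g21 : Holds (esA ch0) [] [⟨4, 3, 8, 7⟩, ⟨8, 1, 4, 1⟩, ⟨1, 0, 4, 1⟩] :=
  Holds.of_run c12

theorem g22 : Holds (esA ch0) [] [⟨4, 3, 8, 7⟩, ⟨1, 0, 4, 1⟩, ⟨1, 0, 4, 1⟩] :=
  Holds.split 1 8 1 g20 g21

theorem g23 : Holds (esA ch0) [] [⟨4, 3, 8, 7⟩, ⟨4, 1, 2, 1⟩, ⟨1, 0, 4, 1⟩] :=
  Holds.of_run c13

theorem g24 : Holds (esA ch0) [] [⟨4, 3, 8, 7⟩, ⟨1, 0, 2, 1⟩, ⟨1, 0, 4, 1⟩] :=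
  Holds.split 1 4 1 g22 g23

theorem g25 : Holds (esA ch0) [] [⟨4, 3, 8, 7⟩, ⟨1, 0, 2, 1⟩, ⟨4, 1, 2, 1⟩] :=
  Holds.of_run c14

theorem g26 : Holds (esA ch0) [] [⟨4, 3, 8, 7⟩, ⟨1, 0, 2, 1⟩, ⟨1, 0, 2, 1⟩] :=
  Holds.split 2 4 1 g24 g25

theorem g27 : Holds (esA ch0) [] [⟨8, 7, 1, 1⟩, ⟨1, 0, 2, 1⟩, ⟨1, 0, 2, 1⟩] :=
  Holds.of_run c15

theorem g28 : Holds (esA ch0) [] [⟨4, 3, 1, 1⟩, ⟨1, 0, 2, 1⟩, ⟨1, 0, 2, 1⟩] :=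
  Holds.split 0 8 7 g26 g27

theorem g29 : Holds (esA ch0) [] [⟨2, 1, 1, 1⟩, ⟨1, 0, 2, 1⟩, ⟨1, 0, 2, 1⟩] :=
  Holds.split 0 4 3 g7 g28

theorem g30 : Holds (esA ch0) [] [⟨1, 0, 1, 1⟩, ⟨1, 0, 2, 1⟩, ⟨1, 0, 2, 1⟩] :=
  Holds.split 0 2 1 g4 g29

end Crest.Agent.R307.L.Step.LStepA0Cert

theorem Crest.Agent.R307.L.Step.holdsA0 : Holds (esA ch0) [] [⟨1, 0, 1, 1⟩, ⟨1, 0, 2, 1⟩, ⟨1, 0, 2, 1⟩] :=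
  Crest.Agent.R307.L.Step.LStepA0Cert.g30
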