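import Crest.Agent.Lib.PolyBB.Basic
import Crest.Agent.R307.LStepB0C0

set_option autoImplicit false
set_option maxRecDepth 100000
set_option Elab.async false

open Crest.Agent.Lib.PolyBB

namespace Crest.Agent.R307.L.Step.LStepB0Cert

theorem g0 : Holds (esB ch0) [] [⟨1, 0, 1, 1⟩, ⟨1, 0, 2, 1⟩, ⟨1, -1, 8, -7⟩] :=
  Holds.of_run c0

theorem g1 : Holds (esB ch0) [] [⟨1, 0, 1, 1⟩, ⟨1, 0, 2, 1⟩, ⟨8, -7, 4, -3⟩] :=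
  Holds.of_run c1

theorem g2 : Holds (esB ch0) [] [⟨1, 0, 1, 1⟩, ⟨1, 0, 2, 1⟩, ⟨1, -1, 4, -3⟩] :=
  Holds.split 2 8 (-7) g0 g1

theorem g3 : Holds (esB ch0) [] [⟨1, 0, 2, 1⟩, ⟨1, 0, 2, 1⟩, ⟨4, -3, 2, -1⟩] :=
  Holds.of_run c2

theorem g4 : Holds (esB ch0) [] [⟨2, 1, 4, 3⟩, ⟨1, 0, 2, 1⟩, ⟨4, -3, 2, -1⟩] :=
  Holds.of_run c3

theorem g5 : Holds (esB ch0) [] [⟨4, 3, 16, 13⟩, ⟨1, 0, 8, 1⟩, ⟨4, -3, 2, -1⟩] :=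
  Holds.of_run c4

theorem g6 : Holds (esB ch0) [] [⟨16, 13, 8, 7⟩, ⟨1, 0, 8, 1⟩, ⟨4, -3, 2, -1⟩] :=
  Holds.of_run c5

theorem g7 : Holds (esB ch0) [] [⟨4, 3, 8, 7⟩, ⟨1, 0, 8, 1⟩, ⟨4, -3, 2, -1⟩] :=
  Holds.split 0 16 13 g5 g6

theorem g8 : Holds (esB ch0) [] [⟨8, 7, 1, 1⟩, ⟨1, 0, 8, 1⟩, ⟨4, -3, 2, -1⟩] :=
  Holds.of_run c6

theorem g9 : Holds (esB ch0) [] [⟨4, 3, 1, 1⟩, ⟨1, 0, 8, 1⟩, ⟨4, -3, 2, -1⟩] :=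
  Holds.split 0 8 7 g7 g8

theorem g10 : Holds (esB ch0) [] [⟨4, 3, 1, 1⟩, ⟨8, 1, 4, 1⟩, ⟨4, -3, 2, -1⟩] :=
  Holds.of_run c7

theorem g11 : Holds (esB ch0) [] [⟨4, 3, 1, 1⟩, ⟨1, 0, 4, 1⟩, ⟨4, -3, 2, -1⟩] :=
  Holds.split 1 8 1 g9 g10

theorem g12 : Holds (esB ch0) [] [⟨4, 3, 1, 1⟩, ⟨4, 1, 2, 1⟩, ⟨4, -3, 2, -1⟩] :=
  Holds.of_run c8

theorem g13 : Holds (esB ch0) [] [⟨4, 3, 1, 1⟩, ⟨1, 0, 2, 1⟩, ⟨4, -3, 2, -1⟩] :=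
  Holds.split 1 4 1 g11 g12

theorem g14 : Holds (esB ch0) [] [⟨2, 1, 1, 1⟩, ⟨1, 0, 2, 1⟩, ⟨4, -3, 2, -1⟩] :=
  Holds.split 0 4 3 g4 g13

theorem g15 : Holds (esB ch0) [] [⟨1, 0, 1, 1⟩, ⟨1, 0, 2, 1⟩, ⟨4, -3, 2, -1⟩] :=
  Holds.split 0 2 1 g3 g14

theorem g16 : Holds (esB ch0) [] [⟨1, 0, 1, 1⟩, ⟨1, 0, 2, 1⟩, ⟨1, -1, 2, -1⟩] :=
  Holds.split 2 4 (-3) g2 g15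

theorem g17 : Holds (esB ch0) [] [⟨1, 0, 2, 1⟩, ⟨1, 0, 2, 1⟩, ⟨2, -1, 1, 0⟩] :=
  Holds.of_run c9

theorem g18 : Holds (esB ch0) [] [⟨2, 1, 4, 3⟩, ⟨1, 0, 2, 1⟩, ⟨2, -1, 1, 0⟩] :=
  Holds.of_run c10

theorem g19 : Holds (esB ch0) [] [⟨4, 3, 1, 1⟩, ⟨1, 0, 2, 1⟩, ⟨2, -1, 1, 0⟩] :=
  Holds.of_run c11

theorem g20 : Holds (esB ch0) [] [⟨2, 1, 1, 1⟩, ⟨1, 0, 2, 1⟩, ⟨2, -1, 1, 0⟩] :=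
  Holds.split 0 4 3 g18 g19

theorem g21 : Holds (esB ch0) [] [⟨1, 0, 1, 1⟩, ⟨1, 0, 2, 1⟩, ⟨2, -1, 1, 0⟩] :=
  Holds.split 0 2 1 g17 g20

theorem g22 : Holds (esB ch0) [] [⟨1, 0, 1, 1⟩, ⟨1, 0, 2, 1⟩, ⟨1, -1, 1, 0⟩] :=
  Holds.split 2 2 (-1) g16 g21

end Crest.Agent.R307.L.Step.LStepB0Cert

theorem Crest.Agent.R307.L.Step.holdsB0 : Holds (esB ch0) [] [⟨1, 0, 1, 1⟩, ⟨1, 0, 2, 1⟩, ⟨1, -1, 1, 0⟩] :=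
  Crest.Agent.R307.L.Step.LStepB0Cert.g22
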