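import Crest.Agent.Lib.PolyBB.Basic
import Crest.Agent.R307.LStepB2C0

set_option autoImplicit false
set_option maxRecDepth 100000
set_option Elab.async false

open Crest.Agent.Lib.PolyBB

namespace Crest.Agent.R307.L.Step.LStepB2Cert

theorem g0 : Holds (esB ch2) [] [⟨1, 0, 1, 1⟩, ⟨1, 0, 2, 1⟩, ⟨1, -1, 1, 0⟩] :=
  Holds.of_run c0

end Crest.Agent.R307.L.Step.LStepB2Cert

theorem Crest.Agent.R307.L.Step.holdsB2 : Holds (esB ch2) [] [⟨1, 0, 1, 1⟩, ⟨1, 0, 2, 1⟩, ⟨1, -1, 1, 0⟩] :=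
  Crest.Agent.R307.L.Step.LStepB2Cert.g0
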