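import Crest.Agent.R307.LTopGlue
import Crest.Agent.R307.LTopCert

/-! Row 307, low noise regime: the top level inequality `Top`. -/

set_option autoImplicit false

namespace Crest.Agent.R307.L

theorem top' : Top := top_of TopC.holds

theorem top (_hc : CmpUp) : Top := top'

end Crest.Agent.R307.L
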