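import Crest.Agent.R307.LStepGlue
import Crest.Agent.R307.LFam
import Crest.Agent.R307.LBase
import Crest.Agent.R307.LTop
import Crest.Agent.R307.LStepA0
import Crest.Agent.R307.LStepA1
import Crest.Agent.R307.LStepA2
import Crest.Agent.R307.LStepA3
import Crest.Agent.R307.LStepB0
import Crest.Agent.R307.LStepB1
import Crest.Agent.R307.LStepB2
import Crest.Agent.R307.LStepB3

/-! Row 307, low noise regime: the induction step and the conclusion `RegL`. -/

set_option autoImplicit false

namespace Crest.Agent.R307.L

theorem stepA : StepA := Step.stepA_of fams_ok Step.holdsA0 Step.holdsA1 Step.holdsA2 Step.holdsA3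

theorem stepB : StepB := Step.stepB_of fams_ok Step.holdsB0 Step.holdsB1 Step.holdsB2 Step.holdsB3

theorem regL : RegL := regL_of fams_ok baseA baseB stepA stepB top'

end Crest.Agent.R307.L
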