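import Crest.Agent.R307.LStepKid

/-! Row 307, low noise regime, induction step: soundness of the certificate. -/

set_option autoImplicit false

namespace Crest.Agent.R307.L.Step

open Crest.Agent.Lib.PolyBB

variable {X : ℕ → ℝ} {p : ℕ → ℤ}

/-- The chart describes the moments `M - d`, `M`, `M + d`. -/
structure ChOK (c : Ch) (X : ℕ → ℝ) (p : ℕ → ℤ) (M : ℝ) : Prop where
  a0 : 0 ≤ c.x0.eval X p
  b0 : c.x0.eval X p ≤ 1
  aP : 0 ≤ c.xP.eval X p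
  a1 : 0 ≤ c.x1.eval X p
  b1 : c.x1.eval X p ≤ 1
  e0 : sg c.s0 (c.x0.eval X p) = M - X 1
  eP : sg c.sP (c.xP.eval X p) = M
  e1 : sg c.s1 (c.x1.eval X p) = M + X 1

theorem nth_mem {α : Type} {d : α} {L : List α} (hd : d ∈ L) (l : List α) (hl : ∀ a ∈ l, a ∈ L)
    (i : ℕ) : nth d l i ∈ L := by
  induction l generalizing i with
  | nil => exact hd
  | cons a l ih =>
    cases i with
    | zero => exact hl a (by simp)
    | succ i => exact ih (fun b hb => hl b (by simp [hb])) i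

theorem fam_mem (i : ℕ) : fam i ∈ fams := nth_mem fam0_mem _ (fun _ h => h) i

theorem fams_T2 : ∀ f ∈ fams, 0 ≤ f.2.2.2.2 := by decide

/-- Validity of the family `f` at `t`. -/
def ValF (f : Fm) (t : ℝ) : Prop :=
  Valid t (f.2.1 / 10000 * t ^ 2 - f.1 / 200 * t) (f.2.2.1 / 10000 * t ^ 2 + f.1 / 200 * t)

theorem valF_of (hF : Fams) {f : Fm} (hf : f ∈ fams) {T b : ℝ} (hb : 0 < b)
    (h1 : 0 ≤ 10 * T - f.2.2.2.1 * b) (h2 : 0 ≤ f.2.2.2.2 * (f.2.2.2.2 * b - 10 * T)) :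
    ValF f (T / b) := by
  refine hF f hf _ ?_ ?_
  · rw [← mul_div_assoc, le_div_iff₀ hb]
    linarith
  · rcases (fams_T2 f hf).eq_or_lt with h | h
    · exact Or.inl h.symm
    · right
      have h' : (0 : ℝ) < f.2.2.2.2 := by exact_mod_cast h
      rw [← mul_div_assoc, div_le_iff₀ hb]
      linarith [nonneg_of_mul_nonneg_right h2 h']

theorem valA (hF : Fams) {f : Fm} (hf : f ∈ fams) (ha : 0 < X 2) (h1 : 0 ≤ (loA f).eval X p)
    (h2 : 0 ≤ (hiA f).eval X p) : ValF f (tau.eval X p / (10 ^ 6 * X 2)) := by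
  simp only [loA, hiA, eval_qa, E.eval_sub, E.eval_mul, E.eval_cst] at h1 h2
  push_cast at h1 h2
  exact valF_of hF hf (by positivity) h1 h2

theorem valB (hF : Fams) {f : Fm} (hf : f ∈ fams) (h1 : 0 ≤ (loB f).eval X p)
    (h2 : 0 ≤ (hiB f).eval X p) : ValF f (tau.eval X p / 1000000) := by
  simp only [loB, hiB, E.eval_sub, E.eval_mul, E.eval_cst] at h1 h2
  push_cast at h1 h2
  exact valF_of hF hf (by positivity) h1 h2

theorem mainA_sound {c : Ch} {M : ℝ} (hc : ChOK c X p M) {f : Fm} (ha : 0 < X 2)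
    (hV : ValF f (tau.eval X p / (10 ^ 6 * X 2))) {n0 e0 n1 e1 : E}
    (k0 : KA (X 2) ((rho0 f).eval X p) (sg c.s0 (c.x0.eval X p)) (n0.eval X p) (e0.eval X p))
    (k1 : KA (X 2) ((rho1 f).eval X p) (sg c.s1 (c.x1.eval X p)) (n1.eval X p) (e1.eval X p))
    (hm : 0 ≤ (mainA c n0 e0 n1 e1).eval X p) :
    StepAt (1 + (X 2)⁻¹ ^ 2) M (X 1) (GA (X 2)⁻¹ M) := by
  rw [hc.e0] at k0
  rw [hc.e1] at k1
  obtain ⟨p0, k0⟩ := k0
  obtain ⟨p1, k1⟩ := k1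
  have hD : 0 < 3 + 100 * c.xP.eval X p := by linarith [hc.aP]
  simp only [rho0, rho1, mainA, parA, tau2, ta, eval_den, eval_hE, E.eval_sub, E.eval_add,
    E.eval_mul, E.eval_pow, E.eval_cst, E.eval_var] at k0 k1 hm
  push_cast at k0 k1 hm
  refine ⟨_, _, _, _, _, hV, LB_mono (le_of_eq ?_) le_rfl k0, LB_mono (le_of_eq ?_) le_rfl k1, ?_⟩
  · field_simp
    ring
  · field_simp
    ring
  · rw [← hc.eP, GA_sg _ _ hc.aP, GAs, ← sub_nonneg]
    refine le_of_le_of_eq (div_nonneg hm (b := 16 * 10 ^ 9 * X 2 * (3 + 100 * c.xP.eval X p) *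
      e0.eval X p * e1.eval X p) (by positivity)) ?_
    field_simp
    ring

theorem mainB_sound {c : Ch} {M : ℝ} (hc : ChOK c X p M) {f : Fm}
    (hV : ValF f (tau.eval X p / 1000000)) {n0 e0 n1 e1 : E}
    (k0 : KB ((eta0 f).eval X p) (sg c.s0 (c.x0.eval X p)) (n0.eval X p) (e0.eval X p))
    (k1 : KB ((eta1 f).eval X p) (sg c.s1 (c.x1.eval X p)) (n1.eval X p) (e1.eval X p))
    (hm : 0 ≤ (mainB c n0 e0 n1 e1).eval X p) :
    StepAt (5 * (1 + X 2)) M (X 1) (GB (X 2) M) := by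
  rw [hc.e0] at k0
  rw [hc.e1] at k1
  obtain ⟨p0, k0⟩ := k0
  obtain ⟨p1, k1⟩ := k1
  have hD : 0 < 3 + 100 * c.xP.eval X p := by linarith [hc.aP]
  simp only [eta0, eta1, mainB, parB, tau2, tb, y5, eval_den, eval_hE, E.eval_sub, E.eval_add,
    E.eval_mul, E.eval_pow, E.eval_cst, E.eval_var] at k0 k1 hm
  push_cast at k0 k1 hm
  refine ⟨_, _, _, _, _, hV, LB_mono (le_of_eq ?_) le_rfl k0, LB_mono (le_of_eq ?_) le_rfl k1, ?_⟩
  · ring
  · ring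
  · rw [← hc.eP, GB_sg _ _ hc.aP, GBs, ← sub_nonneg]
    refine le_of_le_of_eq (div_nonneg hm (b := 256 * 10 ^ 27 * (3 + 100 * c.xP.eval X p) *
      e0.eval X p * e1.eval X p) (by positivity)) ?_
    field_simp
    ring

theorem blk_sound {c : Ch} {M : ℝ} (hc : ChOK c X p M) {f : Fm} (ha : 0 < X 2) {j k : ℕ}
    {l : List E} (H : ∀ e ∈ blk c f j k l, 0 ≤ e.eval X p) :
    (ValF f (tau.eval X p / (10 ^ 6 * X 2)) →
      StepAt (1 + (X 2)⁻¹ ^ 2) M (X 1) (GA (X 2)⁻¹ M)) ∧ ∀ e ∈ l, 0 ≤ e.eval X p := by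
  simp only [blk, List.forall_mem_cons] at H
  obtain ⟨h1, h2, h3, h4, h5, H⟩ := H
  exact ⟨fun hV => mainA_sound hc ha hV (kAA _ ha hc.a0 h1 h2) (kAA _ ha hc.a1 h3 h4) h5, H⟩

theorem env_val (hF : Fams) (i : ℕ) {t : ℝ} (ht : 0 ≤ t) :
    ValF (130, 1815, 2500, 0, 10) t ∨ ValF (env1 i) t ∨ ValF (env2 i) t := by
  rcases le_total t 1 with h | h
  · exact Or.inl (hF _ fam0_mem t (by push_cast; linarith) (Or.inr (by push_cast; linarith)))
  right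
  rcases i with _ | _ | i
  · rcases le_total t 2 with h2 | h2
    · exact Or.inl (hF (80, -80, 4750, 10, 20) (by decide) t (by push_cast; linarith)
        (Or.inr (by push_cast; linarith)))
    · exact Or.inr (hF (60, 95, 5010, 20, 0) (by decide) t (by push_cast; linarith) (Or.inl rfl))
  · exact Or.inl (hF (100, 105, 5010, 10, 0) (by decide) t (by push_cast; linarith) (Or.inl rfl))
  · exact Or.inl (hF (80, 90, 5010, 10, 0) (by decide) t (by push_cast; linarith) (Or.inl rfl))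

theorem optA_sound (hF : Fams) {c : Ch} {M : ℝ} (hc : ChOK c X p M) (ha : 0 < X 2)
    (ha2 : X 2 * 2 ≤ 1) (i o : ℕ) (H : ∀ e ∈ optA c i o, 0 ≤ e.eval X p) :
    StepAt (1 + (X 2)⁻¹ ^ 2) M (X 1) (GA (X 2)⁻¹ M) := by
  rcases o with _ | _ | _ | _ | o <;> simp only [optA, List.forall_mem_cons] at H
  · obtain ⟨h1, h2, H⟩ := H
    exact (blk_sound hc ha H).1 (valA hF (fam_mem i) ha h1 h2)
  · obtain ⟨h1, h2, h3, h4, h5, h6, h7, h8, -⟩ := H
    exact mainA_sound hc ha (valA hF (fam_mem i) ha h1 h2) (kAA _ ha hc.a0 h3 h4)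
      (kAP c ha ha2 hc.a1 hc.b1 h5 h6 h7) h8
  · obtain ⟨h1, h2, h3, h4, h5, h6, h7, h8, -⟩ := H
    exact mainA_sound hc ha (valA hF (fam_mem i) ha h1 h2) (kAA _ ha hc.a0 h3 h4)
      (kAB _ ha hc.a1 hc.b1 h5 h6 h7) h8
  · obtain ⟨h1, h2, h3, h4, h5, h6, -⟩ := H
    exact mainA_sound hc ha (valA hF (fam_mem i) ha h1 h2) (kAA _ ha hc.a0 h3 h4)
      (kAZ _ ha hc.a1 h5) h6
  · obtain ⟨h1, H⟩ := H
    obtain ⟨s1, H⟩ := blk_sound hc ha H
    obtain ⟨s2, H⟩ := blk_sound hc ha H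
    obtain ⟨s3, -⟩ := blk_sound hc ha H
    exact (env_val hF i (by positivity)).elim s1 (fun h => h.elim s2 s3)

theorem optB_sound {c : Ch} {M : ℝ} (hc : ChOK c X p M) {f : Fm}
    (hV : ValF f (tau.eval X p / 1000000)) (o : ℕ) (H : ∀ e ∈ optB c f o, 0 ≤ e.eval X p) :
    StepAt (5 * (1 + X 2)) M (X 1) (GB (X 2) M) := by
  rcases o with _ | _ | _ | _ | o
  · obtain ⟨k0, H⟩ := kBB c.s0 hc.a0 hc.b0 H
    obtain ⟨k1, H⟩ := kBB c.s1 hc.a1 hc.b1 H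
    exact mainB_sound hc hV k0 k1 (H _ (List.mem_singleton_self _))
  · obtain ⟨k0, H⟩ := kBB c.s0 hc.a0 hc.b0 H
    obtain ⟨k1, H⟩ := kBZ (sg c.s1 (c.x1.eval X p)) hc.a1 H
    exact mainB_sound hc hV k0 k1 (H _ (List.mem_singleton_self _))
  · obtain ⟨k0, H⟩ := kBZ (sg c.s0 (c.x0.eval X p)) hc.a0 H
    obtain ⟨k1, H⟩ := kBB c.s1 hc.a1 hc.b1 H
    exact mainB_sound hc hV k0 k1 (H _ (List.mem_singleton_self _))
  · obtain ⟨k0, H⟩ := kBZ (sg c.s0 (c.x0.eval X p)) hc.a0 H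
    obtain ⟨k1, H⟩ := kBZ (sg c.s1 (c.x1.eval X p)) hc.a1 H
    exact mainB_sound hc hV k0 k1 (H _ (List.mem_singleton_self _))
  · obtain ⟨k0, H⟩ := kBA c hc.a0 H
    obtain ⟨k1, H⟩ := kBB c.s1 hc.a1 hc.b1 H
    exact mainB_sound hc hV k0 k1 (H _ (List.mem_singleton_self _))

theorem frac_mem {a b : ℝ} (ha : 0 ≤ a) (hab : a ≤ b) :
    0 ≤ a / b ∧ a / b ≤ 1 ∧ b * (a / b) = a := by
  refine ⟨div_nonneg ha (ha.trans hab), div_le_one_of_le₀ hab (ha.trans hab), ?_⟩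
  rcases eq_or_ne b 0 with h | h
  · rw [h, zero_mul]
    linarith
  · field_simp

theorem chart {M d : ℝ} (h0 : 0 ≤ d) (hM : |M| + d ≤ 1) (h1 : d ≤ 1 / 2) :
    ∃ w c, 0 ≤ w ∧ w ≤ 1 ∧ (c = ch0 ∨ c = ch1 ∨ c = ch2 ∨ c = ch3) ∧
      ∀ (a : ℝ) (p : ℕ → ℤ), ChOK c (pt [w, d, a]) p M := by
  have hM' := abs_le.1 (show |M| ≤ 1 - d by linarith)
  rcases le_total 0 M with h | h
  · rcases le_total d M with h' | h'
    · obtain ⟨w0, w1, w2⟩ := frac_mem (a := M - d) (b := 1 - 2 * d) (by linarith) (by linarith)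
      refine ⟨_, ch0, w0, w1, by simp, fun a p => ?_⟩
      constructor <;> simp [ch0, eB, eB1, eB2, sg, pt, w2] <;> linarith
    · obtain ⟨w0, w1, w2⟩ := frac_mem h h'
      rw [mul_comm] at w2
      refine ⟨_, ch2, w0, w1, by simp, fun a p => ?_⟩
      constructor <;> simp [ch2, eW, eWm, eWp, sg, pt, w2] <;> linarith
  · rcases le_total d (-M) with h' | h'
    · obtain ⟨w0, w1, w2⟩ := frac_mem (a := -M - d) (b := 1 - 2 * d) (by linarith) (by linarith)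
      refine ⟨_, ch1, w0, w1, by simp, fun a p => ?_⟩
      constructor <;> simp [ch1, eB, eB1, eB2, sg, pt, w2] <;> linarith
    · obtain ⟨w0, w1, w2⟩ := frac_mem (neg_nonneg.2 h) h'
      rw [mul_comm] at w2
      refine ⟨_, ch3, w0, w1, by simp, fun a p => ?_⟩
      constructor <;> simp [ch3, eW, eWm, eWp, sg, pt, w2] <;> linarith

def CertA (c : Ch) : Prop := Holds (esA c) [] [⟨1, 0, 1, 1⟩, ⟨1, 0, 2, 1⟩, ⟨1, 0, 2, 1⟩]

def CertB (c : Ch) : Prop := Holds (esB c) [] [⟨1, 0, 1, 1⟩, ⟨1, 0, 2, 1⟩, ⟨1, -1, 1, 0⟩]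

theorem stepA_of (hF : Fams) (c0 : CertA ch0) (c1 : CertA ch1) (c2 : CertA ch2) (c3 : CertA ch3) :
    StepA := by
  intro u M d hu h0 h1 hM
  obtain ⟨w, c, w0, w1, hc, hok⟩ := chart h0 hM h1
  have hC : CertA c := by rcases hc with rfl | rfl | rfl | rfl <;> assumption
  have ha : 0 < u⁻¹ := by positivity
  have ha2 : u⁻¹ * 2 ≤ 1 := by
    rw [inv_mul_le_iff₀ (by positivity)]
    linarith
  obtain ⟨k, p, -, H⟩ := Holds.elim hC (x := pt [w, d, u⁻¹]) (by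
    simp only [Box.mem_cons_pt, Iv.mem_mk, Box.mem_nil, and_true]
    push_cast
    refine ⟨⟨?_, ?_⟩, ⟨?_, ?_⟩, ?_, ?_⟩ <;> linarith)
  have := optA_sound hF (hok u⁻¹ p) ha ha2 _ _ H
  simpa only [pt_zero, pt_succ, inv_inv] using this

theorem stepB_of (hF : Fams) (c0 : CertB ch0) (c1 : CertB ch1) (c2 : CertB ch2) (c3 : CertB ch3) :
    StepB := by
  intro y M d hy hy0 h0 h1 hM
  obtain ⟨w, c, w0, w1, hc, hok⟩ := chart h0 hM h1
  have hC : CertB c := by rcases hc with rfl | rfl | rfl | rfl <;> assumption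
  obtain ⟨k, p, -, H⟩ := Holds.elim hC (x := pt [w, d, y]) (by
    simp only [Box.mem_cons_pt, Iv.mem_mk, Box.mem_nil, and_true]
    push_cast
    refine ⟨⟨?_, ?_⟩, ⟨?_, ?_⟩, ?_, ?_⟩ <;> linarith)
  simp only [esB, List.forall_mem_cons] at H
  exact optB_sound (hok y p) (valB hF (fam_mem _) H.1 H.2.1) _ H.2.2

end Crest.Agent.R307.L.Step
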