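import Crest.Agent.R307.LCmpD
import Crest.Agent.R307.LGlue

/-! Row 307, low noise regime, induction step: the children. -/

set_option autoImplicit false

namespace Crest.Agent.R307.L.Step

open Crest.Agent.Lib.PolyBB

def sg : Bool → ℝ → ℝ
  | true, x => x
  | false, x => -x

theorem GA_sg (s : Bool) (u : ℝ) {x : ℝ} (h : 0 ≤ x) : GA u (sg s x) = GAs s u x := by
  cases s
  · exact GA_neg h
  · exact GA_pos h

theorem GB_sg (s : Bool) (y : ℝ) {x : ℝ} (h : 0 ≤ x) : GB y (sg s x) = GBs s y x := by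
  cases s
  · exact GB_neg h
  · exact GB_pos h

theorem abs_sg (s : Bool) {x : ℝ} (h0 : 0 ≤ x) (h1 : x ≤ 1) : |sg s x| ≤ 1 := by
  cases s <;> simp [sg, abs_of_nonneg h0, h1]

theorem eval_hE (X : ℕ → ℝ) (p : ℕ → ℤ) (x : E) (l : List ℤ) :
    (hE l x).eval X p = hor l (x.eval X p) := by
  cases l with
  | nil => simp [hE, hor]
  | cons c l =>
    change (hE1 x l c).eval X p = _
    induction l generalizing c with
    | nil => simp [hE1, hor]
    | cons d l ih =>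
      change (E.add (.cst c) (.mul x (hE1 x l d))).eval X p = _
      rw [E.eval_add, E.eval_mul, E.eval_cst, ih]
      rfl

theorem GAs_eq (s : Bool) {x r b : ℝ} (hr : 0 < r) (hb : 0 < b) (hx : 0 ≤ x) :
    GAs s (r / b) x = ((hor (nA s 0) x * r + hor (nA s 1) x * b) * r + hor (nA s 2) x * b ^ 2) /
      (8000 * (r * b) * (3 + 100 * x)) := by
  have : 0 < 3 + 100 * x := by linarith
  rw [GAs]
  field_simp

variable {X : ℕ → ℝ} {p : ℕ → ℤ}

theorem eval_den (x : E) : (den x).eval X p = 3 + 100 * x.eval X p := by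
  simp [den]

theorem eval_nAc (s : Bool) {x r b : E} (hr : 0 < r.eval X p) (hb : 0 < b.eval X p)
    (hx : 0 ≤ x.eval X p) :
    (nAc s x r b).eval X p = GAs s (r.eval X p / b.eval X p) (x.eval X p) *
      (8000 * (r.eval X p * b.eval X p) * (3 + 100 * x.eval X p)) := by
  have : 0 < 3 + 100 * x.eval X p := by linarith
  rw [GAs_eq s hr hb hx, div_mul_cancel₀ _ (by positivity)]
  simp only [nAc, E.eval_add, E.eval_mul, E.eval_pow, eval_hE]

theorem eval_nBc (s : Bool) {x y : E} (hx : 0 ≤ x.eval X p) :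
    (nBc s x y).eval X p = GBs s (y.eval X p / 10 ^ 6) (x.eval X p) *
      (128000 * 10 ^ 24 * (3 + 100 * x.eval X p)) := by
  have : 0 < 3 + 100 * x.eval X p := by linarith
  simp only [nBc, GBs, E.eval_add, E.eval_mul, E.eval_cst, eval_hE]
  push_cast
  field_simp
  ring

theorem eval_qa : qa.eval X p = 10 ^ 6 * X 2 := by
  simp only [qa, E.eval_mul, E.eval_cst, E.eval_var]
  norm_num

/-- A child in the step at large multiplier. -/
def KA (a r M n e : ℝ) : Prop :=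
  0 < e ∧ LB (1 + r / (10 ^ 16 * a ^ 2)) M (n / (8 * 10 ^ 9 * a * e))

/-- A child in the step at small multiplier. -/
def KB (h M n e : ℝ) : Prop := 0 < e ∧ LB (5 + h / 10 ^ 16) M (n / (128 * 10 ^ 27 * e))

theorem sq_le_rho {a r R : ℝ} (ha : 0 < a) (h : 0 ≤ r - 10000 * R ^ 2) :
    1 + (R / (10 ^ 6 * a)) ^ 2 ≤ 1 + r / (10 ^ 16 * a ^ 2) := by
  have : (R / (10 ^ 6 * a)) ^ 2 = 10000 * R ^ 2 / (10 ^ 16 * a ^ 2) := by
    field_simp
    ring
  rw [this]
  gcongr
  linarith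

theorem kAA (s : Bool) {x r h : E} (ha : 0 < X 2) (hx : 0 ≤ x.eval X p)
    (h1 : 0 ≤ (E.sub h (sq4 r)).eval X p) (h2 : 0 ≤ (ge2 r).eval X p) :
    KA (X 2) (h.eval X p) (sg s (x.eval X p)) ((nAc s x r qa).eval X p)
      ((E.mul r (den x)).eval X p) := by
  simp only [sq4, ge2, eval_qa, E.eval_sub, E.eval_mul, E.eval_pow, E.eval_cst] at h1 h2
  push_cast at h1 h2
  have hr : 0 < r.eval X p := by nlinarith
  have hD : 0 < 3 + 100 * x.eval X p := by linarith
  rw [eval_nAc s hr (by rw [eval_qa]; positivity) hx, E.eval_mul, eval_den, eval_qa]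
  refine ⟨by positivity, LB_A (u := r.eval X p / (10 ^ 6 * X 2)) ?_ (sq_le_rho ha h1) ?_⟩
  · rw [le_div_iff₀ (by positivity)]
    linarith
  · rw [GA_sg s _ hx]
    apply le_of_eq
    field_simp
    ring

theorem kAP (c : Ch) {h : E} (ha : 0 < X 2) (ha2 : X 2 * 2 ≤ 1) (hx : 0 ≤ c.x1.eval X p)
    (hx1 : c.x1.eval X p ≤ 1) (h1 : 0 ≤ (E.sub h (sq4 (lin 7))).eval X p)
    (h2 : 0 ≤ (E.sub (.mul (.cst 10) (lin 7)) (.mul (.cst 17) qa)).eval X p)
    (h3 : 0 ≤ (E.sub (.mul (.par 12) (.var 2)) (.cst 1000000)).eval X p) :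
    KA (X 2) (h.eval X p) (sg c.s1 (c.x1.eval X p)) ((nP c).eval X p)
      ((E.mul (.mul (.cst 1000000000000) (lin 7)) (den c.x1)).eval X p) := by
  simp only [sq4, eval_qa, E.eval_sub, E.eval_mul, E.eval_pow, E.eval_cst, E.eval_var,
    E.eval_par] at h1 h2 h3
  push_cast at h1 h2 h3
  have hr : 0 < (lin 7).eval X p := by nlinarith
  have hD : 0 < 3 + 100 * c.x1.eval X p := by linarith
  have hK := nK_nonneg c.s1 hx hx1
  have hc := fun h1 h2 => cmpDown c.s1 (u := (lin 7).eval X p / (10 ^ 6 * X 2)) h1 h2 hx hx1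
  have hs := sq_le_rho ha h1
  simp only [nP, E.eval_sub, E.eval_mul, E.eval_pow, E.eval_cst, E.eval_par, eval_hE, eval_den]
  rw [eval_nAc c.s1 hr (by rw [eval_qa]; positivity) hx, eval_qa]
  push_cast
  generalize (lin 7).eval X p = R at *
  generalize (p 12 : ℝ) = w at *
  generalize X 2 = a at *
  generalize c.x1.eval X p = x at *
  generalize hor (nK c.s1) x = K at *
  have hw : 0 < w := by
    by_contra hw
    nlinarith [mul_nonneg (neg_nonneg.2 (not_lt.1 hw)) ha.le]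
  refine ⟨by positivity, ?_⟩
  have he : (1000000000000 * (GAs c.s1 (R / (10 ^ 6 * a)) x *
      (8000 * (R * (10 ^ 6 * a)) * (3 + 100 * x))) - 8 * w * (R * (1000000 - R) ^ 2) * K) /
      (8 * 10 ^ 9 * a * (1000000000000 * R * (3 + 100 * x))) = GAs c.s1 (R / (10 ^ 6 * a)) x -
      K / (1000 * (3 + 100 * x)) * (w * a / 10 ^ 6 * (1 / a - R / (10 ^ 6 * a)) ^ 2) := by
    field_simp
    ring
  rw [he]
  have h17 : 17 / 10 ≤ R / (10 ^ 6 * a) := by
    rw [le_div_iff₀ (by positivity)]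
    linarith
  generalize R / (10 ^ 6 * a) = u at *
  rcases le_total 2 u with h | h
  · refine LB_A h hs ?_
    rw [GA_sg _ _ hx]
    exact sub_le_self _ (by positivity)
  · refine Or.inr (Or.inr ⟨(u ^ 2 - 4) / 5, by nlinarith, by nlinarith, by linarith, ?_⟩)
    rw [GB_sg _ _ hx]
    refine le_trans (sub_le_sub_left (mul_le_mul_of_nonneg_left ?_ (by positivity)) _) (hc h17 h)
    have h4 : 2 ≤ 1 / a := by
      rw [le_div_iff₀ ha]
      linarith
    have h5 : (2 - u) ^ 2 ≤ (1 / a - u) ^ 2 := pow_le_pow_left₀ (by linarith) (by linarith) 2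
    have h6 : 1 ≤ w * a / 10 ^ 6 := by
      rw [le_div_iff₀ (by positivity)]
      linarith
    exact h5.trans (le_mul_of_one_le_left (sq_nonneg _) h6)

theorem y_range {y : E} (h2 : 0 ≤ (geM y).eval X p) (h3 : 0 ≤ (leC y).eval X p) :
    -1 ≤ y.eval X p / 10 ^ 6 ∧ y.eval X p / 10 ^ 6 ≤ 13 / 45 := by
  simp only [geM, leC, E.eval_sub, E.eval_add, E.eval_mul, E.eval_cst] at h2 h3
  push_cast at h2 h3
  constructor <;> linarith

theorem kAB (s : Bool) {x y h : E} (ha : 0 < X 2) (hx : 0 ≤ x.eval X p) (hx1 : x.eval X p ≤ 1)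
    (h1 : 0 ≤ (E.sub h (.mul (.mul (.cst 10000000000) (.pow (.var 2) 2))
      (.add (.cst 4000000) (.mul (.cst 5) y)))).eval X p)
    (h2 : 0 ≤ (geM y).eval X p) (h3 : 0 ≤ (leC y).eval X p) :
    KA (X 2) (h.eval X p) (sg s (x.eval X p)) ((E.mul (.var 2) (nBc s x y)).eval X p)
      ((E.mul (.cst 16000000000000000000) (den x)).eval X p) := by
  obtain ⟨y1, y2⟩ := y_range h2 h3
  have hD : 0 < 3 + 100 * x.eval X p := by linarith
  simp only [E.eval_sub, E.eval_add, E.eval_mul, E.eval_pow, E.eval_cst, E.eval_var, eval_den,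
    eval_nBc s hx] at h1 ⊢
  push_cast at h1 ⊢
  refine ⟨by positivity, LB_B cmpUp y1 y2 ?_ (abs_sg s hx hx1) ?_⟩
  · have : 4 + 5 * (y.eval X p / 10 ^ 6) ≤ h.eval X p / (10 ^ 16 * X 2 ^ 2) := by
      rw [le_div_iff₀ (by positivity)]
      linarith
    linarith
  · rw [GB_sg s _ hx]
    apply le_of_eq
    field_simp
    ring

theorem kAZ {x h : E} (M : ℝ) (ha : 0 < X 2) (hx : 0 ≤ x.eval X p)
    (h1 : 0 ≤ (E.add h (sq4 qa)).eval X p) :
    KA (X 2) (h.eval X p) M ((E.cst 0).eval X p) ((den x).eval X p) := by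
  simp only [sq4, eval_qa, E.eval_add, E.eval_mul, E.eval_pow, E.eval_cst, eval_den] at h1 ⊢
  push_cast at h1 ⊢
  refine ⟨by positivity, LB_zero ?_ (by simp)⟩
  have : -1 ≤ h.eval X p / (10 ^ 16 * X 2 ^ 2) := by
    rw [le_div_iff₀ (by positivity)]
    linarith
  linarith

theorem kBB (s : Bool) {x y h : E} {l : List E} (hx : 0 ≤ x.eval X p) (hx1 : x.eval X p ≤ 1)
    (H : ∀ e ∈ sdB h y l, 0 ≤ e.eval X p) :
    KB (h.eval X p) (sg s (x.eval X p)) ((nBc s x y).eval X p) ((den x).eval X p) ∧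
      ∀ e ∈ l, 0 ≤ e.eval X p := by
  simp only [sdB, List.forall_mem_cons] at H
  obtain ⟨h1, h2, h3, H⟩ := H
  refine ⟨?_, H⟩
  obtain ⟨y1, y2⟩ := y_range h2 h3
  have hD : 0 < 3 + 100 * x.eval X p := by linarith
  simp only [E.eval_sub, E.eval_mul, E.eval_cst, eval_den, eval_nBc s hx] at h1 ⊢
  push_cast at h1 ⊢
  refine ⟨hD, LB_B cmpUp y1 y2 (by linarith) (abs_sg s hx hx1) ?_⟩
  rw [GB_sg s _ hx]
  apply le_of_eq
  field_simp
  ring

theorem kBZ {x h : E} {l : List E} (M : ℝ) (hx : 0 ≤ x.eval X p)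
    (H : ∀ e ∈ sdZ h l, 0 ≤ e.eval X p) :
    KB (h.eval X p) M ((E.cst 0).eval X p) ((den x).eval X p) ∧ ∀ e ∈ l, 0 ≤ e.eval X p := by
  simp only [sdZ, List.forall_mem_cons] at H
  obtain ⟨h1, H⟩ := H
  refine ⟨?_, H⟩
  simp only [E.eval_add, E.eval_cst, eval_den] at h1 ⊢
  push_cast at h1 ⊢
  exact ⟨by positivity, LB_zero (by linarith) (by simp)⟩

theorem kBA (c : Ch) {h : E} {l : List E} (hx : 0 ≤ c.x0.eval X p)
    (H : ∀ e ∈ sdA h (lin3 2) l, 0 ≤ e.eval X p) :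
    KB (h.eval X p) (sg c.s0 (c.x0.eval X p)) ((nU c).eval X p)
      ((E.mul (lin3 2) (den c.x0)).eval X p) ∧ ∀ e ∈ l, 0 ≤ e.eval X p := by
  simp only [sdA, List.forall_mem_cons] at H
  obtain ⟨h1, h2, H⟩ := H
  refine ⟨?_, H⟩
  simp only [sq4, E.eval_sub, E.eval_add, E.eval_mul, E.eval_pow, E.eval_cst] at h1 h2
  push_cast at h1 h2
  have hr : 0 < (lin3 2).eval X p := by linarith
  have hD : 0 < 3 + 100 * c.x0.eval X p := by linarith
  rw [nU, E.eval_mul, eval_nAc c.s0 hr (by simp) hx, E.eval_mul, eval_den, E.eval_cst, E.eval_cst]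
  push_cast
  refine ⟨by positivity, LB_A (u := (lin3 2).eval X p / 1000000) (by linarith) ?_ ?_⟩
  · rw [div_pow]
    linarith
  · rw [GA_sg _ _ hx]
    apply le_of_eq
    field_simp
    ring

end Crest.Agent.R307.L.Step
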