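import Crest.Agent.Lib.PolyBB.Core
import Crest.Agent.R307.LCoef

/-! Row 307, low noise regime, top level: the polynomials of the certificate (variables `s`,
`|M|`, `τ`; written by `notes307/top/expr.py`, independent of the numerical data). -/

set_option autoImplicit false

open Crest.Agent.Lib.PolyBB

namespace Crest.Agent.R307.L.TopC

noncomputable def horE (l : List Int) : Int → E :=
  List.rec (motive := fun _ => Int → E) (fun c => .cst c)
    (fun d _ ih c => .add (.cst c) (.mul (.var 1) (ih d))) l

noncomputable def horL (l : List Int) : E :=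
  List.rec (motive := fun _ => E) (.cst 0) (fun c l _ => horE l c) l

noncomputable def bil (j : Nat) : E :=
  .add (.add (.par j) (.mul (.par (Nat.add j 1)) (.var 0)))
    (.mul (.add (.par (Nat.add j 2)) (.mul (.par (Nat.add j 3)) (.var 0))) (.var 1))

noncomputable def eP_ : E := .add (bil 0) (bil 4)
noncomputable def eQ : E := .sub (bil 0) (bil 4)
noncomputable def eS : E := .mul (.cst 4294967296) (.var 0)
noncomputable def eU : E := .add (.mul (bil 0) (.add (bil 0) (bil 16))) (.pow (bil 4) 2)
noncomputable def eK2 : E := .add (.pow eS 2) eU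
noncomputable def eK1 : E := .mul (bil 0) (.sub (bil 12) (bil 20))
noncomputable def eD : E := .add (.cst 24000) (.mul (.cst 800000) (.var 1))
noncomputable def ePsi : E := .sub (.add (.mul eS (.add (.mul eP_ (horL (nA true 0))) (.mul eQ (horL (nA false 0))))) (.mul (.pow eS 2) (.add (horL (nA true 1)) (horL (nA false 1))))) (.mul eD (.add (.mul (bil 0) (.add (bil 8) (.mul (bil 20) (.var 1)))) (.mul (.var 0) (.add (.cst 18446744073709551616) eU))))
noncomputable def eXi : E := .mul (.pow eS 3) (.add (.mul eQ (horL (nA true 2))) (.mul eP_ (horL (nA false 2))))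
noncomputable def ePQ : E := .mul eP_ eQ
noncomputable def ePhi : E := .add (.mul ePQ ePsi) eXi
noncomputable def eDPQ : E := .mul eD ePQ
noncomputable def eT2 : E := .add (.cst 33554432) (bil 24)
noncomputable def mid0 : E := .sub (.mul ePhi (.mul eT2 eK2)) (.mul (.mul (.cst 16777216) (.pow eK1 2)) eDPQ)
noncomputable def mid1 : E := .sub (.pow (.mul (.cst 16777216) eK1) 2) (.mul (.mul (bil 24) eT2) (.pow eK2 2))
noncomputable def mid2 : E := .sub eT2 (.cst 1)
noncomputable def eW : E := .sub (.cst 281474976710656) (.pow (bil 24) 2)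
noncomputable def eSl : E := .sub (.mul eK1 eW) (.mul (.mul (.cst 33554432) (bil 24)) eK2)
noncomputable def tan2 : E := .sub eW (.cst 1)
noncomputable def tanA : E := .sub (.mul (.mul (.cst 20) eW) ePhi) (.mul eDPQ (.add (.mul (.cst 11) eSl) (.mul (.mul (.cst 40) (.pow (bil 24) 2)) eK2)))
noncomputable def tanB : E := .sub (.mul (.mul (.cst 13) eW) ePhi) (.mul eDPQ (.add (.mul (.sub (.cst 50) (.mul (.cst 100) (.var 0))) eSl) (.mul (.mul (.cst 26) (.pow (bil 24) 2)) eK2)))
noncomputable def ew : E := .add (.cst 1) (.pow (.var 2) 2)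
noncomputable def ev : E := .sub (.cst 1) (.pow (.var 2) 2)
noncomputable def inn : E := .add (.add (.add (.mul (bil 8) (.mul (.cst 300) (.pow ew 6))) (.mul (bil 12) (.mul (.mul (.cst 300) ev) (.pow ew 5)))) (.sub (.mul (bil 16) (.mul (.mul (.cst 600) (.var 2)) (.pow ew 5))) (.mul (bil 4) (.mul (.mul (.mul (.cst 1200) (.var 2)) ev) (.pow ew 4))))) (.mul (bil 20) (.mul (.mul ev (.pow (.var 2) 2)) (.add (.sub (.mul (.cst 600) (.pow ew 3)) (.mul (.mul (.cst 1000) (.var 2)) (.pow ew 2))) (.sub (.mul (.mul (.cst 1584) (.pow (.var 2) 2)) ew) (.mul (.cst 1280) (.pow (.var 2) 3))))))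
noncomputable def selO : E := .sub (.cst 0) (.var 2)
noncomputable def selI : E := .var 2
noncomputable def a0 : E := .sub eP_ (.mul (.cst 2) eS)
noncomputable def a1 : E := .sub eQ (.mul (.cst 2) eS)
noncomputable def a2 : E := .sub eK2 (.cst 1)

noncomputable def esA : Nat → List E := fun _ => [a0, a1, a2]

noncomputable def esK : Nat → List E
  | 0 => [selI, inn]
  | 1 => [selO, mid2, mid1, mid0]
  | 2 => [selO, tan2, eSl, tanA]
  | _ => [selO, tan2, eSl, tanB]

noncomputable def esB : Nat → Nat → List E := fun _ => esK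

end Crest.Agent.R307.L.TopC
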