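import Crest.Agent.R307.LGlue
import Crest.Agent.R307.LTopDefs
import Crest.Agent.Lib.PolyBB.Basic

/-! Row 307, low noise regime: the top level inequality `Top` from its certificate. -/

set_option autoImplicit false

open Crest.Agent.Lib.PolyBB

namespace Crest.Agent.R307.L

namespace TopC

theorem horE_eval (x : ℕ → ℝ) (p : ℕ → ℤ) (l : List ℤ) (c : ℤ) :
    (horE l c).eval x p = hor (c :: l) (x 1) := by
  induction l generalizing c with
  | nil =>
    change (c : ℝ) = c + x 1 * 0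
    ring
  | cons d l ih =>
    change (c : ℝ) + x 1 * (horE l d).eval x p = c + x 1 * hor (d :: l) (x 1)
    rw [ih]

theorem horL_eval (x : ℕ → ℝ) (p : ℕ → ℤ) (l : List ℤ) : (horL l).eval x p = hor l (x 1) := by
  cases l with
  | nil =>
    change ((0 : ℤ) : ℝ) = 0
    exact Int.cast_zero
  | cons c l => exact horE_eval x p l c

/-- The bilinear multipliers. -/
noncomputable def bv (p : ℕ → ℤ) (j : ℕ) (s x : ℝ) : ℝ :=
  p j + p (j + 1) * s + (p (j + 2) + p (j + 3) * s) * x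

theorem bil_eval (s x : ℝ) (l : List ℝ) (p : ℕ → ℤ) (j : ℕ) :
    (bil j).eval (pt (s :: x :: l)) p = bv p j s x := rfl

theorem bv_congr {p q : ℕ → ℤ} (h : ∀ j < 24, q j = p j) {j : ℕ} (hj : j + 3 < 24) (s x : ℝ) :
    bv q j s x = bv p j s x := by
  unfold bv
  rw [h j (by omega), h (j + 1) (by omega), h (j + 2) (by omega), h (j + 3) hj]

theorem mid_le {K1 K2 T n m a Φ Z : ℝ} (hn : 0 ≤ n) (h2 : 0 < K2) (hT : 0 < 2 * n + T)
    (ha : a ^ 2 = 1 - m ^ 2) (hZ : 0 ≤ Z) (h1 : 0 ≤ (n * K1) ^ 2 - T * (2 * n + T) * K2 ^ 2)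
    (h0 : 0 ≤ Φ * ((2 * n + T) * K2) - n * K1 ^ 2 * Z) :
    0 ≤ Φ + Z * (K2 * (1 - a) - K1 * m) := by
  have hp : 0 < (2 * n + T) * K2 := mul_pos hT h2
  have e1 : (K1 * m + K2 * a) ^ 2 ≤ K1 ^ 2 + K2 ^ 2 := by
    have : K1 ^ 2 + K2 ^ 2 - (K1 * m + K2 * a) ^ 2 = (K1 * a - K2 * m) ^ 2 := by
      linear_combination (-(K1 ^ 2) - K2 ^ 2) * ha
    linarith [sq_nonneg (K1 * a - K2 * m)]
  have e2 : ((2 * n + T) * K2 * (K1 * m + K2 * a)) ^ 2 ≤
      ((2 * n + T) * K2 ^ 2 + n * K1 ^ 2) ^ 2 := by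
    have a1 := mul_le_mul_of_nonneg_left e1 (sq_nonneg ((2 * n + T) * K2))
    have a2 := mul_nonneg (sq_nonneg K1) h1
    have : ((2 * n + T) * K2 ^ 2 + n * K1 ^ 2) ^ 2 =
        ((2 * n + T) * K2) ^ 2 * (K1 ^ 2 + K2 ^ 2) +
          K1 ^ 2 * ((n * K1) ^ 2 - T * (2 * n + T) * K2 ^ 2) := by ring
    rw [this, mul_pow ((2 * n + T) * K2)]
    linarith
  have e3 := (le_abs_self _).trans (abs_le_of_sq_le_sq e2 (by positivity))
  have e4 := mul_nonneg hZ (sub_nonneg.2 e3)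
  refine nonneg_of_mul_nonneg_left (b := (2 * n + T) * K2) ?_ hp
  have : (Φ + Z * (K2 * (1 - a) - K1 * m)) * ((2 * n + T) * K2) =
      (Φ * ((2 * n + T) * K2) - n * K1 ^ 2 * Z) + Z * ((2 * n + T) * K2 ^ 2 + n * K1 ^ 2 -
        (2 * n + T) * K2 * (K1 * m + K2 * a)) := by ring
  rw [this]
  linarith

theorem tan_le {K1 K2 Y n m a Φ Z c d : ℝ} (h2 : 0 ≤ K2) (hW : 0 < n ^ 2 - Y ^ 2)
    (ha : a ^ 2 = 1 - m ^ 2) (hZ : 0 ≤ Z) (hd : 0 < d) (hm : d * m ≤ c)
    (h1 : 0 ≤ K1 * (n ^ 2 - Y ^ 2) - 2 * n * Y * K2)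
    (h0 : 0 ≤ d * (n ^ 2 - Y ^ 2) * Φ -
      Z * (c * (K1 * (n ^ 2 - Y ^ 2) - 2 * n * Y * K2) + 2 * d * Y ^ 2 * K2)) :
    0 ≤ Φ + Z * (K2 * (1 - a) - K1 * m) := by
  have hp : 0 < d * (n ^ 2 - Y ^ 2) := mul_pos hd hW
  have e1 : ((n ^ 2 - Y ^ 2) * a + 2 * n * Y * m) ^ 2 ≤ (n ^ 2 + Y ^ 2) ^ 2 := by
    have : (n ^ 2 + Y ^ 2) ^ 2 - ((n ^ 2 - Y ^ 2) * a + 2 * n * Y * m) ^ 2 =
        ((n ^ 2 - Y ^ 2) * m - 2 * n * Y * a) ^ 2 := by
      linear_combination (-(n ^ 2 + Y ^ 2) ^ 2) * ha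
    linarith [sq_nonneg ((n ^ 2 - Y ^ 2) * m - 2 * n * Y * a)]
  have e2 := (le_abs_self _).trans (abs_le_of_sq_le_sq e1 (by positivity))
  have e3 := mul_nonneg hZ (mul_nonneg (mul_nonneg hd.le h2) (sub_nonneg.2 e2))
  have e4 := mul_nonneg hZ (mul_nonneg (sub_nonneg.2 hm) h1)
  refine nonneg_of_mul_nonneg_left (b := d * (n ^ 2 - Y ^ 2)) ?_ hp
  have : (Φ + Z * (K2 * (1 - a) - K1 * m)) * (d * (n ^ 2 - Y ^ 2)) =
      (d * (n ^ 2 - Y ^ 2) * Φ -
        Z * (c * (K1 * (n ^ 2 - Y ^ 2) - 2 * n * Y * K2) + 2 * d * Y ^ 2 * K2)) +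
      Z * (d * K2 * (n ^ 2 + Y ^ 2 - ((n ^ 2 - Y ^ 2) * a + 2 * n * Y * m))) +
      Z * ((c - d * m) * (K1 * (n ^ 2 - Y ^ 2) - 2 * n * Y * K2)) := by ring
  rw [this]
  linarith

theorem inn_le {K0 Et J Ep K3 g a t w v : ℝ} (hw : 0 < w) (hv : v = g * w) (ht : t = a * w / 2)
    (h : 0 ≤ K0 * (300 * w ^ 6) + Et * (300 * v * w ^ 5) +
      (J * (600 * t * w ^ 5) - Ep * (1200 * t * v * w ^ 4)) +
      K3 * (v * t ^ 2 * (600 * w ^ 3 - 1000 * t * w ^ 2 + (1584 * t ^ 2 * w - 1280 * t ^ 3)))) :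
    0 ≤ K0 + Et * g + J * a - 2 * Ep * a * g +
      K3 * (g * (a ^ 2 / 2 - 5 / 12 * a ^ 3 + 33 / 100 * a ^ 4 - 2 / 15 * a ^ 5)) := by
  subst hv ht
  refine nonneg_of_mul_nonneg_left (b := 300 * w ^ 6) (h.trans_eq ?_) (by positivity)
  ring

/-- The statement checked by the certificate. -/
def Cert : Prop := Holds2 esA esB 24 [⟨1, -1, 0, 1⟩] [⟨1, 0, 2, 1⟩, ⟨1, 0, 1, 1⟩]

theorem core (holds : Cert) {s x m : ℝ} (hs : 0 < s) (hs2 : s ≤ 1 / 2) (hx0 : 0 ≤ x) (hx1 : x ≤ 1)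
    (hm : |m| ≤ 1) (hm1 : m ≤ 11 / 20) (hm2 : s + 13 / 100 * m ≤ 1 / 2) :
    ∃ up um k0 k1 k2 k3 : ℝ, 0 ≤ k2 ∧ 2 ≤ up ∧ 2 ≤ um ∧
      (∀ g : ℝ, |g| < 1 → (1 + up ^ 2) * zeta g + (1 + um ^ 2) * zeta (-g) ≤
        k0 + k1 * g + k2 * hel g + k3 * chi g) ∧
      (1 - s ^ 2) / s ≤
        GAs true up x + GAs false um x - k0 - k1 * m - k2 * (s - (1 - hel m)) - k3 * x := by
  obtain ⟨k, p, hA, hB⟩ := Holds2.elim holds [s, x] rfl (by
    simp only [Box.mem_cons_pt, Iv.mem_mk, Box.mem_nil]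
    push_cast
    refine ⟨⟨by linarith, by linarith⟩, ⟨by linarith, by linarith⟩, trivial⟩)
  have hC : ∀ t : ℝ, -1 ≤ t → Box.mem [⟨1, -1, 0, 1⟩] (pt [t]) := by
    intro t ht
    simp only [Box.mem_cons_pt, Iv.mem_mk, Box.mem_nil]
    push_cast
    exact ⟨⟨by linarith, by linarith⟩, trivial⟩
  have b0 := hA a0 (by simp [esA])
  have b1 := hA a1 (by simp [esA])
  have b2 := hA a2 (by simp [esA])
  simp only [a0, a1, a2, eP_, eQ, eS, eK2, eU, E.eval_add, E.eval_sub, E.eval_mul, E.eval_pow,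
    E.eval_cst, E.eval_var, bil_eval, pt_zero, Int.cast_ofNat, Int.cast_one] at b0 b1 b2
  have hin : ∀ g : ℝ, |g| < 1 → 0 ≤ bv p 8 s x + bv p 12 s x * g + bv p 16 s x * hel g -
      2 * bv p 4 s x * hel g * g + bv p 20 s x * (g * (hel g ^ 2 / 2 - 5 / 12 * hel g ^ 3 +
        33 / 100 * hel g ^ 4 - 2 / 15 * hel g ^ 5)) := by
    intro g hg
    have hg1 : 0 < 1 + g := by linarith [(abs_lt.1 hg).1]
    have ha := hel_pos hg
    have ha2 := hel_sq hg.le
    obtain ⟨t, ht0, ht⟩ : ∃ t : ℝ, 0 < t ∧ t * (1 + g) = hel g :=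
      ⟨hel g / (1 + g), div_pos ha hg1, div_mul_cancel₀ _ hg1.ne'⟩
    have e1 : 1 - t ^ 2 = g * (1 + t ^ 2) := by
      apply mul_left_cancel₀ hg1.ne'
      linear_combination (-(t * (1 + g)) - hel g) * ht - ha2
    have e2 : t = hel g * (1 + t ^ 2) / 2 := by
      linear_combination (1 + t ^ 2) / 2 * ht + t / 2 * e1
    obtain ⟨k', q, hq, h⟩ := hB [t] (hC t (by linarith))
    have hO : ¬ 0 ≤ selO.eval (pt ([s, x] ++ [t])) q := by
      change ¬ 0 ≤ ((0 : ℤ) : ℝ) - t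
      push_cast
      linarith
    match k' with
    | 0 =>
      have h1 := h inn (by simp [esB, esK])
      simp only [inn, ew, ev, List.cons_append, List.nil_append, E.eval_add, E.eval_sub,
        E.eval_mul, E.eval_pow, E.eval_cst, E.eval_var, bil_eval, pt_zero, pt_succ,
        Int.cast_ofNat, Int.cast_one, bv_congr hq (j := 4) (by norm_num),
        bv_congr hq (j := 8) (by norm_num), bv_congr hq (j := 12) (by norm_num),
        bv_congr hq (j := 16) (by norm_num), bv_congr hq (j := 20) (by norm_num)] at h1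
      exact inn_le (by positivity) e1 e2 h1
    | 1 => exact absurd (h selO (by simp [esB, esK])) hO
    | 2 => exact absurd (h selO (by simp [esB, esK])) hO
    | n + 3 => exact absurd (h selO (by simp [esB, esK])) hO
  obtain ⟨k', q, hq, h⟩ := hB [-1] (hC _ le_rfl)
  have hS : 0 < 4294967296 * s := by positivity
  have hD : 0 < 24000 + 800000 * x := by positivity
  have hP : 0 < bv p 0 s x + bv p 4 s x := by linarith
  have hQ : 0 < bv p 0 s x - bv p 4 s x := by linarith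
  have hK : 0 < (4294967296 * s) ^ 2 + (bv p 0 s x * (bv p 0 s x + bv p 16 s x) +
      bv p 4 s x ^ 2) := by linarith
  have hZ := mul_pos hD (mul_pos hP hQ)
  have ha := hel_sq hm
  have hout : 0 ≤ ePhi.eval (pt [s, x, -1]) q + eDPQ.eval (pt [s, x, -1]) q *
      (eK2.eval (pt [s, x, -1]) q * (1 - hel m) - eK1.eval (pt [s, x, -1]) q * m) := by
    have hK' : 0 < eK2.eval (pt [s, x, -1]) q := by
      simpa only [eS, eK2, eU, E.eval_add, E.eval_mul, E.eval_pow, E.eval_cst, E.eval_var,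
        bil_eval, pt_zero, Int.cast_ofNat, bv_congr hq (j := 0) (by norm_num),
        bv_congr hq (j := 4) (by norm_num), bv_congr hq (j := 16) (by norm_num)] using hK
    have hZ' : 0 ≤ eDPQ.eval (pt [s, x, -1]) q := by
      simpa only [eDPQ, eD, ePQ, eP_, eQ, E.eval_add, E.eval_sub, E.eval_mul, E.eval_cst,
        E.eval_var, bil_eval, pt_zero, pt_succ, Int.cast_ofNat,
        bv_congr hq (j := 0) (by norm_num), bv_congr hq (j := 4) (by norm_num)] using hZ.le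
    match k' with
    | 0 =>
      have h1 := h selI (by simp [esB, esK])
      change (0 : ℝ) ≤ -1 at h1
      linarith
    | 1 =>
      have h0 := h mid0 (by simp [esB, esK])
      have h1 := h mid1 (by simp [esB, esK])
      have h2 := h mid2 (by simp [esB, esK])
      simp only [mid0, mid1, mid2, eT2, List.cons_append, List.nil_append, E.eval_add, E.eval_sub,
        E.eval_mul, E.eval_pow, E.eval_cst, bil_eval, Int.cast_ofNat, Int.cast_one] at h0 h1 h2
      exact mid_le (n := 16777216) (T := bv q 24 s x) (by norm_num) hK' (by linarith) ha hZ'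
        (h1.trans_eq (by ring)) (h0.trans_eq (by ring))
    | 2 =>
      have h0 := h tanA (by simp [esB, esK])
      have h1 := h eSl (by simp [esB, esK])
      have h2 := h tan2 (by simp [esB, esK])
      simp only [tanA, eSl, tan2, eW, List.cons_append, List.nil_append, E.eval_add, E.eval_sub,
        E.eval_mul, E.eval_pow, E.eval_cst, bil_eval, Int.cast_ofNat, Int.cast_one] at h0 h1 h2
      exact tan_le (n := 16777216) (Y := bv q 24 s x) (c := 11) (d := 20) hK'.le (by linarith) ha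
        hZ' (by norm_num) (by linarith) (h1.trans_eq (by ring)) (h0.trans_eq (by ring))
    | n + 3 =>
      have h0 := h tanB (by simp [esB, esK])
      have h1 := h eSl (by simp [esB, esK])
      have h2 := h tan2 (by simp [esB, esK])
      simp only [tanB, eSl, tan2, eW, List.cons_append, List.nil_append, E.eval_add, E.eval_sub,
        E.eval_mul, E.eval_pow, E.eval_cst, E.eval_var, pt_zero, bil_eval, Int.cast_ofNat,
        Int.cast_one] at h0 h1 h2
      exact tan_le (n := 16777216) (Y := bv q 24 s x) (c := 50 - 100 * s) (d := 13) hK'.le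
        (by linarith) ha hZ' (by norm_num) (by linarith) (h1.trans_eq (by ring))
        (h0.trans_eq (by ring))
  simp only [ePhi, eDPQ, eK2, eK1, ePQ, ePsi, eXi, eD, eU, eS, eP_, eQ, E.eval_add, E.eval_sub,
    E.eval_mul, E.eval_pow, E.eval_cst, E.eval_var, bil_eval, horL_eval, pt_zero, pt_succ,
    Int.cast_ofNat, bv_congr hq (j := 0) (by norm_num), bv_congr hq (j := 4) (by norm_num),
    bv_congr hq (j := 8) (by norm_num), bv_congr hq (j := 12) (by norm_num),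
    bv_congr hq (j := 16) (by norm_num), bv_congr hq (j := 20) (by norm_num)] at hout
  generalize bv p 0 s x = R at *
  generalize bv p 4 s x = Ep at *
  generalize bv p 8 s x = K0 at *
  generalize bv p 12 s x = Et at *
  generalize bv p 16 s x = J at *
  generalize bv p 20 s x = K3 at *
  refine ⟨(R + Ep) / (4294967296 * s), (R - Ep) / (4294967296 * s), R * K0 / (4294967296 * s) ^ 2,
    R * (Et - K3) / (4294967296 * s) ^ 2,
    ((4294967296 * s) ^ 2 + (R * (R + J) + Ep ^ 2)) / (4294967296 * s) ^ 2,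
    R * K3 / (4294967296 * s) ^ 2, by positivity, (le_div_iff₀ hS).2 (by linarith),
    (le_div_iff₀ hS).2 (by linarith), fun g hg => ?_, ?_⟩
  · have h1 := div_nonneg (mul_nonneg (by linarith : 0 ≤ R) (hin g hg)) (pow_pos hS 2).le
    refine sub_nonneg.1 (h1.trans_eq ?_)
    simp only [zeta, chi, hel_neg]
    field_simp
    ring
  · have h1 := div_nonneg hout (mul_pos (pow_pos hS 2) hZ).le
    refine sub_nonneg.1 (h1.trans_eq ?_)
    have hD' : (3 + 100 * x) ≠ 0 := by positivity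
    have hD'' : 24000 + 800000 * x = 8000 * (3 + 100 * x) := by ring
    simp only [GAs, hD'']
    field_simp
    ring

end TopC

theorem top_of (hc : TopC.Cert) : Top := by
  intro s m M hs hm0 hm1 hm2 hM
  have hM' := abs_le.1 hM
  have hm : |m| ≤ 1 := abs_le.2 ⟨by linarith, by linarith⟩
  rcases le_total 0 M with h0 | h0
  · obtain ⟨up, um, k0, k1, k2, k3, h1, h2, h3, h4, h5⟩ :=
      TopC.core hc hs (by linarith) h0 hM'.2 hm hm1 hm2
    exact ⟨_, _, _, _, k0, k1, k2, k3, h1, LB_A h2 le_rfl (GA_pos h0).ge,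
      LB_A h3 le_rfl (GA_neg h0).ge, h4, h5⟩
  · have h0' : 0 ≤ -M := by linarith
    obtain ⟨up, um, k0, k1, k2, k3, h1, h2, h3, h4, h5⟩ :=
      TopC.core hc (m := -m) hs (by linarith) h0' (by linarith) (by rwa [abs_neg]) (by linarith)
        (by linarith)
    refine ⟨_, _, GAs false um (-M), _, k0, -k1, k2, -k3, h1, LB_A h3 le_rfl ?_,
      LB_A h2 le_rfl (GA_pos h0').ge, fun g hg => ?_, ?_⟩
    · rw [← GA_neg h0', neg_neg]
    · have := h4 (-g) (by rwa [abs_neg])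
      rw [neg_neg, hel_neg, chi_neg] at this
      linarith
    · rw [hel_neg] at h5
      linarith

end Crest.Agent.R307.L
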