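import Crest.Agent.R307.Noise
import Crest.Agent.R307.Ent

/-! Row 307: statement S0470 from the rate inequality (ODE comparison along the noise). -/

set_option autoImplicit false

open Crest.CubeNoise Set

namespace Crest.Agent.R307

/-- Fence lemma: a function that is positive at `a` and nondecreasing wherever it is positive
stays positive. -/
theorem mgl_fence {Y Y' : ℝ → ℝ} {a b : ℝ} (hab : a ≤ b) (hc : ContinuousOn Y (Icc a b))
    (hd : ∀ x, a < x → x < b → HasDerivAt Y (Y' x) x) (ha : 0 < Y a)
    (h : ∀ x, a < x → x < b → 0 < Y x → 0 ≤ Y' x) : 0 < Y b := by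
  by_contra hb
  have hcl : IsClosed (Icc a b ∩ Y ⁻¹' Iic 0) :=
    hc.preimage_isClosed_of_isClosed isClosed_Icc isClosed_Iic
  have hcomp : IsCompact (Icc a b ∩ Y ⁻¹' Iic 0) :=
    isCompact_Icc.of_isClosed_subset hcl inter_subset_left
  obtain ⟨c, ⟨hc1, hc2⟩, hmin⟩ := hcomp.exists_isLeast ⟨b, ⟨hab, le_rfl⟩, not_lt.mp hb⟩
  have := le_of_hasDerivAt_nonneg (f := Y) (f' := Y') hc1.1
    (hc.mono (Icc_subset_Icc le_rfl hc1.2))
    (fun x hx0 hx1 => hd x hx0 (hx1.trans_le hc1.2))
    (fun x hx0 hx1 => h x hx0 (hx1.trans_le hc1.2) (by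
      by_contra hx
      exact absurd (hmin ⟨⟨hx0.le, hx1.le.trans hc1.2⟩, not_lt.mp hx⟩) (not_le.mpr hx1)))
  exact absurd (ha.trans_le this) (not_lt.mpr hc2)

theorem mgl_information_anti {n : ℕ} (g : Cube n → ℝ) :
    information (fun x => g (anti x)) = information g := by
  unfold information
  rw [avg_anti g, avg_anti (fun x => signEntropy (g x))]

theorem continuous_information_noise {n : ℕ} (u : Cube n → ℝ) :
    Continuous (fun ρ => information (noise ρ u)) := by
  have h : ∀ x, Continuous (fun ρ => signEntropy (noise ρ u x)) :=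
    fun x => continuous_signEntropy.comp (continuous_noise u x)
  simp only [information, avg_noise]
  unfold cubeAverage
  exact continuous_const.sub ((continuous_finsetSum _ fun x _ => h x).div_const _)

theorem hasDerivAt_information_noise {n : ℕ} (u : Cube n → ℝ) {ρ : ℝ} (hρ : ρ ≠ 0)
    (hg : ∀ x, |noise ρ u x| < 1) :
    HasDerivAt (fun r => information (noise r u)) (production (noise ρ u) / ρ) ρ := by
  have h := hasDerivAt_avg_noise u hρ psi Real.artanh (fun x => hasDerivAt_psi (hg x))
  simp only [information_eq_psi, avg_noise]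
  rw [production_eq_dir]
  exact h.sub_const _

theorem mgl_of_rate_nonneg (H : Rate) (n : ℕ) (u : Cube n → ℝ)
    (hu : ∀ x, |u x| ≤ 1) (ρ : ℝ) (hρ0 : 0 ≤ ρ) (hρ1 : ρ ≤ 1) (r : ℝ) (hr : 0 ≤ r) (hr1 : r ≤ 1)
    (hI : information u = psi r) : information (noise ρ u) ≤ psi (ρ * r) := by
  rcases hρ0.eq_or_lt with rfl | hρ0'
  · have : noise 0 u = fun _ => cubeAverage u := funext (noise_zero u)
    rw [this, information_const]
    exact psi_nonneg _
  rcases (abs_avg_le_one hu).eq_or_lt with hm | hm
  · refine le_trans ?_ (psi_nonneg _)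
    refine (information_le_signEntropy
      (abs_noise_le (by rwa [abs_of_nonneg hρ0]) hu)).trans ?_
    rw [avg_noise, ← signEntropy_abs, hm, signEntropy_one]
  by_contra hlt
  have hg : ∀ t, ρ < t → t < 1 → ∀ x, |noise t u x| < 1 := fun t ht0 ht1 =>
    abs_noise_lt (abs_lt_one_of (by linarith) ht1) hu hm
  have htr : ∀ t, ρ < t → t < 1 → 0 ≤ t * r ∧ t * r < 1 := fun t ht0 ht1 =>
    ⟨mul_nonneg (by linarith) hr, by nlinarith⟩
  have key := mgl_fence (Y := fun t => information (noise t u) - psi (t * r))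
    (Y' := fun t => production (noise t u) / t - Real.artanh (t * r) * r) hρ1
    ((continuous_information_noise u).sub
      (continuous_psi.comp (continuous_id.mul continuous_const))).continuousOn
    (fun t ht0 ht1 => by
      have h1 := hasDerivAt_information_noise u (ρ := t) (by linarith) (hg t ht0 ht1)
      have h2 := (hasDerivAt_psi (abs_lt_one_of (htr t ht0 ht1).1 (htr t ht0 ht1).2)).comp t
        (hasDerivAt_mul_const r)
      exact h1.sub h2)
    (sub_pos.mpr (not_le.mp hlt))
    (fun t ht0 ht1 hY => by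
      obtain ⟨R, hR0, hR1, hR⟩ := exists_psi_eq_information (hg t ht0 ht1)
      have h1 := H n _ (hg t ht0 ht1) R hR0 hR1 hR
      have h2 : t * r ≤ R :=
        le_of_psi_le (htr t ht0 ht1).2.le hR0 (by rw [hR]; linarith)
      have h3 := mul_artanh_mono (htr t ht0 ht1).1 h2 hR1
      have ht : 0 < t := by linarith
      rw [sub_nonneg, le_div_iff₀ ht]
      linarith)
  simp only [noise_one, one_mul, hI, sub_self, lt_self_iff_false] at key

/-- S0470 from part 1 of S0472 -/
theorem mgl_of_rate (H : Rate) (n : ℕ) (u : (Fin n → Bool) → ℝ)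
    (hu : ∀ x, |u x| ≤ 1) (ρ : ℝ) (hρ : |ρ| ≤ 1) (r : ℝ) (hr : 0 ≤ r) (hr1 : r ≤ 1)
    (hI : information u = Real.log 2 - signEntropy r) :
    information (noise ρ u) ≤ Real.log 2 - signEntropy (|ρ| * r) := by
  have key := mgl_of_rate_nonneg H n u hu |ρ| (abs_nonneg ρ) hρ r hr hr1 hI
  rcases le_total 0 ρ with h | h
  · rw [abs_of_nonneg h] at key ⊢
    exact key
  · have : noise ρ u = fun x => noise |ρ| u (anti x) := by
      funext x
      rw [← noise_neg, abs_of_nonpos h, neg_neg]
    rw [this, mgl_information_anti]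
    exact key

end Crest.Agent.R307
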