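import Crest.Agent.R307.Defs2
import Crest.Agent.R307.Ent

/-! Row 307: one-bit inequalities (a), (conv), (mix), (rate). -/

set_option autoImplicit false

open Crest.CubeNoise Real Set

namespace Crest.Agent.R307

/-- tangent lines of F: `r ↦ r artanh r - κ(t) ψ(r)` is minimal at `r = t`
(the skeleton's `rate_tangent`; that name is taken in `Ent`). -/
theorem rate_tangent' {r t : ℝ} (hr : 0 ≤ r) (hr1 : r < 1) (ht : 0 ≤ t) (ht1 : t < 1) :
    t * artanh t - kap t * psi t ≤ r * artanh r - kap t * psi r := by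
  have := rate_tangent ht ht1 hr hr1
  linarith

namespace OBA

theorem edge_comm (φ : ℝ → ℝ) (u v : ℝ) : edge φ u v = edge φ v u := by
  unfold edge; ring

theorem info1_comm (u v : ℝ) : info1 u v = info1 v u := by
  unfold info1; rw [add_comm u v]; ring

theorem edge_self (φ : ℝ → ℝ) (u : ℝ) : edge φ u u = 0 := by
  unfold edge; ring

theorem info1_self (u : ℝ) : info1 u u = 0 := by
  unfold info1; rw [show (u + u) / 2 = u by ring]; ring

/-- log-odds identity for the edge function. -/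
theorem edge_eq {c D : ℝ} (hu : |c - D| < 1) (hv : |c + D| < 1) :
    edge artanh (c - D) (c + D) = D * (artanh (D / (1 - c)) + artanh (D / (1 + c))) / 2 := by
  obtain ⟨h1, h2⟩ := abs_lt.mp hu
  obtain ⟨h3, h4⟩ := abs_lt.mp hv
  have hp : 0 < 1 + c := by linarith
  have hq : 0 < 1 - c := by linarith
  have ha : |D / (1 - c)| < 1 := by
    rw [abs_lt, lt_div_iff₀ hq, div_lt_iff₀ hq]; constructor <;> linarith
  have hb : |D / (1 + c)| < 1 := by
    rw [abs_lt, lt_div_iff₀ hp, div_lt_iff₀ hp]; constructor <;> linarith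
  unfold edge
  rw [artanh_eq_sub hu, artanh_eq_sub hv, artanh_eq_sub ha, artanh_eq_sub hb,
    show 1 + D / (1 - c) = (1 - (c - D)) / (1 - c) by field_simp; ring,
    show 1 - D / (1 - c) = (1 - (c + D)) / (1 - c) by field_simp; ring,
    show 1 + D / (1 + c) = (1 + (c + D)) / (1 + c) by field_simp; ring,
    show 1 - D / (1 + c) = (1 + (c - D)) / (1 + c) by field_simp; ring,
    log_div (by linarith) hq.ne', log_div (by linarith) hq.ne',
    log_div (by linarith) hp.ne', log_div (by linarith) hp.ne']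
  ring

/-- chain-rule identity for the one-bit information. -/
theorem info1_eq {c D : ℝ} (hu : |c - D| < 1) (hv : |c + D| < 1) :
    info1 (c - D) (c + D)
      = (1 - c) / 2 * psi (D / (1 - c)) + (1 + c) / 2 * psi (D / (1 + c)) := by
  obtain ⟨h1, h2⟩ := abs_lt.mp hu
  obtain ⟨h3, h4⟩ := abs_lt.mp hv
  have hp : 0 < 1 + c := by linarith
  have hq : 0 < 1 - c := by linarith
  have hc : |c| < 1 := abs_lt.mpr ⟨by linarith, by linarith⟩
  have ha : |D / (1 - c)| < 1 := by
    rw [abs_lt, lt_div_iff₀ hq, div_lt_iff₀ hq]; constructor <;> linarith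
  have hb : |D / (1 + c)| < 1 := by
    rw [abs_lt, lt_div_iff₀ hp, div_lt_iff₀ hp]; constructor <;> linarith
  unfold info1
  rw [show (c - D + (c + D)) / 2 = c by ring, signEntropy_eq, signEntropy_eq, signEntropy_eq,
    psi_eq_log hu.le, psi_eq_log hv.le, psi_eq_log hc.le, psi_eq_log ha.le, psi_eq_log hb.le,
    show 1 + D / (1 - c) = (1 - (c - D)) / (1 - c) by field_simp; ring,
    show 1 - D / (1 - c) = (1 - (c + D)) / (1 - c) by field_simp; ring,
    show 1 + D / (1 + c) = (1 + (c + D)) / (1 + c) by field_simp; ring,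
    show 1 - D / (1 + c) = (1 + (c - D)) / (1 + c) by field_simp; ring,
    log_div (by linarith) hq.ne', log_div (by linarith) hq.ne',
    log_div (by linarith) hp.ne', log_div (by linarith) hp.ne']
  field_simp
  ring

/-- `G = θ L - k ψ / x`. -/
noncomputable def G (θ k x : ℝ) : ℝ := θ * artanh x - k * (psi x / x)

/-- first derivative of `G`. -/
noncomputable def G1 (θ k x : ℝ) : ℝ := θ / (1 - x ^ 2) + k * (log (1 - x ^ 2) / (2 * x ^ 2))

/-- second derivative of `G`. -/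
noncomputable def G2 (θ k x : ℝ) : ℝ :=
  2 * θ * x / (1 - x ^ 2) ^ 2 - k * ((x ^ 2 / (1 - x ^ 2) + log (1 - x ^ 2)) / x ^ 3)

theorem hasDerivAt_G (θ k : ℝ) {x : ℝ} (h0 : 0 < x) (h1 : x < 1) :
    HasDerivAt (G θ k) (G1 θ k x) x := by
  have hx := abs_lt_one_of h0.le h1
  have hp := (one_sub_sq_pos hx).ne'
  have := ((hasDerivAt_artanh hx).const_mul θ).sub
    (((hasDerivAt_psi hx).div (hasDerivAt_id x) h0.ne').const_mul k)
  refine this.congr_deriv ?_
  have h0' := h0.ne'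
  simp only [id, G1, psi_eq_artanh hx]
  field_simp
  ring

theorem hasDerivAt_log_one_sub_sq {x : ℝ} (hx : |x| < 1) :
    HasDerivAt (fun y : ℝ => log (1 - y ^ 2)) (-(2 * x) / (1 - x ^ 2)) x := by
  have hp := (one_sub_sq_pos hx).ne'
  have := ((hasDerivAt_pow 2 x).const_sub 1).log hp
  refine this.congr_deriv ?_
  simp

theorem hasDerivAt_G1 (θ k : ℝ) {x : ℝ} (h0 : 0 < x) (h1 : x < 1) :
    HasDerivAt (G1 θ k) (G2 θ k x) x := by
  have hx := abs_lt_one_of h0.le h1
  have hp := (one_sub_sq_pos hx).ne'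
  have h0' := h0.ne'
  have h2 : (2 : ℝ) * x ^ 2 ≠ 0 := by positivity
  have := ((hasDerivAt_const x θ).div ((hasDerivAt_pow 2 x).const_sub 1) hp).add
    (((hasDerivAt_log_one_sub_sq hx).div ((hasDerivAt_pow 2 x).const_mul 2) h2).const_mul k)
  refine this.congr_deriv ?_
  simp only [G2]
  field_simp
  ring

theorem G_zero (θ k : ℝ) : G θ k 0 = 0 := by simp [G]

theorem mul_G (θ k : ℝ) {x : ℝ} (h0 : 0 < x) : x * G θ k x = θ * (x * artanh x) - k * psi x := by
  have := h0.ne'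
  unfold G
  field_simp

theorem continuousAt_G_zero (θ k : ℝ) : ContinuousAt (G θ k) 0 := by
  have h0 : |(0 : ℝ)| < 1 := by simp
  have h1 : ContinuousAt (fun x => psi x / x) 0 := by
    have h2 : ContinuousAt (dslope psi 0) 0 :=
      continuousAt_dslope_same.mpr (hasDerivAt_psi h0).differentiableAt
    have h3 : dslope psi 0 = fun x => psi x / x := by
      funext x
      rcases eq_or_ne x 0 with rfl | hx
      · rw [dslope_same, (hasDerivAt_psi h0).deriv]; simp
      · rw [dslope_of_ne _ hx, slope_def_field, psi_zero]; simp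
    rwa [h3] at h2
  exact ((continuousAt_artanh h0).const_mul θ).sub (h1.const_mul k)

/-- the combination `θ j - k I` in terms of `G`. -/
theorem comb_eq (θ k : ℝ) {c D : ℝ} (hD : 0 < D) (hu : |c - D| < 1) (hv : |c + D| < 1) :
    θ * edge artanh (c - D) (c + D) - k * info1 (c - D) (c + D)
      = D * (G θ k (D / (1 - c)) + G θ k (D / (1 + c))) / 2 := by
  obtain ⟨h1, h2⟩ := abs_lt.mp hu
  obtain ⟨h3, h4⟩ := abs_lt.mp hv
  have hp : (1 + c) ≠ 0 := by linarith
  have hq : (1 - c) ≠ 0 := by linarith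
  have := hD.ne'
  rw [edge_eq hu hv, info1_eq hu hv]
  unfold G
  field_simp
  ring

theorem log_one_sub_le {z : ℝ} (h0 : 0 ≤ z) (h1 : z < 1) :
    log (1 - z) ≤ -z - z ^ 2 / 2 - z ^ 3 / 3 := by
  have := monotoneOn_Ico_of_hasDerivAt (a := 0) (b := 1)
    (f := fun y => -y - y ^ 2 / 2 - y ^ 3 / 3 - log (1 - y))
    (f' := fun y => y ^ 3 / (1 - y)) (fun y hy0 hy1 => by
      have hp : (1 : ℝ) - y ≠ 0 := by linarith
      have := (((hasDerivAt_id y).neg.sub ((hasDerivAt_pow 2 y).div_const 2)).sub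
        ((hasDerivAt_pow 3 y).div_const 3)).sub (((hasDerivAt_id y).const_sub 1).log hp)
      refine this.congr_deriv ?_
      simp only [id]
      field_simp
      ring) (fun y hy0 hy1 => div_nonneg (by positivity) (by linarith))
    ⟨le_rfl, one_pos⟩ ⟨h0, h1⟩ h0
  simpa using this

/-- `G - (θ - k/4) x³/3` is convex for `0 ≤ k ≤ 6θ`. -/
theorem G2_ge {θ k x : ℝ} (hk : 0 ≤ k) (hθ : k ≤ 6 * θ) (h0 : 0 < x) (h1 : x < 1) :
    0 ≤ G2 θ k x - (θ - k / 4) * (2 * x) := by
  have hp := one_sub_sq_pos (abs_lt_one_of h0.le h1)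
  have hl := log_one_sub_le (z := x ^ 2) (sq_nonneg x) (by linarith)
  have hx3 : 0 < x ^ 3 := by positivity
  have hx := h0.ne'
  have hp' := hp.ne'
  have hB : (x ^ 2 / (1 - x ^ 2) + log (1 - x ^ 2)) / x ^ 3
      ≤ x / 2 + x * (x ^ 2 / (1 - x ^ 2) - x ^ 2 / 3) := by
    rw [div_le_iff₀ hx3]
    have : (x / 2 + x * (x ^ 2 / (1 - x ^ 2) - x ^ 2 / 3)) * x ^ 3
        = x ^ 2 / (1 - x ^ 2) + (-x ^ 2 - (x ^ 2) ^ 2 / 2 - (x ^ 2) ^ 3 / 3) := by
      field_simp
      ring
    rw [this]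
    linarith
  have hA : 0 ≤ x * (1 / (1 - x ^ 2) ^ 2 - 1) := by
    refine mul_nonneg h0.le ?_
    rw [sub_nonneg, le_div_iff₀ (by positivity)]
    nlinarith [sq_nonneg x]
  have hC : x * (x ^ 2 / (1 - x ^ 2) - x ^ 2 / 3) ≤ x * (1 / (1 - x ^ 2) ^ 2 - 1) / 3 := by
    have : x * (1 / (1 - x ^ 2) ^ 2 - 1) / 3 - x * (x ^ 2 / (1 - x ^ 2) - x ^ 2 / 3)
        = x ^ 7 / (3 * (1 - x ^ 2) ^ 2) := by
      field_simp
      ring
    have h2 : 0 ≤ x ^ 7 / (3 * (1 - x ^ 2) ^ 2) := by positivity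
    linarith
  have hE : G2 θ k x - (θ - k / 4) * (2 * x) = 2 * θ * (x * (1 / (1 - x ^ 2) ^ 2 - 1))
      - k * ((x ^ 2 / (1 - x ^ 2) + log (1 - x ^ 2)) / x ^ 3 - x / 2) := by
    unfold G2
    ring
  rw [hE]
  have h3 := mul_le_mul_of_nonneg_left (hB.trans (add_le_add le_rfl hC)) hk
  nlinarith [mul_nonneg (sub_nonneg.mpr hθ) hA]

theorem mix_core {θ k a b : ℝ} (hk : 0 ≤ k) (hθ : k ≤ 6 * θ) (ha : 0 < a) (ha1 : a < 1)
    (hb : 0 < b) (hb1 : b < 1) :
    G θ k ((a + b) / 2) - (θ - k / 4) * ((a + b) / 2) ^ 3 / 3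
      ≤ ((G θ k a - (θ - k / 4) * a ^ 3 / 3) + (G θ k b - (θ - k / 4) * b ^ 3 / 3)) / 2 := by
  have hd1 : ∀ x ∈ Ioo (0 : ℝ) 1, HasDerivAt (fun x => G θ k x - (θ - k / 4) * x ^ 3 / 3)
      (G1 θ k x - (θ - k / 4) * x ^ 2) x := by
    intro x hx
    refine ((hasDerivAt_G θ k hx.1 hx.2).sub
      (((hasDerivAt_pow 3 x).const_mul (θ - k / 4)).div_const 3)).congr_deriv ?_
    simp only [Nat.cast_ofNat]
    ring
  have hd2 : ∀ x ∈ Ioo (0 : ℝ) 1, HasDerivAt (fun x => G1 θ k x - (θ - k / 4) * x ^ 2)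
      (G2 θ k x - (θ - k / 4) * (2 * x)) x := by
    intro x hx
    refine ((hasDerivAt_G1 θ k hx.1 hx.2).sub
      ((hasDerivAt_pow 2 x).const_mul (θ - k / 4))).congr_deriv ?_
    simp
  have hconv : ConvexOn ℝ (Ioo (0 : ℝ) 1) (fun x => G θ k x - (θ - k / 4) * x ^ 3 / 3) := by
    refine convexOn_of_hasDerivWithinAt2_nonneg (convex_Ioo 0 1)
      (f' := fun x => G1 θ k x - (θ - k / 4) * x ^ 2)
      (f'' := fun x => G2 θ k x - (θ - k / 4) * (2 * x))
      (fun x hx => (hd1 x hx).continuousAt.continuousWithinAt) ?_ ?_ ?_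
    · rw [interior_Ioo]; exact fun x hx => (hd1 x hx).hasDerivWithinAt
    · rw [interior_Ioo]; exact fun x hx => (hd2 x hx).hasDerivWithinAt
    · rw [interior_Ioo]; exact fun x hx => G2_ge hk hθ hx.1 hx.2
  have := hconv.2 (show a ∈ Ioo (0 : ℝ) 1 from ⟨ha, ha1⟩) (show b ∈ Ioo (0 : ℝ) 1 from ⟨hb, hb1⟩)
    (show (0 : ℝ) ≤ 1 / 2 by norm_num) (show (0 : ℝ) ≤ 1 / 2 by norm_num) (by norm_num)
  simp only [smul_eq_mul] at this
  rw [show 1 / 2 * a + 1 / 2 * b = (a + b) / 2 by ring] at this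
  linarith

/-- `n y = 2 y² - k (y - log (1 + y))` changes sign at most once, from `-` to `+`. -/
theorem n_sign {k y1 y2 : ℝ} (h1 : 0 ≤ y1) (h12 : y1 ≤ y2)
    (h : 0 < 2 * y1 ^ 2 - k * (y1 - log (1 + y1))) :
    0 ≤ 2 * y2 ^ 2 - k * (y2 - log (1 + y2)) := by
  have hd : ∀ y : ℝ, 0 ≤ y → HasDerivAt (fun y => 2 * y ^ 2 - k * (y - log (1 + y)))
      (y * (4 * (1 + y) - k) / (1 + y)) y := by
    intro y hy
    have hp : (1 : ℝ) + y ≠ 0 := by linarith
    have := ((hasDerivAt_pow 2 y).const_mul 2).sub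
      (((hasDerivAt_id y).sub (((hasDerivAt_id y).const_add 1).log hp)).const_mul k)
    refine this.congr_deriv ?_
    simp only [id]
    field_simp
    ring
  have hk : k ≤ 4 * (1 + y1) := by
    by_contra hk
    push Not at hk
    have := le_of_hasDerivAt_nonneg h1 (f := fun y => -(2 * y ^ 2 - k * (y - log (1 + y))))
      (fun y hy => (hd y hy.1).neg.continuousAt.continuousWithinAt)
      (fun y hy0 _ => (hd y hy0.le).neg)
      (fun y hy0 hy1 => by
        rw [neg_nonneg]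
        exact div_nonpos_of_nonpos_of_nonneg
          (mul_nonpos_of_nonneg_of_nonpos hy0.le (by linarith)) (by linarith))
    simp only [add_zero, log_one] at this
    linarith
  have := le_of_hasDerivAt_nonneg h12 (f := fun y => 2 * y ^ 2 - k * (y - log (1 + y)))
    (fun y hy => (hd y (h1.trans hy.1)).continuousAt.continuousWithinAt)
    (fun y hy0 _ => hd y (by linarith))
    (fun y hy0 hy1 => div_nonneg (mul_nonneg (by linarith) (by linarith)) (by linarith))
  linarith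

theorem G2_eq (k : ℝ) {x : ℝ} (h0 : 0 < x) (h1 : x < 1) :
    G2 1 k x = (2 * (x ^ 2 / (1 - x ^ 2)) ^ 2
      - k * (x ^ 2 / (1 - x ^ 2) - log (1 + x ^ 2 / (1 - x ^ 2)))) / x ^ 3 := by
  have hp := (one_sub_sq_pos (abs_lt_one_of h0.le h1)).ne'
  have hx := h0.ne'
  rw [show 1 + x ^ 2 / (1 - x ^ 2) = (1 - x ^ 2)⁻¹ by field_simp; ring, log_inv]
  unfold G2
  field_simp
  ring

theorem G2_sign {k p q : ℝ} (hp : 0 < p) (hpq : p ≤ q) (hq : q < 1) (h : 0 < G2 1 k p) :
    0 ≤ G2 1 k q := by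
  have hq0 : 0 < q := by linarith
  have hp1 : p < 1 := by linarith
  have h1 := one_sub_sq_pos (abs_lt_one_of hp.le hp1)
  have h2 := one_sub_sq_pos (abs_lt_one_of hq0.le hq)
  rw [G2_eq k hp hp1, div_pos_iff_of_pos_right (by positivity)] at h
  rw [G2_eq k hq0 hq]
  refine div_nonneg (n_sign (by positivity) ?_ h) (by positivity)
  rw [div_le_div_iff₀ h1 h2]
  nlinarith

/-- `G'` is quasi-convex. -/
theorem G1_quasi {k p q r : ℝ} (hp : 0 < p) (hpq : p < q) (hqr : q ≤ r) (hr : r < 1)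
    (h : G1 1 k p < G1 1 k q) : G1 1 k q ≤ G1 1 k r := by
  obtain ⟨η, hη, he⟩ := exists_hasDerivAt_eq_slope (G1 1 k) (G2 1 k) hpq
    (fun x hx => (hasDerivAt_G1 1 k (by linarith [hx.1])
      (by linarith [hx.2])).continuousAt.continuousWithinAt)
    (fun x hx => hasDerivAt_G1 1 k (by linarith [hx.1]) (by linarith [hx.2]))
  have hpos : 0 < G2 1 k η := by
    rw [he]; exact div_pos (by linarith) (by linarith)
  exact le_of_hasDerivAt_nonneg hqr
    (fun x hx => (hasDerivAt_G1 1 k (by linarith [hx.1])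
      (by linarith [hx.2])).continuousAt.continuousWithinAt)
    (fun x hx0 hx1 => hasDerivAt_G1 1 k (by linarith) (by linarith))
    (fun x hx0 hx1 => G2_sign (by linarith [hη.1]) (by linarith [hη.2]) (by linarith) hpos)

theorem mid_le {k a d b : ℝ} (ha : 0 < a) (had : a < d) (hd : d = (a + b) / 2) (hb : b < 1)
    (h : G 1 k a / a < G 1 k d / d) : 2 * G 1 k d ≤ G 1 k a + G 1 k b := by
  have hdb : d < b := by linarith
  have hd0 : 0 < d := by linarith
  obtain ⟨x1, h1, e1⟩ := exists_hasDerivAt_eq_slope (G 1 k) (G1 1 k) ha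
    (fun x hx => by
      rcases hx.1.eq_or_lt with rfl | hx0
      · exact (continuousAt_G_zero 1 k).continuousWithinAt
      · exact (hasDerivAt_G 1 k hx0 (by linarith [hx.2])).continuousAt.continuousWithinAt)
    (fun x hx => hasDerivAt_G 1 k hx.1 (by linarith [hx.2]))
  obtain ⟨x2, h2, e2⟩ := exists_hasDerivAt_eq_slope (G 1 k) (G1 1 k) had
    (fun x hx => (hasDerivAt_G 1 k (by linarith [hx.1])
      (by linarith [hx.2])).continuousAt.continuousWithinAt)
    (fun x hx => hasDerivAt_G 1 k (by linarith [hx.1]) (by linarith [hx.2]))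
  obtain ⟨x3, h3, e3⟩ := exists_hasDerivAt_eq_slope (G 1 k) (G1 1 k) hdb
    (fun x hx => (hasDerivAt_G 1 k (by linarith [hx.1])
      (by linarith [hx.2])).continuousAt.continuousWithinAt)
    (fun x hx => hasDerivAt_G 1 k (by linarith [hx.1]) (by linarith [hx.2]))
  rw [G_zero, sub_zero, sub_zero] at e1
  have h12 : G1 1 k x1 < G1 1 k x2 := by
    rw [e1, e2, div_lt_div_iff₀ ha (by linarith)]
    rw [div_lt_div_iff₀ ha hd0] at h
    linarith
  have h23 := G1_quasi (r := x3) h1.1 (by linarith [h1.2, h2.1]) (by linarith [h2.2, h3.1])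
    (by linarith [h3.2]) h12
  rw [e2, e3, show b - d = d - a by linarith, div_le_div_iff_of_pos_right (by linarith)] at h23
  linarith

theorem a_core_le {k F a b : ℝ} (hF : F ≤ 0) (hmin : ∀ x, 0 < x → x < 1 → F ≤ x * G 1 k x)
    (ha : 0 < a) (hab : a ≤ b) (hb : b < 1) :
    F ≤ (a + b) / 2 * ((G 1 k a + G 1 k b) / 2) := by
  set d := (a + b) / 2 with hd
  have hd0 : 0 < d := by rw [hd]; linarith
  have hd1 : d < 1 := by rw [hd]; linarith
  have hb0 : 0 < b := by linarith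
  have key : ∀ s, d ≤ s → s < 1 → G 1 k s / s ≤ G 1 k a / a → G 1 k s / s ≤ G 1 k b / b →
      F ≤ d * ((G 1 k a + G 1 k b) / 2) := by
    intro s hs hs1 h1 h2
    have hs0 : 0 < s := by linarith
    rw [le_div_iff₀ ha] at h1
    rw [le_div_iff₀ hb0] at h2
    have h3 : d ^ 2 * (G 1 k s / s) ≤ d * ((G 1 k a + G 1 k b) / 2) := by
      have : G 1 k s / s * d ≤ (G 1 k a + G 1 k b) / 2 := by rw [hd]; linarith
      nlinarith
    refine le_trans ?_ h3
    rcases le_total 0 (G 1 k s / s) with h | h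
    · exact hF.trans (by positivity)
    · have h4 : s * G 1 k s = s ^ 2 * (G 1 k s / s) := by field_simp
      have h5 := hmin s hs0 hs1
      have h6 : d ^ 2 ≤ s ^ 2 := by nlinarith
      nlinarith
  by_cases h : G 1 k d / d ≤ G 1 k a / a
  · rcases le_total (G 1 k d / d) (G 1 k b / b) with h2 | h2
    · exact key d le_rfl hd1 h h2
    · exact key b (by rw [hd]; linarith) hb (h2.trans h) le_rfl
  · push Not at h
    have had : a < d := by
      rcases hab.eq_or_lt with rfl | hab'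
      · rw [hd, show (a + a) / 2 = a by ring] at h
        exact absurd h (lt_irrefl _)
      · rw [hd]; linarith
    have h2 := mid_le ha had hd hb h
    have h3 := hmin d hd0 hd1
    nlinarith

theorem a_core {k F a b : ℝ} (hF : F ≤ 0) (hmin : ∀ x, 0 < x → x < 1 → F ≤ x * G 1 k x)
    (ha : 0 < a) (ha1 : a < 1) (hb : 0 < b) (hb1 : b < 1) :
    F ≤ (a + b) / 2 * ((G 1 k a + G 1 k b) / 2) := by
  rcases le_total a b with h | h
  · exact a_core_le hF hmin ha h hb1
  · have := a_core_le hF hmin hb h ha1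
    rwa [add_comm b a, add_comm (G 1 k b)] at this

theorem dual_nonpos {t : ℝ} (ht : 0 ≤ t) (ht1 : t < 1) : t * artanh t - kap t * psi t ≤ 0 := by
  have := rate_tangent' le_rfl one_pos ht ht1
  simpa [psi_zero] using this

theorem onebit_a_lt {u v t : ℝ} (hu : |u| < 1) (hv : |v| < 1) (huv : u < v) (ht : 0 ≤ t)
    (ht1 : t < 1) :
    (1 - ((u + v) / 2) ^ 2) * (t * artanh t - kap t * psi t)
      ≤ edge artanh u v - kap t * info1 u v := by
  obtain ⟨c, D, rfl, rfl⟩ : ∃ c D : ℝ, u = c - D ∧ v = c + D :=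
    ⟨(u + v) / 2, (v - u) / 2, by ring, by ring⟩
  have hD : 0 < D := by linarith
  have he := comb_eq 1 (kap t) hD hu hv
  rw [one_mul] at he
  rw [he, show (c - D + (c + D)) / 2 = c by ring]
  obtain ⟨h1, h2⟩ := abs_lt.mp hu
  obtain ⟨h3, h4⟩ := abs_lt.mp hv
  have hp : 0 < 1 + c := by linarith
  have hq : 0 < 1 - c := by linarith
  have hw : 0 < 1 - c ^ 2 := by nlinarith
  have := a_core (k := kap t) (dual_nonpos ht ht1)
    (fun x hx0 hx1 => by rw [mul_G _ _ hx0, one_mul]; exact rate_tangent' hx0.le hx1 ht ht1)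
    (div_pos hD hq) (by rw [div_lt_iff₀ hq]; linarith) (div_pos hD hp)
    (by rw [div_lt_iff₀ hp]; linarith)
  have h5 := mul_le_mul_of_nonneg_left this hw.le
  refine h5.trans (le_of_eq ?_)
  have := hp.ne'
  have := hq.ne'
  rw [show 1 - c ^ 2 = (1 - c) * (1 + c) by ring]
  field_simp
  ring

theorem artanh_tangent {x s : ℝ} (hx : 0 ≤ x) (hx1 : x < 1) (hs : 0 ≤ s) (hs1 : s < 1) :
    artanh s + (x - s) / (1 - s ^ 2) ≤ artanh x := by
  have hps := one_sub_sq_pos (abs_lt_one_of hs hs1)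
  have hd : ∀ y, 0 ≤ y → y < 1 → HasDerivAt (fun y => artanh y - y / (1 - s ^ 2))
      (1 / (1 - y ^ 2) - 1 / (1 - s ^ 2)) y := fun y hy0 hy1 =>
    (hasDerivAt_artanh (abs_lt_one_of hy0 hy1)).sub ((hasDerivAt_id y).div_const _)
  rw [sub_div]
  rcases le_total s x with h | h
  · have := le_of_hasDerivAt_nonneg h (f := fun y => artanh y - y / (1 - s ^ 2))
      (fun y hy => (hd y (hs.trans hy.1) (hy.2.trans_lt hx1)).continuousAt.continuousWithinAt)
      (fun y hy0 hy1 => hd y (by linarith) (by linarith))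
      (fun y hy0 hy1 => by
        have := one_sub_sq_pos (abs_lt_one_of (x := y) (by linarith) (by linarith))
        rw [sub_nonneg]
        exact one_div_le_one_div_of_le this (by nlinarith))
    linarith
  · have := le_of_hasDerivAt_nonneg h (f := fun y => -(artanh y - y / (1 - s ^ 2)))
      (fun y hy =>
        (hd y (hx.trans hy.1) (hy.2.trans_lt hs1)).neg.continuousAt.continuousWithinAt)
      (fun y hy0 hy1 => (hd y (by linarith) (by linarith)).neg)
      (fun y hy0 hy1 => by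
        rw [neg_nonneg, sub_nonpos]
        exact one_div_le_one_div_of_le hps (by nlinarith))
    linarith

end OBA

open OBA

/-- (a): j >= w F(I/w), dual form. -/
theorem onebit_a {u v t : ℝ} (hu : |u| < 1) (hv : |v| < 1) (ht : 0 ≤ t) (ht1 : t < 1) :
    (1 - ((u + v) / 2) ^ 2) * (t * artanh t - kap t * psi t)
      ≤ edge artanh u v - kap t * info1 u v := by
  rcases lt_trichotomy u v with h | rfl | h
  · exact onebit_a_lt hu hv h ht ht1
  · rw [edge_self, info1_self, show (u + u) / 2 = u by ring, mul_zero, sub_zero]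
    exact mul_nonpos_of_nonneg_of_nonpos (one_sub_sq_pos hu).le (dual_nonpos ht ht1)
  · rw [edge_comm, info1_comm, add_comm u v]
    exact onebit_a_lt hv hu h ht ht1

/-- (conv): j >= |Δ| artanh(|Δ|/w), tangent form. -/
theorem onebit_conv {u v s : ℝ} (hu : |u| < 1) (hv : |v| < 1) (hs : 0 ≤ s) (hs1 : s < 1) :
    (v - u) / 2 * (artanh s + s / (1 - s ^ 2)) - (1 - ((u + v) / 2) ^ 2) * (s ^ 2 / (1 - s ^ 2))
      ≤ edge artanh u v := by
  have hps := one_sub_sq_pos (abs_lt_one_of hs hs1)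
  have main : ∀ u v : ℝ, |u| < 1 → |v| < 1 → u ≤ v →
      (v - u) / 2 * (artanh s + s / (1 - s ^ 2))
        - (1 - ((u + v) / 2) ^ 2) * (s ^ 2 / (1 - s ^ 2)) ≤ edge artanh u v := by
    intro u v hu hv huv
    obtain ⟨c, D, rfl, rfl⟩ : ∃ c D : ℝ, u = c - D ∧ v = c + D :=
      ⟨(u + v) / 2, (v - u) / 2, by ring, by ring⟩
    have hD : 0 ≤ D := by linarith
    rw [edge_eq hu hv, show (c - D + (c + D)) / 2 = c by ring,
      show (c + D - (c - D)) / 2 = D by ring]
    obtain ⟨h1, h2⟩ := abs_lt.mp hu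
    obtain ⟨h3, h4⟩ := abs_lt.mp hv
    have hp : 0 < 1 + c := by linarith
    have hq : 0 < 1 - c := by linarith
    have t1 := artanh_tangent (div_nonneg hD hq.le) (by rw [div_lt_iff₀ hq]; linarith) hs hs1
    have t2 := artanh_tangent (div_nonneg hD hp.le) (by rw [div_lt_iff₀ hp]; linarith) hs hs1
    have t3 := mul_le_mul_of_nonneg_left (add_le_add t1 t2) hD
    have t4 : D * (artanh s + (D / (1 - c) - s) / (1 - s ^ 2)
        + (artanh s + (D / (1 + c) - s) / (1 - s ^ 2))) / 2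
        - (D * (artanh s + s / (1 - s ^ 2)) - (1 - c ^ 2) * (s ^ 2 / (1 - s ^ 2)))
        = (D - (1 - c) * (1 + c) * s) ^ 2 / ((1 - c) * (1 + c) * (1 - s ^ 2)) := by
      have := hp.ne'
      have := hq.ne'
      have := hps.ne'
      field_simp
      ring
    have t5 : 0 ≤ (D - (1 - c) * (1 + c) * s) ^ 2 / ((1 - c) * (1 + c) * (1 - s ^ 2)) := by
      positivity
    linarith
  rcases le_total u v with h | h
  · exact main u v hu hv h
  · have h1 := main v u hv hu h
    rw [edge_comm, add_comm u v]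
    have h2 : 0 ≤ artanh s + s / (1 - s ^ 2) := add_nonneg (artanh_nonneg hs) (by positivity)
    nlinarith

/-- (mix) -/
theorem onebit_mix {m d θ k : ℝ} (hm : |m| < 1) (hd : 0 ≤ d) (hd1 : d * (1 + |m|) < 1)
    (hk : 0 ≤ k) (hθ : k ≤ 6 * θ) :
    (1 - m ^ 2) * (θ * (d * artanh d) - k * psi d + d ^ 4 * m ^ 2 * (θ - k / 4))
      ≤ θ * edge artanh (m - (1 - m ^ 2) * d) (m + (1 - m ^ 2) * d)
        - k * info1 (m - (1 - m ^ 2) * d) (m + (1 - m ^ 2) * d) := by
  rcases hd.eq_or_lt with rfl | hd0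
  · simp [edge_self, info1_self, psi_zero]
  obtain ⟨h1, h2⟩ := abs_lt.mp hm
  have hw := one_sub_sq_pos hm
  have hp : 0 < 1 + m := by linarith
  have hq : 0 < 1 - m := by linarith
  have ha1 : d * (1 + m) < 1 :=
    lt_of_le_of_lt (mul_le_mul_of_nonneg_left (by linarith [le_abs_self m]) hd) hd1
  have hb1 : d * (1 - m) < 1 :=
    lt_of_le_of_lt (mul_le_mul_of_nonneg_left (by linarith [neg_abs_le m]) hd) hd1
  have hD : 0 < (1 - m ^ 2) * d := mul_pos hw hd0
  have hu : |m - (1 - m ^ 2) * d| < 1 := by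
    rw [abs_lt]; constructor
    · nlinarith [mul_pos hp (sub_pos.mpr hb1)]
    · linarith
  have hv : |m + (1 - m ^ 2) * d| < 1 := by
    rw [abs_lt]; constructor
    · linarith
    · nlinarith [mul_pos hq (sub_pos.mpr ha1)]
  rw [comb_eq θ k hD hu hv,
    show (1 - m ^ 2) * d / (1 - m) = d * (1 + m) by field_simp; ring,
    show (1 - m ^ 2) * d / (1 + m) = d * (1 - m) by field_simp; ring]
  have h3 := mix_core hk hθ (mul_pos hd0 hp) ha1 (mul_pos hd0 hq) hb1
  rw [show (d * (1 + m) + d * (1 - m)) / 2 = d by ring] at h3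
  have h4 := mul_le_mul_of_nonneg_left h3 hD.le
  rw [← mul_G θ k hd0]
  linarith

/-- Jensen for F with the weights 1/(4p±): w J >= F(I), dual form -/
theorem onebit_rate {u v t : ℝ} (hu : |u| < 1) (hv : |v| < 1) (ht : 0 ≤ t) (ht1 : t < 1) :
    t * artanh t - kap t * psi t ≤ edge artanh u v - kap t * info1 u v := by
  have h1 := onebit_a hu hv ht ht1
  have h2 := dual_nonpos ht ht1
  nlinarith [mul_nonneg (sq_nonneg ((u + v) / 2)) (neg_nonneg.mpr h2)]

end Crest.Agent.R307
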