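import Crest.Agent.R307.Defs2
import Crest.Agent.R307.Cube
import Crest.Agent.R307.Ent

/-! Row 307: one-bit inequalities (J), (E1), (E2), (K) and their averaged forms. -/

set_option autoImplicit false

open Crest.CubeNoise Real

namespace Crest.Agent.R307

namespace OneBitB

theorem artanh_eq {u : ℝ} (h1 : -1 < u) (h2 : u < 1) :
    artanh u = (log (1 + u) - log (1 - u)) / 2 := by
  rw [artanh_eq_half_log ⟨h1.le, h2.le⟩, log_div (by linarith) (by linarith)]
  ring

theorem artanh_neg' {u : ℝ} (h1 : -1 < u) (h2 : u < 1) : artanh (-u) = -artanh u := by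
  rw [artanh_eq h1 h2, artanh_eq (by linarith) (by linarith), sub_neg_eq_add, ← sub_eq_add_neg]
  ring

theorem hd_artanh {u : ℝ} (h1 : -1 < u) (h2 : u < 1) :
    HasDerivAt artanh (1 / (1 - u ^ 2)) u := by
  have a1 : (1 + u) ≠ 0 := by linarith
  have a2 : (1 - u) ≠ 0 := by linarith
  have d1 : HasDerivAt (fun x : ℝ => log (1 + x)) (1 / (1 + u)) u :=
    ((hasDerivAt_id u).const_add 1).log a1
  have d2 : HasDerivAt (fun x : ℝ => log (1 - x)) (-1 / (1 - u)) u :=
    ((hasDerivAt_id u).const_sub 1).log a2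
  have d3 := (d1.sub d2).div_const 2
  have e : (1 / (1 + u) - -1 / (1 - u)) / 2 = 1 / (1 - u ^ 2) := by
    have : 1 - u ^ 2 = (1 + u) * (1 - u) := by ring
    rw [this]; field_simp; ring
  rw [e] at d3
  refine d3.congr_of_eventuallyEq ?_
  filter_upwards [Ioo_mem_nhds h1 h2] with x hx
  exact artanh_eq hx.1 hx.2

theorem hasDerivAt_ent {u : ℝ} (h1 : -1 < u) (h2 : u < 1) :
    HasDerivAt signEntropy (-artanh u) u := by
  have d1 : HasDerivAt (fun x : ℝ => (1 + x) / 2) (1 / 2) u :=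
    ((hasDerivAt_id u).const_add 1).div_const 2
  have d2 := (hasDerivAt_binEntropy (p := (1 + u) / 2) (by linarith) (by linarith)).comp u d1
  have e : (log (1 - (1 + u) / 2) - log ((1 + u) / 2)) * (1 / 2) = -artanh u := by
    rw [artanh_eq h1 h2, show 1 - (1 + u) / 2 = (1 - u) / 2 by ring,
      log_div (by linarith) (by norm_num), log_div (by linarith) (by norm_num)]
    ring
  rw [e] at d2
  exact d2

theorem continuous_ent : Continuous signEntropy := by
  unfold signEntropy; fun_prop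

theorem ent_neg (u : ℝ) : signEntropy (-u) = signEntropy u := by
  unfold signEntropy
  rw [← binEntropy_one_sub]
  congr 1; ring

theorem ent_abs (u : ℝ) : signEntropy |u| = signEntropy u := by
  rcases abs_choice u with h | h <;> rw [h]
  exact ent_neg u

theorem ent_zero : signEntropy 0 = log 2 := by
  unfold signEntropy
  rw [← binEntropy_two_inv]; norm_num

theorem ent_one : signEntropy 1 = 0 := by
  unfold signEntropy; norm_num

theorem ent_sub {m : ℝ} (h1 : -1 < m) (h2 : m < 1) :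
    signEntropy m - artanh m * (1 - m) = log (2 / (1 + m)) := by
  unfold signEntropy binEntropy
  rw [artanh_eq h1 h2, show 1 - (1 + m) / 2 = (1 - m) / 2 by ring, log_inv, log_inv,
    log_div (by linarith) (by norm_num), log_div (by linarith) (by norm_num),
    log_div (by norm_num) (by linarith)]
  ring

/-- mean value inequality -/
theorem le_of_deriv {φ φ' : ℝ → ℝ} {a b : ℝ} (hab : a ≤ b) (hc : ContinuousOn φ (Set.Icc a b))
    (hd : ∀ x, a < x → x < b → HasDerivAt φ (φ' x) x) (h : ∀ x, a < x → x < b → 0 ≤ φ' x) :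
    φ a ≤ φ b := by
  rcases hab.eq_or_lt with rfl | hab
  · exact le_rfl
  obtain ⟨c, hc', he⟩ := exists_hasDerivAt_eq_slope φ φ' hab hc fun x hx => hd x hx.1 hx.2
  have := h c hc'.1 hc'.2
  rw [he, le_div_iff₀ (by linarith)] at this
  linarith

/-- a function that first increases and then decreases is bounded below by its end values -/
theorem nonneg_of_unimodal {φ φ' : ℝ → ℝ} {a b : ℝ} (hc : ContinuousOn φ (Set.Icc a b))
    (hd : ∀ x, a < x → x < b → HasDerivAt φ (φ' x) x)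
    (h : ∀ x y, a < x → x < y → y < b → φ' x < 0 → φ' y ≤ 0) (ha : 0 ≤ φ a) (hb : 0 ≤ φ b)
    {x : ℝ} (h1 : a ≤ x) (h2 : x ≤ b) : 0 ≤ φ x := by
  by_contra hx
  push Not at hx
  have h1' : a < x := lt_of_le_of_ne h1 (by rintro rfl; linarith)
  have h2' : x < b := lt_of_le_of_ne h2 (by rintro rfl; linarith)
  obtain ⟨c, hc', he⟩ := exists_hasDerivAt_eq_slope φ φ' h1'
    (hc.mono (Set.Icc_subset_Icc le_rfl h2)) fun y hy => hd y hy.1 (hy.2.trans h2')
  obtain ⟨d, hd', hf⟩ := exists_hasDerivAt_eq_slope φ φ' h2'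
    (hc.mono (Set.Icc_subset_Icc h1 le_rfl)) fun y hy => hd y (h1'.trans hy.1) hy.2
  have a1 : φ' c < 0 := by rw [he]; exact div_neg_of_neg_of_pos (by linarith) (by linarith)
  have a2 : 0 < φ' d := by rw [hf]; exact div_pos (by linarith) (by linarith)
  linarith [h c d hc'.1 (hc'.2.trans hd'.1) hd'.2 a1]

/-- the quadratic correction of the Bregman divergence on `[m, 1]` -/
theorem breg {m c u : ℝ} (h1 : -1 < m) (h2 : m < 1) (hc : 1 / (1 - m ^ 2) ≤ 2 * c)
    (hend : signEntropy m - artanh m * (1 - m) ≤ c * (1 - m) ^ 2) (hu1 : m ≤ u) (hu2 : u ≤ 1) :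
    signEntropy m - artanh m * (u - m) - c * (u - m) ^ 2 ≤ signEntropy u := by
  have key := nonneg_of_unimodal
    (φ := fun x => signEntropy x - signEntropy m + artanh m * (x - m) + c * (x - m) ^ 2)
    (φ' := fun x => -artanh x + artanh m + 2 * c * (x - m)) (a := m) (b := 1)
    (by
      have := continuous_ent
      fun_prop)
    (fun x hx1 hx2 => by
      have d1 := (hasDerivAt_ent (h1.trans hx1) hx2).sub_const (signEntropy m)
      have d2 := ((hasDerivAt_id x).sub_const m).const_mul (artanh m)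
      have d3 := (((hasDerivAt_id x).sub_const m).pow 2).const_mul c
      exact ((d1.add d2).add d3).congr_deriv (by simp; ring))
    (fun x y hx hxy hy hneg => by
      by_contra hpos
      push Not at hpos
      have hder : ∀ z, m ≤ z → z ≤ y → HasDerivAt (fun x => -artanh x + artanh m + 2 * c * (x - m))
          (2 * c - 1 / (1 - z ^ 2)) z := fun z hz1 hz2 => by
        have d1 := ((hd_artanh (by linarith : -1 < z) (by linarith)).neg).add_const
          (artanh m)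
        have d2 := ((hasDerivAt_id z).sub_const m).const_mul (2 * c)
        exact (d1.add d2).congr_deriv (by ring)
      have := nonneg_of_unimodal (φ := fun x => -artanh x + artanh m + 2 * c * (x - m))
        (φ' := fun z => 2 * c - 1 / (1 - z ^ 2)) (a := m) (b := y)
        (fun z hz => (hder z hz.1 hz.2).continuousAt.continuousWithinAt)
        (fun z hz1 hz2 => hder z hz1.le hz2.le)
        (fun s t hs hst ht hs' => by
          have p1 : 0 < 1 - m ^ 2 := by nlinarith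
          have p2 : 0 < 1 - s ^ 2 := by nlinarith
          have p3 : 0 < 1 - t ^ 2 := by nlinarith
          have q1 : 1 / (1 - m ^ 2) < 1 / (1 - s ^ 2) := by linarith
          have q2 : 1 - s ^ 2 < 1 - m ^ 2 := (one_div_lt_one_div p1 p2).1 q1
          have q3 : 0 < s := by nlinarith
          have q4 : 1 / (1 - s ^ 2) ≤ 1 / (1 - t ^ 2) :=
            one_div_le_one_div_of_le p3 (by nlinarith)
          linarith)
        (by simp) hpos.le hx.le hxy.le
      linarith)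
    (by simp) (by simp only [ent_one]; linarith) hu1 hu2
  linarith

theorem breg_right {u m : ℝ} (hm : |m| < 1) (hu1 : m ≤ u) (hu2 : u ≤ 1) :
    signEntropy m - artanh m * (u - m) - (3 + |m|) / 4 * ((u - m) ^ 2 / (1 - m ^ 2))
      ≤ signEntropy u := by
  obtain ⟨h1, h2⟩ := abs_lt.1 hm
  have p1 : 0 < 1 - m ^ 2 := by nlinarith
  have p2 : 0 < 1 + m := by linarith
  have p3 : 0 < 1 - m := by linarith
  have := breg (c := (3 + |m|) / 4 / (1 - m ^ 2)) h1 h2 (by
      rw [← mul_div_assoc]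
      exact div_le_div_of_nonneg_right (by linarith [abs_nonneg m]) p1.le)
    (by
      rw [ent_sub h1 h2]
      have hx : 1 ≤ 2 / (1 + m) := by rw [le_div_iff₀ p2]; linarith
      have a1 := self_le_sinh_iff.2 (log_nonneg hx)
      rw [sinh_log (by positivity)] at a1
      refine a1.trans ?_
      have a2 : (2 / (1 + m) - (2 / (1 + m))⁻¹) / 2 = (3 + m) / 4 / (1 - m ^ 2) * (1 - m) ^ 2 := by
        have : 1 - m ^ 2 = (1 + m) * (1 - m) := by ring
        rw [this]; field_simp; ring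
      rw [a2]
      refine mul_le_mul_of_nonneg_right ?_ (by positivity)
      exact div_le_div_of_nonneg_right (by linarith [le_abs_self m]) p1.le) hu1 hu2
  refine le_trans (le_of_eq ?_) this
  ring

theorem persp {p q p0 q0 : ℝ} (hp : 0 < p) (hq : 0 < q) (hp0 : 0 < p0) (hq0 : 0 < q0) :
    p * (log p0 - log q0) + p - q * (p0 / q0) ≤ p * (log p - log q) := by
  have h := one_sub_inv_le_log_of_pos (show 0 < p * q0 / (q * p0) by positivity)
  rw [log_div (by positivity) (by positivity), log_mul hp.ne' hq0.ne', log_mul hq.ne' hp0.ne'] at h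
  have := mul_le_mul_of_nonneg_left h hp.le
  have e : p * (1 - (p * q0 / (q * p0))⁻¹) = p - q * (p0 / q0) := by field_simp
  rw [e] at this
  linarith

theorem edge_tangent {u0 v0 : ℝ} (hu0 : |u0| < 1) (hv0 : |v0| < 1) : ∃ β γ : ℝ, ∀ u v : ℝ,
    |u| < 1 → |v| < 1 → edge artanh u0 v0 + (β * (u - u0) + γ * (v - v0)) ≤ edge artanh u v := by
  obtain ⟨a1, a2⟩ := abs_lt.1 hu0
  obtain ⟨b1, b2⟩ := abs_lt.1 hv0
  have p1 : 0 < 1 + u0 := by linarith
  have p2 : 0 < 1 - u0 := by linarith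
  have p3 : 0 < 1 + v0 := by linarith
  have p4 : 0 < 1 - v0 := by linarith
  refine ⟨((log (1 + u0) - log (1 + v0)) - (log (1 - u0) - log (1 - v0))
      - (1 + v0) / (1 + u0) + (1 - v0) / (1 - u0)) / 8,
    (-(log (1 + u0) - log (1 + v0)) + (log (1 - u0) - log (1 - v0))
      - (1 + u0) / (1 + v0) + (1 - u0) / (1 - v0)) / 8, fun u v hu hv => ?_⟩
  obtain ⟨c1, c2⟩ := abs_lt.1 hu
  obtain ⟨d1, d2⟩ := abs_lt.1 hv
  have q1 : 0 < 1 + u := by linarith
  have q2 : 0 < 1 - u := by linarith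
  have q3 : 0 < 1 + v := by linarith
  have q4 : 0 < 1 - v := by linarith
  have t1 := persp q1 q3 p1 p3
  have t2 := persp q3 q1 p3 p1
  have t3 := persp q2 q4 p2 p4
  have t4 := persp q4 q2 p4 p2
  have e1 : (1 + v0) * ((1 + u0) / (1 + v0)) = 1 + u0 := by field_simp
  have e2 : (1 + u0) * ((1 + v0) / (1 + u0)) = 1 + v0 := by field_simp
  have e3 : (1 - v0) * ((1 - u0) / (1 - v0)) = 1 - u0 := by field_simp
  have e4 : (1 - u0) * ((1 - v0) / (1 - u0)) = 1 - v0 := by field_simp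
  unfold edge
  rw [artanh_eq a1 a2, artanh_eq b1 b2, artanh_eq c1 c2, artanh_eq d1 d2]
  linarith

end OneBitB

open OneBitB

/-- (J): joint convexity. -/
theorem edge_jensen {n : ℕ} (g0 g1 : Cube n → ℝ) (h0 : ∀ x, |g0 x| < 1) (h1 : ∀ x, |g1 x| < 1) :
    edge artanh (cubeAverage g0) (cubeAverage g1)
      ≤ cubeAverage (fun x => edge artanh (g0 x) (g1 x)) := by
  obtain ⟨β, γ, H⟩ := edge_tangent (abs_avg_lt_one h0) (abs_avg_lt_one h1)
  refine le_trans (le_of_eq ?_) (avg_mono fun x => H _ _ (h0 x) (h1 x))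
  rw [avg_add, avg_add, avg_mul_left, avg_mul_left, avg_sub, avg_sub, avg_const, avg_const,
    avg_const]
  simp

/-- (E1) -/
theorem ent_ge_sq {u : ℝ} (hu : |u| ≤ 1) : (1 - u ^ 2) * log 2 ≤ signEntropy u := by
  have h2 : (1 : ℝ) / 2 < log 2 := by linarith [log_two_gt_d9]
  have := breg (m := 0) (c := log 2) (u := |u|) (by norm_num) (by norm_num) (by norm_num; linarith)
    (by simp [ent_zero]) (abs_nonneg u) hu
  rw [ent_abs, ent_zero, artanh_zero, sub_zero, sq_abs] at this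
  linarith

/-- (E2) -/
theorem ent_ge_bregman {u m : ℝ} (hu : |u| ≤ 1) (hm : |m| < 1) :
    signEntropy m - artanh m * (u - m) - (3 + |m|) / 4 * ((u - m) ^ 2 / (1 - m ^ 2))
      ≤ signEntropy u := by
  obtain ⟨h1, h2⟩ := abs_le.1 hu
  rcases le_total m u with h | h
  · exact breg_right hm h h2
  · have := breg_right (u := -u) (m := -m) (by rwa [abs_neg]) (by linarith) (by linarith)
    rw [ent_neg, ent_neg, artanh_neg' (abs_lt.1 hm).1 (abs_lt.1 hm).2, abs_neg] at this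
    refine le_trans (le_of_eq ?_) this
    ring

theorem self_le_artanh {u : ℝ} (h0 : 0 ≤ u) (h1 : u < 1) : u ≤ artanh u := by
  have hder : ∀ z, 0 ≤ z → z ≤ u → HasDerivAt (fun x => artanh x - x) (1 / (1 - z ^ 2) - 1) z :=
    fun z h2 h3 => (hd_artanh (by linarith) (by linarith)).sub (hasDerivAt_id z)
  have := le_of_deriv (φ := fun x => artanh x - x) (φ' := fun z => 1 / (1 - z ^ 2) - 1) h0
    (fun z hz => (hder z hz.1 hz.2).continuousAt.continuousWithinAt)
    (fun z h2 h3 => hder z h2.le h3.le) (fun z h2 h3 => by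
      have : 0 < 1 - z ^ 2 := by nlinarith
      rw [sub_nonneg, le_div_iff₀ this]
      nlinarith)
  simpa using this

/-- `h m ≤ log 2 - m² / 2` -/
theorem ent_le_log_two_sub {m : ℝ} (hm : |m| ≤ 1) : signEntropy m ≤ log 2 - m ^ 2 / 2 := by
  have := le_of_deriv (φ := fun x => -signEntropy x - x ^ 2 / 2) (φ' := fun z => artanh z - z)
    (abs_nonneg m) (by
      have := continuous_ent
      fun_prop)
    (fun z h2 h3 => by
      have d1 := (hasDerivAt_ent (by linarith : -1 < z) (by linarith)).neg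
      have d2 := ((hasDerivAt_id z).pow 2).div_const 2
      exact (d1.sub d2).congr_deriv (by simp))
    (fun z h2 h3 => sub_nonneg.2 (self_le_artanh h2.le (by linarith)))
  simp only [ent_zero, ent_abs, sq_abs] at this
  linarith

/-- (K): polynomial minorant from j = (Δ²/2) ∫_{-1}^1 dt/(1-(c+tΔ)²), 1/y >= 2τ/Δ - τ² y/Δ², τ_t = τ(1+γ t). -/
theorem onebit_K {u v : ℝ} (hu : |u| < 1) (hv : |v| < 1) (τ γ : ℝ) :
    2 * τ * ((v - u) / 2) - τ ^ 2 * (1 + γ ^ 2 / 3) * (1 - ((u + v) / 2) ^ 2)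
      + 4 / 3 * τ ^ 2 * γ * ((u + v) / 2) * ((v - u) / 2)
      + τ ^ 2 * (1 / 3 + γ ^ 2 / 5) * ((v - u) / 2) ^ 2 ≤ edge artanh u v := by
  obtain ⟨a1, a2⟩ := abs_lt.1 hu
  obtain ⟨b1, b2⟩ := abs_lt.1 hv
  set c := (u + v) / 2 with hc
  set Δ := (v - u) / 2 with hΔ
  have hin : ∀ t : ℝ, -1 ≤ t → t ≤ 1 → -1 < c + t * Δ ∧ c + t * Δ < 1 := fun t h1 h2 => by
    have e : c + t * Δ = (1 - t) / 2 * u + (1 + t) / 2 * v := by rw [hc, hΔ]; ring
    rw [e]
    rcases h1.eq_or_lt with rfl | h1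
    · constructor <;> linarith
    · constructor <;> nlinarith
  have hder : ∀ t : ℝ, -1 ≤ t → t ≤ 1 → HasDerivAt (fun t => Δ / 2 * artanh (c + t * Δ) -
      (τ * Δ * (t + γ / 2 * t ^ 2) - τ ^ 2 / 2 * ((1 - c ^ 2) * t +
        (γ * (1 - c ^ 2) - c * Δ) * t ^ 2 + (γ ^ 2 * (1 - c ^ 2) - 4 * γ * c * Δ - Δ ^ 2) / 3 * t ^ 3 -
        (c * Δ * γ ^ 2 + γ * Δ ^ 2) / 2 * t ^ 4 - γ ^ 2 * Δ ^ 2 / 5 * t ^ 5)))
      (Δ ^ 2 / 2 * (1 / (1 - (c + t * Δ) ^ 2)) -
        (τ * (1 + γ * t) * Δ - (τ * (1 + γ * t)) ^ 2 / 2 * (1 - (c + t * Δ) ^ 2))) t := by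
    intro t h1 h2
    obtain ⟨i1, i2⟩ := hin t h1 h2
    have d0 : HasDerivAt (fun t : ℝ => c + t * Δ) (1 * Δ) t :=
      ((hasDerivAt_id t).mul_const Δ).const_add c
    have d1 := ((hd_artanh i1 i2).comp t d0).const_mul (Δ / 2)
    have p := fun k : ℕ => hasDerivAt_pow k t
    have d2 := ((hasDerivAt_id t).add ((p 2).const_mul (γ / 2))).const_mul (τ * Δ)
    have d3 := ((((((hasDerivAt_id t).const_mul (1 - c ^ 2)).add
      ((p 2).const_mul (γ * (1 - c ^ 2) - c * Δ))).add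
      ((p 3).const_mul ((γ ^ 2 * (1 - c ^ 2) - 4 * γ * c * Δ - Δ ^ 2) / 3))).sub
      ((p 4).const_mul ((c * Δ * γ ^ 2 + γ * Δ ^ 2) / 2))).sub
      ((p 5).const_mul (γ ^ 2 * Δ ^ 2 / 5))).const_mul (τ ^ 2 / 2)
    exact (d1.sub (d2.sub d3)).congr_deriv (by push_cast; ring)
  have := le_of_deriv (show (-1 : ℝ) ≤ 1 by norm_num)
    (fun z hz => (hder z hz.1 hz.2).continuousAt.continuousWithinAt)
    (fun z h2 h3 => hder z h2.le h3.le) (fun t h1 h2 => by
      obtain ⟨i1, i2⟩ := hin t h1.le h2.le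
      have hy : 0 < 1 - (c + t * Δ) ^ 2 := by nlinarith
      generalize 1 - (c + t * Δ) ^ 2 = y at hy
      generalize τ * (1 + γ * t) = s
      have : Δ ^ 2 / 2 * (1 / y) - (s * Δ - s ^ 2 / 2 * y) = (Δ - s * y) ^ 2 / (2 * y) := by
        field_simp; ring
      rw [this]; positivity)
  have e1 : c + -1 * Δ = u := by rw [hc, hΔ]; ring
  have e2 : c + 1 * Δ = v := by rw [hc, hΔ]; ring
  simp only [e1, e2] at this
  have e3 : edge artanh u v = Δ / 2 * artanh v - Δ / 2 * artanh u := by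
    unfold edge; rw [hΔ]; ring
  rw [e3]
  linarith

/-! ### averaged forms -/

/-- (E1), averaged -/
theorem avg_ent_ge_sq {n : ℕ} (u : Cube n → ℝ) (hu : ∀ x, |u x| ≤ 1) :
    (1 - cubeAverage (fun x => u x ^ 2)) * log 2 ≤ cubeAverage (fun x => signEntropy (u x)) := by
  refine le_trans (le_of_eq ?_) (avg_mono fun x => ent_ge_sq (hu x))
  simp only [mul_comm _ (log 2)]
  rw [avg_mul_left, avg_sub, avg_const]

theorem avg_centered_mul {n : ℕ} (a b : Cube n → ℝ) :
    cubeAverage (fun x => (a x - cubeAverage a) * (b x - cubeAverage b)) =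
      cubeAverage (fun x => a x * b x) - cubeAverage a * cubeAverage b := by
  have : (fun x => (a x - cubeAverage a) * (b x - cubeAverage b)) = fun x =>
      a x * b x - cubeAverage b * a x - cubeAverage a * b x + cubeAverage a * cubeAverage b := by
    funext x; ring
  rw [this, avg_add, avg_sub, avg_sub, avg_mul_left, avg_mul_left, avg_const]
  ring

theorem avg_centered_sq {n : ℕ} (a : Cube n → ℝ) :
    cubeAverage (fun x => (a x - cubeAverage a) ^ 2) =
      cubeAverage (fun x => a x ^ 2) - cubeAverage a ^ 2 := by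
  simpa only [pow_two] using avg_centered_mul a a

theorem avg_sq_le {n : ℕ} (a : Cube n → ℝ) :
    cubeAverage a ^ 2 ≤ cubeAverage (fun x => a x ^ 2) := by
  have := avg_mono (g := fun _ : Cube n => (0 : ℝ)) fun x => sq_nonneg (a x - cubeAverage a)
  rw [avg_const, avg_centered_sq] at this
  linarith

/-- (E2), averaged -/
theorem avg_ent_ge_bregman {n : ℕ} (u : Cube n → ℝ) (hu : ∀ x, |u x| ≤ 1)
    (hm : |cubeAverage u| < 1) :
    signEntropy (cubeAverage u) - (3 + |cubeAverage u|) / 4 *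
        ((cubeAverage (fun x => u x ^ 2) - cubeAverage u ^ 2) / (1 - cubeAverage u ^ 2))
      ≤ cubeAverage (fun x => signEntropy (u x)) := by
  refine le_trans (le_of_eq ?_) (avg_mono fun x => ent_ge_bregman (hu x) hm)
  simp only [div_eq_inv_mul _ (1 - cubeAverage u ^ 2)]
  rw [avg_sub, avg_sub, avg_const, avg_mul_left, avg_mul_left, avg_mul_left, avg_sub, avg_const,
    avg_centered_sq]
  simp

/-- (K), averaged, with any `l ≥ T₁² / (τ² T₂)` -/
theorem avg_K_of_le {n : ℕ} (g0 g1 : Cube n → ℝ) (h0 : ∀ x, |g0 x| < 1) (h1 : ∀ x, |g1 x| < 1)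
    (τ γ l : ℝ) (hl : 4 / 9 * γ ^ 2 ≤ (1 / 3 + γ ^ 2 / 5) * l) {m δ V : ℝ}
    (hm : m = cubeAverage fun x => (g0 x + g1 x) / 2)
    (hδ : δ = cubeAverage fun x => (g1 x - g0 x) / 2)
    (hV : V = cubeAverage (fun x => ((g0 x + g1 x) / 2) ^ 2) - m ^ 2) :
    2 * τ * δ - τ ^ 2 * (1 + γ ^ 2 / 3) * (1 - m ^ 2) + 4 / 3 * τ ^ 2 * γ * m * δ
      + τ ^ 2 * (1 / 3 + γ ^ 2 / 5) * δ ^ 2 + τ ^ 2 * (1 + γ ^ 2 / 3 - l) * V
      ≤ cubeAverage (fun x => edge artanh (g0 x) (g1 x)) := by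
  set u : Cube n → ℝ := fun x => (g0 x + g1 x) / 2 with hu
  set D : Cube n → ℝ := fun x => (g1 x - g0 x) / 2 with hD
  have hT : 0 < 1 / 3 + γ ^ 2 / 5 := by positivity
  have pt : ∀ x, (2 * τ * δ - τ ^ 2 * (1 + γ ^ 2 / 3) * (1 - m ^ 2) + 4 / 3 * τ ^ 2 * γ * m * δ
      + τ ^ 2 * (1 / 3 + γ ^ 2 / 5) * δ ^ 2) + τ ^ 2 * (1 + γ ^ 2 / 3 - l) * (u x - m) ^ 2
      + ((2 * τ + 4 / 3 * τ ^ 2 * γ * m + 2 * τ ^ 2 * (1 / 3 + γ ^ 2 / 5) * δ) * (D x - δ)
        + (2 * τ ^ 2 * (1 + γ ^ 2 / 3) * m + 4 / 3 * τ ^ 2 * γ * δ) * (u x - m))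
      ≤ edge artanh (g0 x) (g1 x) := by
    intro x
    refine le_trans ?_ (onebit_K (h0 x) (h1 x) τ γ)
    change _ ≤ 2 * τ * D x - τ ^ 2 * (1 + γ ^ 2 / 3) * (1 - u x ^ 2)
      + 4 / 3 * τ ^ 2 * γ * u x * D x + τ ^ 2 * (1 / 3 + γ ^ 2 / 5) * D x ^ 2
    generalize u x = a
    generalize D x = b
    have q : 0 ≤ l * (a - m) ^ 2 + 4 / 3 * γ * ((a - m) * (b - δ)) +
        (1 / 3 + γ ^ 2 / 5) * (b - δ) ^ 2 := by
      refine le_of_mul_le_mul_left ?_ hT
      have s1 := sq_nonneg (2 / 3 * γ * (a - m) + (1 / 3 + γ ^ 2 / 5) * (b - δ))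
      have s2 := mul_le_mul_of_nonneg_right hl (sq_nonneg (a - m))
      nlinarith
    have := mul_nonneg (sq_nonneg τ) q
    nlinarith
  refine le_trans (le_of_eq ?_) (avg_mono pt)
  have hV' : cubeAverage (fun x => (u x - m) ^ 2) = V := by rw [hV, hm, avg_centered_sq]
  rw [avg_add, avg_add, avg_const, avg_mul_left, avg_add, avg_mul_left, avg_mul_left, avg_sub,
    avg_sub, avg_const, avg_const, hV']
  change _ = _ + (_ * (cubeAverage D - δ) + _ * (cubeAverage u - m))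
  rw [← hm, ← hδ]
  ring

/-- (K), averaged: `T₀ = τ² (1 + γ²/3)`, `T₁ = 2 τ² γ / 3`, `T₂ = τ² (1/3 + γ²/5)` -/
theorem avg_K {n : ℕ} (g0 g1 : Cube n → ℝ) (h0 : ∀ x, |g0 x| < 1) (h1 : ∀ x, |g1 x| < 1)
    (τ γ : ℝ) {m δ V T0 T1 T2 : ℝ} (hm : m = cubeAverage fun x => (g0 x + g1 x) / 2)
    (hδ : δ = cubeAverage fun x => (g1 x - g0 x) / 2)
    (hV : V = cubeAverage (fun x => ((g0 x + g1 x) / 2) ^ 2) - m ^ 2)
    (hT0 : T0 = τ ^ 2 * (1 + γ ^ 2 / 3)) (hT1 : T1 = 2 * τ ^ 2 * γ / 3)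
    (hT2 : T2 = τ ^ 2 * (1 / 3 + γ ^ 2 / 5)) :
    2 * τ * δ - T0 * (1 - m ^ 2) + 2 * T1 * m * δ + T2 * δ ^ 2 + (T0 - T1 ^ 2 / T2) * V
      ≤ cubeAverage (fun x => edge artanh (g0 x) (g1 x)) := by
  have hT : 0 < 1 / 3 + γ ^ 2 / 5 := by positivity
  refine le_trans (le_of_eq ?_) (avg_K_of_le g0 g1 h0 h1 τ γ (4 / 9 * γ ^ 2 / (1 / 3 + γ ^ 2 / 5))
    (le_of_eq (by field_simp)) hm hδ hV)
  have e : T1 ^ 2 / T2 = τ ^ 2 * (4 / 9 * γ ^ 2 / (1 / 3 + γ ^ 2 / 5)) := by
    rw [hT1, hT2]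
    by_cases hτ : τ = 0
    · simp [hτ]
    · field_simp; ring
  rw [e, hT0, hT1, hT2]
  ring

end Crest.Agent.R307
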