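import Crest.Agent.R307.ProfEv

/-! Row 307, profile inequality: the normalised induction step, region by region. -/

set_option autoImplicit false

open Crest.CubeNoise Real

namespace Crest.Agent.R307

/-- What is known in the induction step, normalised by `1 - m²`:
`d = δ / w`, `μ = m²`, `h r = A / w`, `y = (X - 2 I₁) / w`, `ω = W / w`. -/
structure Tools (d μ r y ω : ℝ) : Prop where
  d0 : 0 ≤ d
  d1 : d ≤ 2 / 3
  μ0 : 0 ≤ μ
  μ1 : μ ≤ 1
  dμ : (1 - μ) * d ≤ 1 / 2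
  r0 : 0 ≤ r
  r1 : r < 1
  ω0 : d ≤ ω
  ω1 : ω ≤ 1
  master : ∀ θ τ t : ℝ, 1 / 2 ≤ θ → θ ≤ 1 → 0 ≤ t → t < 1 →
    θ * (d * artanh d - d ^ 2) - 2 * psi d + d ^ 4 * μ * (θ - 1 / 2) + 2 * θ * τ * d
      + ((1 - θ) * gam t - θ * τ ^ 2) * ω - (1 - θ) * kap t * signEntropy r ≤ y
  tail : ∀ s : ℝ, 0 < s → s < 1 → s * signEntropy r ≤ d * signEntropy s →
    d * artanh s - (d ^ 2 + 2 / 5 * d ^ 4 * (1 + 3 * μ)) ≤ y

/-- What has to be shown in the induction step. -/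
def Goal (d μ r y : ℝ) : Prop :=
  ∃ t : ℝ, 0 ≤ t ∧ t < 1 ∧
    Sf r + (kap t - 2) * signEntropy r - (1 - (1 - μ) * d ^ 2) * sz t ≤ y

variable {d μ r y ω : ℝ}

theorem goal_zero (h : Sf r ≤ y) : Goal d μ r y :=
  ⟨0, le_rfl, one_pos, by rw [kap_zero, sz_zero]; linarith⟩

theorem goal_self (T : Tools d μ r y ω) (h : (1 - μ) * d ^ 2 * sz r ≤ y) : Goal d μ r y :=
  ⟨r, T.r0, T.r1, by rw [← sz_eq]; linarith⟩

theorem Tools.dlt (T : Tools d μ r y ω) : d < 1 := by linarith [T.d1]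

theorem Tools.dabs (T : Tools d μ r y ω) : |d| < 1 := abs_lt_one_of T.d0 T.dlt

theorem Tools.hr (T : Tools d μ r y ω) : 0 ≤ signEntropy r :=
  signEntropy_nonneg (abs_lt_one_of T.r0 T.r1).le

theorem goal_J (T : Tools d μ r y ω) (h : r ≤ d) : Goal d μ r y := by
  apply goal_zero
  have h1 := T.master 1 d 0 (by norm_num) le_rfl le_rfl one_pos
  have h2 := Sf_mono T.r0 h T.dlt
  have h3 : 0 ≤ d ^ 4 * μ := mul_nonneg (by have := T.d0; positivity) T.μ0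
  have h4 : d ^ 2 * ω ≤ d ^ 2 := mul_le_of_le_one_right (sq_nonneg d) T.ω1
  unfold Sf at h2 ⊢
  nlinarith

theorem goal_A (T : Tools d μ r y ω) {β rA g : ℝ} (hdr : d ≤ r) (hrA : r ≤ rA) (hA1 : rA < 1)
    (hβ0 : 0 ≤ β) (hβ1 : β ≤ 1) (h1 : β * (gam d + d ^ 2) ≤ kap d * d ^ 2)
    (hg0 : 0 ≤ g) (hg : g ≤ d ^ 4 * μ * ((1 - β) / 2))
    (h2 : Sf rA + β * signEntropy rA ≤ Sf d + β * signEntropy d + g) : Goal d μ r y := by
  apply goal_zero
  have hk := two_le_kap T.d0 T.dlt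
  have hk0 : 0 < kap d := by linarith
  set η := β / kap d with hη
  have hηk : η * kap d = β := by rw [hη]; field_simp
  have hη0 : 0 ≤ η := div_nonneg hβ0 hk0.le
  have hη1 : η ≤ β / 2 := by nlinarith
  have h3 := T.master (1 - η) d d (by linarith) (by linarith) T.d0 T.dlt
  have h4 : η * gam d - (1 - η) * d ^ 2 ≤ 0 := by
    have : η * (gam d + d ^ 2) ≤ d ^ 2 := by
      rw [hη, div_mul_eq_mul_div, div_le_iff₀ hk0]; linarith
    linarith
  have h5 : η * gam d - (1 - η) * d ^ 2 ≤ (η * gam d - (1 - η) * d ^ 2) * ω := by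
    nlinarith [T.ω1]
  have h6 : d ^ 4 * μ * ((1 - β) / 2) ≤ d ^ 4 * μ * (1 - η - 1 / 2) :=
    mul_le_mul_of_nonneg_left (by linarith) (mul_nonneg (by have := T.d0; positivity) T.μ0)
  have h7 := Sf_max β T.d0 hdr hrA hA1
  have h8 : Sf r + β * signEntropy r ≤ Sf d + β * signEntropy d + g :=
    h7.trans (max_le (by linarith) h2)
  have e1 : η * gam d = η * (d * artanh d) + β * signEntropy d := by
    rw [gam, ← hηk]; ring
  have e2 : (1 - (1 - η)) * kap d * signEntropy r = β * signEntropy r := by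
    rw [← hηk]; ring
  rw [e2, show 1 - (1 - η) = η by ring] at h3
  unfold Sf at h8 ⊢
  nlinarith

theorem goal_T (T : Tools d μ r y ω) {σ : ℝ} (h1 : 1 + sz r ≤ σ)
    (h2 : 2 * signEntropy r * σ + d ^ 2 * σ ^ 2 ≤ 2 * log 2) : Goal d μ r y := by
  apply goal_self T
  have hl : 0 < log 2 := log_pos one_lt_two
  have hs := sz_nonneg T.r0 T.r1
  have hσ : 0 < σ := by linarith
  have hh := T.hr
  have hp : 0 ≤ d ^ 2 * σ ^ 2 := by positivity
  have hD : 0 < 2 * log 2 + d ^ 2 * σ ^ 2 := by linarith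
  set θ := 2 * log 2 / (2 * log 2 + d ^ 2 * σ ^ 2) with hθ
  have hθD : θ * (2 * log 2 + d ^ 2 * σ ^ 2) = 2 * log 2 := by rw [hθ]; field_simp
  have hhσ : 0 ≤ 2 * signEntropy r * σ := by positivity
  have hθ0 : 1 / 2 ≤ θ := by rw [hθ, le_div_iff₀ hD]; linarith
  have hθ1 : θ ≤ 1 := by rw [hθ, div_le_one hD]; linarith
  have h3 := T.master θ (σ * d) 0 hθ0 hθ1 le_rfl one_pos
  have g0 : gam 0 = 2 * log 2 := by have := sz_zero; unfold sz at this; linarith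
  have e : (1 - θ) * gam 0 - θ * (σ * d) ^ 2 = 0 := by rw [g0]; linarith
  rw [e, kap_zero] at h3
  have h4 := Pth_le hθ0 T.dabs
  have h5 := Pth_nonneg hθ0 (sq_nonneg d)
  have h6 : 0 ≤ d ^ 4 * μ * (θ - 1 / 2) :=
    mul_nonneg (mul_nonneg (by have := T.d0; positivity) T.μ0) (by linarith)
  -- `2 θ σ z - 2 (1-θ) a ≥ σ z`
  have h7 : σ * d ^ 2 ≤ 2 * θ * (σ * d) * d - (1 - θ) * 2 * signEntropy r := by
    have e1 : (1 - θ) * (2 * log 2 + d ^ 2 * σ ^ 2) = d ^ 2 * σ ^ 2 := by linarith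
    apply le_of_mul_le_mul_right _ hD
    have e2 : (2 * θ * (σ * d) * d - (1 - θ) * 2 * signEntropy r) * (2 * log 2 + d ^ 2 * σ ^ 2)
        = 2 * σ * d ^ 2 * (2 * log 2) - 2 * signEntropy r * (d ^ 2 * σ ^ 2) := by
      linear_combination (2 * σ * d ^ 2) * hθD - 2 * signEntropy r * e1
    rw [e2]
    have := mul_le_mul_of_nonneg_left h2 (show 0 ≤ σ * d ^ 2 by positivity)
    nlinarith
  have h8 : (1 - μ) * d ^ 2 * sz r ≤ d ^ 2 * (σ - 1) := by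
    have : (1 - μ) * d ^ 2 * sz r ≤ d ^ 2 * sz r := by
      have : 0 ≤ μ * (d ^ 2 * sz r) := mul_nonneg T.μ0 (by positivity)
      linarith
    have := mul_le_mul_of_nonneg_left h1 (sq_nonneg d)
    linarith
  linarith

/-- A function of the form `a + b d - c d²` with `c ≥ 0` is bounded below by its endpoint values. -/
theorem concave_quad {a b c g d0 d1 d : ℝ} (hc : 0 ≤ c) (h0 : d0 ≤ d) (h1 : d ≤ d1)
    (g0 : g ≤ a + b * d0 - c * d0 ^ 2) (g1 : g ≤ a + b * d1 - c * d1 ^ 2) :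
    g ≤ a + b * d - c * d ^ 2 := by
  rcases le_total (c * (d + d0)) b with h | h
  · nlinarith [mul_nonneg (sub_nonneg.2 h0) (sub_nonneg.2 h)]
  · have : b ≤ c * (d + d1) := by nlinarith
    nlinarith [mul_nonneg (sub_nonneg.2 h1) (sub_nonneg.2 this)]

/-- The rectangle cell with constant multipliers. -/
theorem goal_R (T : Tools d μ r y ω) {d0 d1 r0 r1 θ τ t t' sp c cw e1 e2 μ0 g : ℝ}
    (hd0 : 0 ≤ d0) (hd : d0 ≤ d) (hd' : d ≤ d1) (hr0 : 0 ≤ r0) (hr : r0 ≤ r) (hr' : r ≤ r1)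
    (hr1 : r1 < 1) (hθ0 : 1 / 2 ≤ θ) (hθ1 : θ ≤ 1) (ht0 : 0 ≤ t) (ht1 : t < 1)
    (ht0' : 0 ≤ t') (ht1' : t' < 1) (hsp0 : 0 ≤ sp) (hsp : sp ≤ sz t')
    (hc : (1 - θ) * kap t + kap t' - 2 ≤ c) (hcw : cw ≤ (1 - θ) * gam t - θ * τ ^ 2)
    (he2 : 0 ≤ e2) (he : (1 - μ) * d ^ 2 ≤ e2 * d ^ 2 + e1 * d) (hμ0 : 0 ≤ μ0) (hμ : μ0 ≤ μ)
    (hP : dPth θ (d0 ^ 2) ≤ 1)
    (hg0 : Sf r0 + c * signEntropy r0 ≤ g) (hg1 : Sf r1 + c * signEntropy r1 ≤ g)
    (f0 : g ≤ Pth θ (d0 ^ 2) - d0 ^ 2 + 2 * θ * τ * d0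
      + (1 - (e2 * d0 ^ 2 + e1 * d0)) * sp + d0 ^ 4 * μ0 * (θ - 1 / 2)
      + (max cw 0 * d0 + min cw 0))
    (f1 : g ≤ Pth θ (d0 ^ 2) + dPth θ (d0 ^ 2) * (d1 ^ 2 - d0 ^ 2) - d1 ^ 2 + 2 * θ * τ * d1
      + (1 - (e2 * d1 ^ 2 + e1 * d1)) * sp + d0 ^ 4 * μ0 * (θ - 1 / 2)
      + (max cw 0 * d1 + min cw 0)) : Goal d μ r y := by
  refine ⟨t', ht0', ht1', ?_⟩
  have h1 := T.master θ τ t hθ0 hθ1 ht0 ht1
  have h2 := Pth_le hθ0 T.dabs
  have h3 := Pth_tangent hθ0 (sq_nonneg d) (sq_nonneg d0)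
  have h4 : Sf r + c * signEntropy r ≤ g := (Sf_max c hr0 hr hr' hr1).trans (max_le hg0 hg1)
  have h5 := mul_le_mul_of_nonneg_right hc T.hr
  have hω : 0 ≤ ω := T.d0.trans T.ω0
  have h6 : max cw 0 * d + min cw 0 ≤ ((1 - θ) * gam t - θ * τ ^ 2) * ω := by
    refine le_trans ?_ (mul_le_mul_of_nonneg_right hcw hω)
    rcases le_total cw 0 with h | h
    · rw [max_eq_right h, min_eq_left h]; nlinarith [T.ω1]
    · rw [max_eq_left h, min_eq_right h]; nlinarith [T.ω0]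
  have h7 : d0 ^ 4 * μ0 * (θ - 1 / 2) ≤ d ^ 4 * μ * (θ - 1 / 2) :=
    mul_le_mul_of_nonneg_right (mul_le_mul (pow_le_pow_left₀ hd0 hd 4) hμ hμ0
      (by have := T.d0; positivity)) (by linarith)
  have hε : (1 - μ) * d ^ 2 ≤ 1 := by nlinarith [T.dμ, T.d0, T.d1]
  have h8 : (1 - (e2 * d ^ 2 + e1 * d)) * sp ≤ (1 - (1 - μ) * d ^ 2) * sz t' :=
    (mul_le_mul_of_nonneg_right (by linarith) hsp0).trans
      (mul_le_mul_of_nonneg_left hsp (by linarith))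
  have h9 := concave_quad (g := g) (d := d) (d0 := d0) (d1 := d1)
    (a := Pth θ (d0 ^ 2) - dPth θ (d0 ^ 2) * d0 ^ 2 + sp + d0 ^ 4 * μ0 * (θ - 1 / 2) + min cw 0)
    (b := 2 * θ * τ - e1 * sp + max cw 0) (c := 1 - dPth θ (d0 ^ 2) + e2 * sp)
    (by have := mul_nonneg he2 hsp0; linarith) hd hd' (by linarith) (by linarith)
  linarith

/-! ### The small region -/

theorem goal_smallA (T : Tools d μ r y ω) (hd : d ≤ 1 / 10) (hdr : d ≤ r) (hr : r ≤ 7 / 4 * d) :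
    Goal d μ r y := by
  have d0 := T.d0
  have hz0 : 0 ≤ d ^ 2 := sq_nonneg d
  have hz : d ^ 2 ≤ 1 / 100 := by nlinarith
  have l1 := log_two_gt_d9
  have l2 := log_two_lt_d9
  refine goal_A T (β := 143 / 100 * d ^ 2) (g := 0) hdr hr (by linarith) (by positivity)
    (by linarith) ?_ le_rfl ?_ ?_
  · have hk := two_le_kap d0 T.dlt
    have hL : d * artanh d ≤ 100 / 99 * d ^ 2 := by
      have h1 := artanh_le_div d0 T.dlt
      have h2 : d / (1 - d ^ 2) ≤ 100 / 99 * d := by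
        rw [div_le_iff₀ (by linarith)]; nlinarith
      nlinarith
    have hh : signEntropy d ≤ log 2 - d ^ 2 / 2 := by
      have := sq_le_psi T.dabs.le
      rw [signEntropy_eq]; linarith
    have h3 : 143 / 100 * (gam d + d ^ 2) ≤ kap d := by
      unfold gam
      have : 0 ≤ (kap d - 2) * (1 - 143 / 100 * signEntropy d) :=
        mul_nonneg (by linarith) (by linarith)
      nlinarith
    nlinarith
  · exact mul_nonneg (mul_nonneg (by positivity) T.μ0) (by linarith)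
  · have ha : |7 / 4 * d| < 1 := abs_lt_one_of (by positivity) (by linarith)
    have h1 := Sf_le (x := 7 / 4 * d) (by positivity) (by linarith)
    have h2 := Sf_ge T.dabs
    have h3 := sq_add_le_psi ha.le
    have h4 := psi_le_quartic T.dabs
    have h5 : (7 / 4 * d) ^ 8 / (1 - (7 / 4 * d) ^ 2) ≤ 1 / 100 * d ^ 4 := by
      rw [div_le_iff₀ (by nlinarith)]
      have : (7 / 4 * d) ^ 8 = (7 / 4) ^ 8 * (d ^ 2) ^ 2 * d ^ 4 := by ring
      rw [this]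
      have h6 : (7 / 4) ^ 8 * (d ^ 2) ^ 2 ≤ 1 / 100 * (1 - (7 / 4 * d) ^ 2) := by nlinarith
      have : 0 ≤ d ^ 4 := by positivity
      nlinarith
    have h6 : d ^ 6 ≤ 1 / 100 * d ^ 4 := by
      have : 0 ≤ d ^ 4 := by positivity
      nlinarith
    have h7 : 33 / 32 * d ^ 2 ≤ psi (7 / 4 * d) - psi d := by
      have : 0 ≤ d ^ 4 := by positivity
      nlinarith
    have h8 := mul_le_mul_of_nonneg_left h7 (show 0 ≤ 143 / 100 * d ^ 2 by positivity)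
    simp only [signEntropy_eq]
    have : 0 ≤ d ^ 4 := by positivity
    nlinarith

theorem kap_le_small {r : ℝ} (h0 : 0 ≤ r) (h1 : r ≤ 7 / 40) :
    kap r - 2 ≤ r ^ 2 * (2 / 3 + 17 / 20 * r ^ 2) := by
  rcases h0.eq_or_lt with rfl | h0'
  · simp [kap_zero]
  have hz : r ^ 2 ≤ 49 / 1600 := by nlinarith
  have hz0 : 0 < r ^ 2 := by positivity
  have hL := add_cube_le_artanh h0 (by linarith)
  rw [kap_of_ne h0'.ne']
  have h2 : r / ((1 - r ^ 2) * artanh r) ≤ r / ((1 - r ^ 2) * (r + r ^ 3 / 3)) := by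
    gcongr
    · exact mul_pos (by linarith) (by positivity)
    · linarith
  have h3 : r / ((1 - r ^ 2) * (r + r ^ 3 / 3)) ≤ 1 + r ^ 2 * (2 / 3 + 17 / 20 * r ^ 2) := by
    rw [div_le_iff₀ (mul_pos (by linarith) (by positivity))]
    have e : (1 + r ^ 2 * (2 / 3 + 17 / 20 * r ^ 2)) * ((1 - r ^ 2) * (r + r ^ 3 / 3)) =
        r + r * (r ^ 2) ^ 2 * (13 / 180 - 71 / 90 * r ^ 2 - 17 / 60 * (r ^ 2) ^ 2) := by ring
    rw [e]
    have : 0 ≤ 13 / 180 - 71 / 90 * r ^ 2 - 17 / 60 * (r ^ 2) ^ 2 := by nlinarith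
    have : 0 ≤ r * (r ^ 2) ^ 2 * (13 / 180 - 71 / 90 * r ^ 2 - 17 / 60 * (r ^ 2) ^ 2) := by
      positivity
    linarith
  linarith

theorem goal_smallT (T : Tools d μ r y ω) (hdr : 7 / 4 * d ≤ r) (hr : r ≤ 7 / 40) :
    Goal d μ r y := by
  have d0 := T.d0
  have r0 := T.r0
  have l1 := log_two_gt_d9
  have l2 := log_two_lt_d9
  have hz : d ^ 2 ≤ 16 / 49 * r ^ 2 := by nlinarith
  have hh : signEntropy r ≤ log 2 - r ^ 2 / 2 := by
    have := sq_le_psi (abs_lt_one_of r0 T.r1).le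
    rw [signEntropy_eq]; linarith
  have h1 := Sf_le r0 T.r1
  have h2 := kap_le_small r0 hr
  have h0 := T.hr
  rw [show r ^ 4 = (r ^ 2) ^ 2 by ring, show r ^ 6 = (r ^ 2) ^ 3 by ring,
    show r ^ 8 = (r ^ 2) ^ 4 by ring] at h1
  have hρ : r ^ 2 ≤ 49 / 1600 := by nlinarith
  have hρ0 : 0 ≤ r ^ 2 := sq_nonneg r
  generalize r ^ 2 = ρ at *
  have h3 : ρ ^ 4 / (1 - ρ) ≤ ρ ^ 2 / 1000 := by
    rw [div_le_div_iff₀ (by linarith) (by norm_num)]
    have : ρ ^ 2 * 1000 ≤ 1 - ρ := by nlinarith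
    nlinarith [sq_nonneg ρ]
  have h4 : ρ ^ 3 ≤ 49 / 1600 * ρ ^ 2 := by nlinarith [sq_nonneg ρ]
  have h5 : (kap r - 2) * signEntropy r ≤ ρ * (2 / 3 + 17 / 20 * ρ) * (6931471808 / 10000000000 - ρ / 2) :=
    mul_le_mul h2 (by linarith) h0 (by positivity)
  refine goal_T T (σ := 1 + ρ * (4622 / 10000 + 44 / 100 * ρ)) ?_ ?_
  · rw [sz_eq]
    have : 0 ≤ ρ ^ 3 := by positivity
    nlinarith
  · set σ := 1 + ρ * (4622 / 10000 + 44 / 100 * ρ) with hσ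
    have s1 : 1 ≤ σ := by rw [hσ]; nlinarith
    have s2 : σ ≤ 102 / 100 := by rw [hσ]; nlinarith
    have a1 := mul_le_mul_of_nonneg_right hh (show 0 ≤ σ by linarith)
    have a2 := mul_le_mul_of_nonneg_right hz (sq_nonneg σ)
    have a3 : 16 / 49 * σ ^ 2 - σ ≤ 16 / 49 - 1 := by nlinarith
    have a4 := mul_le_mul_of_nonneg_left a3 hρ0
    have a5 : 2 * log 2 * (4622 / 10000 + 44 / 100 * ρ) ≤ 33 / 49 := by nlinarith
    have a6 := mul_le_mul_of_nonneg_left a5 hρ0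
    have e : log 2 * σ = log 2 + ρ * (log 2 * (4622 / 10000 + 44 / 100 * ρ)) := by rw [hσ]; ring
    nlinarith

end Crest.Agent.R307
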