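import Crest.Agent.R307.ProfTail

/-! Row 307, profile inequality: the rational certificate for `r ≤ 19/20`. -/

set_option autoImplicit false

open Crest.CubeNoise Real

namespace Crest.Agent.R307

namespace Ev

def mu0 (d0 : ℚ) : ℚ := if 1 / 2 ≤ d0 then 1 - 1 / (2 * d0) else 0
def ee2 (d0 : ℚ) : ℚ := if 1 / 2 ≤ d0 then 0 else 1
def ee1 (d0 : ℚ) : ℚ := if 1 / 2 ≤ d0 then 1 / 2 else 0

def chkA (d0 d1 β rA : ℚ) : Bool :=
  decide (rA ≤ d0) ||
    (decide (0 < d0) && decide (d0 ≤ d1) && decide (d1 < 1) && decide (0 ≤ rA) && decide (rA < 1) &&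
      decide (0 ≤ β) && decide (β ≤ 1) &&
      decide (β * (hHi d0 + (d1 * Lhi d1 + d1 * d1) / kapLo d0) ≤ d0 * d0) &&
      decide (kapHi d1 - 2 ≤ β) &&
      decide (SHi rA - SLo d1 ≤ β * (psiLo rA - psiHi d1) + d0 ^ 4 * mu0 d0 * ((1 - β) / 2)))

def chkT (r0 r1 D σ : ℚ) : Bool :=
  decide (0 ≤ r0) && decide (r0 ≤ r1) && decide (r1 < 1) &&
    decide (1 + gamHi r1 - 2 * l2lo ≤ σ) && decide (2 * hHi r0 * σ + D * D * (σ * σ) ≤ 2 * l2lo)

def PthQ (θ z : ℚ) : ℚ :=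
  z ^ 2 * (θ - 1 / 2) / 3 + z ^ 3 * (θ - 1 / 3) / 5 + z ^ 4 * (θ - 1 / 4) / 7

def dPthQ (θ z : ℚ) : ℚ :=
  2 * z * (θ - 1 / 2) / 3 + 3 * z ^ 2 * (θ - 1 / 3) / 5 + 4 * z ^ 3 * (θ - 1 / 4) / 7

def chkR' (d0 d1 θ τ sp cw g : ℚ) : Bool :=
  decide (dPthQ θ (d0 ^ 2) ≤ 1) &&
  decide (g ≤ PthQ θ (d0 ^ 2) - d0 ^ 2 + 2 * θ * τ * d0
      + (1 - (ee2 d0 * d0 ^ 2 + ee1 d0 * d0)) * sp + d0 ^ 4 * mu0 d0 * (θ - 1 / 2)
      + (max cw 0 * d0 + min cw 0)) &&
  decide (g ≤ PthQ θ (d0 ^ 2) + dPthQ θ (d0 ^ 2) * (d1 ^ 2 - d0 ^ 2) - d1 ^ 2 + 2 * θ * τ * d1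
      + (1 - (ee2 d0 * d1 ^ 2 + ee1 d0 * d1)) * sp + d0 ^ 4 * mu0 d0 * (θ - 1 / 2)
      + (max cw 0 * d1 + min cw 0))

def cc (θ t t' : ℚ) : ℚ := (1 - θ) * kapHi t + kapHi t' - 2

def chkR (d0 d1 r0 r1 θ τ t t' : ℚ) : Bool :=
  decide (0 < d0) && decide (0 ≤ r0) && decide (r0 ≤ r1) && decide (r1 < 1) &&
  decide (1 / 2 ≤ θ) && decide (θ ≤ 1) && decide (0 ≤ t) && decide (t < 1) &&
  decide (0 ≤ t') && decide (t' < 1) &&
  chkR' d0 d1 θ τ (max (gamLo t' - 2 * l2hi) 0) ((1 - θ) * gamLo t - θ * τ ^ 2)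
    (max (SHi r0 + cc θ t t' * hHi r0) (SHi r1 + cc θ t t' * hHi r1))

variable {d μ r y ω : ℝ}

theorem mu0_le (T : Tools d μ r y ω) {d0 : ℚ} (hd : (d0 : ℝ) ≤ d) :
    (0 : ℝ) ≤ mu0 d0 ∧ (mu0 d0 : ℝ) ≤ μ := by
  unfold mu0
  split_ifs with h
  · have h' : (1 / 2 : ℝ) ≤ d0 := by
      have := (Rat.cast_le (K := ℝ)).2 h
      push_cast at this; exact this
    have hp : (0 : ℝ) < 2 * d0 := by linarith
    push_cast
    refine ⟨by rw [sub_nonneg, div_le_one hp]; linarith, ?_⟩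
    have : 1 - μ ≤ 1 / (2 * (d0 : ℝ)) := by
      rw [le_div_iff₀ hp]
      nlinarith [T.dμ, T.μ1]
    linarith
  · simpa using T.μ0

theorem ee_le (T : Tools d μ r y ω) (d0 : ℚ) :
    (0 : ℝ) ≤ ee2 d0 ∧ (1 - μ) * d ^ 2 ≤ ee2 d0 * d ^ 2 + ee1 d0 * d := by
  unfold ee2 ee1
  split_ifs with h
  · push_cast
    exact ⟨le_rfl, by nlinarith [T.dμ, T.d0]⟩
  · push_cast
    exact ⟨zero_le_one, by nlinarith [T.μ0, sq_nonneg d]⟩

theorem chkA_sound (T : Tools d μ r y ω) {d0 d1 β rA : ℚ} (H : chkA d0 d1 β rA = true)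
    (hd : (d0 : ℝ) ≤ d) (hd' : d ≤ d1) (hr : r ≤ rA) : Goal d μ r y := by
  rcases le_total r d with hrd | hdr
  · exact goal_J T hrd
  simp only [chkA, Bool.or_eq_true, Bool.and_eq_true, decide_eq_true_eq] at H
  rcases H with H | ⟨⟨⟨⟨⟨⟨⟨⟨⟨a1, a2⟩, a3⟩, a4⟩, a5⟩, a6⟩, a7⟩, a8⟩, a9⟩, a10⟩
  · have : (rA : ℝ) ≤ d0 := by exact_mod_cast H
    exact goal_J T (by linarith)
  have a0 : d0 < 1 := a2.trans_lt a3
  have a1' : 0 ≤ d1 := a1.le.trans a2
  have b1 : (0 : ℝ) < d0 := by exact_mod_cast a1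
  have b3 : (d1 : ℝ) < 1 := by exact_mod_cast a3
  have b5 : (rA : ℝ) < 1 := by exact_mod_cast a5
  have b6 : (0 : ℝ) ≤ β := by exact_mod_cast a6
  have b7 : (β : ℝ) ≤ 1 := by exact_mod_cast a7
  have b8 : (β : ℝ) * (hHi d0 + (d1 * Lhi d1 + d1 * d1) / kapLo d0) ≤ d0 * d0 := by
    exact_mod_cast a8
  have b9 : (kapHi d1 : ℝ) - 2 ≤ β := by exact_mod_cast a9
  have b10 : (SHi rA : ℝ) - SLo d1 ≤
      β * (psiLo rA - psiHi d1) + d0 ^ 4 * mu0 d0 * ((1 - β) / 2) := by exact_mod_cast a10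
  obtain ⟨m0, m1⟩ := mu0_le T hd
  have hd0 := T.d0
  refine goal_A T (β := β) (g := d0 ^ 4 * mu0 d0 * ((1 - β) / 2)) hdr hr b5 b6 b7 ?_
    (mul_nonneg (by positivity) (by linarith)) ?_ ?_
  · have k0 := kapLo_pos a1.le a0
    have k1 : (kapLo d0 : ℝ) ≤ kap d := (kapLo_le a1.le a0).trans (kap_le_kap b1.le hd T.dlt)
    have k2 : signEntropy d ≤ hHi d0 := (ent_anti b1.le hd T.dlt.le).trans (le_hHi a1.le a0)
    have k3 : d * artanh d ≤ d1 * Lhi d1 := (mul_artanh_mono hd0 hd' b3).trans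
      (mul_le_mul_of_nonneg_left (le_Lhi a1' a3) (by linarith))
    have k4 : d ^ 2 ≤ d1 * d1 := by nlinarith
    have k5 : (d0 : ℝ) * d0 ≤ d ^ 2 := by nlinarith
    have k6 : 0 ≤ d * artanh d + d ^ 2 := add_nonneg (mul_artanh_nonneg d) (sq_nonneg d)
    have k7 : (d * artanh d + d ^ 2) / kap d ≤ (d1 * Lhi d1 + d1 * d1) / kapLo d0 :=
      div_le_div₀ (by linarith) (by linarith) k0 k1
    have k8 : (β : ℝ) * (signEntropy d + (d * artanh d + d ^ 2) / kap d) ≤ d ^ 2 :=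
      (mul_le_mul_of_nonneg_left (by linarith) b6).trans (b8.trans k5)
    have k9 : 0 < kap d := by linarith
    have := mul_le_mul_of_nonneg_left k8 k9.le
    have e : kap d * (β * (signEntropy d + (d * artanh d + d ^ 2) / kap d)) =
        β * (gam d + d ^ 2) := by
      unfold gam; field_simp; ring
    linarith
  · exact mul_le_mul_of_nonneg_right (mul_le_mul (pow_le_pow_left₀ b1.le hd 4) m1 m0
      (by positivity)) (by linarith)
  · have k1 := le_SHi a4 a5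
    have k2 := SLo_le a1' a3
    have k3 := mul_le_mul_of_nonneg_left (psiLo_le a4 a5) b6
    have k4 := mul_le_mul_of_nonneg_left (le_psiHi a1' a3) b6
    have k5 := Sf_tangent (r := d1) (s := d) (by linarith) b3 hd0 T.dlt
    have k6 := psi_le_psi hd0 hd' b3.le
    have k7 := le_kapHi a1' a3
    have k8 : 0 ≤ (β - (kap d1 - 2)) * (psi d1 - psi d) := mul_nonneg (by linarith) (by linarith)
    simp only [signEntropy_eq]
    nlinarith

theorem chkT_sound (T : Tools d μ r y ω) {r0 r1 D σ : ℚ} (H : chkT r0 r1 D σ = true)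
    (hd : d ≤ D) (hr : (r0 : ℝ) ≤ r) (hr' : r ≤ r1) : Goal d μ r y := by
  simp only [chkT, Bool.and_eq_true, decide_eq_true_eq] at H
  obtain ⟨⟨⟨⟨a1, a2⟩, a3⟩, a4⟩, a5⟩ := H
  have b1 : (0 : ℝ) ≤ r0 := by exact_mod_cast a1
  have b3 : (r1 : ℝ) < 1 := by exact_mod_cast a3
  have b4 : 1 + (gamHi r1 : ℝ) - 2 * l2lo ≤ σ := by exact_mod_cast a4
  have b5 : 2 * (hHi r0 : ℝ) * σ + D * D * (σ * σ) ≤ 2 * l2lo := by exact_mod_cast a5
  have k1 := sz_mono T.r0 hr' b3
  have k2 := le_gamHi (a1.trans a2) a3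
  have k3 := l2lo_le
  have k4 : signEntropy r ≤ hHi r0 := (ent_anti b1 hr T.r1.le).trans (le_hHi a1 (a2.trans_lt a3))
  have k5 : 1 + sz r ≤ σ := by unfold sz at k1 ⊢; linarith
  have k6 := sz_nonneg T.r0 T.r1
  refine goal_T T k5 ?_
  have k7 := mul_le_mul_of_nonneg_right k4 (show (0 : ℝ) ≤ σ by linarith)
  have k8 : d ^ 2 ≤ D * D := by nlinarith [T.d0]
  have k9 := mul_le_mul_of_nonneg_right k8 (sq_nonneg (σ : ℝ))
  nlinarith

theorem chkR_sound (T : Tools d μ r y ω) {d0 d1 r0 r1 θ τ t t' : ℚ}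
    (H : chkR d0 d1 r0 r1 θ τ t t' = true) (hd : (d0 : ℝ) ≤ d) (hd' : d ≤ d1)
    (hr : (r0 : ℝ) ≤ r) (hr' : r ≤ r1) : Goal d μ r y := by
  simp only [chkR, chkR', Bool.and_eq_true, decide_eq_true_eq] at H
  obtain ⟨⟨⟨⟨⟨⟨⟨⟨⟨⟨a1, a2⟩, a3⟩, a4⟩, a5⟩, a6⟩, a7⟩, a8⟩, a9⟩, a10⟩, ⟨a11, a12⟩, a13⟩ := H
  obtain ⟨m0, m1⟩ := mu0_le T hd
  obtain ⟨e0, e1⟩ := ee_le T d0
  have b5 : (1 / 2 : ℝ) ≤ θ := by
    have := (Rat.cast_le (K := ℝ)).2 a5
    push_cast at this; exact this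
  have b6 : (θ : ℝ) ≤ 1 := by exact_mod_cast a6
  have b7 : (0 : ℝ) ≤ t := by exact_mod_cast a7
  have b8 : (t : ℝ) < 1 := by exact_mod_cast a8
  have b9 : (0 : ℝ) ≤ t' := by exact_mod_cast a9
  have b10 : (t' : ℝ) < 1 := by exact_mod_cast a10
  have hc : (1 - θ) * kap t + kap t' - 2 ≤ (cc θ t t' : ℝ) := by
    have k1 := mul_le_mul_of_nonneg_left (le_kapHi a7 a8) (show (0 : ℝ) ≤ 1 - θ by linarith)
    have k2 := le_kapHi a9 a10
    unfold cc; push_cast; linarith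
  have hc0 : (0 : ℝ) ≤ cc θ t t' := by
    have k1 := two_le_kap b7 b8
    have k2 := two_le_kap b9 b10
    nlinarith
  refine goal_R T (d0 := d0) (d1 := d1) (r0 := r0) (r1 := r1) (θ := θ) (τ := τ) (t := t) (t' := t')
    (sp := (max (gamLo t' - 2 * l2hi) 0 : ℚ)) (c := cc θ t t')
    (cw := ((1 - θ) * gamLo t - θ * τ ^ 2 : ℚ)) (e1 := ee1 d0) (e2 := ee2 d0) (μ0 := mu0 d0)
    (g := (max (SHi r0 + cc θ t t' * hHi r0) (SHi r1 + cc θ t t' * hHi r1) : ℚ))
    (by exact_mod_cast a1.le) hd hd' (by exact_mod_cast a2) hr hr' (by exact_mod_cast a4)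
    b5 b6 b7 b8 b9 b10 (by exact_mod_cast le_max_right _ _) ?_ hc ?_
    e0 e1 m0 m1 ?_ ?_ ?_ ?_ ?_
  · push_cast
    refine max_le ?_ (sz_nonneg b9 b10)
    have k1 := gamLo_le a9 a10
    have k2 := le_l2hi
    unfold sz; linarith
  · push_cast
    have k1 := mul_le_mul_of_nonneg_left (gamLo_le a7 a8) (show (0 : ℝ) ≤ 1 - θ by linarith)
    linarith
  · unfold dPthQ at a11
    unfold dPth
    have := (Rat.cast_le (K := ℝ)).2 a11
    push_cast at this ⊢
    exact this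
  · push_cast
    refine le_max_of_le_left ?_
    exact add_le_add (le_SHi a2 (a3.trans_lt a4))
      (mul_le_mul_of_nonneg_left (le_hHi a2 (a3.trans_lt a4)) hc0)
  · push_cast
    refine le_max_of_le_right ?_
    exact add_le_add (le_SHi (a2.trans a3) a4)
      (mul_le_mul_of_nonneg_left (le_hHi (a2.trans a3) a4) hc0)
  · unfold PthQ at a12
    unfold Pth
    have := (Rat.cast_le (K := ℝ)).2 a12
    push_cast at this ⊢
    exact this
  · unfold PthQ dPthQ at a13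
    unfold Pth dPth
    have := (Rat.cast_le (K := ℝ)).2 a13
    push_cast at this ⊢
    exact this

/-- A chain of `T`-cells starting at `r0`. -/
def chainT : ℚ → List (ℚ × ℚ × ℚ) → Bool
  | r0, [] => decide (19 / 20 ≤ r0)
  | r0, c :: L => chkT r0 c.1 c.2.1 c.2.2 && chainT c.1 L

/-- All `T`-cells reaching beyond `rs` have height at least `D`. -/
def covT (rs D : ℚ) : List (ℚ × ℚ × ℚ) → Bool
  | [] => true
  | c :: L => (decide (c.1 ≤ rs) || decide (D ≤ c.2.1)) && covT rs D L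

theorem chainT_sound (T : Tools d μ r y ω) {rs D : ℚ} (hd : d ≤ D) (hrs : (rs : ℝ) < r)
    (hr' : r < 19 / 20) : ∀ (L : List (ℚ × ℚ × ℚ)) (r0 : ℚ), chainT r0 L = true →
      covT rs D L = true → (r0 : ℝ) ≤ r → Goal d μ r y
  | [], r0, h1, _, hr => by
    simp only [chainT, decide_eq_true_eq] at h1
    have := (Rat.cast_le (K := ℝ)).2 h1
    push_cast at this
    linarith
  | c :: L, r0, h1, h2, hr => by
    simp only [chainT, covT, Bool.and_eq_true, Bool.or_eq_true, decide_eq_true_eq] at h1 h2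
    rcases le_total r c.1 with h | h
    · rcases h2.1 with h3 | h3
      · have : (c.1 : ℝ) ≤ rs := by exact_mod_cast h3
        linarith
      · have : (D : ℝ) ≤ c.2.1 := by exact_mod_cast h3
        exact chkT_sound T h1.1 (hd.trans this) hr h
    · exact chainT_sound T hd hrs hr' L c.1 h1.2 h2.2 h

/-- A chain of rectangles in the strip `[d0, d1]`, starting at `r0`. -/
def chainR (TL : List (ℚ × ℚ × ℚ)) (d0 d1 : ℚ) : ℚ → List (ℚ × ℚ × ℚ × ℚ × ℚ) → Bool
  | r0, [] => decide (7 / 40 ≤ r0) && covT r0 d1 TL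
  | r0, c :: L => chkR d0 d1 r0 c.1 c.2.1 c.2.2.1 c.2.2.2.1 c.2.2.2.2 && chainR TL d0 d1 c.1 L

theorem chainR_sound (T : Tools d μ r y ω) {TL : List (ℚ × ℚ × ℚ)}
    (hT : chainT (7 / 40) TL = true) {d0 d1 : ℚ} (hd : (d0 : ℝ) ≤ d) (hd' : d ≤ d1)
    (hr' : r < 19 / 20) : ∀ (L : List (ℚ × ℚ × ℚ × ℚ × ℚ)) (r0 : ℚ),
      chainR TL d0 d1 r0 L = true → (r0 : ℝ) < r → Goal d μ r y
  | [], r0, h1, hr => by
    simp only [chainR, Bool.and_eq_true, decide_eq_true_eq] at h1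
    have : ((7 / 40 : ℚ) : ℝ) ≤ r0 := by exact_mod_cast h1.1
    exact chainT_sound T hd' hr hr' TL _ hT h1.2 (this.trans hr.le)
  | c :: L, r0, h1, hr => by
    simp only [chainR, Bool.and_eq_true] at h1
    rcases le_or_gt r c.1 with h | h
    · exact chkR_sound T h1.1 hd hd' hr.le h
    · exact chainR_sound T hT hd hd' hr' L c.1 h1.2 h

/-- A chain of strips starting at `d0`. -/
def chainS (TL : List (ℚ × ℚ × ℚ)) :
    ℚ → List (ℚ × ℚ × ℚ × List (ℚ × ℚ × ℚ × ℚ × ℚ)) → Bool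
  | d0, [] => decide (2 / 3 ≤ d0)
  | d0, c :: L => chkA d0 c.1 c.2.1 c.2.2.1 && chainR TL d0 c.1 c.2.2.1 c.2.2.2 && chainS TL c.1 L

theorem chainS_sound (T : Tools d μ r y ω) {TL : List (ℚ × ℚ × ℚ)}
    (hT : chainT (7 / 40) TL = true) (hr' : r < 19 / 20) :
    ∀ (L : List (ℚ × ℚ × ℚ × List (ℚ × ℚ × ℚ × ℚ × ℚ))) (d0 : ℚ),
      chainS TL d0 L = true → (d0 : ℝ) < d → Goal d μ r y
  | [], d0, h1, hd => by
    simp only [chainS, decide_eq_true_eq] at h1
    have := (Rat.cast_le (K := ℝ)).2 h1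
    push_cast at this
    linarith [T.d1]
  | c :: L, d0, h1, hd => by
    simp only [chainS, Bool.and_eq_true] at h1
    rcases le_or_gt d c.1 with h | h
    · rcases le_or_gt r c.2.2.1 with h' | h'
      · exact chkA_sound T h1.1.1 hd.le h h'
      · exact chainR_sound T hT hd.le h hr' _ _ h1.1.2 h'
    · exact chainS_sound T hT hr' L c.1 h1.2 h

def TL : List (ℚ × ℚ × ℚ) :=
  [(179/1000, 1/10, 50753/50000),
   (37/200, 1/10, 10161/10000),
   (97/500, 1/10, 50887/50000),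
   (41/200, 103/1000, 20397/20000),
   (217/1000, 27/250, 10223/10000),
   (23/100, 57/500, 102513/100000),
   (61/250, 121/1000, 51419/50000),
   (259/1000, 16/125, 103211/100000),
   (11/40, 17/125, 25909/25000),
   (291/1000, 29/200, 104091/100000),
   (77/250, 77/500, 104609/100000),
   (163/500, 163/1000, 26299/25000),
   (173/500, 171/1000, 105897/100000),
   (183/500, 183/1000, 26663/25000),
   (389/1000, 191/1000, 10759/10000),
   (103/250, 51/250, 54303/50000),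
   (437/1000, 43/200, 54903/50000),
   (463/1000, 229/1000, 55583/50000),
   (49/100, 121/500, 11271/10000),
   (519/1000, 51/200, 114531/100000),
   (11/20, 269/1000, 23337/20000),
   (291/500, 57/200, 119161/100000),
   (77/125, 3/10, 30529/25000),
   (651/1000, 79/250, 25113/20000),
   (86/125, 331/1000, 129751/100000),
   (29/40, 87/250, 67313/50000),
   (763/1000, 363/1000, 70277/50000),
   (801/1000, 377/1000, 147733/100000),
   (419/500, 39/100, 39107/25000),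
   (873/1000, 2/5, 166991/100000),
   (113/125, 51/125, 7177/4000),
   (931/1000, 41/100, 97203/50000),
   (19/20, 52/125, 104633/50000)]

def SL : List (ℚ × ℚ × ℚ × List (ℚ × ℚ × ℚ × ℚ × ℚ)) :=
  [(14/125, 223/15625, 171/1000,
    [(217/1000, 124/125, 107/1000, 109/1000, 121/1000)]),
   (63/500, 357/20000, 19/100,
    [(61/250, 99/100, 121/1000, 123/1000, 17/125)]),
   (147/1000, 22463/1000000, 209/1000,
    [(291/1000, 9863/10000, 697/5000, 1427/10000, 101/625)]),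
   (171/1000, 7593/250000, 241/1000,
    [(163/500, 9813/10000, 1633/10000, 333/2000, 177/1000)]),
   (103/500, 5071/125000, 27/100,
    [(191/500, 97353/100000, 19541/100000, 19531/100000, 19949/100000),
     (103/250, 243/250, 101/500, 101/500, 161/500)]),
   (1/4, 57811/1000000, 313/1000,
    [(453/1000, 96081/100000, 6003/25000, 11963/50000, 23229/100000),
     (49/100, 957/1000, 63/250, 63/250, 383/1000)]),
   (61/200, 41441/500000, 361/1000,
    [(129/250, 23543/25000, 14861/50000, 3647/12500, 4897/20000),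
     (77/125, 233/250, 323/1000, 321/1000, 449/1000)]),
   (37/100, 14877/125000, 207/500,
    [(571/1000, 183/200, 1837/5000, 3683/10000, 2303/10000),
     (763/1000, 443/500, 437/1000, 429/1000, 559/1000)]),
   (43/100, 85037/500000, 481/1000,
    [(81/125, 22/25, 113/250, 56/125, 269/1000),
     (821/1000, 207/250, 569/1000, 549/1000, 76/125),
     (933/1000, 739/1000, 97/125, 707/1000, 837/1000),
     (19/20, 169/250, 191/200, 817/1000, 919/1000)]),
   (97/200, 223639/1000000, 531/1000,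
    [(17/25, 106/125, 131/250, 129/250, 59/250),
     (827/1000, 2001/2500, 789/1250, 3027/5000, 6021/10000),
     (231/250, 363/500, 407/500, 737/1000, 819/1000),
     (19/20, 167/250, 981/1000, 167/200, 909/1000)]),
   (1/2, 18169/62500, 153/250,
    [(759/1000, 821/1000, 117/200, 571/1000, 11/25),
     (439/500, 763/1000, 721/1000, 169/250, 143/200),
     (947/1000, 1377/2000, 1839/2000, 4017/5000, 2189/2500),
     (19/20, 1/2, 1, 867/1000, 923/1000)]),
   (109/200, 295159/1000000, 291/500,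
    [(351/500, 823/1000, 291/500, 287/500, 231/1000),
     (833/1000, 1557/2000, 3421/5000, 327/500, 5943/10000),
     (921/1000, 89/125, 853/1000, 96/125, 809/1000),
     (19/20, 5/8, 1, 849/1000, 899/1000)]),
   (119/200, 0, 109/200,
    [(633/1000, 8557/10000, 5947/10000, 2989/5000, 0),
     (761/1000, 797/1000, 161/250, 159/250, 37/100),
     (7/8, 3723/5000, 1543/2000, 7271/10000, 6827/10000),
     (941/1000, 341/500, 949/1000, 104/125, 857/1000),
     (19/20, 1/2, 1, 219/250, 227/250)]),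
   (2/3, 0, 119/200,
    [(699/1000, 104/125, 333/500, 84/125, 109/500),
     (201/250, 96/125, 719/1000, 71/100, 237/500),
     (89/100, 361/500, 21/25, 787/1000, 721/1000),
     (939/1000, 169/250, 983/1000, 861/1000, 429/500),
     (19/20, 1/2, 1, 112/125, 112/125)])]

theorem TL_ok : chainT (7 / 40) TL = true := by decide +kernel

theorem TL_cov : covT (7 / 40) (1 / 10) TL = true := by decide +kernel

theorem SL_ok : chainS TL (1 / 10) SL = true := by decide +kernel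

end Ev

/-- The normalised induction step. -/
theorem goal_of_tools {d μ r y ω : ℝ} (T : Tools d μ r y ω) : Goal d μ r y := by
  rcases le_or_gt (19 / 20) r with h1 | h1
  · exact goal_tail T h1
  rcases le_or_gt d (1 / 10) with h2 | h2
  · rcases le_or_gt r (7 / 40) with h3 | h3
    · rcases le_total r d with h4 | h4
      · exact goal_J T h4
      rcases le_total r (7 / 4 * d) with h5 | h5
      · exact goal_smallA T h2 h4 h5
      · exact goal_smallT T h5 h3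
    · exact Ev.chainT_sound T (rs := 7 / 40) (D := 1 / 10) (by push_cast; exact h2)
        (by push_cast; exact h3) h1 _ _ Ev.TL_ok Ev.TL_cov (by push_cast; exact h3.le)
  · exact Ev.chainS_sound T Ev.TL_ok h1 _ _ Ev.SL_ok (by push_cast; exact h2)

end Crest.Agent.R307
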