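import Crest.Agent.R307.ProfSer

/-! Row 307, profile inequality: rational enclosures (for `decide +kernel`). -/

set_option autoImplicit false

open Crest.CubeNoise Real

namespace Crest.Agent.R307

namespace Ev

/-- Fixed point scale. -/
def SC : ℕ := 1152921504606846976

def loAux (p2 q2 : ℕ) : ℕ → ℕ → ℕ → ℕ → ℕ
  | 0, _, _, acc => acc
  | n + 1, k, t, acc => loAux p2 q2 n (k + 1) (t * p2 / q2) (acc + t / (2 * k + 1))

def hiAux (p2 q2 : ℕ) : ℕ → ℕ → ℕ → ℕ → ℕ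
  | 0, _, t, acc => acc + (t * q2 / (q2 - p2) + 1)
  | n + 1, k, t, acc => hiAux p2 q2 n (k + 1) (t * p2 / q2 + 1) (acc + (t / (2 * k + 1) + 1))

theorem cast_div_le' (a b : ℕ) : ((a / b : ℕ) : ℝ) ≤ (a : ℝ) / b := Nat.cast_div_le

theorem le_cast_div_add (a b : ℕ) (hb : 0 < b) : (a : ℝ) / b ≤ ((a / b + 1 : ℕ) : ℝ) := by
  have hb' : (0 : ℝ) < b := by exact_mod_cast hb
  rw [div_le_iff₀ hb']
  have := Nat.lt_div_mul_add (a := a) hb
  have h2 : a ≤ (a / b + 1) * b := by rw [add_mul, one_mul]; exact this.le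
  exact_mod_cast h2

theorem loAux_le {p2 q2 : ℕ} {x M : ℝ} (hx : 0 ≤ x) (hpq : (p2 : ℝ) / q2 = x ^ 2) :
    ∀ (n k t acc : ℕ), (t : ℝ) ≤ M * x ^ (2 * k + 1) →
      (acc : ℝ) ≤ M * ∑ i ∈ Finset.range k, x ^ (2 * i + 1) / (2 * i + 1) →
      (loAux p2 q2 n k t acc : ℝ) ≤ M * ∑ i ∈ Finset.range (k + n), x ^ (2 * i + 1) / (2 * i + 1)
  | 0, k, t, acc, _, h2 => h2
  | n + 1, k, t, acc, h1, h2 => by
    rw [loAux, show k + (n + 1) = k + 1 + n by ring]
    apply loAux_le hx hpq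
    · refine (cast_div_le' _ _).trans ?_
      push_cast
      rw [mul_div_assoc, hpq, show 2 * (k + 1) + 1 = 2 * k + 1 + 2 by ring, pow_add, ← mul_assoc]
      exact mul_le_mul_of_nonneg_right h1 (sq_nonneg x)
    · rw [Finset.sum_range_succ, mul_add, Nat.cast_add]
      refine add_le_add h2 ((cast_div_le' _ _).trans ?_)
      push_cast
      rw [← mul_div_assoc]
      exact div_le_div_of_nonneg_right h1 (by positivity)

theorem le_hiAux {p2 q2 : ℕ} {x M : ℝ} (hlt : p2 < q2) (hpq : (p2 : ℝ) / q2 = x ^ 2) :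
    ∀ (n k t acc : ℕ), M * x ^ (2 * k + 1) ≤ (t : ℝ) →
      M * ∑ i ∈ Finset.range k, x ^ (2 * i + 1) / (2 * i + 1) ≤ (acc : ℝ) →
      M * (∑ i ∈ Finset.range (k + n), x ^ (2 * i + 1) / (2 * i + 1)
        + x ^ (2 * (k + n) + 1) / (1 - x ^ 2)) ≤ (hiAux p2 q2 n k t acc : ℝ)
  | 0, k, t, acc, h1, h2 => by
    rw [hiAux, mul_add, Nat.cast_add, add_zero]
    refine add_le_add h2 (le_trans ?_ (le_cast_div_add _ _ (Nat.sub_pos_of_lt hlt)))
    have hq : (0 : ℝ) < q2 := by exact_mod_cast (Nat.zero_le _).trans_lt hlt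
    have hlt' : (p2 : ℝ) < q2 := by exact_mod_cast hlt
    have e : (1 : ℝ) - x ^ 2 = (q2 - p2) / q2 := by rw [← hpq]; field_simp
    rw [Nat.cast_sub hlt.le, Nat.cast_mul, e, div_div_eq_mul_div, ← mul_div_assoc, ← mul_assoc]
    exact div_le_div_of_nonneg_right (mul_le_mul_of_nonneg_right h1 hq.le) (by linarith)
  | n + 1, k, t, acc, h1, h2 => by
    rw [hiAux, show k + (n + 1) = k + 1 + n by ring]
    apply le_hiAux hlt hpq
    · refine le_trans ?_ (le_cast_div_add _ _ ((Nat.zero_le _).trans_lt hlt))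
      push_cast
      rw [mul_div_assoc, hpq, show 2 * (k + 1) + 1 = 2 * k + 1 + 2 by ring, pow_add, ← mul_assoc]
      exact mul_le_mul_of_nonneg_right h1 (sq_nonneg x)
    · rw [Finset.sum_range_succ, mul_add, Nat.cast_add]
      refine add_le_add h2 (le_trans ?_ (le_cast_div_add _ _ (by omega)))
      push_cast
      rw [← mul_div_assoc]
      exact div_le_div_of_nonneg_right h1 (by positivity)

/-- Number of terms. -/
def nT (x : ℚ) : ℕ := if x ≤ 1 / 2 then 20 else if x ≤ 4 / 5 then 55 else 250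

/-- Lower bound for `artanh x`. -/
def Llo (x : ℚ) : ℚ :=
  max ((loAux (x.num.toNat * x.num.toNat) (x.den * x.den) (nT x) 0 (SC * x.num.toNat / x.den) 0 : ℕ)
    / (SC : ℚ)) x

/-- Upper bound for `artanh x`. -/
def Lhi (x : ℚ) : ℚ :=
  (hiAux (x.num.toNat * x.num.toNat) (x.den * x.den) (nT x) 0 (SC * x.num.toNat / x.den + 1) 0 : ℕ)
    / (SC : ℚ)

theorem SC_pos : (0 : ℝ) < SC := by unfold SC; norm_num

theorem cast_eq {x : ℚ} (h0 : 0 ≤ x) : (x : ℝ) = (x.num.toNat : ℝ) / x.den := by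
  rw [Rat.cast_def]
  congr 1
  have : ((x.num.toNat : ℤ)) = x.num := Int.toNat_of_nonneg (Rat.num_nonneg.2 h0)
  exact_mod_cast this.symm

theorem Llo_le {x : ℚ} (h0 : 0 ≤ x) (h1 : x < 1) : (Llo x : ℝ) ≤ artanh x := by
  have h0' : (0 : ℝ) ≤ x := by exact_mod_cast h0
  have h1' : (x : ℝ) < 1 := by exact_mod_cast h1
  unfold Llo
  rw [Rat.cast_max]
  refine max_le ?_ (le_artanh h0' h1')
  rw [Rat.cast_div, Rat.cast_natCast, Rat.cast_natCast, div_le_iff₀ SC_pos]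
  refine (loAux_le (M := SC) h0' ?_ _ _ _ _ ?_ ?_).trans ?_
  · rw [cast_eq h0]; push_cast; ring
  · refine (cast_div_le' _ _).trans ?_
    rw [cast_eq h0]; push_cast; apply le_of_eq; ring
  · simp
  · rw [mul_comm, artanh_eq_half_log ⟨by linarith, h1'.le⟩]
    exact mul_le_mul_of_nonneg_right (sum_range_le_log_div h0' h1' _) SC_pos.le

theorem le_Lhi {x : ℚ} (h0 : 0 ≤ x) (h1 : x < 1) : artanh x ≤ (Lhi x : ℝ) := by
  have h0' : (0 : ℝ) ≤ x := by exact_mod_cast h0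
  have h1' : (x : ℝ) < 1 := by exact_mod_cast h1
  have hd : (0 : ℝ) < x.den := by exact_mod_cast x.den_pos
  have hlt : x.num.toNat < x.den := by
    have := h1'
    rw [cast_eq h0, div_lt_one hd] at this
    exact_mod_cast this
  unfold Lhi
  rw [Rat.cast_div, Rat.cast_natCast, Rat.cast_natCast, le_div_iff₀ SC_pos]
  refine le_trans ?_ (le_hiAux (M := SC) (x := x) (Nat.mul_self_lt_mul_self hlt) ?_ _ _ _ _ ?_ ?_)
  · rw [mul_comm, artanh_eq_half_log ⟨by linarith, h1'.le⟩]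
    exact mul_le_mul_of_nonneg_left (log_div_le_sum_range_add h0' h1' _) SC_pos.le
  · rw [cast_eq h0]; push_cast; ring
  · refine le_trans ?_ (le_cast_div_add _ _ x.den_pos)
    rw [cast_eq h0]; push_cast; apply le_of_eq; ring
  · simp

theorem le_Llo (x : ℚ) : x ≤ Llo x := le_max_right _ _

def l2lo : ℚ := 6931471803 / 10000000000
def l2hi : ℚ := 6931471808 / 10000000000

theorem l2lo_le : (l2lo : ℝ) ≤ log 2 := by
  have := log_two_gt_d9
  unfold l2lo; push_cast; linarith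

theorem le_l2hi : log 2 ≤ (l2hi : ℝ) := by
  have := log_two_lt_d9
  unfold l2hi; push_cast; linarith

def yy (x : ℚ) : ℚ := x * x / (2 - x * x)
def psiLo (x : ℚ) : ℚ := x * Llo x - Lhi (yy x)
def psiHi (x : ℚ) : ℚ := x * Lhi x - Llo (yy x)
def hHi (x : ℚ) : ℚ := l2hi - psiLo x
def hLo (x : ℚ) : ℚ := l2lo - psiHi x
def SHi (x : ℚ) : ℚ := 2 * Lhi (yy x) - x * Llo x
def SLo (x : ℚ) : ℚ := 2 * Llo (yy x) - x * Lhi x
def kapHi (x : ℚ) : ℚ := if x = 0 then 2 else 1 + x / ((1 - x * x) * Llo x)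
def kapLo (x : ℚ) : ℚ := if x = 0 then 2 else 1 + x / ((1 - x * x) * Lhi x)
def gamLo (x : ℚ) : ℚ := x * Llo x + kapLo x * hLo x
def gamHi (x : ℚ) : ℚ := x * Lhi x + kapHi x * hHi x

theorem yy_mem {x : ℚ} (h0 : 0 ≤ x) (h1 : x < 1) : 0 ≤ yy x ∧ yy x < 1 := by
  have : x * x < 1 := by nlinarith
  unfold yy
  exact ⟨div_nonneg (mul_self_nonneg x) (by linarith), by rw [div_lt_one (by linarith)]; linarith⟩

theorem psi_eq_yy {x : ℚ} (h0 : 0 ≤ x) (h1 : x < 1) :
    psi x = x * artanh x - artanh (yy x : ℚ) := by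
  have h0' : (0 : ℝ) ≤ x := by exact_mod_cast h0
  have h1' : (x : ℝ) < 1 := by exact_mod_cast h1
  obtain ⟨y0, y1⟩ := yy_mem h0 h1
  have y0' : (0 : ℝ) ≤ (yy x : ℚ) := by exact_mod_cast y0
  have y1' : ((yy x : ℚ) : ℝ) < 1 := by exact_mod_cast y1
  have hp := one_sub_sq_pos (abs_lt_one_of h0' h1')
  have e : (1 + ((yy x : ℚ) : ℝ)) / (1 - (yy x : ℚ)) = (1 - (x : ℝ) ^ 2)⁻¹ := by
    unfold yy
    push_cast
    rw [← sq]
    have : (2 : ℝ) - x ^ 2 ≠ 0 := by linarith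
    have h3 : (1 : ℝ) - x ^ 2 / (2 - x ^ 2) = 2 * (1 - x ^ 2) / (2 - x ^ 2) := by
      field_simp; ring
    rw [h3]
    have := hp.ne'
    field_simp
    ring
  rw [psi_eq_artanh (abs_lt_one_of h0' h1'),
    artanh_eq_half_log (x := (yy x : ℚ)) ⟨by linarith, y1'.le⟩, e, log_inv]
  ring

section

variable {x : ℚ} (h0 : 0 ≤ x) (h1 : x < 1)
include h0 h1

theorem psiLo_le : (psiLo x : ℝ) ≤ psi x := by
  have h0' : (0 : ℝ) ≤ x := by exact_mod_cast h0
  have a := mul_le_mul_of_nonneg_left (Llo_le h0 h1) h0'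
  have b := le_Lhi (yy_mem h0 h1).1 (yy_mem h0 h1).2
  rw [psi_eq_yy h0 h1]; unfold psiLo; push_cast; linarith

theorem le_psiHi : psi x ≤ (psiHi x : ℝ) := by
  have h0' : (0 : ℝ) ≤ x := by exact_mod_cast h0
  have a := mul_le_mul_of_nonneg_left (le_Lhi h0 h1) h0'
  have b := Llo_le (yy_mem h0 h1).1 (yy_mem h0 h1).2
  rw [psi_eq_yy h0 h1]; unfold psiHi; push_cast; linarith

theorem le_hHi : signEntropy x ≤ (hHi x : ℝ) := by
  have a := psiLo_le h0 h1
  have b := le_l2hi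
  rw [signEntropy_eq]; unfold hHi; push_cast; linarith

theorem hLo_le : (hLo x : ℝ) ≤ signEntropy x := by
  have a := le_psiHi h0 h1
  have b := l2lo_le
  rw [signEntropy_eq]; unfold hLo; push_cast; linarith

theorem le_SHi : Sf x ≤ (SHi x : ℝ) := by
  have h0' : (0 : ℝ) ≤ x := by exact_mod_cast h0
  have a := mul_le_mul_of_nonneg_left (Llo_le h0 h1) h0'
  have b := le_Lhi (yy_mem h0 h1).1 (yy_mem h0 h1).2
  rw [Sf, psi_eq_yy h0 h1]; unfold SHi; push_cast; linarith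

theorem SLo_le : (SLo x : ℝ) ≤ Sf x := by
  have h0' : (0 : ℝ) ≤ x := by exact_mod_cast h0
  have a := mul_le_mul_of_nonneg_left (le_Lhi h0 h1) h0'
  have b := Llo_le (yy_mem h0 h1).1 (yy_mem h0 h1).2
  rw [Sf, psi_eq_yy h0 h1]; unfold SLo; push_cast; linarith

theorem le_kapHi : kap x ≤ (kapHi x : ℝ) := by
  unfold kapHi
  split_ifs with h
  · subst h; simp [kap_zero]
  · have h0' : (0 : ℝ) < x := by exact_mod_cast lt_of_le_of_ne h0 (Ne.symm h)
    have h1' : (x : ℝ) < 1 := by exact_mod_cast h1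
    have hp := one_sub_sq_pos (abs_lt_one_of h0'.le h1')
    have a := Llo_le h0 h1
    have b : (x : ℝ) ≤ Llo x := by exact_mod_cast le_Llo x
    rw [kap_of_ne h0'.ne']
    push_cast
    rw [← sq]
    gcongr
    exact mul_pos hp (by linarith)

theorem kapLo_le : (kapLo x : ℝ) ≤ kap x := by
  unfold kapLo
  split_ifs with h
  · subst h; simp [kap_zero]
  · have h0' : (0 : ℝ) < x := by exact_mod_cast lt_of_le_of_ne h0 (Ne.symm h)
    have h1' : (x : ℝ) < 1 := by exact_mod_cast h1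
    have hp := one_sub_sq_pos (abs_lt_one_of h0'.le h1')
    have a := le_Lhi h0 h1
    have b := le_artanh h0'.le h1'
    rw [kap_of_ne h0'.ne']
    push_cast
    rw [← sq]
    gcongr
    exact mul_pos hp (by linarith)

theorem kapLo_pos : (0 : ℝ) < kapLo x := by
  unfold kapLo
  split_ifs with h
  · norm_num
  · have h0' : (0 : ℝ) ≤ x := by exact_mod_cast h0
    have h1' : (x : ℝ) < 1 := by exact_mod_cast h1
    have hp := one_sub_sq_pos (abs_lt_one_of h0' h1')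
    have a := le_Lhi h0 h1
    have b := le_artanh h0' h1'
    have c : (0 : ℝ) ≤ Lhi x := by linarith
    push_cast
    rw [← sq]
    positivity

theorem gamLo_le : (gamLo x : ℝ) ≤ gam x := by
  have h0' : (0 : ℝ) ≤ x := by exact_mod_cast h0
  have h1' : (x : ℝ) < 1 := by exact_mod_cast h1
  have a := mul_le_mul_of_nonneg_left (Llo_le h0 h1) h0'
  have b := mul_le_mul_of_nonneg_left (hLo_le h0 h1) (kapLo_pos h0 h1).le
  have c := mul_le_mul_of_nonneg_right (kapLo_le h0 h1)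
    (signEntropy_nonneg (abs_lt_one_of h0' h1').le)
  unfold gamLo gam; push_cast; linarith

theorem le_gamHi : gam x ≤ (gamHi x : ℝ) := by
  have h0' : (0 : ℝ) ≤ x := by exact_mod_cast h0
  have h1' : (x : ℝ) < 1 := by exact_mod_cast h1
  have a := mul_le_mul_of_nonneg_left (le_Lhi h0 h1) h0'
  have k := le_kapHi h0 h1
  have k2 := two_le_kap h0' h1'
  have b := mul_le_mul_of_nonneg_left (le_hHi h0 h1) (show (0 : ℝ) ≤ kapHi x by linarith)
  have c := mul_le_mul_of_nonneg_right k (signEntropy_nonneg (abs_lt_one_of h0' h1').le)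
  unfold gamHi gam; push_cast; linarith

end

end Ev

end Crest.Agent.R307
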