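import Crest.Agent.R307.ProfSer

/-! Row 307: the tool (J+): `j - Δ² / (1 - u²)` is jointly convex. -/

set_option autoImplicit false

open Crest.CubeNoise Real

namespace Crest.Agent.R307

theorem jp_hasDerivAt {x : ℝ} (hx : |x| < 1) :
    HasDerivAt (fun y => artanh y + y / (1 - y ^ 2) - 2 * y)
      (1 / (1 - x ^ 2) + (1 + x ^ 2) / (1 - x ^ 2) ^ 2 - 2) x := by
  have hp := (one_sub_sq_pos hx).ne'
  have := ((hasDerivAt_artanh hx).add
    ((hasDerivAt_id x).div ((hasDerivAt_pow 2 x).const_sub 1) hp)).sub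
    ((hasDerivAt_id x).const_mul 2)
  refine this.congr_deriv ?_
  simp only [id]
  field_simp
  ring

theorem jp_mono {a b : ℝ} (ha : -1 < a) (hab : a ≤ b) (hb : b < 1) :
    artanh a + a / (1 - a ^ 2) - 2 * a ≤ artanh b + b / (1 - b ^ 2) - 2 * b :=
  le_of_hasDerivAt_nonneg hab (f := fun y => artanh y + y / (1 - y ^ 2) - 2 * y)
    (fun y hy => (jp_hasDerivAt (abs_lt.2 ⟨by linarith [hy.1], by linarith [hy.2]⟩)).continuousAt
      |>.continuousWithinAt)
    (fun y h1 h2 => jp_hasDerivAt (abs_lt.2 ⟨by linarith, by linarith⟩))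
    (fun y h1 h2 => by
      have hp := one_sub_sq_pos (abs_lt.2 ⟨by linarith, by linarith⟩ : |y| < 1)
      have h3 : 1 ≤ 1 / (1 - y ^ 2) := by rw [le_div_iff₀ hp]; nlinarith [sq_nonneg y]
      have h4 : 1 ≤ (1 + y ^ 2) / (1 - y ^ 2) ^ 2 := by
        rw [le_div_iff₀ (by positivity)]; nlinarith [sq_nonneg y]
      linarith)

theorem jp_tangent {x x0 : ℝ} (hx : |x| < 1) (hx0 : |x0| < 1) :
    x0 * artanh x0 - x0 ^ 2 + (artanh x0 + x0 / (1 - x0 ^ 2) - 2 * x0) * (x - x0)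
      ≤ x * artanh x - x ^ 2 := by
  obtain ⟨a1, a2⟩ := abs_lt.1 hx
  obtain ⟨b1, b2⟩ := abs_lt.1 hx0
  set k := artanh x0 + x0 / (1 - x0 ^ 2) - 2 * x0 with hk
  have hd : ∀ y, -1 < y → y < 1 → HasDerivAt (fun y => y * artanh y - y ^ 2 - k * y)
      (artanh y + y / (1 - y ^ 2) - 2 * y - k) y := by
    intro y h1 h2
    have := (((hasDerivAt_id y).mul (hasDerivAt_artanh (abs_lt.2 ⟨h1, h2⟩))).sub
      (hasDerivAt_pow 2 y)).sub ((hasDerivAt_id y).const_mul k)
    refine this.congr_deriv ?_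
    simp only [id]
    ring
  rcases le_total x0 x with h | h
  · have := le_of_hasDerivAt_nonneg h (f := fun y => y * artanh y - y ^ 2 - k * y)
      (fun y hy => (hd y (by linarith [hy.1]) (by linarith [hy.2])).continuousAt.continuousWithinAt)
      (fun y h1 h2 => hd y (by linarith) (by linarith))
      (fun y h1 h2 => sub_nonneg.2 (jp_mono b1 h1.le (by linarith)))
    linarith
  · have := le_of_hasDerivAt_nonneg h (f := fun y => -(y * artanh y - y ^ 2 - k * y))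
      (fun y hy =>
        (hd y (by linarith [hy.1]) (by linarith [hy.2])).neg.continuousAt.continuousWithinAt)
      (fun y h1 h2 => (hd y (by linarith) (by linarith)).neg)
      (fun y h1 h2 => by
        have := jp_mono (a := y) (by linarith) h2.le b2
        linarith)
    linarith

/-- Perspective form of `jp_tangent`. -/
theorem jp_persp {p D x0 : ℝ} (hp : 0 < p) (hD : |D| < p) (hx0 : |x0| < 1) :
    p * (x0 * artanh x0 - x0 ^ 2) + (artanh x0 + x0 / (1 - x0 ^ 2) - 2 * x0) * (D - p * x0)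
      ≤ D * artanh (D / p) - D ^ 2 / p := by
  have h1 : |D / p| < 1 := by rw [abs_div, abs_of_pos hp, div_lt_one hp]; exact hD
  have h2 := mul_le_mul_of_nonneg_left (jp_tangent h1 hx0) hp.le
  have e1 : p * (D / p * artanh (D / p) - (D / p) ^ 2) = D * artanh (D / p) - D ^ 2 / p := by
    field_simp
  have e2 : p * (D / p) = D := by field_simp
  rw [e1] at h2
  refine le_trans (le_of_eq ?_) h2
  linear_combination (-(artanh x0 + x0 / (1 - x0 ^ 2) - 2 * x0)) * e2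

theorem edge_plus_tangent {c0 D0 : ℝ} (hu0 : |c0 - D0| < 1) (hv0 : |c0 + D0| < 1) :
    ∃ α β : ℝ, ∀ c D τ : ℝ, |c - D| < 1 → |c + D| < 1 →
      edge artanh (c0 - D0) (c0 + D0) - D0 ^ 2 / (1 - c0 ^ 2) + (α * (c - c0) + β * (D - D0))
        + (2 * τ * D - τ ^ 2 * (1 - c ^ 2)) ≤ edge artanh (c - D) (c + D) := by
  obtain ⟨a1, a2⟩ := abs_lt.1 hu0
  obtain ⟨a3, a4⟩ := abs_lt.1 hv0
  have p0 : 0 < 1 - c0 := by linarith
  have q0 : 0 < 1 + c0 := by linarith
  have x0 : |D0 / (1 - c0)| < 1 := by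
    rw [abs_div, abs_of_pos p0, div_lt_one p0, abs_lt]; constructor <;> linarith
  have x1 : |D0 / (1 + c0)| < 1 := by
    rw [abs_div, abs_of_pos q0, div_lt_one q0, abs_lt]; constructor <;> linarith
  have e0 : (1 - c0) * (D0 / (1 - c0)) = D0 := by field_simp
  have e1 : (1 + c0) * (D0 / (1 + c0)) = D0 := by field_simp
  have e2 : D0 ^ 2 / (1 - c0 ^ 2) =
      ((1 - c0) * (D0 / (1 - c0)) ^ 2 + (1 + c0) * (D0 / (1 + c0)) ^ 2) / 2 := by
    rw [show 1 - c0 ^ 2 = (1 - c0) * (1 + c0) by ring]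
    field_simp
    ring
  rw [OBA.edge_eq hu0 hv0, e2]
  generalize D0 / (1 - c0) = x at *
  generalize D0 / (1 + c0) = y at *
  set kx := artanh x + x / (1 - x ^ 2) - 2 * x with hkx
  set ky := artanh y + y / (1 - y ^ 2) - 2 * y with hky
  refine ⟨(-(x * artanh x - x ^ 2) + kx * x + (y * artanh y - y ^ 2) - ky * y) / 2,
    (kx + ky) / 2, fun c D τ hu hv => ?_⟩
  obtain ⟨b1, b2⟩ := abs_lt.1 hu
  obtain ⟨b3, b4⟩ := abs_lt.1 hv
  have p : 0 < 1 - c := by linarith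
  have q : 0 < 1 + c := by linarith
  have h1 := jp_persp (D := D) p (abs_lt.2 ⟨by linarith, by linarith⟩) x0
  have h2 := jp_persp (D := D) q (abs_lt.2 ⟨by linarith, by linarith⟩) x1
  have h3 : 2 * τ * D - τ ^ 2 * (1 - c ^ 2) ≤ (D ^ 2 / (1 - c) + D ^ 2 / (1 + c)) / 2 := by
    have e : (D ^ 2 / (1 - c) + D ^ 2 / (1 + c)) / 2 = D ^ 2 / ((1 - c) * (1 + c)) := by
      field_simp; ring
    rw [e, le_div_iff₀ (mul_pos p q)]
    nlinarith [sq_nonneg (D - τ * (1 - c ^ 2))]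
  rw [OBA.edge_eq hu hv]
  rw [← hkx] at h1
  rw [← hky] at h2
  have e3 : D0 * (artanh x + artanh y) / 2 =
      ((1 - c0) * x * artanh x + (1 + c0) * y * artanh y) / 2 := by rw [e0, e1]; ring
  have e4 : kx * (D0 - (1 - c0) * x) = 0 := by rw [e0]; ring
  have e5 : ky * (D0 - (1 + c0) * y) = 0 := by rw [e1]; ring
  rw [e3]
  linarith

/-- (J+), averaged. -/
theorem edge_jensen_plus {n : ℕ} (g0 g1 : Cube n → ℝ) (h0 : ∀ x, |g0 x| < 1)
    (h1 : ∀ x, |g1 x| < 1) {m δ W : ℝ} (hm : m = (cubeAverage g0 + cubeAverage g1) / 2)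
    (hδ : δ = (cubeAverage g1 - cubeAverage g0) / 2)
    (hW : W = cubeAverage (fun x => 1 - ((g0 x + g1 x) / 2) ^ 2)) (τ : ℝ) :
    edge artanh (m - δ) (m + δ) - δ ^ 2 / (1 - m ^ 2) + (2 * τ * δ - τ ^ 2 * W)
      ≤ cubeAverage (fun x => edge artanh (g0 x) (g1 x)) := by
  obtain ⟨α, β, H⟩ := edge_plus_tangent (c0 := m) (D0 := δ)
    (by rw [show m - δ = cubeAverage g0 by rw [hm, hδ]; ring]; exact abs_avg_lt_one h0)
    (by rw [show m + δ = cubeAverage g1 by rw [hm, hδ]; ring]; exact abs_avg_lt_one h1)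
  have key : ∀ x, (edge artanh (m - δ) (m + δ) - δ ^ 2 / (1 - m ^ 2) - α * m - β * δ)
      + ((α / 2 - β / 2 - τ) * g0 x + ((α / 2 + β / 2 + τ) * g1 x
        + (-τ ^ 2) * (1 - ((g0 x + g1 x) / 2) ^ 2))) ≤ edge artanh (g0 x) (g1 x) := by
    intro x
    have e0 : (g0 x + g1 x) / 2 - (g1 x - g0 x) / 2 = g0 x := by ring
    have e1 : (g0 x + g1 x) / 2 + (g1 x - g0 x) / 2 = g1 x := by ring
    have := H ((g0 x + g1 x) / 2) ((g1 x - g0 x) / 2) τ (by rw [e0]; exact h0 x)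
      (by rw [e1]; exact h1 x)
    rw [e0, e1] at this
    linarith
  refine le_trans (le_of_eq ?_) (avg_mono key)
  rw [avg_add, avg_add, avg_add, avg_const, avg_mul_left, avg_mul_left, avg_mul_left, ← hW]
  have e0 : cubeAverage (fun x => g0 x) = m - δ := by rw [hm, hδ]; ring
  have e1 : cubeAverage (fun x => g1 x) = m + δ := by rw [hm, hδ]; ring
  rw [e0, e1]
  ring

end Crest.Agent.R307
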