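import Crest.Agent.R307.OneBitA
import Crest.Agent.R307.OneBitB

/-! Row 307, profile inequality: series and convexity facts for `artanh`, `psi`, `kap`. -/

set_option autoImplicit false

open Crest.CubeNoise Real

namespace Crest.Agent.R307

/-- `S (ψ r) = r artanh r - 2 ψ r`. -/
noncomputable def Sf (r : ℝ) : ℝ := r * artanh r - 2 * psi r

/-- `γ t = t artanh t + κ t h t`. -/
noncomputable def gam (t : ℝ) : ℝ := t * artanh t + kap t * signEntropy t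

/-- Intercept of the tangent line of the surplus. -/
noncomputable def sz (t : ℝ) : ℝ := gam t - 2 * log 2

theorem hasSum_of_eq {f g : ℕ → ℝ} {a b : ℝ} (h : HasSum f a) (h1 : ∀ k, g k = f k)
    (h2 : b = a) : HasSum g b := by
  rw [h2, funext h1]; exact h

theorem hasSum_mul_artanh {x : ℝ} (hx : |x| < 1) :
    HasSum (fun k : ℕ => (x ^ 2) ^ (k + 1) / (2 * k + 1)) (x * artanh x) := by
  have h := (hasSum_log_sub_log_of_abs_lt_one hx).mul_left (x / 2)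
  rw [artanh_eq_sub hx]
  refine hasSum_of_eq h (fun k => ?_) ?_
  · rw [← pow_mul]
    have : (2 * (k : ℝ) + 1) ≠ 0 := by positivity
    field_simp
    ring
  · ring

theorem hasSum_ell {x : ℝ} (hx : |x| < 1) :
    HasSum (fun k : ℕ => (x ^ 2) ^ (k + 1) / (2 * k + 2)) (-log (1 - x ^ 2) / 2) := by
  have hz : |x ^ 2| < 1 := by
    rw [abs_of_nonneg (sq_nonneg x)]
    linarith [one_sub_sq_pos hx]
  have h := (hasSum_pow_div_log_of_abs_lt_one hz).div_const 2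
  refine hasSum_of_eq h (fun k => ?_) rfl
  have : ((k : ℝ) + 1) ≠ 0 := by positivity
  field_simp

theorem hasSum_psi {x : ℝ} (hx : |x| < 1) :
    HasSum (fun k : ℕ => (x ^ 2) ^ (k + 1) / ((2 * k + 1) * (2 * k + 2))) (psi x) := by
  have h := (hasSum_mul_artanh hx).sub (hasSum_ell hx)
  rw [psi_eq_artanh hx]
  refine hasSum_of_eq h (fun k => ?_) ?_
  · have h1 : (2 * (k : ℝ) + 1) ≠ 0 := by positivity
    have h2 : (2 * (k : ℝ) + 2) ≠ 0 := by positivity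
    field_simp
    ring
  · ring

/-- Polynomial minorant of `θ (x L x - x²) - 2 ψ x + x²`. -/
noncomputable def Pth (θ z : ℝ) : ℝ :=
  z ^ 2 * (θ - 1 / 2) / 3 + z ^ 3 * (θ - 1 / 3) / 5 + z ^ 4 * (θ - 1 / 4) / 7

theorem Pth_le {θ x : ℝ} (hθ : 1 / 2 ≤ θ) (hx : |x| < 1) :
    Pth θ (x ^ 2) ≤ θ * (x * artanh x - x ^ 2) - 2 * psi x + x ^ 2 := by
  have h := ((hasSum_mul_artanh hx).mul_left θ).sub ((hasSum_psi hx).mul_left 2)
  have h' := (hasSum_nat_add_iff' 1).2 h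
  have h2 := sum_le_hasSum (Finset.range 3) (fun k _ => by
    have hz : 0 ≤ (x ^ 2) ^ (k + 1 + 1) := by positivity
    have hk : (0 : ℝ) ≤ k := Nat.cast_nonneg k
    have e : θ * ((x ^ 2) ^ (k + 1 + 1) / (2 * ((k + 1 : ℕ) : ℝ) + 1)) -
        2 * ((x ^ 2) ^ (k + 1 + 1) / ((2 * ((k + 1 : ℕ) : ℝ) + 1) * (2 * ((k + 1 : ℕ) : ℝ) + 2))) =
        (x ^ 2) ^ (k + 1 + 1) * (θ * (k + 2) - 1) / ((2 * k + 3) * (k + 2)) := by
      push_cast
      field_simp
      ring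
    rw [e]
    have : 0 ≤ θ * (k + 2) - 1 := by nlinarith
    positivity) h'
  simp only [Finset.sum_range_succ, Finset.sum_range_zero] at h2
  norm_num at h2
  unfold Pth
  linarith

theorem Pth_nonneg {θ z : ℝ} (hθ : 1 / 2 ≤ θ) (hz : 0 ≤ z) : 0 ≤ Pth θ z := by
  unfold Pth
  have h1 : 0 ≤ θ - 1 / 2 := by linarith
  have h2 : 0 ≤ θ - 1 / 3 := by linarith
  have h3 : 0 ≤ θ - 1 / 4 := by linarith
  positivity

/-- Derivative of `Pth`. -/
noncomputable def dPth (θ z : ℝ) : ℝ :=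
  2 * z * (θ - 1 / 2) / 3 + 3 * z ^ 2 * (θ - 1 / 3) / 5 + 4 * z ^ 3 * (θ - 1 / 4) / 7

theorem Pth_tangent {θ z z0 : ℝ} (hθ : 1 / 2 ≤ θ) (hz : 0 ≤ z) (hz0 : 0 ≤ z0) :
    Pth θ z0 + dPth θ z0 * (z - z0) ≤ Pth θ z := by
  have h1 : 0 ≤ θ - 1 / 2 := by linarith
  have h2 : 0 ≤ θ - 1 / 3 := by linarith
  have h3 : 0 ≤ θ - 1 / 4 := by linarith
  have e : Pth θ z - (Pth θ z0 + dPth θ z0 * (z - z0)) =
      (z - z0) ^ 2 * ((θ - 1 / 2) / 3 + (z + 2 * z0) * (θ - 1 / 3) / 5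
        + (z ^ 2 + 2 * z * z0 + 3 * z0 ^ 2) * (θ - 1 / 4) / 7) := by
    unfold Pth dPth; ring
  have : 0 ≤ Pth θ z - (Pth θ z0 + dPth θ z0 * (z - z0)) := by rw [e]; positivity
  linarith

theorem Sf_ge {x : ℝ} (hx : |x| < 1) : x ^ 4 / 6 ≤ Sf x := by
  have h := Pth_le (θ := 1) (by norm_num) hx
  unfold Pth at h
  unfold Sf
  have h1 : 0 ≤ (x ^ 2) ^ 3 := by positivity
  have h2 : 0 ≤ (x ^ 2) ^ 4 := by positivity
  nlinarith

theorem psi_le_quartic {x : ℝ} (hx : |x| < 1) : psi x ≤ x ^ 2 / 2 + x ^ 4 / 5 := by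
  have h := (hasSum_nat_add_iff' 1).2 (hasSum_psi hx)
  have hz1 : x ^ 2 ≤ 1 := by linarith [one_sub_sq_pos hx]
  have hb : psi x - ∑ i ∈ Finset.range 1,
      (x ^ 2) ^ (i + 1) / ((2 * (i : ℝ) + 1) * (2 * (i : ℝ) + 2)) ≤ x ^ 4 / 5 := by
    refine le_of_tendsto' h.tendsto_sum_nat fun n => ?_
    have key : ∀ n : ℕ, ∑ k ∈ Finset.range n, (x ^ 2) ^ (k + 1 + 1) /
        ((2 * ((k + 1 : ℕ) : ℝ) + 1) * (2 * ((k + 1 : ℕ) : ℝ) + 2)) ≤
        x ^ 4 * (1 / 5 - 1 / (4 * n + 5)) := by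
      intro n
      induction n with
      | zero => simp
      | succ n ih =>
        rw [Finset.sum_range_succ]
        have hn : (0 : ℝ) ≤ n := Nat.cast_nonneg n
        have h1 : (x ^ 2) ^ (n + 1 + 1) ≤ x ^ 4 := by
          rw [show (x ^ 2) ^ (n + 1 + 1) = (x ^ 2) ^ n * x ^ 4 by ring]
          exact mul_le_of_le_one_left (by positivity) (pow_le_one₀ (sq_nonneg x) hz1)
        have h2 : 1 / ((2 * ((n + 1 : ℕ) : ℝ) + 1) * (2 * ((n + 1 : ℕ) : ℝ) + 2)) ≤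
            1 / (4 * n + 5) - 1 / (4 * ((n + 1 : ℕ) : ℝ) + 5) := by
          push_cast
          rw [div_sub_div _ _ (by positivity) (by positivity),
            div_le_div_iff₀ (by positivity) (by positivity)]
          nlinarith
        have h3 : (x ^ 2) ^ (n + 1 + 1) /
            ((2 * ((n + 1 : ℕ) : ℝ) + 1) * (2 * ((n + 1 : ℕ) : ℝ) + 2)) ≤
            x ^ 4 * (1 / (4 * n + 5) - 1 / (4 * ((n + 1 : ℕ) : ℝ) + 5)) := by
          rw [div_eq_mul_one_div]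
          exact mul_le_mul h1 h2 (by positivity) (by positivity)
        nlinarith
    refine (key n).trans ?_
    have : (0 : ℝ) ≤ x ^ 4 * (1 / (4 * n + 5)) := by positivity
    linarith
  simp only [Finset.sum_range_succ, Finset.sum_range_zero] at hb
  norm_num at hb
  linarith

theorem Sf_le {x : ℝ} (h0 : 0 ≤ x) (h1 : x < 1) :
    Sf x ≤ x ^ 4 / 6 + x ^ 6 / 5 + x ^ 8 / (1 - x ^ 2) := by
  have h := log_div_le_sum_range_add h0 h1 3
  rw [← artanh_eq_half_log ⟨by linarith, h1.le⟩] at h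
  simp only [Finset.sum_range_succ, Finset.sum_range_zero] at h
  norm_num at h
  have h2 := mul_le_mul_of_nonneg_left h h0
  have h3 := sq_add_le_psi (abs_lt_one_of h0 h1).le
  have e : x * (x ^ 7 / (1 - x ^ 2)) = x ^ 8 / (1 - x ^ 2) := by ring
  unfold Sf
  nlinarith

theorem Sf_tangent {r s : ℝ} (hr0 : 0 ≤ r) (hr1 : r < 1) (hs0 : 0 ≤ s) (hs1 : s < 1) :
    Sf r + (kap r - 2) * (psi s - psi r) ≤ Sf s := by
  have := rate_tangent hr0 hr1 hs0 hs1
  unfold Sf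
  linarith

theorem Sf_mono {r s : ℝ} (hr0 : 0 ≤ r) (hrs : r ≤ s) (hs1 : s < 1) : Sf r ≤ Sf s := by
  have h := Sf_tangent hr0 (hrs.trans_lt hs1) (hr0.trans hrs) hs1
  have h1 := two_le_kap hr0 (hrs.trans_lt hs1)
  have h2 := psi_le_psi hr0 hrs hs1.le
  nlinarith

/-- `Sf + c h` is quasi-convex. -/
theorem Sf_max {r0 r r1 : ℝ} (c : ℝ) (h0 : 0 ≤ r0) (h01 : r0 ≤ r) (h1 : r ≤ r1) (h11 : r1 < 1) :
    Sf r + c * signEntropy r ≤ max (Sf r0 + c * signEntropy r0) (Sf r1 + c * signEntropy r1) := by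
  have hr0 : 0 ≤ r := h0.trans h01
  have hr1 : r < 1 := h1.trans_lt h11
  have t0 := Sf_tangent hr0 hr1 h0 (h01.trans_lt hr1)
  have t1 := Sf_tangent hr0 hr1 (hr0.trans h1) h11
  have p0 := psi_le_psi h0 h01 hr1.le
  have p1 := psi_le_psi hr0 h1 h11.le
  simp only [signEntropy_eq]
  rcases le_total (kap r - 2) c with h | h
  · exact le_max_of_le_left (by nlinarith)
  · exact le_max_of_le_right (by nlinarith)

theorem sz_zero : sz 0 = 0 := by
  simp [sz, gam, kap_zero, signEntropy_zero]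

theorem sz_eq (r : ℝ) : sz r = Sf r + (kap r - 2) * signEntropy r := by
  unfold sz gam Sf
  rw [signEntropy_eq]
  ring

theorem sz_mono {r s : ℝ} (hr0 : 0 ≤ r) (hrs : r ≤ s) (hs1 : s < 1) : sz r ≤ sz s := by
  have h := Sf_tangent hr0 (hrs.trans_lt hs1) (hr0.trans hrs) hs1
  have h1 := kap_le_kap hr0 hrs hs1
  have h2 := signEntropy_nonneg (abs_lt_one_of (hr0.trans hrs) hs1).le
  rw [sz_eq, sz_eq]
  simp only [signEntropy_eq] at h2 ⊢
  nlinarith

theorem sz_nonneg {r : ℝ} (h0 : 0 ≤ r) (h1 : r < 1) : 0 ≤ sz r := by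
  have := sz_mono le_rfl h0 h1
  rwa [sz_zero] at this

theorem ent_anti {r s : ℝ} (hr0 : 0 ≤ r) (hrs : r ≤ s) (hs1 : s ≤ 1) :
    signEntropy s ≤ signEntropy r := by
  have := psi_le_psi hr0 hrs hs1
  simp only [signEntropy_eq]
  linarith

end Crest.Agent.R307
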