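import Crest.Agent.R307.ProfCell

/-! Row 307, profile inequality: the region `r ≥ 19/20`. -/

set_option autoImplicit false

open Crest.CubeNoise Real

namespace Crest.Agent.R307

variable {d μ r y ω : ℝ}

theorem ent_eq_tail {r : ℝ} (h0 : 0 ≤ r) (h1 : r < 1) :
    signEntropy r = (1 - r) * artanh r + log (2 / (1 + r)) := by
  have := OneBitB.ent_sub (m := r) (by linarith) h1
  linarith

theorem ent_le_tail {r : ℝ} (h0 : 0 ≤ r) (h1 : r < 1) :
    signEntropy r ≤ (1 - r) * artanh r + (1 - r) / (1 + r) := by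
  rw [ent_eq_tail h0 h1]
  have := log_le_sub_one_of_pos (show 0 < 2 / (1 + r) by positivity)
  have e : 2 / (1 + r) - 1 = (1 - r) / (1 + r) := by field_simp; ring
  linarith

theorem ent_ge_tail {r : ℝ} (h0 : 0 ≤ r) (h1 : r < 1) :
    (1 - r) * artanh r + (1 - r) / 2 ≤ signEntropy r := by
  rw [ent_eq_tail h0 h1]
  have := one_sub_inv_le_log_of_pos (show 0 < 2 / (1 + r) by positivity)
  rw [inv_div] at this
  linarith

theorem exp_neg_two_artanh {r : ℝ} (h0 : 0 ≤ r) (h1 : r < 1) :
    exp (-(2 * artanh r)) = (1 - r) / (1 + r) := by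
  rw [artanh_eq_half_log ⟨by linarith, h1.le⟩,
    show 2 * (1 / 2 * log ((1 + r) / (1 - r))) = log ((1 + r) / (1 - r)) by ring, exp_neg,
    exp_log (div_pos (by linarith) (by linarith)), inv_div]

theorem ent_le_exp {r : ℝ} (h0 : 0 ≤ r) (h1 : r < 1) :
    signEntropy r ≤ (2 * artanh r + 1) * exp (-(2 * artanh r)) := by
  rw [exp_neg_two_artanh h0 h1]
  have h2 := ent_le_tail h0 h1
  have h3 : (1 - r) * artanh r ≤ 2 * artanh r * ((1 - r) / (1 + r)) := by
    have := artanh_nonneg h0
    rw [← mul_div_assoc, le_div_iff₀ (by linarith)]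
    have : 0 ≤ (1 - r) * artanh r * (1 - r) := by
      have : 0 ≤ 1 - r := by linarith
      positivity
    nlinarith
  linarith

theorem exists_artanh_eq {u : ℝ} (hu : 0 < u) : ∃ s : ℝ, 0 < s ∧ s < 1 ∧ artanh s = u ∧
    s * ((2 * u + 1) * exp (-(2 * u))) ≤ signEntropy s := by
  have hs : 0 < tanh u := by
    rw [tanh_eq_sinh_div_cosh]; exact div_pos (sinh_pos_iff.2 hu) (cosh_pos u)
  refine ⟨tanh u, hs, tanh_lt_one u, artanh_tanh u, ?_⟩
  have h1 := exp_neg_two_artanh hs.le (tanh_lt_one u)
  have h2 := ent_ge_tail hs.le (tanh_lt_one u)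
  rw [artanh_tanh] at h1 h2
  rw [h1]
  refine le_trans ?_ h2
  have h3 := tanh_lt_one u
  generalize tanh u = s at *
  rw [← mul_div_assoc, ← mul_div_assoc, div_le_iff₀ (by linarith)]
  have : 0 ≤ (1 - s) * (1 - s) * (2 * u + 1) := by
    have : 0 ≤ 1 - s := by linarith
    positivity
  nlinarith

theorem artanh_ge_tail (hr : 19 / 20 ≤ r) (hr1 : r < 1) : 183 / 100 ≤ artanh r := by
  have h1 : (183 / 100 : ℚ) ≤ Ev.Llo (19 / 20) := by decide +kernel
  have h2 := Ev.Llo_le (x := 19 / 20) (by norm_num) (by norm_num)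
  have h3 : ((183 / 100 : ℚ) : ℝ) ≤ Ev.Llo (19 / 20) := by exact_mod_cast h1
  have h4 := artanh_le_artanh (x := 19 / 20) (by norm_num) hr1 hr
  push_cast at h2 h3
  linarith

theorem sz_le_tail (hr : 19 / 20 ≤ r) (hr1 : r < 1) : sz r ≤ artanh r - 72 / 100 := by
  have r0 : 0 < r := by linarith
  have hu := artanh_ge_tail hr hr1
  have hh := ent_le_tail r0.le hr1
  have l1 := log_two_gt_d9
  have hv : (1 - r) / (1 + r) ≤ 1 / 39 := by
    rw [div_le_div_iff₀ (by linarith) (by norm_num)]; linarith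
  have hp : 0 < (1 - r ^ 2) * artanh r := mul_pos (by nlinarith) (by linarith)
  have h1 : r / ((1 - r ^ 2) * artanh r) * signEntropy r ≤ 1 / 2 + 25 / 183 := by
    rw [div_mul_eq_mul_div, div_le_iff₀ hp]
    have h2 : (1 - r) / (1 + r) * r ≤ (1 - r ^ 2) / 4 := by
      rw [div_mul_eq_mul_div, div_le_div_iff₀ (by linarith) (by norm_num)]
      have : 0 ≤ (1 - r) * (1 - r) ^ 2 := by
        have : 0 ≤ 1 - r := by linarith
        positivity
      nlinarith
    have h3 : (1 - r) * artanh r * r ≤ (1 - r ^ 2) * artanh r / 2 := by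
      have : 0 ≤ (1 - r) * (1 - r) * artanh r := by
        have : 0 ≤ 1 - r := by linarith
        have : 0 ≤ artanh r := by linarith
        positivity
      nlinarith
    have h4 : (1 - r ^ 2) / 4 ≤ 25 / 183 * ((1 - r ^ 2) * artanh r) := by
      have : 0 ≤ 1 - r ^ 2 := by nlinarith
      nlinarith
    have h5 := mul_le_mul_of_nonneg_left hh r0.le
    nlinarith
  unfold sz gam
  rw [kap_of_ne r0.ne']
  nlinarith

theorem exp_lower {a w E : ℝ} (ha : 0 ≤ a) (hw : 0 ≤ w)
    (hE : E ≤ ∑ i ∈ Finset.range 12, a ^ i / (i.factorial : ℝ)) :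
    E * (1 + w + w ^ 2 / 2) ≤ exp (a + w) := by
  rw [exp_add]
  refine mul_le_mul (hE.trans (sum_le_exp_of_nonneg ha 12)) ?_ (by positivity) (exp_pos a).le
  have := sum_le_exp_of_nonneg hw 3
  simp only [Finset.sum_range_succ, Finset.sum_range_zero] at this
  norm_num [Nat.factorial] at this
  linarith

theorem goal_C (T : Tools d μ r y ω) {c : ℝ} (hu : 0 < artanh r + c)
    (h1 : d + 2 / 5 * d ^ 3 * (1 + 3 * μ) + (1 - μ) * d * sz r ≤ (artanh r + c) / 2)
    (h2 : 2 * artanh r + 1 ≤ d * (artanh r + c + 1) * exp (artanh r - c)) : Goal d μ r y := by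
  apply goal_self T
  obtain ⟨s, s0, s1, hs, hs'⟩ := exists_artanh_eq (u := (artanh r + c) / 2) (by linarith)
  have h3 := ent_le_exp T.r0 T.r1
  have h4 : signEntropy r ≤ d * ((2 * ((artanh r + c) / 2) + 1) *
      exp (-(2 * ((artanh r + c) / 2)))) := by
    refine h3.trans ?_
    have e : exp (-(2 * ((artanh r + c) / 2))) = exp (artanh r - c) * exp (-(2 * artanh r)) := by
      rw [← exp_add]; congr 1; ring
    rw [e]
    have := mul_le_mul_of_nonneg_right h2 (exp_pos (-(2 * artanh r))).le
    linarith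
  have h5 := T.tail s s0 s1 (by
    have a := mul_le_mul_of_nonneg_left h4 s0.le
    have b := mul_le_mul_of_nonneg_left hs' T.d0
    linarith)
  rw [hs] at h5
  have h6 := mul_le_mul_of_nonneg_left h1 T.d0
  linarith

theorem goal_tail (T : Tools d μ r y ω) (hr : 19 / 20 ≤ r) : Goal d μ r y := by
  have hu := artanh_ge_tail hr T.r1
  have hs := sz_le_tail hr T.r1
  have hs0 := sz_nonneg T.r0 T.r1
  have d0 := T.d0
  have d1 := T.d1
  have μ0 := T.μ0
  have μ1 := T.μ1
  have dμ := T.dμ
  have l1 := log_two_gt_d9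
  obtain ⟨w, hw0, hw⟩ : ∃ w, 0 ≤ w ∧ artanh r = 183 / 100 + w := ⟨_, sub_nonneg.2 hu, by ring⟩
  have hb : (1 - μ) * d * sz r ≤ (1 - μ) * d * (111 / 100 + w) :=
    mul_le_mul_of_nonneg_left (by linarith) (mul_nonneg (by linarith) d0)
  rcases le_total (d * (211 / 100 + w)) (93 / 100) with h | h
  · refine goal_T T (σ := 211 / 100 + w) (by linarith) ?_
    have h1 := ent_le_exp T.r0 T.r1
    have h2 := exp_lower (a := 366 / 100) (w := 2 * w) (E := 388 / 10) (by norm_num) (by linarith)
      (by simp only [Finset.sum_range_succ, Finset.sum_range_zero]; norm_num [Nat.factorial])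
    have h3 : 2 * ((2 * artanh r + 1) * exp (-(2 * artanh r))) * (211 / 100 + w) ≤ 52 / 100 := by
      rw [exp_neg, hw, show 2 * (183 / 100 + w) = 366 / 100 + 2 * w by ring, ← div_eq_mul_inv,
        ← mul_div_assoc, div_mul_eq_mul_div, div_le_iff₀ (exp_pos _)]
      nlinarith
    have h4 := mul_le_mul_of_nonneg_right h1 (show 0 ≤ 211 / 100 + w by linarith)
    have h5 : (d * (211 / 100 + w)) ^ 2 ≤ (93 / 100) ^ 2 :=
      pow_le_pow_left₀ (by positivity) h 2
    nlinarith
  · rcases le_total d (1 / 2) with h1 | h1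
    · refine goal_C T (c := 38 / 100) (by linarith) ?_ ?_
      · have a1 : d ^ 2 ≤ 1 / 4 := by nlinarith
        have a2 : d ^ 3 ≤ 1 / 8 := by nlinarith
        have a3 : 0 ≤ μ * (d * (111 / 100 + w - 6 / 5 * d ^ 2)) :=
          mul_nonneg μ0 (mul_nonneg d0 (by linarith))
        have a4 : d * (111 / 100 + w) ≤ 1 / 2 * (111 / 100 + w) :=
          mul_le_mul_of_nonneg_right h1 (by linarith)
        rw [hw]
        nlinarith
      · have h2 := exp_lower (a := 145 / 100) (w := w) (E := 426 / 100) (by norm_num) hw0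
          (by simp only [Finset.sum_range_succ, Finset.sum_range_zero]; norm_num [Nat.factorial])
        rw [hw, show 183 / 100 + w - 38 / 100 = 145 / 100 + w by ring]
        apply le_of_mul_le_mul_right _ (show 0 < 211 / 100 + w by linarith)
        have h3 : 93 / 100 * ((183 / 100 + w + 38 / 100 + 1) * (426 / 100 * (1 + w + w ^ 2 / 2))) ≤
            d * (211 / 100 + w) * ((183 / 100 + w + 38 / 100 + 1) * exp (145 / 100 + w)) :=
          mul_le_mul h (mul_le_mul_of_nonneg_left h2 (by linarith)) (by positivity) (by positivity)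
        have : 0 ≤ w ^ 3 := by positivity
        nlinarith
    · have a0 : d + 2 / 5 * d ^ 3 * (1 + 3 * μ) + (1 - μ) * d * sz r ≤
          d + 8 / 5 * d ^ 3 - 3 / 5 * d ^ 2 + (111 / 100 + w) / 2 := by
        have a1 : d ^ 2 ≤ 4 / 9 := by nlinarith
        have a3 : 0 ≤ (1 / 2 - (1 - μ) * d) * (111 / 100 + w - 6 / 5 * d ^ 2) :=
          mul_nonneg (by linarith) (by linarith)
        nlinarith
      rcases le_total d (58 / 100) with h2 | h2
      · refine goal_C T (c := 67 / 100) (by linarith) ?_ ?_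
        · rw [hw]; nlinarith
        · have h3 := exp_lower (a := 116 / 100) (w := w) (E := 318 / 100) (by norm_num) hw0
            (by simp only [Finset.sum_range_succ, Finset.sum_range_zero]; norm_num [Nat.factorial])
          rw [hw, show 183 / 100 + w - 67 / 100 = 116 / 100 + w by ring]
          have h4 : 1 / 2 * (183 / 100 + w + 67 / 100 + 1) * (318 / 100 * (1 + w + w ^ 2 / 2)) ≤
              d * (183 / 100 + w + 67 / 100 + 1) * exp (116 / 100 + w) :=
            mul_le_mul (mul_le_mul_of_nonneg_right h1 (by linarith)) h3 (by positivity)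
              (by positivity)
          have : 0 ≤ w ^ 3 := by positivity
          nlinarith
      · refine goal_C T (c := 103 / 100) (by linarith) ?_ ?_
        · rw [hw]; nlinarith
        · have h3 := exp_lower (a := 80 / 100) (w := w) (E := 222 / 100) (by norm_num) hw0
            (by simp only [Finset.sum_range_succ, Finset.sum_range_zero]; norm_num [Nat.factorial])
          rw [hw, show 183 / 100 + w - 103 / 100 = 80 / 100 + w by ring]
          have h4 : 58 / 100 * (183 / 100 + w + 103 / 100 + 1) * (222 / 100 * (1 + w + w ^ 2 / 2)) ≤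
              d * (183 / 100 + w + 103 / 100 + 1) * exp (80 / 100 + w) :=
            mul_le_mul (mul_le_mul_of_nonneg_right h2 (by linarith)) h3 (by positivity)
              (by positivity)
          have : 0 ≤ w ^ 3 := by positivity
          nlinarith

end Crest.Agent.R307
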