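import Crest.Agent.R307.ProfCert
import Crest.Agent.R307.ProfJ

/-! Row 307: the profile inequality (parts 2 and 3 of S0472). -/

set_option autoImplicit false

open Crest.CubeNoise Real

namespace Crest.Agent.R307

theorem sz_le_kap {t : ℝ} (ht : 0 ≤ t) (ht1 : t < 1) : sz t ≤ (kap t - 2) * log 2 := by
  have := OBA.dual_nonpos ht ht1
  unfold sz gam
  rw [signEntropy_eq]
  linarith

/-- The induction step on real numbers. -/
theorem prof_step_real {m δ X W A C t : ℝ} (hu : |m - δ| < 1) (hv : |m + δ| < 1) (hδ0 : 0 ≤ δ)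
    (hδ1 : δ ≤ 1 / 2) (hA : 0 < A) (hW0 : δ ≤ W) (hW1 : W ≤ 1 - m ^ 2)
    (H1 : ∀ τ, edge artanh (m - δ) (m + δ) - δ ^ 2 / (1 - m ^ 2) + (2 * τ * δ - τ ^ 2 * W) ≤ X)
    (H2 : ∀ t, 0 ≤ t → t < 1 → W * gam t - kap t * A ≤ X)
    (H3 : ∀ s, 0 ≤ s → s < 1 →
      δ * (artanh s + s / (1 - s ^ 2)) - W * (s ^ 2 / (1 - s ^ 2)) ≤ X)
    (HC : ∀ t, 0 ≤ t → t < 1 → signEntropy (m - δ) + signEntropy (m + δ)
      + (1 - m ^ 2 - δ ^ 2) * sz t - kap t * A ≤ C)
    (ht : 0 ≤ t) (ht1 : t < 1) :
    2 * signEntropy m + (1 - m ^ 2) * sz t - kap t * A ≤ C + X := by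
  obtain ⟨a1, a2⟩ := abs_lt.1 hu
  obtain ⟨a3, a4⟩ := abs_lt.1 hv
  have p : 0 < 1 - m := by linarith
  have q : 0 < 1 + m := by linarith
  have hm : |m| < 1 := abs_lt.2 ⟨by linarith, by linarith⟩
  have hw : 0 < 1 - m ^ 2 := one_sub_sq_pos hm
  have hI : info1 (m - δ) (m + δ) =
      signEntropy m - (signEntropy (m - δ) + signEntropy (m + δ)) / 2 := by
    unfold info1; rw [show (m - δ + (m + δ)) / 2 = m by ring]
  obtain ⟨d, hd⟩ : ∃ d, δ = (1 - m ^ 2) * d := ⟨δ / (1 - m ^ 2), by field_simp⟩
  obtain ⟨ω, hω⟩ : ∃ ω, W = (1 - m ^ 2) * ω := ⟨W / (1 - m ^ 2), by field_simp⟩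
  obtain ⟨a, ha⟩ : ∃ a, A = (1 - m ^ 2) * a := ⟨A / (1 - m ^ 2), by field_simp⟩
  obtain ⟨y, hy⟩ : ∃ y, X - 2 * info1 (m - δ) (m + δ) = (1 - m ^ 2) * y :=
    ⟨(X - 2 * info1 (m - δ) (m + δ)) / (1 - m ^ 2), by field_simp⟩
  have d0 : 0 ≤ d := by
    by_contra h
    have := mul_neg_of_pos_of_neg hw (not_le.1 h)
    linarith
  have a0 : 0 < a := by
    by_contra h
    have := mul_nonpos_of_nonneg_of_nonpos hw.le (not_lt.1 h)
    linarith
  have ω0 : d ≤ ω := le_of_mul_le_mul_left (by linarith) hw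
  have ω1 : ω ≤ 1 := le_of_mul_le_mul_left (by linarith) hw
  have e1 : δ ^ 2 / (1 - m ^ 2) = (1 - m ^ 2) * d ^ 2 := by rw [hd]; field_simp
  have hdm : d * (1 + |m|) < 1 := by
    have h1 : 0 < 1 - |m| := by linarith
    have h2 : δ < 1 - |m| := by
      rcases abs_cases m with h | h <;> linarith [h.1]
    have h3 : 1 - m ^ 2 = (1 - |m|) * (1 + |m|) := by rw [← sq_abs m]; ring
    rw [hd, h3] at h2
    nlinarith
  have hk := two_le_kap ht ht1
  rcases le_or_gt (log 2) a with hl | hl
  · have h1 := H1 d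
    have h2 := onebit_a hu hv le_rfl one_pos
    have h3 := HC 0 le_rfl one_pos
    rw [kap_zero, psi_zero] at h2
    rw [kap_zero, sz_zero] at h3
    have h4 := mul_le_mul_of_nonneg_left (sz_le_kap ht ht1) hw.le
    have h5 : 0 ≤ (kap t - 2) * ((1 - m ^ 2) * (a - log 2)) :=
      mul_nonneg (by linarith) (mul_nonneg hw.le (by linarith))
    have h6 : 0 ≤ d ^ 2 * ((1 - m ^ 2) * (1 - ω)) :=
      mul_nonneg (sq_nonneg d) (mul_nonneg hw.le (by linarith))
    rw [e1, hω] at h1
    have h7 : 2 * d * δ = 2 * ((1 - m ^ 2) * d ^ 2) := by rw [hd]; ring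
    rw [ha] at h3 ⊢
    nlinarith
  obtain ⟨r, r0, r1, hr⟩ := exists_psi_eq_of_lt (y := log 2 - a) (by linarith) (by linarith)
  have har : signEntropy r = a := by rw [signEntropy_eq, hr]; ring
  have T : Tools d (m ^ 2) r y ω := by
    refine ⟨d0, ?_, sq_nonneg m, by linarith, by linarith, r0, r1, ω0, ω1, ?_, ?_⟩
    · by_contra h
      have h1 : |m| < 1 / 2 := by nlinarith [abs_nonneg m]
      have h2 : m ^ 2 < 1 / 4 := by rw [← sq_abs]; nlinarith [abs_nonneg m]
      nlinarith
    · intro θ τ s hθ0 hθ1 hs0 hs1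
      have h1 := mul_le_mul_of_nonneg_left (H1 τ) (show 0 ≤ θ by linarith)
      have h2 := mul_le_mul_of_nonneg_left (H2 s hs0 hs1) (show 0 ≤ 1 - θ by linarith)
      have h3 := onebit_mix (θ := θ) (k := 2) hm d0 hdm (by norm_num) (by linarith)
      rw [← hd] at h3
      rw [e1, hω] at h1
      rw [hω, ha] at h2
      apply le_of_mul_le_mul_left _ hw
      rw [← hy, har]
      have h4 : θ * (2 * τ * δ) = (1 - m ^ 2) * (2 * θ * τ * d) := by rw [hd]; ring
      linarith
    · intro s s0 s1 hs
      rw [har] at hs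
      have hps := one_sub_sq_pos (abs_lt_one_of s0.le s1)
      have h1 : δ * artanh s ≤ X := by
        rcases le_total (ω * s) d with h | h
        · have h2 := H3 s s0.le s1
          have h3 : 0 ≤ (1 - m ^ 2) * (d - ω * s) * (s / (1 - s ^ 2)) :=
            mul_nonneg (mul_nonneg hw.le (by linarith)) (by positivity)
          have h4 : (1 - m ^ 2) * (d - ω * s) * (s / (1 - s ^ 2)) =
              δ * (s / (1 - s ^ 2)) - W * (s ^ 2 / (1 - s ^ 2)) := by rw [hd, hω]; ring
          linarith
        · have h2 := H2 s s0.le s1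
          have hh := signEntropy_nonneg (abs_lt_one_of s0.le s1).le
          have h3 : a ≤ ω * signEntropy s := by
            apply le_of_mul_le_mul_left _ s0
            nlinarith
          have h4 : 0 ≤ (1 - m ^ 2) * (kap s * (ω * signEntropy s - a)) :=
            mul_nonneg hw.le (mul_nonneg (by linarith [two_le_kap s0.le s1]) (by linarith))
          have h5 : 0 ≤ (1 - m ^ 2) * ((ω * s - d) * artanh s) :=
            mul_nonneg hw.le (mul_nonneg (by linarith) (artanh_nonneg s0.le))
          rw [hω, ha, gam] at h2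
          rw [hd]
          linarith
      have h2 := OBA.info1_eq hu hv
      have x1 : δ / (1 - m) = d * (1 + m) := by rw [hd]; field_simp; ring
      have x2 : δ / (1 + m) = d * (1 - m) := by rw [hd]; field_simp; ring
      rw [x1, x2] at h2
      have y1 : |d * (1 + m)| < 1 := abs_lt_one_of (by positivity)
        (lt_of_le_of_lt (mul_le_mul_of_nonneg_left (by linarith [le_abs_self m]) d0) hdm)
      have y2 : |d * (1 - m)| < 1 := abs_lt_one_of (by positivity)
        (lt_of_le_of_lt (mul_le_mul_of_nonneg_left (by linarith [neg_abs_le m]) d0) hdm)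
      have h3 := mul_le_mul_of_nonneg_left (psi_le_quartic y1) p.le
      have h4 := mul_le_mul_of_nonneg_left (psi_le_quartic y2) q.le
      apply le_of_mul_le_mul_left _ hw
      rw [← hy, h2]
      have h5 : δ * artanh s = (1 - m ^ 2) * (d * artanh s) := by rw [hd]; ring
      linarith
  obtain ⟨t', t0, t1, hg⟩ := goal_of_tools T
  have h1 := mul_le_mul_of_nonneg_left hg hw.le
  have h2 := HC t' t0 t1
  have h3 := mul_le_mul_of_nonneg_left (Sf_tangent ht ht1 r0 r1) hw.le
  have h4 : δ ^ 2 = (1 - m ^ 2) * ((1 - m ^ 2) * d ^ 2) := by rw [hd]; ring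
  rw [← hy, har, hI] at h1
  rw [h4, ha] at h2
  rw [sz_eq, signEntropy_eq t, ha]
  rw [hr] at h3
  linarith

theorem prof_step {n : ℕ} (g0 g1 : Cube n → ℝ) (h0 : ∀ x, |g0 x| < 1) (h1 : ∀ x, |g1 x| < 1)
    (hle : cubeAverage g0 ≤ cubeAverage g1) (hδ : cubeAverage g1 - cubeAverage g0 ≤ 1) {C t : ℝ}
    (HC : ∀ t, 0 ≤ t → t < 1 →
      (2 * signEntropy (cubeAverage g0) + (1 - cubeAverage g0 ^ 2) * sz t
          - kap t * cubeAverage (fun x => signEntropy (g0 x))
        + (2 * signEntropy (cubeAverage g1) + (1 - cubeAverage g1 ^ 2) * sz t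
          - kap t * cubeAverage (fun x => signEntropy (g1 x)))) / 2 ≤ C)
    (ht : 0 ≤ t) (ht1 : t < 1) :
    2 * signEntropy ((cubeAverage g0 + cubeAverage g1) / 2)
      + (1 - ((cubeAverage g0 + cubeAverage g1) / 2) ^ 2) * sz t
      - kap t * ((cubeAverage (fun x => signEntropy (g0 x))
        + cubeAverage (fun x => signEntropy (g1 x))) / 2)
      ≤ C + cubeAverage (fun x => edge artanh (g0 x) (g1 x)) := by
  set m := (cubeAverage g0 + cubeAverage g1) / 2 with hm
  set δ := (cubeAverage g1 - cubeAverage g0) / 2 with hδ'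
  set W := cubeAverage (fun x => 1 - ((g0 x + g1 x) / 2) ^ 2) with hW
  have e0 : m - δ = cubeAverage g0 := by rw [hm, hδ']; ring
  have e1 : m + δ = cubeAverage g1 := by rw [hm, hδ']; ring
  have hmid : ∀ x, |(g0 x + g1 x) / 2| < 1 := by
    intro x
    obtain ⟨a, b⟩ := abs_lt.1 (h0 x)
    obtain ⟨c, d⟩ := abs_lt.1 (h1 x)
    exact abs_lt.2 ⟨by linarith, by linarith⟩
  have eδ : cubeAverage (fun x => (g1 x - g0 x) / 2) = δ := by
    simp only [div_eq_inv_mul]
    rw [avg_mul_left, avg_sub, hδ']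
    ring
  have em : cubeAverage (fun x => (g0 x + g1 x) / 2) = m := by
    simp only [div_eq_inv_mul]
    rw [avg_mul_left, avg_add, hm]
    ring
  refine prof_step_real (δ := δ) (W := W) (by rw [e0]; exact abs_avg_lt_one h0)
    (by rw [e1]; exact abs_avg_lt_one h1) (by rw [hδ']; linarith) (by rw [hδ']; linarith) ?_ ?_ ?_
    (fun τ => edge_jensen_plus g0 g1 h0 h1 hm hδ' hW τ) ?_ ?_ ?_ ht ht1
  · have a := avg_pos (g := fun x => signEntropy (g0 x)) fun x => signEntropy_pos (h0 x)
    have b := avg_pos (g := fun x => signEntropy (g1 x)) fun x => signEntropy_pos (h1 x)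
    linarith
  · rw [← eδ]
    refine avg_mono fun x => ?_
    obtain ⟨a, b⟩ := abs_lt.1 (h0 x)
    obtain ⟨c, d⟩ := abs_lt.1 (h1 x)
    rcases le_total 0 (g0 x + g1 x) with h | h <;> nlinarith
  · have := avg_sq_le (fun x => (g0 x + g1 x) / 2)
    rw [em] at this
    rw [hW, avg_sub, avg_const]
    linarith
  · intro s s0 s1
    have key : ∀ x, gam s * (1 - ((g0 x + g1 x) / 2) ^ 2) -
        (kap s / 2 * signEntropy (g0 x) + kap s / 2 * signEntropy (g1 x))
          ≤ edge artanh (g0 x) (g1 x) := by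
      intro x
      have a := onebit_a (h0 x) (h1 x) s0 s1
      have b := mul_le_mul_of_nonneg_left (ent_ge_sq (hmid x).le)
        (show 0 ≤ kap s by linarith [two_le_kap s0 s1])
      unfold info1 at a
      unfold gam
      rw [signEntropy_eq s]
      linarith
    refine le_trans (le_of_eq ?_) (avg_mono key)
    rw [avg_sub, avg_add, avg_mul_left, avg_mul_left, avg_mul_left]
    ring
  · intro s s0 s1
    have key : ∀ x, (artanh s + s / (1 - s ^ 2)) * ((g1 x - g0 x) / 2) -
        (s ^ 2 / (1 - s ^ 2)) * (1 - ((g0 x + g1 x) / 2) ^ 2) ≤ edge artanh (g0 x) (g1 x) := by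
      intro x
      have a := onebit_conv (h0 x) (h1 x) s0 s1
      linarith
    refine le_trans (le_of_eq ?_) (avg_mono key)
    rw [avg_sub, avg_mul_left, avg_mul_left, eδ]
    ring
  · intro s s0 s1
    refine le_trans (le_of_eq ?_) (HC s s0 s1)
    rw [← e0, ← e1]
    ring

theorem profile : Profile := by
  have main := cube_induct (fun u => |u| < 1) id (fun u hu => le_of_lt hu)
    (fun n g => ∀ t : ℝ, 0 ≤ t → t < 1 →
      2 * signEntropy (cubeAverage g) + (1 - cubeAverage g ^ 2) * sz t
        - kap t * cubeAverage (fun x => signEntropy (g x)) ≤ dir (edge artanh) g) ?_ ?_ ?_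
  · intro n g hg t ht ht1
    rw [production_eq_dir]
    exact main n g hg t ht ht1
  · intro g hg t ht ht1
    rw [dir_zero, avg_zero, avg_zero]
    have h1 := mul_le_mul_of_nonneg_left (sz_le_kap ht ht1) (one_sub_sq_pos (hg default)).le
    have h2 := mul_le_mul_of_nonneg_left (ent_ge_sq (hg default).le)
      (show 0 ≤ kap t - 2 by linarith [two_le_kap ht ht1])
    linarith
  · intro g hg t ht ht1
    rw [dir_split _ (OBA.edge_comm _) 0 g, dir_zero, dir_zero, avg_split 0 g,
      avg_split 0 (fun x => signEntropy (g x))]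
    simp only [avg_zero]
    have hu : |face 0 false g default| < 1 := hg _
    have hv : |face 0 true g default| < 1 := hg _
    have h1 := onebit_a hu hv ht ht1
    have e0 : face 0 false (fun x => signEntropy (g x)) default =
      signEntropy (face 0 false g default) := rfl
    have e1 : face 0 true (fun x => signEntropy (g x)) default =
      signEntropy (face 0 true g default) := rfl
    rw [e0, e1]
    generalize face 0 false g default = u at *
    generalize face 0 true g default = v at *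
    have hm : |(u + v) / 2| ≤ 1 := by
      obtain ⟨a, b⟩ := abs_lt.1 hu
      obtain ⟨c, d⟩ := abs_lt.1 hv
      exact abs_le.2 ⟨by linarith, by linarith⟩
    have h2 := mul_le_mul_of_nonneg_left (ent_ge_sq hm)
      (show 0 ≤ kap t - 2 by linarith [two_le_kap ht ht1])
    unfold info1 at h1
    unfold sz gam
    rw [signEntropy_eq t]
    linarith
  · intro n g i hg hi H0 H1 t ht ht1
    rw [dir_split _ (OBA.edge_comm _) i g, avg_split i g,
      avg_split i (fun x => signEntropy (g x))]
    have hu : ∀ x, |face i false g x| < 1 := fun x => hg _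
    have hv : ∀ x, |face i true g x| < 1 := fun x => hg _
    obtain ⟨b1, b2⟩ := abs_le.1 hi
    rcases le_total (cubeAverage (face i false g)) (cubeAverage (face i true g)) with h | h
    · exact prof_step _ _ hu hv h b2
        (fun s s0 s1 => by linarith [H0 s s0 s1, H1 s s0 s1]) ht ht1
    · have := prof_step _ _ hv hu h (C := (dir (edge artanh) (face i false g) +
        dir (edge artanh) (face i true g)) / 2) (by
          have : -1 ≤ cubeAverage (face i true g) - cubeAverage (face i false g) := b1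
          linarith)
        (fun s s0 s1 => by linarith [H0 s s0 s1, H1 s s0 s1]) ht ht1
      simp only [OBA.edge_comm artanh (face i true g _)] at this
      rw [add_comm (cubeAverage (face i true g)),
        add_comm (cubeAverage fun x => signEntropy (face i true g x))] at this
      exact this

end Crest.Agent.R307
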