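import Crest.Agent.R307.RateStep

/-! Row 307: `Profile` implies `Rate`. -/

set_option autoImplicit false

open Crest.CubeNoise Real Set

namespace Crest.Agent.R307

namespace RT

theorem info_chain {n : ℕ} (i : Fin (n + 1)) (g : Cube (n + 1) → ℝ) :
    information g = info1 (cubeAverage (face i false g)) (cubeAverage (face i true g))
      + (information (face i false g) + information (face i true g)) / 2 := by
  have e : ∀ b, face i b (fun x => signEntropy (g x)) = fun x => signEntropy (face i b g x) :=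
    fun b => rfl
  rw [information, information, information, info1, avg_split i g,
    avg_split i (fun x => signEntropy (g x)), e, e]
  ring

theorem prod_split {n : ℕ} (i : Fin (n + 1)) (g : Cube (n + 1) → ℝ) :
    production g = (production (face i false g) + production (face i true g)) / 2
      + cubeAverage (fun x => edge artanh (face i false g x) (face i true g x)) := by
  rw [production_eq_dir, production_eq_dir, production_eq_dir,
    dir_split _ (OBA.edge_comm artanh) i]

/-- first-order Walsh coefficient -/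
noncomputable def co {n : ℕ} (g : Cube n → ℝ) (i : Fin n) : ℝ :=
  cubeAverage (fun x => spin (x i) * g x)

theorem co_succAbove {n : ℕ} (i : Fin (n + 1)) (j : Fin n) (g : Cube (n + 1) → ℝ) :
    co g (i.succAbove j) = (co (face i false g) j + co (face i true g) j) / 2 := by
  have e : ∀ b, face i b (fun x => spin (x (i.succAbove j)) * g x) =
      fun x => spin (x j) * face i b g x := fun b => by
    funext x
    simp [face]
  rw [co, avg_split i, e, e, co, co]

theorem info_ge_co {n : ℕ} (g : Cube (n + 1) → ℝ) (hg : ∀ x, |g x| < 1) (j : Fin (n + 1))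
    (τ : ℝ) : 2 * τ * co g j - τ ^ 2 * (1 - cubeAverage g ^ 2) ≤ 2 * information g := by
  have f0 : ∀ x, |face j false g x| < 1 := fun x => hg _
  have f1 : ∀ x, |face j true g x| < 1 := fun x => hg _
  have h := info1_ge_tangent (abs_avg_lt_one f0) (abs_avg_lt_one f1) τ
  have i0 := information_nonneg fun x => (f0 x).le
  have i1 := information_nonneg fun x => (f1 x).le
  rw [info_chain j g, co, avg_mul_spin, avg_split j g]
  linarith

theorem rate_large (H : Profile) {n : ℕ} (g : Cube n → ℝ) (hg : ∀ x, |g x| < 1) {r : ℝ}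
    (h0 : 19 / 25 ≤ r) (h1 : r < 1) (hr : psi r = information g) :
    r * artanh r ≤ production g := by
  have h := H n g hg r (by linarith) h1
  have hA : cubeAverage (fun x => signEntropy (g x)) = signEntropy (cubeAverage g) - psi r := by
    rw [hr, information]; ring
  have k := two_le_kap (r := r) (by linarith) h1
  have l := mul_le_mul_of_nonneg_left (large_r h0 h1) (sq_nonneg (cubeAverage g))
  have p := mul_le_mul_of_nonneg_left (sq_le_psi (abs_avg_lt_one hg).le) (sub_nonneg.2 k)
  rw [hA, signEntropy_eq, signEntropy_eq r] at h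
  nlinarith

theorem rate_faces {n : ℕ} (g0 g1 : Cube n → ℝ) (h0 : ∀ x, |g0 x| < 1) (h1 : ∀ x, |g1 x| < 1)
    (ih : ∀ g : Cube n → ℝ, (∀ x, |g x| < 1) → ∀ r : ℝ, 0 ≤ r → r < 1 →
      psi r = information g → r * artanh r ≤ production g)
    {s : ℝ} (hs0 : 0 ≤ s) (hs1 : s < 1) (hs : psi s = (information g0 + information g1) / 2) :
    s * artanh s ≤ (production g0 + production g1) / 2 := by
  obtain ⟨r0, a0, b0, c0⟩ := exists_psi_eq_information h0
  obtain ⟨r1, a1, b1, c1⟩ := exists_psi_eq_information h1
  have t0 := rate_tangent hs0 hs1 a0 b0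
  have t1 := rate_tangent hs0 hs1 a1 b1
  have u0 := ih g0 h0 r0 a0 b0 c0
  have u1 := ih g1 h1 r1 a1 b1 c1
  have e : kap s * (psi r0 - psi s) + kap s * (psi r1 - psi s) = 0 := by
    rw [c0, c1, hs]; ring
  linarith

theorem rate_small {n : ℕ}
    (ih : ∀ g : Cube (n + 1) → ℝ, (∀ x, |g x| < 1) → ∀ r : ℝ, 0 ≤ r → r < 1 →
      psi r = information g → r * artanh r ≤ production g)
    (g : Cube (n + 2) → ℝ) (hg : ∀ x, |g x| < 1) {r : ℝ} (h0 : 0 ≤ r) (h1 : r ≤ 19 / 25)
    (hr : psi r = information g) : r * artanh r ≤ production g := by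
  obtain ⟨i, -, hi⟩ := Finset.exists_min_image Finset.univ (fun i => |co g i|)
    Finset.univ_nonempty
  set g0 := face i false g with hg0
  set g1 := face i true g with hg1
  have f0 : ∀ x, |g0 x| < 1 := fun x => hg _
  have f1 : ∀ x, |g1 x| < 1 := fun x => hg _
  set m := (cubeAverage g0 + cubeAverage g1) / 2 with hm
  set δ := (cubeAverage g1 - cubeAverage g0) / 2 with hδ
  have hm0 : cubeAverage g0 = m - δ := by rw [hm, hδ]; ring
  have hm1 : cubeAverage g1 = m + δ := by rw [hm, hδ]; ring
  have b0 : |m - δ| < 1 := hm0 ▸ abs_avg_lt_one f0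
  have b1 : |m + δ| < 1 := hm1 ▸ abs_avg_lt_one f1
  obtain ⟨k1, k2, -, -⟩ := adm b0 b1
  have bm : |m| < 1 := abs_lt.2 ⟨by linarith, by linarith⟩
  have hw := one_sub_sq_pos bm
  have hw0 := one_sub_sq_pos b0
  have hw1 := one_sub_sq_pos b1
  have hv : 0 < 1 - m ^ 2 - δ ^ 2 := by nlinarith
  set y := (information g0 + information g1) / 2 with hy
  set q := δ ^ 2 / (1 - m ^ 2) with hq
  have hq0 : 0 ≤ q := by positivity
  have hq1 : q ≤ 1 := by rw [hq, div_le_one hw]; linarith
  have hy0 : 0 ≤ y := by
    have i0 := information_nonneg fun x => (f0 x).le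
    have i1 := information_nonneg fun x => (f1 x).le
    rw [hy]; linarith
  have hI : psi r = info1 (m - δ) (m + δ) + y := by rw [hr, info_chain i g, hm0, hm1]
  have ha := info1_ge b0 b1
  rw [← hq] at ha
  have ha0 : 0 ≤ q * al |m| q := mul_nonneg hq0 (al_pos (abs_nonneg m) hq0).le
  have hI0 : psi r ≤ 3263 / 10000 := (psi_le_psi h0 h1 (by norm_num)).trans psi_r0_le
  -- (T6)
  have t6 : q ≤ 2 * y * (1 - q) := by
    have c := co_succAbove i 0 g
    have hij := hi (i.succAbove 0) (Finset.mem_univ _)
    have hci : co g i = δ := by rw [co, avg_mul_spin]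
    rw [hci] at hij
    set d := co g (i.succAbove 0) with hd
    have hsq : δ ^ 2 ≤ d ^ 2 := sq_le_sq.2 hij
    have u0 := info_ge_co g0 f0 0 (d / (1 - m ^ 2 - δ ^ 2))
    have u1 := info_ge_co g1 f1 0 (d / (1 - m ^ 2 - δ ^ 2))
    rw [hm0] at u0
    rw [hm1] at u1
    have u2 : d ^ 2 / (1 - m ^ 2 - δ ^ 2) ≤ 2 * y := by
      have e : d ^ 2 / (1 - m ^ 2 - δ ^ 2) = 2 * (d / (1 - m ^ 2 - δ ^ 2)) * d
          - (d / (1 - m ^ 2 - δ ^ 2)) ^ 2 * (1 - m ^ 2 - δ ^ 2) := by
        field_simp
        ring
      rw [e, hy]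
      generalize d / (1 - m ^ 2 - δ ^ 2) = τ at *
      rw [c]
      linarith
    rw [div_le_iff₀ hv] at u2
    have e : 2 * y * (1 - q) = 2 * y * (1 - m ^ 2 - δ ^ 2) / (1 - m ^ 2) := by
      rw [hq]; field_simp
    rw [e, hq]
    exact div_le_div_of_nonneg_right (hsq.trans u2) hw.le
  obtain ⟨σ, hσ0, hσ1, hσ⟩ : ∃ σ : ℝ, 0 ≤ σ ∧ σ + q ≤ 1 ∧ q = 2 * σ * y := by
    rcases hy0.eq_or_lt with h | h
    · rw [← h] at t6 ⊢
      exact ⟨0, le_rfl, by linarith, by linarith⟩
    · refine ⟨q / (2 * y), by positivity, ?_, by field_simp⟩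
      have : q / (2 * y) ≤ 1 - q := by
        rw [div_le_iff₀ (by positivity)]; linarith
      linarith
  obtain ⟨G, hG0, hG1, hG2⟩ := edge_avg g0 g1 f0 f1 hm0 hm1 hq hq1 hy
  have gd := good (abs_nonneg m) bm.le hσ0 (by linarith) hy0 (by linarith)
    (info1 (m - δ) (m + δ)) G
  rw [← hσ] at gd
  replace gd := gd ha (by linarith) hσ1 hG0 hG1
  obtain ⟨s, hs0, hs1, hs⟩ := exists_psi_eq_of_lt hy0
    (by linarith [psi_lt_log_two (abs_lt_one_of h0 (by linarith))])
  have hsr : s ≤ r := le_of_psi_le hs1.le h0 (by linarith)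
  have d1 := rate_diff_le hs0 hsr h1
  have d2 := rate_faces g0 g1 f0 f1 ih hs0 hs1 hs
  rw [hI, hs] at d1
  rw [prod_split i g]
  linarith

end RT

open RT in
theorem rate_of_profile (H : Profile) : Rate := by
  intro n
  induction n with
  | zero =>
    intro g hg r h0 h1 hr
    have hi : information g = 0 := by rw [information, avg_zero, avg_zero, sub_self]
    have hr0 : r ≤ 0 := le_of_psi_le h1.le le_rfl (by rw [hr, hi, psi_zero])
    rw [le_antisymm hr0 h0, production_eq_dir, dir_zero, zero_mul]
  | succ n ih =>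
    cases n with
    | zero =>
      intro g hg r h0 h1 hr
      have hi : ∀ u : Cube 0 → ℝ, information u = 0 := fun u => by
        rw [information, avg_zero, avg_zero, sub_self]
      have h := onebit_rate (u := face 0 false g default) (v := face 0 true g default)
        (hg _) (hg _) h0 h1
      rw [info_chain 0 g, hi, hi, avg_zero, avg_zero] at hr
      rw [prod_split 0 g, production_eq_dir, production_eq_dir, dir_zero, dir_zero, avg_zero]
      rw [hr] at h
      linarith
    | succ n =>
      intro g hg r h0 h1 hr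
      rcases le_total r (19 / 25) with h | h
      · exact rate_small ih g hg h0 h hr
      · exact rate_large H g hg h h1 hr

end Crest.Agent.R307
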