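import Mathlib

/-! Row 307, `Rate`: the two polynomial certificates (bisection checkers over `ℚ`). -/

set_option autoImplicit false

namespace Crest.Agent.R307.RT

/-! ## One variable: `lam z ≤ T z (1 - z lam z)` on `[0, (19/25)²]` -/

/-- `(1 - z) ∑_{k ≤ 8} z^k/(2k+1) = 1 - z lam z`. -/
noncomputable def lam (z : ℝ) : ℝ :=
  2 / 3 + z * (2 / 15 + z * (2 / 35 + z * (2 / 63 + z * (2 / 99 + z * (2 / 143 + z * (2 / 195
    + z * (2 / 255 + z * (1 / 17))))))))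

/-- `∑_{k ≤ 8} z^k/((2k+1)(2k+2))`. -/
noncomputable def phi (z : ℝ) : ℝ :=
  1 / 2 + z * (1 / 12 + z * (1 / 30 + z * (1 / 56 + z * (1 / 90 + z * (1 / 132 + z * (1 / 182
    + z * (1 / 240 + z * (1 / 306))))))))

/-- `(P'(z φ) - 2) / z`. -/
noncomputable def TT (z f : ℝ) : ℝ := f * (137 / 100 + z * f * (6 / 5 + z * f * (34 / 5)))

def lamQ (z : ℚ) : ℚ :=
  2 / 3 + z * (2 / 15 + z * (2 / 35 + z * (2 / 63 + z * (2 / 99 + z * (2 / 143 + z * (2 / 195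
    + z * (2 / 255 + z * (1 / 17))))))))

def phiQ (z : ℚ) : ℚ :=
  1 / 2 + z * (1 / 12 + z * (1 / 30 + z * (1 / 56 + z * (1 / 90 + z * (1 / 132 + z * (1 / 182
    + z * (1 / 240 + z * (1 / 306))))))))

def TTQ (z f : ℚ) : ℚ := f * (137 / 100 + z * f * (6 / 5 + z * f * (34 / 5)))

theorem cast_lamQ (z : ℚ) : (lamQ z : ℝ) = lam z := by
  simp only [lamQ, lam]; push_cast; ring

theorem cast_phiQ (z : ℚ) : (phiQ z : ℝ) = phi z := by
  simp only [phiQ, phi]; push_cast; ring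

theorem cast_TTQ (z f : ℚ) : (TTQ z f : ℝ) = TT z f := by
  simp only [TTQ, TT]; push_cast; ring

def leaf1 (a b l : ℚ) : Bool := decide (l ≤ TTQ a (phiQ a) * (1 - b * l))

def chk1 : ℕ → ℚ → ℚ → Bool
  | 0, a, b => leaf1 a b (lamQ b)
  | d + 1, a, b => leaf1 a b (lamQ b) || (chk1 d a ((a + b) / 2) && chk1 d ((a + b) / 2) b)

theorem lam_pos {z : ℝ} (hz : 0 ≤ z) : 0 < lam z := by unfold lam; positivity

theorem phi_pos {z : ℝ} (hz : 0 ≤ z) : 0 < phi z := by unfold phi; positivity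

theorem lam_mono {a b : ℝ} (ha : 0 ≤ a) (h : a ≤ b) : lam a ≤ lam b := by
  have hb := ha.trans h
  unfold lam; gcongr

theorem phi_mono {a b : ℝ} (ha : 0 ≤ a) (h : a ≤ b) : phi a ≤ phi b := by
  have hb := ha.trans h
  unfold phi; gcongr

theorem TT_mono {a b f g : ℝ} (ha : 0 ≤ a) (h : a ≤ b) (hf : 0 ≤ f) (hfg : f ≤ g) :
    TT a f ≤ TT b g := by
  have hb := ha.trans h
  have hg := hf.trans hfg
  unfold TT; gcongr

theorem leaf1_sound {a b : ℚ} (h : leaf1 a b (lamQ b) = true) {z : ℝ} (ha : (0 : ℝ) ≤ a)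
    (h0 : (a : ℝ) ≤ z) (h1 : z ≤ b) : lam z ≤ TT z (phi z) * (1 - z * lam z) := by
  simp only [leaf1, decide_eq_true_eq] at h
  have h' : ((lamQ b : ℚ) : ℝ) ≤ ((TTQ a (phiQ a) * (1 - b * lamQ b) : ℚ) : ℝ) := Rat.cast_le.2 h
  rw [Rat.cast_mul, Rat.cast_sub, Rat.cast_mul, Rat.cast_one, cast_lamQ, cast_TTQ, cast_phiQ] at h'
  have hz := ha.trans h0
  have hb := hz.trans h1
  have t0 : 0 < TT a (phi a) := by
    have := phi_pos ha
    unfold TT; positivity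
  have t1 := TT_mono ha h0 (phi_pos ha).le (phi_mono ha h0)
  have l1 := lam_mono hz h1
  have l0 := lam_pos hz
  have p0 : 0 < 1 - (b : ℝ) * lam b := by
    by_contra hc
    have := mul_nonpos_of_nonneg_of_nonpos t0.le (not_lt.1 hc)
    linarith
  have p1 : 1 - (b : ℝ) * lam b ≤ 1 - z * lam z := by
    have := mul_le_mul h1 l1 l0.le hb
    linarith
  exact l1.trans (h'.trans (mul_le_mul t1 p1 p0.le (t0.le.trans t1)))

theorem chk1_sound (d : ℕ) : ∀ {a b : ℚ}, chk1 d a b = true → ∀ {z : ℝ}, (0 : ℝ) ≤ a →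
    (a : ℝ) ≤ z → z ≤ b → lam z ≤ TT z (phi z) * (1 - z * lam z) := by
  induction d with
  | zero => intro a b h z ha h0 h1; exact leaf1_sound h ha h0 h1
  | succ d ih =>
    intro a b h z ha h0 h1
    simp only [chk1, Bool.or_eq_true, Bool.and_eq_true] at h
    rcases h with h | ⟨hl, hr⟩
    · exact leaf1_sound h ha h0 h1
    · rcases le_total z (((a + b) / 2 : ℚ) : ℝ) with hc | hc
      · exact ih hl ha h0 hc
      · refine ih hr ?_ hc h1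
        push_cast
        linarith

theorem chk1_true : chk1 10 0 (361 / 625) = true := by decide +kernel

theorem lam_le {z : ℝ} (h0 : 0 ≤ z) (h1 : z ≤ 361 / 625) :
    lam z ≤ TT z (phi z) * (1 - z * lam z) :=
  chk1_sound 10 chk1_true (by simp) (by simpa using h0) (by push_cast; exact h1)

/-! ## Three variables -/

/-- The polynomial majorant of the rate function. -/
noncomputable def PP (x : ℝ) : ℝ := 2 * x + 137 / 200 * x ^ 2 + 2 / 5 * x ^ 3 + 17 / 10 * x ^ 4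

noncomputable def al (m q : ℝ) : ℝ := 1 / 2 + (1 + 4 * m * m) * q / 12 + q * q / 30

noncomputable def EE (b y : ℝ) : ℝ :=
  137 / 200 * (b + 1) + 2 / 5 * y * (b * b + b + 1) + 17 / 10 * (y * y) * ((b * b + 1) * (b + 1))

def alQ (m q : ℚ) : ℚ := 1 / 2 + (1 + 4 * m * m) * q / 12 + q * q / 30

def EEQ (b y : ℚ) : ℚ :=
  137 / 200 * (b + 1) + 2 / 5 * y * (b * b + b + 1) + 17 / 10 * (y * y) * ((b * b + 1) * (b + 1))

theorem cast_alQ (m q : ℚ) : (alQ m q : ℝ) = al m q := by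
  simp only [alQ, al]; push_cast; ring

theorem cast_EEQ (b y : ℚ) : (EEQ b y : ℝ) = EE b y := by
  simp only [EEQ, EE]; push_cast; ring

theorem al_pos {m q : ℝ} (hm : 0 ≤ m) (hq : 0 ≤ q) : 0 < al m q := by unfold al; positivity

theorem al_mono {m m' q q' : ℝ} (hm : 0 ≤ m) (hq : 0 ≤ q) (h1 : m ≤ m') (h2 : q ≤ q') :
    al m q ≤ al m' q' := by
  have := hm.trans h1
  have := hq.trans h2
  unfold al; gcongr

theorem EE_mono {b b' y y' : ℝ} (hb : 0 ≤ b) (hy : 0 ≤ y) (h1 : b ≤ b') (h2 : y ≤ y') :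
    EE b y ≤ EE b' y' := by
  have := hb.trans h1
  have := hy.trans h2
  unfold EE; gcongr

/-- The claim certified at a point `(m, σ, y)`, with `q = 2 σ y`. -/
def Good (m σ y : ℝ) : Prop :=
  ∀ a G : ℝ, 2 * σ * y * al m (2 * σ * y) ≤ a → a + y ≤ 3263 / 10000 → σ + 2 * σ * y ≤ 1 →
    0 ≤ G → 2 * (2 * σ * y) * y ≤ G ^ 2 + ((3 + m) / 2 - 2 * y + 2 * σ * y) * G →
    PP (a + y) - PP y - 4 * a + 2 * σ * y - (2 * σ * y) ^ 3 / 15 ≤ G

def rhoQ (m0 s0 s1 q0 y1 a : ℚ) : ℚ :=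
  a * EEQ (1 + 2 * s1 * a) y1 - (1 + 4 * m0 * m0) * s0 / 3 - 4 / 15 * s0 * q0

def leafC (m1 y0 y1 q1 r : ℚ) : Bool := decide (r * ((3 + m1) / 2 - 2 * y0 + q1 + q1 * y1 * r) ≤ 2)

def leafB (m0 m1 s0 s1 y0 y1 q0 q1 : ℚ) : Bool :=
  decide (1 < s0 + q0) || decide (3263 / 10000 < y0 + q0 * alQ m0 q0) ||
    leafC m1 y0 y1 q1 (rhoQ m0 s0 s1 q0 y1 (alQ m0 q1))

def leaf3 (m0 m1 s0 s1 y0 y1 : ℚ) : Bool :=
  leafB m0 m1 s0 s1 y0 y1 (2 * s0 * y0) (2 * s1 * y1)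

def chk3 : ℕ → ℚ → ℚ → ℚ → ℚ → ℚ → ℚ → Bool
  | 0, m0, m1, s0, s1, y0, y1 => leaf3 m0 m1 s0 s1 y0 y1
  | d + 1, m0, m1, s0, s1, y0, y1 => leaf3 m0 m1 s0 s1 y0 y1 ||
      (if 4 * (s1 - s0) ≤ m1 - m0 ∧ 20 * (y1 - y0) ≤ m1 - m0 then
        chk3 d m0 ((m0 + m1) / 2) s0 s1 y0 y1 && chk3 d ((m0 + m1) / 2) m1 s0 s1 y0 y1
      else if 5 * (y1 - y0) ≤ s1 - s0 then
        chk3 d m0 m1 s0 ((s0 + s1) / 2) y0 y1 && chk3 d m0 m1 ((s0 + s1) / 2) s1 y0 y1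
      else chk3 d m0 m1 s0 s1 y0 ((y0 + y1) / 2) && chk3 d m0 m1 s0 s1 ((y0 + y1) / 2) y1)

theorem PP_lip {b b' : ℝ} (h0 : 0 ≤ b') (h : b' ≤ b) (h1 : b ≤ 1 / 2) :
    PP b - PP b' ≤ 4 * (b - b') := by
  have hb := h0.trans h
  have h1' := h.trans h1
  have e : PP b - PP b' = (2 + 137 / 200 * (b + b') + 2 / 5 * (b * b + b * b' + b' * b')
      + 17 / 10 * ((b * b + b' * b') * (b + b'))) * (b - b') := by
    unfold PP; ring
  rw [e]
  refine mul_le_mul_of_nonneg_right ?_ (sub_nonneg.2 h)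
  calc _ ≤ 2 + 137 / 200 * (1 / 2 + 1 / 2) + 2 / 5 * (1 / 2 * (1 / 2) + 1 / 2 * (1 / 2)
        + 1 / 2 * (1 / 2)) + 17 / 10 * ((1 / 2 * (1 / 2) + 1 / 2 * (1 / 2)) * (1 / 2 + 1 / 2) : ℝ) := by
        gcongr
    _ ≤ 4 := by norm_num

theorem good_of_rho {m σ y m0 r K : ℝ} (hm0 : 0 ≤ m0) (hm : m0 ≤ m) (hσ : 0 ≤ σ) (hy : 0 ≤ y)
    (hr : al m0 (2 * σ * y) * EE (1 + 2 * σ * al m0 (2 * σ * y)) y - (1 + 4 * m0 * m0) * σ / 3
      - 4 / 15 * σ * (2 * σ * y) ≤ r)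
    (hK : 0 < r → (3 + m) / 2 - 2 * y + 2 * σ * y + 2 * σ * y * y * r ≤ K) (hrK : r * K ≤ 2) :
    Good m σ y := by
  intro a G ha hay _ hG hq
  set q := 2 * σ * y with hqdef
  have hq0 : 0 ≤ q := by positivity
  have ha' : q * al m0 q ≤ a :=
    (mul_le_mul_of_nonneg_left (al_mono hm0 hq0 hm le_rfl) hq0).trans ha
  have ha0 : 0 ≤ q * al m0 q := mul_nonneg hq0 (al_pos hm0 hq0).le
  have h1 := PP_lip (b := a + y) (b' := q * al m0 q + y) (by linarith) (by linarith) (by linarith)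
  have e : PP (q * al m0 q + y) - PP y - 4 * (q * al m0 q) + q - q ^ 3 / 15 =
      q * y * (al m0 q * EE (1 + 2 * σ * al m0 q) y - (1 + 4 * m0 * m0) * σ / 3
        - 4 / 15 * σ * q) := by
    have e1 : q * al m0 q + y = y * (1 + 2 * σ * al m0 q) := by rw [hqdef]; ring
    have e2 : ∀ b : ℝ, PP (y * b) - PP y = 2 * (y * (b - 1)) + y * (b - 1) * y * EE b y := by
      intro b; unfold PP EE; ring
    have e3 : y * (1 + 2 * σ * al m0 q - 1) = q * al m0 q := by rw [hqdef]; ring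
    have e4 : q * y * σ = q * q / 2 := by rw [hqdef]; ring
    rw [e1, e2, e3]
    have e5 : q * al m0 q = q / 2 + (1 + 4 * m0 * m0) * (q * q) / 12 + q ^ 3 / 30 := by
      unfold al; ring
    have e6 : q * y * (al m0 q * EE (1 + 2 * σ * al m0 q) y - (1 + 4 * m0 * m0) * σ / 3
        - 4 / 15 * σ * q) = q * al m0 q * y * EE (1 + 2 * σ * al m0 q) y
        - (1 + 4 * m0 * m0) * (q * y * σ) / 3 - 4 / 15 * (q * y * σ) * q := by ring
    rw [e6, e4]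
    linear_combination (-2 : ℝ) * e5
  have hqy : 0 ≤ q * y := mul_nonneg hq0 hy
  have h2 := mul_le_mul_of_nonneg_left hr hqy
  suffices hs : q * y * r ≤ G by linarith
  by_contra hc
  push Not at hc
  have hR : 0 < q * y * r := hG.trans_lt hc
  have hr0 : 0 < r := by
    by_contra h
    have := mul_nonpos_of_nonneg_of_nonpos hqy (not_lt.1 h)
    linarith
  have hK' := hK hr0
  have hK0 : 0 ≤ (3 + m) / 2 - 2 * y + q := by linarith
  have h3 : G ^ 2 < (q * y * r) ^ 2 := by gcongr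
  have h4 : ((3 + m) / 2 - 2 * y + q) * G ≤ ((3 + m) / 2 - 2 * y + q) * (q * y * r) := by gcongr
  have h5 : q * y * r * ((3 + m) / 2 - 2 * y + q + q * y * r) ≤ q * y * r * K := by gcongr
  have h6 : q * y * (r * K) ≤ q * y * 2 := by gcongr
  nlinarith

theorem leaf3_sound {m0 m1 s0 s1 y0 y1 : ℚ} (h : leaf3 m0 m1 s0 s1 y0 y1 = true) {m σ y : ℝ}
    (hm0 : (0 : ℝ) ≤ m0) (hs0 : (0 : ℝ) ≤ s0) (hy0 : (0 : ℝ) ≤ y0)
    (hm : (m0 : ℝ) ≤ m) (hm' : m ≤ m1) (hs : (s0 : ℝ) ≤ σ) (hs' : σ ≤ s1)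
    (hy : (y0 : ℝ) ≤ y) (hy' : y ≤ y1) : Good m σ y := by
  have hσ := hs0.trans hs
  have hyy := hy0.trans hy
  have hs1 := hσ.trans hs'
  have hy1 := hyy.trans hy'
  have hq0 : 2 * (s0 : ℝ) * y0 ≤ 2 * σ * y := by gcongr
  have hq1 : 2 * σ * y ≤ 2 * (s1 : ℝ) * y1 := by gcongr
  have hq00 : 0 ≤ 2 * (s0 : ℝ) * y0 := by positivity
  have hq := hq00.trans hq0
  simp only [leaf3, leafB, leafC, Bool.or_eq_true, decide_eq_true_eq] at h
  rcases h with (h | h) | h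
  · intro a G _ _ hc
    have h' : ((1 : ℚ) : ℝ) < ((s0 + 2 * s0 * y0 : ℚ) : ℝ) := Rat.cast_lt.2 h
    push_cast at h'
    linarith
  · intro a G ha hc
    have h' : ((3263 / 10000 : ℚ) : ℝ) < ((y0 + 2 * s0 * y0 * alQ m0 (2 * s0 * y0) : ℚ) : ℝ) :=
      Rat.cast_lt.2 h
    rw [Rat.cast_add, Rat.cast_mul, cast_alQ] at h'
    push_cast at h'
    have := mul_le_mul hq0 (al_mono hm0 hq00 hm hq0) (al_pos hm0 hq00).le hq
    linarith
  · have h' := (Rat.cast_le (K := ℝ)).2 h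
    refine good_of_rho (r := (rhoQ m0 s0 s1 (2 * s0 * y0) y1 (alQ m0 (2 * s1 * y1)) : ℚ))
      (K := (((3 + m1) / 2 - 2 * y0 + 2 * s1 * y1 + 2 * s1 * y1 * y1 *
        rhoQ m0 s0 s1 (2 * s0 * y0) y1 (alQ m0 (2 * s1 * y1)) : ℚ) : ℝ)) hm0 hm hσ hyy ?_ ?_ ?_
    · simp only [rhoQ]
      rw [Rat.cast_sub, Rat.cast_sub, Rat.cast_mul, cast_EEQ]
      push_cast
      rw [cast_alQ]
      push_cast
      have a1 := al_mono hm0 hq le_rfl hq1
      have a0 := al_pos hm0 hq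
      have e1 : EE (1 + 2 * σ * al m0 (2 * σ * y)) y ≤
          EE (1 + 2 * s1 * al m0 (2 * s1 * y1)) y1 :=
        EE_mono (by positivity) hyy (by gcongr) hy'
      have e0 : 0 ≤ EE (1 + 2 * σ * al m0 (2 * σ * y)) y := by unfold EE; positivity
      have b1 := mul_le_mul a1 e1 e0 (a0.le.trans a1)
      have b2 : (1 + 4 * (m0 : ℝ) * m0) * s0 / 3 ≤ (1 + 4 * (m0 : ℝ) * m0) * σ / 3 := by gcongr
      have b3 : 4 / 15 * (s0 : ℝ) * (2 * s0 * y0) ≤ 4 / 15 * σ * (2 * σ * y) := by gcongr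
      linarith
    · intro hr
      push_cast
      have : 2 * σ * y * y * ((rhoQ m0 s0 s1 (2 * s0 * y0) y1 (alQ m0 (2 * s1 * y1)) : ℚ) : ℝ) ≤
          2 * s1 * y1 * y1 * ((rhoQ m0 s0 s1 (2 * s0 * y0) y1 (alQ m0 (2 * s1 * y1)) : ℚ) : ℝ) := by
        gcongr
      linarith
    · rw [← Rat.cast_mul]
      simpa using h'

theorem chk3_sound (d : ℕ) : ∀ {m0 m1 s0 s1 y0 y1 : ℚ}, chk3 d m0 m1 s0 s1 y0 y1 = true →
    ∀ {m σ y : ℝ}, (0 : ℝ) ≤ m0 → (0 : ℝ) ≤ s0 → (0 : ℝ) ≤ y0 → (m0 : ℝ) ≤ m → m ≤ m1 →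
    (s0 : ℝ) ≤ σ → σ ≤ s1 → (y0 : ℝ) ≤ y → y ≤ y1 → Good m σ y := by
  induction d with
  | zero =>
    intro m0 m1 s0 s1 y0 y1 h m σ y a1 a2 a3 b1 b2 b3 b4 b5 b6
    exact leaf3_sound h a1 a2 a3 b1 b2 b3 b4 b5 b6
  | succ d ih =>
    intro m0 m1 s0 s1 y0 y1 h m σ y a1 a2 a3 b1 b2 b3 b4 b5 b6
    rw [chk3, Bool.or_eq_true] at h
    rcases h with h | h
    · exact leaf3_sound h a1 a2 a3 b1 b2 b3 b4 b5 b6
    split_ifs at h
    · rw [Bool.and_eq_true] at h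
      rcases le_total m (((m0 + m1) / 2 : ℚ) : ℝ) with hc | hc
      · exact ih h.1 a1 a2 a3 b1 hc b3 b4 b5 b6
      · exact ih h.2 (by push_cast; linarith) a2 a3 hc b2 b3 b4 b5 b6
    · rw [Bool.and_eq_true] at h
      rcases le_total σ (((s0 + s1) / 2 : ℚ) : ℝ) with hc | hc
      · exact ih h.1 a1 a2 a3 b1 b2 b3 hc b5 b6
      · exact ih h.2 a1 (by push_cast; linarith) a3 b1 b2 hc b4 b5 b6
    · rw [Bool.and_eq_true] at h
      rcases le_total y (((y0 + y1) / 2 : ℚ) : ℝ) with hc | hc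
      · exact ih h.1 a1 a2 a3 b1 b2 b3 b4 b5 hc
      · exact ih h.2 a1 a2 (by push_cast; linarith) b1 b2 b3 b4 hc b6

theorem chk3_true : chk3 24 0 1 0 1 0 (3 / 8) = true := by decide +kernel

theorem good {m σ y : ℝ} (hm : 0 ≤ m) (hm' : m ≤ 1) (hs : 0 ≤ σ) (hs' : σ ≤ 1) (hy : 0 ≤ y)
    (hy' : y ≤ 3 / 8) : Good m σ y :=
  chk3_sound 24 chk3_true (by simp) (by simp) (by simp) (by simpa using hm) (by simpa using hm')
    (by simpa using hs) (by simpa using hs') (by simpa using hy) (by push_cast; exact hy')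

end Crest.Agent.R307.RT
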