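import Crest.Agent.R307.Defs2
import Crest.Agent.R307.Ent
import Crest.Agent.R307.RateNum

/-! Row 307, `Rate`: one-variable analytic inequalities. -/

set_option autoImplicit false

open Crest.CubeNoise Real Set

namespace Crest.Agent.R307.RT

theorem sum_le_artanh (N : ℕ) {t : ℝ} (h0 : 0 ≤ t) (h1 : t < 1) :
    ∑ k ∈ Finset.range N, t ^ (2 * k + 1) / (2 * k + 1) ≤ artanh t := by
  have ht := abs_lt_one_of h0 h1
  have h := sum_le_hasSum (Finset.range N) (fun k _ => by positivity)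
    (hasSum_log_sub_log_of_abs_lt_one ht)
  rw [artanh_eq_sub ht, le_div_iff₀ two_pos, Finset.sum_mul]
  refine le_trans (le_of_eq (Finset.sum_congr rfl fun k _ => ?_)) h
  ring

theorem sum_le_psi (N : ℕ) {t : ℝ} (h0 : 0 ≤ t) (h1 : t < 1) :
    ∑ k ∈ Finset.range N, t ^ (2 * k + 2) / ((2 * k + 1) * (2 * k + 2)) ≤ psi t := by
  have := monotoneOn_Ico_of_hasDerivAt (a := 0) (b := 1)
    (f := fun y => psi y - ∑ k ∈ Finset.range N, y ^ (2 * k + 2) / ((2 * k + 1) * (2 * k + 2)))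
    (f' := fun y => artanh y - ∑ k ∈ Finset.range N, y ^ (2 * k + 1) / (2 * k + 1))
    (fun y hy0 hy1 => by
      refine (hasDerivAt_psi (abs_lt_one_of hy0 hy1)).sub (HasDerivAt.fun_sum fun k _ => ?_)
      refine ((hasDerivAt_pow (2 * k + 2) y).div_const _).congr_deriv ?_
      have : (2 * (k : ℝ) + 1) ≠ 0 := by positivity
      have : (2 * (k : ℝ) + 2) ≠ 0 := by positivity
      rw [show 2 * k + 2 - 1 = 2 * k + 1 by omega]
      push_cast
      field_simp)
    (fun y hy0 hy1 => sub_nonneg.2 (sum_le_artanh N hy0.le hy1))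
    ⟨le_rfl, one_pos⟩ ⟨h0, h1⟩ h0
  simp only [psi_zero] at this
  rw [Finset.sum_eq_zero (fun k _ => by simp)] at this
  linarith

theorem six_le_psi {x : ℝ} (hx : |x| < 1) : x ^ 2 / 2 + x ^ 4 / 12 + x ^ 6 / 30 ≤ psi x := by
  have := sum_le_psi 3 (abs_nonneg x) hx
  simp only [Finset.sum_range_succ, Finset.sum_range_zero, psi_abs] at this
  have e2 : |x| ^ 2 = x ^ 2 := sq_abs x
  have e4 : |x| ^ 4 = x ^ 4 := by rw [show 4 = 2 * 2 by rfl, pow_mul, pow_mul, e2]
  have e6 : |x| ^ 6 = x ^ 6 := by rw [show 6 = 2 * 3 by rfl, pow_mul, pow_mul, e2]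
  norm_num at this
  rw [← e4, ← e6]
  linarith

theorem phi_le_psi {t : ℝ} (h0 : 0 ≤ t) (h1 : t < 1) : t ^ 2 * phi (t ^ 2) ≤ psi t := by
  refine le_trans (le_of_eq ?_) (sum_le_psi 9 h0 h1)
  simp only [Finset.sum_range_succ, Finset.sum_range_zero, phi]
  push_cast
  ring

theorem lam_le_artanh {t : ℝ} (h0 : 0 ≤ t) (h1 : t < 1) :
    t * (1 - t ^ 2 * lam (t ^ 2)) ≤ (1 - t ^ 2) * artanh t := by
  refine le_trans (le_of_eq ?_) (mul_le_mul_of_nonneg_left (sum_le_artanh 9 h0 h1)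
    (one_sub_sq_pos (abs_lt_one_of h0 h1)).le)
  simp only [Finset.sum_range_succ, Finset.sum_range_zero, lam]
  push_cast
  ring

/-- `κ ≤ P' ∘ ψ` on `[0, 19/25]`. -/
theorem kap_le_P {t : ℝ} (h0 : 0 < t) (h1 : t ≤ 19 / 25) :
    kap t ≤ 2 + 137 / 100 * psi t + 6 / 5 * psi t ^ 2 + 34 / 5 * psi t ^ 3 := by
  have ht1 : t < 1 := by linarith
  have hz0 : 0 ≤ t ^ 2 := sq_nonneg t
  have hz1 : t ^ 2 ≤ 361 / 625 := by nlinarith
  have hl := lam_le hz0 hz1
  have hl0 := lam_pos hz0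
  have hp0 := phi_pos hz0
  have hT : 0 < TT (t ^ 2) (phi (t ^ 2)) := by unfold TT; positivity
  have hd : 0 < 1 - t ^ 2 * lam (t ^ 2) := by
    by_contra hc
    have := mul_nonpos_of_nonneg_of_nonpos hT.le (not_lt.1 hc)
    linarith
  have h2 := lam_le_artanh h0.le ht1
  have h3 := phi_le_psi h0.le ht1
  have h4 : t / ((1 - t ^ 2) * artanh t) ≤ 1 + t ^ 2 * TT (t ^ 2) (phi (t ^ 2)) := by
    refine le_trans (div_le_div_of_nonneg_left h0.le (mul_pos h0 hd) h2) ?_
    rw [div_le_iff₀ (mul_pos h0 hd)]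
    have := mul_le_mul_of_nonneg_left hl (mul_nonneg h0.le hz0)
    nlinarith
  have h5 : t ^ 2 * TT (t ^ 2) (phi (t ^ 2)) = 137 / 100 * (t ^ 2 * phi (t ^ 2))
      + 6 / 5 * (t ^ 2 * phi (t ^ 2)) ^ 2 + 34 / 5 * (t ^ 2 * phi (t ^ 2)) ^ 3 := by
    unfold TT; ring
  have h6 : 0 ≤ t ^ 2 * phi (t ^ 2) := by positivity
  have h7 : (t ^ 2 * phi (t ^ 2)) ^ 2 ≤ psi t ^ 2 := by gcongr
  have h8 : (t ^ 2 * phi (t ^ 2)) ^ 3 ≤ psi t ^ 3 := by gcongr
  rw [kap_of_ne h0.ne']
  linarith

/-- Increments of the rate function are bounded by increments of `PP`. -/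
theorem rate_diff_le {s r : ℝ} (h0 : 0 ≤ s) (hsr : s ≤ r) (h1 : r ≤ 19 / 25) :
    r * artanh r - s * artanh s ≤ PP (psi r) - PP (psi s) := by
  have hd : ∀ y, 0 ≤ y → y < 1 → HasDerivAt (fun y => PP (psi y) - y * artanh y)
      ((2 + 137 / 100 * psi y + 6 / 5 * psi y ^ 2 + 34 / 5 * psi y ^ 3 - kap y) * artanh y) y := by
    intro y hy0 hy1
    have hy := abs_lt_one_of hy0 hy1
    have hp := hasDerivAt_psi hy
    have := ((((hp.const_mul 2).add ((hp.pow 2).const_mul (137 / 200))).add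
      ((hp.pow 3).const_mul (2 / 5))).add ((hp.pow 4).const_mul (17 / 10))).sub
      (hasDerivAt_mul_artanh' hy)
    refine HasDerivAt.congr_deriv (f' := _) this ?_
    simp only [Nat.cast_ofNat, Nat.add_one_sub_one]
    ring
  have := le_of_hasDerivAt_nonneg hsr (f := fun y => PP (psi y) - y * artanh y)
    (fun y hy => (hd y (h0.trans hy.1) (by linarith [hy.2])).continuousAt.continuousWithinAt)
    (fun y hy0 hy1 => hd y (by linarith) (by linarith))
    (fun y hy0 hy1 => mul_nonneg (sub_nonneg.2 (kap_le_P (by linarith) (by linarith)))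
      (artanh_nonneg (by linarith)))
  linarith

/-- `f - 4 ψ ≥ -x² + x⁶/15`. -/
theorem four_psi_le {x : ℝ} (hx : |x| < 1) :
    4 * psi x - x ^ 2 + x ^ 6 / 15 ≤ x * artanh x := by
  have k1 : ∀ t : ℝ, 0 ≤ t → t < 1 →
      0 ≤ t / (1 - t ^ 2) - 3 * artanh t + 2 * t - 2 / 5 * t ^ 5 := by
    intro t h0 h1
    have := monotoneOn_Ico_of_hasDerivAt (a := 0) (b := 1)
      (f := fun y => y / (1 - y ^ 2) - 3 * artanh y + 2 * y - 2 / 5 * y ^ 5)
      (f' := fun y => 2 * y ^ 6 * (2 - y ^ 2) / (1 - y ^ 2) ^ 2) (fun y hy0 hy1 => by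
        have hy := abs_lt_one_of hy0 hy1
        have hp := (one_sub_sq_pos hy).ne'
        have := (((((hasDerivAt_id y).div ((hasDerivAt_pow 2 y).const_sub 1) hp).sub
          ((hasDerivAt_artanh hy).const_mul 3)).add ((hasDerivAt_id y).const_mul 2)).sub
          ((hasDerivAt_pow 5 y).const_mul (2 / 5)))
        refine HasDerivAt.congr_deriv (f' := _) this ?_
        simp only [id, Nat.cast_ofNat, Nat.add_one_sub_one]
        field_simp
        ring) (fun y hy0 hy1 => div_nonneg (mul_nonneg (by positivity) (by nlinarith))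
          (by positivity)) ⟨le_rfl, one_pos⟩ ⟨h0, h1⟩ h0
    simpa using this
  have k2 : ∀ t : ℝ, 0 ≤ t → t < 1 → 4 * psi t - t ^ 2 + t ^ 6 / 15 ≤ t * artanh t := by
    intro t h0 h1
    have := monotoneOn_Ico_of_hasDerivAt (a := 0) (b := 1)
      (f := fun y => y * artanh y - 4 * psi y + y ^ 2 - y ^ 6 / 15)
      (f' := fun y => y / (1 - y ^ 2) - 3 * artanh y + 2 * y - 2 / 5 * y ^ 5) (fun y hy0 hy1 => by
        have hy := abs_lt_one_of hy0 hy1
        have := (((hasDerivAt_mul_artanh hy).sub ((hasDerivAt_psi hy).const_mul 4)).add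
          (hasDerivAt_pow 2 y)).sub ((hasDerivAt_pow 6 y).div_const 15)
        refine HasDerivAt.congr_deriv (f' := _) this ?_
        simp only [Nat.cast_ofNat, Nat.add_one_sub_one]
        ring) (fun y hy0 hy1 => k1 y hy0.le hy1) ⟨le_rfl, one_pos⟩ ⟨h0, h1⟩ h0
    simp only [psi_zero] at this
    norm_num at this
    linarith
  have := k2 |x| (abs_nonneg x) hx
  have e2 : |x| ^ 2 = x ^ 2 := sq_abs x
  have e6 : |x| ^ 6 = x ^ 6 := by rw [show 6 = 2 * 3 by rfl, pow_mul, pow_mul, e2]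
  rwa [psi_abs, abs_mul_artanh_abs, e2, e6] at this

theorem artanh_sub_mono {a b : ℝ} (ha : -1 < a) (hab : a ≤ b) (hb : b < 1) :
    artanh a - a ≤ artanh b - b := by
  have hd : ∀ y, -1 < y → y < 1 → HasDerivAt (fun y => artanh y - y) (1 / (1 - y ^ 2) - 1) y :=
    fun y h1 h2 => (hasDerivAt_artanh (abs_lt.2 ⟨h1, h2⟩)).sub (hasDerivAt_id y)
  exact le_of_hasDerivAt_nonneg hab (f := fun y => artanh y - y)
    (fun y hy => (hd y (by linarith [hy.1]) (by linarith [hy.2])).continuousAt.continuousWithinAt)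
    (fun y hy0 hy1 => hd y (by linarith) (by linarith))
    (fun y hy0 hy1 => by
      have := one_sub_sq_pos (abs_lt.2 ⟨(by linarith : -1 < y), (by linarith : y < 1)⟩)
      rw [sub_nonneg, le_div_iff₀ this]
      nlinarith [sq_nonneg y])

/-- Tangent lines of the convex function `ψ - x²/2`. -/
theorem psi_sub_sq_tangent {r s : ℝ} (hr : |r| < 1) (hs : |s| < 1) :
    psi r - r ^ 2 / 2 + (artanh r - r) * (s - r) ≤ psi s - s ^ 2 / 2 := by
  obtain ⟨r1, r2⟩ := abs_lt.1 hr
  obtain ⟨s1, s2⟩ := abs_lt.1 hs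
  have hd : ∀ y, -1 < y → y < 1 → HasDerivAt (fun y => psi y - y ^ 2 / 2 - (artanh r - r) * y)
      (artanh y - y - (artanh r - r)) y := fun y h1 h2 => by
    have := ((hasDerivAt_psi (abs_lt.2 ⟨h1, h2⟩)).sub ((hasDerivAt_pow 2 y).div_const 2)).sub
      ((hasDerivAt_id y).const_mul (artanh r - r))
    refine HasDerivAt.congr_deriv (f' := _) this ?_
    simp
  rcases le_total r s with h | h
  · have := le_of_hasDerivAt_nonneg h (f := fun y => psi y - y ^ 2 / 2 - (artanh r - r) * y)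
      (fun y hy => (hd y (by linarith [hy.1]) (by linarith [hy.2])).continuousAt.continuousWithinAt)
      (fun y hy0 hy1 => hd y (by linarith) (by linarith))
      (fun y hy0 hy1 => sub_nonneg.2 (artanh_sub_mono r1 hy0.le (by linarith)))
    linarith
  · have := le_of_hasDerivAt_nonneg h (f := fun y => -(psi y - y ^ 2 / 2 - (artanh r - r) * y))
      (fun y hy =>
        (hd y (by linarith [hy.1]) (by linarith [hy.2])).neg.continuousAt.continuousWithinAt)
      (fun y hy0 hy1 => (hd y (by linarith) (by linarith)).neg)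
      (fun y hy0 hy1 => by
        have := artanh_sub_mono (by linarith : -1 < y) hy1.le r2
        linarith)
    linarith

/-! ## Numerics at `r₀ = 19/25` -/

theorem artanh_r0_le : artanh (19 / 25) ≤ 9962426 / 10000000 := by
  have h1 := le_artanh (x := 1 / 23) (by norm_num) (by norm_num)
  rw [artanh_eq_sub (by rw [abs_lt]; constructor <;> norm_num)] at h1 ⊢
  have e : log (1 + 19 / 25) - log (1 - 19 / 25) = 3 * log 2 - (log (1 + 1 / 23) - log (1 - 1 / 23)) := by
    rw [← log_div (by norm_num) (by norm_num), ← log_div (by norm_num) (by norm_num),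
      show (3 : ℝ) * log 2 = log (2 ^ 3) by rw [log_pow]; norm_num,
      ← log_div (by norm_num) (by norm_num)]
    norm_num
  have := log_two_lt_d9
  rw [e]
  norm_num at h1 this ⊢
  linarith

theorem psi_r0_le : psi (19 / 25) ≤ 3263 / 10000 := by
  have h1 := add_cube_le_artanh (x := 97 / 1153) (by norm_num) (by norm_num)
  rw [artanh_eq_sub (by rw [abs_lt]; constructor <;> norm_num)] at h1
  have e : log (1 - (19 / 25) ^ 2) = -log 2 - (log (1 + 97 / 1153) - log (1 - 97 / 1153)) := by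
    rw [← log_div (by norm_num) (by norm_num), ← log_inv, ← log_div (by norm_num) (by norm_num)]
    norm_num
  have h2 := artanh_r0_le
  have := log_two_gt_d9
  rw [psi_eq_artanh (by rw [abs_lt]; constructor <;> norm_num), e]
  norm_num at h1 this ⊢
  linarith

theorem le_psi_r0 : 3261 / 10000 ≤ psi (19 / 25) := by
  refine le_trans ?_ (phi_le_psi (by norm_num) (by norm_num))
  unfold phi
  norm_num

theorem le_kap_r0 : 2806 / 1000 ≤ kap (19 / 25) := by
  rw [kap_of_ne (by norm_num)]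
  have h := artanh_r0_le
  have h0 : 0 < artanh (19 / 25) := artanh_pos ⟨by norm_num, by norm_num⟩
  have : (1806 / 1000 : ℝ) ≤ 19 / 25 / ((1 - (19 / 25) ^ 2) * artanh (19 / 25)) := by
    rw [le_div_iff₀ (by positivity)]
    nlinarith
  linarith

/-- The inequality that makes `Profile` give `Rate` for `r ≥ 19/25`. -/
theorem large_r {r : ℝ} (h0 : 19 / 25 ≤ r) (h1 : r < 1) :
    r * artanh r + (kap r - 2) * log 2 - kap r * psi r ≤ (kap r - 2) / 2 := by
  have t := rate_tangent (r := r) (s := 19 / 25) (by linarith) h1 (by norm_num) (by norm_num)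
  have k := le_kap_r0.trans (kap_le_kap (by norm_num) h0 h1)
  have a := artanh_r0_le
  have p := le_psi_r0
  have l1 := log_two_gt_d9
  have l2 := log_two_lt_d9
  have : 2806 / 1000 * (3261 / 10000 - 0.6931471808 + 1 / 2) ≤
      kap r * (psi (19 / 25) - log 2 + 1 / 2) :=
    mul_le_mul k (by linarith) (by norm_num) (by linarith)
  norm_num at this l1 l2
  linarith

end Crest.Agent.R307.RT
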