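import Crest.Agent.R307.Cube
import Crest.Agent.R307.OneBitA
import Crest.Agent.R307.OneBitB
import Crest.Agent.R307.RateSer

/-! Row 307, `Rate`: one-bit inequalities and the edge term of the induction step. -/

set_option autoImplicit false

open Crest.CubeNoise Real Set

namespace Crest.Agent.R307.RT

theorem adm {c D : ℝ} (hu : |c - D| < 1) (hv : |c + D| < 1) :
    0 < 1 - c ∧ 0 < 1 + c ∧ |D / (1 - c)| < 1 ∧ |D / (1 + c)| < 1 := by
  obtain ⟨h1, h2⟩ := abs_lt.mp hu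
  obtain ⟨h3, h4⟩ := abs_lt.mp hv
  have hp : 0 < 1 + c := by linarith
  have hq : 0 < 1 - c := by linarith
  refine ⟨hq, hp, ?_, ?_⟩
  · rw [abs_lt, lt_div_iff₀ hq, div_lt_iff₀ hq]; constructor <;> linarith
  · rw [abs_lt, lt_div_iff₀ hp, div_lt_iff₀ hp]; constructor <;> linarith

theorem sq_split {c D : ℝ} (hq : 0 < 1 - c) (hp : 0 < 1 + c) :
    D ^ 2 / (1 - c ^ 2) = (1 - c) / 2 * (D / (1 - c)) ^ 2 + (1 + c) / 2 * (D / (1 + c)) ^ 2 := by
  have := hq.ne'
  have := hp.ne'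
  rw [show 1 - c ^ 2 = (1 - c) * (1 + c) by ring]
  field_simp
  ring

theorem cube_tangent {z q : ℝ} (hz : 0 ≤ z) (hq : 0 ≤ q) : 3 * q ^ 2 * z - 2 * q ^ 3 ≤ z ^ 3 := by
  have := mul_nonneg (sq_nonneg (z - q)) (show 0 ≤ z + 2 * q by linarith)
  nlinarith

/-- (T1) -/
theorem edge_ge {c D q : ℝ} (hu : |c - D| < 1) (hv : |c + D| < 1) (hq0 : 0 ≤ q) :
    4 * info1 (c - D) (c + D) - (1 - q ^ 2 / 5) * (D ^ 2 / (1 - c ^ 2)) - 2 * q ^ 3 / 15
      ≤ edge artanh (c - D) (c + D) := by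
  obtain ⟨hq, hp, ha, hb⟩ := adm hu hv
  have key : ∀ x : ℝ, |x| < 1 →
      4 * psi x - (1 - q ^ 2 / 5) * x ^ 2 - 2 * q ^ 3 / 15 ≤ x * artanh x := fun x hx => by
    have h1 := four_psi_le hx
    have h2 := cube_tangent (sq_nonneg x) hq0
    nlinarith
  have e : edge artanh (c - D) (c + D) = (1 - c) / 2 * (D / (1 - c) * artanh (D / (1 - c)))
      + (1 + c) / 2 * (D / (1 + c) * artanh (D / (1 + c))) := by
    have := hq.ne'
    have := hp.ne'
    rw [OBA.edge_eq hu hv]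
    field_simp
  rw [e, OBA.info1_eq hu hv, sq_split hq hp]
  have h1 := mul_le_mul_of_nonneg_left (key _ ha) (show 0 ≤ (1 - c) / 2 by linarith)
  have h2 := mul_le_mul_of_nonneg_left (key _ hb) (show 0 ≤ (1 + c) / 2 by linarith)
  linarith

/-- (T2): `info1 - D²/(2(1-c²))` is jointly convex. -/
theorem info1_tangent {m δ : ℝ} (hm0 : |m - δ| < 1) (hm1 : |m + δ| < 1) :
    ∃ B C : ℝ, ∀ c D : ℝ, |c - D| < 1 → |c + D| < 1 →
      info1 (m - δ) (m + δ) - δ ^ 2 / (1 - m ^ 2) / 2 + B * (c - m) + C * (D - δ)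
        ≤ info1 (c - D) (c + D) - D ^ 2 / (1 - c ^ 2) / 2 := by
  obtain ⟨kq, kp, ka, kb⟩ := adm hm0 hm1
  set a := δ / (1 - m) with hadef
  set b := δ / (1 + m) with hbdef
  have ea : δ = (1 - m) * a := by rw [hadef]; field_simp
  have eb : δ = (1 + m) * b := by rw [hbdef]; field_simp
  refine ⟨((psi b - b ^ 2 / 2 - (artanh b - b) * b) - (psi a - a ^ 2 / 2 - (artanh a - a) * a)) / 2,
    ((artanh a - a) + (artanh b - b)) / 2, fun c D hu hv => ?_⟩
  obtain ⟨hq, hp, ha, hb⟩ := adm hu hv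
  rw [OBA.info1_eq hu hv, OBA.info1_eq hm0 hm1, sq_split hq hp, sq_split kq kp]
  have h1 := mul_le_mul_of_nonneg_left (psi_sub_sq_tangent ka ha) (show 0 ≤ (1 - c) / 2 by linarith)
  have h2 := mul_le_mul_of_nonneg_left (psi_sub_sq_tangent kb hb) (show 0 ≤ (1 + c) / 2 by linarith)
  have e1 : (1 - c) * (D / (1 - c)) = D := by field_simp
  have e2 : (1 + c) * (D / (1 + c)) = D := by field_simp
  rw [← hadef, ← hbdef]
  generalize D / (1 - c) = x at *
  generalize D / (1 + c) = x' at *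
  linear_combination h1 + h2 - (artanh a - a) / 2 * e1 - (artanh b - b) / 2 * e2
    - (artanh a - a) / 2 * ea - (artanh b - b) / 2 * eb

/-- (T5) -/
theorem info1_ge {m δ : ℝ} (hm0 : |m - δ| < 1) (hm1 : |m + δ| < 1) :
    δ ^ 2 / (1 - m ^ 2) * al |m| (δ ^ 2 / (1 - m ^ 2)) ≤ info1 (m - δ) (m + δ) := by
  obtain ⟨kq, kp, ka, kb⟩ := adm hm0 hm1
  have hw : 0 < 1 - m ^ 2 := by nlinarith
  set q := δ ^ 2 / (1 - m ^ 2) with hq
  have hq0 : 0 ≤ q := by positivity
  have e2 := sq_split (D := δ) kq kp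
  have e4 : (1 - m) / 2 * (δ / (1 - m)) ^ 4 + (1 + m) / 2 * (δ / (1 + m)) ^ 4 =
      q ^ 2 * ((1 + 3 * m ^ 2) / (1 - m ^ 2)) := by
    have := kq.ne'
    have := kp.ne'
    rw [hq, show 1 - m ^ 2 = (1 - m) * (1 + m) by ring]
    field_simp
    ring
  have h4 : 1 + 4 * m ^ 2 ≤ (1 + 3 * m ^ 2) / (1 - m ^ 2) := by
    rw [le_div_iff₀ hw]
    nlinarith [sq_nonneg (m ^ 2)]
  have h4' := mul_le_mul_of_nonneg_left h4 (sq_nonneg q)
  have key : ∀ x : ℝ, |x| < 1 →
      x ^ 2 / 2 + x ^ 4 / 12 + (3 * q ^ 2 * x ^ 2 - 2 * q ^ 3) / 30 ≤ psi x := fun x hx => by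
    have h1 := six_le_psi hx
    have h2 := cube_tangent (sq_nonneg x) hq0
    nlinarith
  have h1 := mul_le_mul_of_nonneg_left (key _ ka) (show 0 ≤ (1 - m) / 2 by linarith)
  have h2 := mul_le_mul_of_nonneg_left (key _ kb) (show 0 ≤ (1 + m) / 2 by linarith)
  have e : q * al |m| q = q / 2 + q ^ 2 * (1 + 4 * m ^ 2) / 12 + q ^ 3 / 30 := by
    unfold al
    rw [mul_assoc 4, abs_mul_abs_self]
    ring
  rw [e, OBA.info1_eq hm0 hm1]
  rw [← hq] at e2
  generalize δ / (1 - m) = x at *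
  generalize δ / (1 + m) = x' at *
  linear_combination h1 + h2 + h4' / 12 - e4 / 12 + (1 / 2 + q ^ 2 / 10) * e2

theorem sq_div_tangent {D w : ℝ} (hw : 0 < w) (τ : ℝ) : 2 * τ * D - τ ^ 2 * w ≤ D ^ 2 / w := by
  rw [le_div_iff₀ hw]
  nlinarith [sq_nonneg (D - τ * w)]

/-- weak form of (T5) -/
theorem info1_ge_tangent {u v : ℝ} (hu : |u| < 1) (hv : |v| < 1) (τ : ℝ) :
    2 * τ * ((v - u) / 2) - τ ^ 2 * (1 - ((u + v) / 2) ^ 2) ≤ 2 * info1 u v := by
  obtain ⟨c, D, rfl, rfl⟩ : ∃ c D : ℝ, u = c - D ∧ v = c + D :=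
    ⟨(u + v) / 2, (v - u) / 2, by ring, by ring⟩
  obtain ⟨kq, kp, -, -⟩ := adm hu hv
  have hw : 0 < 1 - c ^ 2 := by nlinarith
  have h1 := info1_ge hu hv
  have h2 := sq_div_tangent (D := D) hw τ
  have hq : 0 ≤ D ^ 2 / (1 - c ^ 2) := by positivity
  have h3 : 1 / 2 ≤ al |c| (D ^ 2 / (1 - c ^ 2)) := by
    unfold al
    have : 0 ≤ (1 + 4 * |c| * |c|) * (D ^ 2 / (1 - c ^ 2)) / 12 := by positivity
    have : 0 ≤ D ^ 2 / (1 - c ^ 2) * (D ^ 2 / (1 - c ^ 2)) / 30 := by positivity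
    linarith
  have h4 := mul_le_mul_of_nonneg_left h3 hq
  rw [show (c + D - (c - D)) / 2 = D by ring, show (c - D + (c + D)) / 2 = c by ring]
  linarith

/-- The edge term: (T1)-(T4) combined. -/
theorem edge_avg {n : ℕ} (g0 g1 : Cube n → ℝ) (h0 : ∀ x, |g0 x| < 1) (h1 : ∀ x, |g1 x| < 1)
    {m δ q y : ℝ} (hm0 : cubeAverage g0 = m - δ) (hm1 : cubeAverage g1 = m + δ)
    (hq : q = δ ^ 2 / (1 - m ^ 2)) (hq1 : q ≤ 1) (hy : y = (information g0 + information g1) / 2) :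
    ∃ G : ℝ, 0 ≤ G ∧ 2 * q * y ≤ G ^ 2 + ((3 + |m|) / 2 - 2 * y + q) * G ∧
      4 * info1 (m - δ) (m + δ) - q + q ^ 3 / 15 + G
        ≤ cubeAverage (fun x => edge artanh (g0 x) (g1 x)) := by
  set u : Cube n → ℝ := fun x => (g0 x + g1 x) / 2 with hu
  set D : Cube n → ℝ := fun x => (g1 x - g0 x) / 2 with hD
  have e0 : ∀ x, g0 x = u x - D x := fun x => by simp only [hu, hD]; ring
  have e1 : ∀ x, g1 x = u x + D x := fun x => by simp only [hu, hD]; ring
  have a0 : ∀ x, |u x - D x| < 1 := fun x => e0 x ▸ h0 x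
  have a1 : ∀ x, |u x + D x| < 1 := fun x => e1 x ▸ h1 x
  have au : ∀ x, |u x| < 1 := fun x => by
    obtain ⟨k1, k2, -, -⟩ := adm (a0 x) (a1 x)
    exact abs_lt.2 ⟨by linarith, by linarith⟩
  have hum : cubeAverage u = m := by
    have : u = fun x => 1 / 2 * (g0 x + g1 x) := by funext x; simp only [hu]; ring
    rw [this, avg_mul_left, avg_add, hm0, hm1]; ring
  have hDδ : cubeAverage D = δ := by
    have : D = fun x => 1 / 2 * (g1 x - g0 x) := by funext x; simp only [hD]; ring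
    rw [this, avg_mul_left, avg_sub, hm0, hm1]; ring
  have b0 : |m - δ| < 1 := hm0 ▸ abs_avg_lt_one h0
  have b1 : |m + δ| < 1 := hm1 ▸ abs_avg_lt_one h1
  have bm : |m| < 1 := hum ▸ abs_avg_lt_one au
  have hw := one_sub_sq_pos bm
  have hq0 : 0 ≤ q := by rw [hq]; positivity
  set a := info1 (m - δ) (m + δ) with ha
  set Ic := cubeAverage (fun x => info1 (u x - D x) (u x + D x)) with hIc
  set Q := cubeAverage (fun x => D x ^ 2 / (1 - u x ^ 2)) with hQ
  set W := cubeAverage (fun x => 1 - u x ^ 2) with hW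
  have hW0 : 0 < W := avg_pos fun x => one_sub_sq_pos (au x)
  have hWe : W = 1 - cubeAverage (fun x => u x ^ 2) := by rw [hW, avg_sub, avg_const]
  have hWw : W ≤ 1 - m ^ 2 := by
    have := avg_sq_le u
    rw [hum] at this
    linarith
  -- (T1)
  have t1 : 4 * Ic - (1 - q ^ 2 / 5) * Q - 2 * q ^ 3 / 15
      ≤ cubeAverage (fun x => edge artanh (g0 x) (g1 x)) := by
    have := avg_mono fun x => edge_ge (a0 x) (a1 x) hq0
    rw [avg_sub, avg_sub, avg_mul_left, avg_mul_left, avg_const] at this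
    refine this.trans (le_of_eq ?_)
    simp only [← e0, ← e1]
  -- (T2)
  have t2 : a - q / 2 ≤ Ic - Q / 2 := by
    obtain ⟨B, C, hBC⟩ := info1_tangent b0 b1
    have := avg_mono fun x => hBC (u x) (D x) (a0 x) (a1 x)
    simp only [div_eq_inv_mul _ (2 : ℝ)] at this
    rw [avg_add, avg_add, avg_const, avg_mul_left, avg_mul_left, avg_sub, avg_sub, avg_sub,
      avg_const, avg_const, avg_mul_left, hum, hDδ, ← hq] at this
    linarith
  -- (T3)
  have t3 : δ ^ 2 ≤ Q * W := by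
    have := avg_mono fun x => sq_div_tangent (D := D x) (one_sub_sq_pos (au x)) (δ / W)
    rw [avg_sub, avg_mul_left, avg_mul_left, hDδ, ← hW, ← hQ] at this
    rw [← div_le_iff₀ hW0]
    refine le_trans (le_of_eq ?_) this
    field_simp
    ring
  -- (T4)
  have t4 : y - (3 + |m|) / 4 * (1 - W / (1 - m ^ 2)) ≤ Ic - a := by
    have h := avg_ent_ge_bregman u (fun x => (au x).le) (by rwa [hum])
    have e : Ic = cubeAverage (fun x => signEntropy (u x))
        - 1 / 2 * (cubeAverage (fun x => signEntropy (g0 x))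
          + cubeAverage (fun x => signEntropy (g1 x))) := by
      rw [← avg_add, ← avg_mul_left, ← avg_sub, hIc]
      congr 1
      funext x
      rw [info1, ← e0, ← e1]
      simp only [hu]
      ring
    have e' : 1 - W / (1 - m ^ 2) = (cubeAverage (fun x => u x ^ 2) - m ^ 2) / (1 - m ^ 2) := by
      rw [hWe]; field_simp; ring
    rw [hum] at h
    rw [e, e', hy, ha, info1, information, information, hm0, hm1,
      show (m - δ + (m + δ)) / 2 = m by ring]
    linarith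
  set s := 1 - W / (1 - m ^ 2) with hs
  have hs0 : 0 ≤ s := by rw [hs, sub_nonneg, div_le_one hw]; exact hWw
  have hs1 : 0 < 1 - s := by rw [hs, sub_sub_cancel]; positivity
  have t3' : q ≤ Q * (1 - s) := by
    rw [hs, sub_sub_cancel, hq, ← mul_div_assoc]
    exact div_le_div_of_nonneg_right t3 hw.le
  have hQ0 : 0 ≤ Q := avg_nonneg fun x => div_nonneg (sq_nonneg _) (one_sub_sq_pos (au x)).le
  have hqQ : q ≤ Q := by nlinarith [mul_nonneg hQ0 hs0]
  refine ⟨2 * (Ic - a), by linarith, ?_, ?_⟩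
  · set G := 2 * (Ic - a) with hG
    have g1 : Q - q ≤ G := by linarith
    have g2 : s * (q + G) ≤ G := by
      have := mul_le_mul_of_nonneg_right g1 hs1.le
      nlinarith
    have g3 : 2 * y - G ≤ (3 + |m|) / 2 * s := by linarith
    have g4 := mul_le_mul_of_nonneg_right g3 (show 0 ≤ q + G by linarith)
    have g5 := mul_le_mul_of_nonneg_left g2 (show 0 ≤ (3 + |m|) / 2 by positivity)
    nlinarith
  · have g1 : Q ≤ q + 2 * (Ic - a) := by linarith
    have g2 := mul_le_mul_of_nonneg_left g1 (show 0 ≤ 1 - q ^ 2 / 5 by nlinarith)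
    have g3 := mul_nonneg (sq_nonneg q) (show 0 ≤ Ic - a by linarith)
    nlinarith

end Crest.Agent.R307.RT
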